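import Vale.Agent.P209.Defs
import Vale.Agent.P209.MathlibUsed

set_option linter.all false

section

section

section

section
open Complex
open scoped ContDiff

namespace Vale.Agent.P209

/-- two-dimensional form -/
def om1 (v w : ℂ) : ℝ := v.re * w.im - v.im * w.re

/-- area preserving smooth injective map of the plane -/
structure Sympl1 (f : ℂ → ℂ) : Prop where
  smooth : ContDiff ℝ ∞ f
  inj : Function.Injective f
  sympl : ∀ z v w, om1 (fderiv ℝ f z v) (fderiv ℝ f z w) = om1 v w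

theorem Sympl1.id : Sympl1 (fun z => z) where
  smooth := contDiff_id
  inj := fun _ _ h => h
  sympl := by intro z v w; simp only [fderiv_fun_id, ContinuousLinearMap.id_apply]

theorem Sympl1.comp {f g : ℂ → ℂ} (hf : Sympl1 f) (hg : Sympl1 g) : Sympl1 (fun z => f (g z)) where
  smooth := hf.smooth.comp hg.smooth
  inj := hf.inj.comp hg.inj
  sympl := by
    intro z v w
    have h1 : DifferentiableAt ℝ f (g z) := hf.smooth.contDiffAt.differentiableAt (by simp)
    have h2 : DifferentiableAt ℝ g z := hg.smooth.contDiffAt.differentiableAt (by simp)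
    have : fderiv ℝ (fun z => f (g z)) z = (fderiv ℝ f (g z)).comp (fderiv ℝ g z) :=
      fderiv_comp z h1 h2
    rw [this]
    simp only [ContinuousLinearMap.comp_apply]
    rw [hf.sympl, hg.sympl]

/-- translations are symplectic -/
theorem Sympl1.add_const (c : ℂ) : Sympl1 (fun z => z + c) where
  smooth := contDiff_id.add contDiff_const
  inj := fun _ _ h => add_right_cancel h
  sympl := by intro z v w; simp

/-- rotation angle as function of s = |z-c|^2/rho^2. -/
noncomputable def ang (s : ℝ) : ℝ := Real.pi * Real.smoothTransition (2 - 2 * s)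

theorem ang_contDiff : ContDiff ℝ ∞ ang := by
  unfold ang
  exact contDiff_const.mul (Real.smoothTransition.contDiff.comp (by fun_prop))

theorem ang_of_le {s : ℝ} (h : s ≤ 1 / 2) : ang s = Real.pi := by
  unfold ang
  rw [Real.smoothTransition.one_of_one_le (by linarith only [h])]
  ring

theorem ang_of_ge {s : ℝ} (h : 1 ≤ s) : ang s = 0 := by
  unfold ang
  rw [Real.smoothTransition.zero_of_nonpos (by linarith)]
  ring

/-- twist map around the origin -/
noncomputable def tw (ρ : ℝ) (z : ℂ) : ℂ := exp (((ang (normSq z / ρ ^ 2) : ℝ) : ℂ) * I) * z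

theorem tw_norm (ρ : ℝ) (z : ℂ) : ‖tw ρ z‖ = ‖z‖ := by
  unfold tw
  rw [norm_mul, Complex.norm_exp_ofReal_mul_I, one_mul]

theorem tw_inj (ρ : ℝ) : Function.Injective (tw ρ) := by
  intro z w h
  have hn : ‖z‖ = ‖w‖ := by rw [← tw_norm ρ z, ← tw_norm ρ w, h]
  have hs : normSq z = normSq w := by
    rw [Complex.normSq_eq_norm_sq, Complex.normSq_eq_norm_sq, hn]
  unfold tw at h
  rw [hs] at h
  exact mul_left_cancel₀ (Complex.exp_ne_zero _) h

theorem normSq_contDiff : ContDiff ℝ ∞ (fun z : ℂ => normSq z) := by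
  have : (fun z : ℂ => normSq z) = fun z : ℂ => z.re * z.re + z.im * z.im := by
    funext z; rw [Complex.normSq_apply]
  rw [this]
  have hre : ContDiff ℝ ∞ (fun z : ℂ => z.re) := Complex.reCLM.contDiff
  have him : ContDiff ℝ ∞ (fun z : ℂ => z.im) := Complex.imCLM.contDiff
  exact (hre.mul hre).add (him.mul him)

theorem tw_smooth (ρ : ℝ) : ContDiff ℝ ∞ (tw ρ) := by
  have h1 : ContDiff ℝ ∞ (fun z : ℂ => ang (normSq z / ρ ^ 2)) :=
    ang_contDiff.comp (normSq_contDiff.div_const _)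
  have h2 : ContDiff ℝ ∞ (fun z : ℂ => ((ang (normSq z / ρ ^ 2) : ℝ) : ℂ)) :=
    Complex.ofRealCLM.contDiff.comp h1
  have h3 : ContDiff ℝ ∞ (fun z : ℂ => exp (((ang (normSq z / ρ ^ 2) : ℝ) : ℂ) * I)) :=
    Complex.contDiff_exp.comp (h2.mul contDiff_const)
  exact h3.mul contDiff_id

theorem om1_rot (e v w : ℂ) : om1 (e * v) (e * w) = normSq e * om1 v w := by
  unfold om1
  simp only [Complex.mul_re, Complex.mul_im, Complex.normSq_apply]
  ring

theorem rot_fderiv {φ : ℂ → ℝ} {φ' : ℂ →L[ℝ] ℝ} {z : ℂ} (h : HasFDerivAt φ φ' z) (v : ℂ) :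
    fderiv ℝ (fun z => exp ((φ z : ℂ) * I) * z) z v =
      exp ((φ z : ℂ) * I) * (v + (φ' v : ℂ) * (I * z)) := by
  have h1 : HasFDerivAt (fun z => ((φ z : ℝ) : ℂ)) (Complex.ofRealCLM.comp φ') z :=
    Complex.ofRealCLM.hasFDerivAt.comp z h
  have h2 := (h1.mul_const I).cexp
  have h3 := h2.mul (hasFDerivAt_id (𝕜 := ℝ) z)
  have h4 : HasFDerivAt (fun z => exp ((φ z : ℂ) * I) * z) _ z := h3
  rw [h4.fderiv]
  simp only [id_eq, add_apply, smul_apply, ContinuousLinearMap.id_apply, smul_eq_mul, ContinuousLinearMap.comp_apply, ofRealCLM_apply]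
  ring

theorem rot_sympl {φ : ℂ → ℝ} {φ' : ℂ →L[ℝ] ℝ} {z : ℂ} (h : HasFDerivAt φ φ' z) (k : ℝ)
    (hk : ∀ v, φ' v = k * (z.re * v.re + z.im * v.im)) (v w : ℂ) :
    om1 (fderiv ℝ (fun z => exp ((φ z : ℂ) * I) * z) z v)
      (fderiv ℝ (fun z => exp ((φ z : ℂ) * I) * z) z w) = om1 v w := by
  rw [rot_fderiv h, rot_fderiv h, om1_rot, hk, hk, Complex.normSq_eq_norm_sq,
    Complex.norm_exp_ofReal_mul_I]
  unfold om1
  simp only [one_pow, ofReal_mul, ofReal_add, add_re, mul_re, ofReal_re, ofReal_im, mul_zero, sub_zero, add_im, mul_im, zero_mul, add_zero, I_re, I_im, one_mul, zero_sub, mul_neg, zero_add, neg_zero]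
  ring

theorem normSq_hasFDerivAt (z : ℂ) :
    HasFDerivAt (fun z : ℂ => normSq z)
      ((2 * z.re) • Complex.reCLM + (2 * z.im) • Complex.imCLM) z := by
  have : (fun z : ℂ => normSq z) = fun z : ℂ => z.re * z.re + z.im * z.im := by
    funext z; rw [Complex.normSq_apply]
  rw [this]
  have hre : HasFDerivAt (fun z : ℂ => z.re) Complex.reCLM z := Complex.reCLM.hasFDerivAt
  have him : HasFDerivAt (fun z : ℂ => z.im) Complex.imCLM z := Complex.imCLM.hasFDerivAt
  refine ((hre.mul hre).add (him.mul him)).congr_fderiv ?_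
  ext
  simp only [add_apply, smul_apply, reCLM_apply, smul_eq_mul, imCLM_apply]
  ring

theorem tw_sympl (ρ : ℝ) : Sympl1 (tw ρ) where
  smooth := tw_smooth ρ
  inj := tw_inj ρ
  sympl := by
    intro z v w
    have ha : HasDerivAt ang (deriv ang (normSq z / ρ ^ 2)) (normSq z / ρ ^ 2) :=
      (ang_contDiff.differentiable (by simp) _).hasDerivAt
    have h1 : HasFDerivAt (fun z : ℂ => normSq z / ρ ^ 2)
        ((ρ ^ 2)⁻¹ • ((2 * z.re) • Complex.reCLM + (2 * z.im) • Complex.imCLM)) z := by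
      have := (normSq_hasFDerivAt z).mul_const (ρ ^ 2)⁻¹
      simpa only [div_eq_mul_inv, smul_add] using this
    have h2 := ha.comp_hasFDerivAt z h1
    have h3 : HasFDerivAt (fun z : ℂ => ang (normSq z / ρ ^ 2)) _ z := h2
    refine rot_sympl h3 (deriv ang (normSq z / ρ ^ 2) * (ρ ^ 2)⁻¹ * 2) ?_ v w
    intro v
    simp only [smul_add, add_apply, smul_apply, reCLM_apply, smul_eq_mul, imCLM_apply]
    ring

/-- The twist map with centre `c`. -/
noncomputable def twc (c : ℂ) (ρ : ℝ) (z : ℂ) : ℂ := tw ρ (z + (-c)) + c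

theorem twc_sympl (c : ℂ) (ρ : ℝ) : Sympl1 (twc c ρ) :=
  (Sympl1.add_const c).comp ((tw_sympl ρ).comp (Sympl1.add_const (-c)))

theorem twc_dist (c : ℂ) (ρ : ℝ) (z : ℂ) : ‖twc c ρ z - c‖ = ‖z - c‖ := by
  unfold twc
  rw [add_sub_cancel_right, tw_norm, sub_eq_add_neg]

theorem twc_of_ge {c : ℂ} {ρ : ℝ} (hρ : 0 < ρ) {z : ℂ} (h : ρ ≤ ‖z - c‖) : twc c ρ z = z := by
  unfold twc tw
  rw [ang_of_ge]
  · simp
  · rw [← sub_eq_add_neg, Complex.normSq_eq_norm_sq, one_le_div (by positivity)]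
    gcongr

theorem twc_swap {c : ℂ} {ρ : ℝ} (hρ : 0 < ρ) {z : ℂ} (h : 2 * ‖z - c‖ ≤ ρ) :
    twc c ρ z = 2 * c - z := by
  unfold twc tw
  rw [ang_of_le]
  · rw [Complex.exp_pi_mul_I]
    ring
  · rw [← sub_eq_add_neg, Complex.normSq_eq_norm_sq, div_le_div_iff₀ (by positivity) (by norm_num)]
    have h0 : 0 ≤ ‖z - c‖ := norm_nonneg _
    linarith only [mul_nonneg (sub_nonneg.2 h0) (sub_nonneg.2 h0), mul_nonneg (sub_nonneg.2 h) (sub_nonneg.2 h0), mul_nonneg (sub_nonneg.2 h) (sub_nonneg.2 h)]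

/-- Pushing the origin outwards: after `j` steps. -/
theorem push (ρ : ℝ) (hρ : 0 < ρ) (j : ℕ) :
    ∃ τ : ℂ → ℂ, Sympl1 τ ∧ (∀ z, ‖τ z‖ ≤ ‖z‖ + 2 * ρ) ∧
      (∀ z, ‖τ z‖ ≤ max ‖z‖ ((j + 1 / 2) * ρ)) ∧ τ ((j * ρ : ℝ) : ℂ) = 0 := by
  induction j with
  | zero =>
    refine ⟨fun z => z, Sympl1.id, ?_, ?_, ?_⟩
    · intro z; linarith
    · intro z; exact le_max_left _ _
    · simp
  | succ j ih =>
    obtain ⟨τ, h1, h2, h3, h4⟩ := ih
    set c : ℂ := (((j + 1 / 2) * ρ : ℝ) : ℂ) with hc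
    have hcn : ‖c‖ = (j + 1 / 2) * ρ := by
      rw [hc, Complex.norm_real, Real.norm_of_nonneg (by positivity)]
    refine ⟨fun z => τ (twc c ρ z), h1.comp (twc_sympl c ρ), ?_, ?_, ?_⟩
    · intro z
      show ‖τ (twc c ρ z)‖ ≤ _
      by_cases hz : ρ ≤ ‖z - c‖
      · rw [twc_of_ge hρ hz]; exact h2 z
      · push Not at hz
        have h5 : ‖twc c ρ z‖ ≤ (j + 1 / 2) * ρ + ρ := by
          have : twc c ρ z = (twc c ρ z - c) + c := by ring
          rw [this]
          refine (norm_add_le _ _).trans ?_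
          rw [twc_dist, hcn]
          linarith only [hz]
        have h6 : (j + 1 / 2) * ρ - ρ ≤ ‖z‖ := by
          have : c = z - (z - c) := by ring
          have h7 : ‖c‖ ≤ ‖z‖ + ‖z - c‖ := by
            conv_lhs => rw [this]
            exact norm_sub_le _ _
          rw [hcn] at h7
          linarith only [h7, hz]
        have h8 := h3 (twc c ρ z)
        have h9 : max ‖twc c ρ z‖ ((j + 1 / 2) * ρ) ≤ (j + 1 / 2) * ρ + ρ :=
          max_le h5 (by linarith only [hρ])
        linarith only [h6, h8, h9]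
    · intro z
      have hcast : ((j + 1 : ℕ) : ℝ) = (j : ℝ) + 1 := by push_cast; ring
      rw [hcast]
      show ‖τ (twc c ρ z)‖ ≤ _
      by_cases hz : ρ ≤ ‖z - c‖
      · rw [twc_of_ge hρ hz]
        refine (h3 z).trans (max_le_max le_rfl ?_)
        linarith only [hρ]
      · push Not at hz
        have h5 : ‖twc c ρ z‖ ≤ (j + 1 / 2) * ρ + ρ := by
          have : twc c ρ z = (twc c ρ z - c) + c := by ring
          rw [this]
          refine (norm_add_le _ _).trans ?_
          rw [twc_dist, hcn]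
          linarith only [hz]
        refine (h3 _).trans ?_
        refine le_trans ?_ (le_max_right _ _)
        refine max_le ?_ ?_
        · linarith only [h5]
        · linarith only [hρ]
    · show τ (twc c ρ _) = 0
      rw [twc_swap hρ]
      · rw [← h4]
        congr 1
        rw [hc]
        push_cast
        ring
      · have : ((((j + 1 : ℕ) : ℝ) * ρ : ℝ) : ℂ) - c = ((ρ / 2 : ℝ) : ℂ) := by
          rw [hc]
          push_cast
          ring
        rw [this, Complex.norm_real, Real.norm_of_nonneg (by positivity)]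
        linarith only []

/-- For every disc there is a symplectic map of the plane which moves the disc off the origin and
which increases absolute values only slightly. -/
theorem exists_off_origin (r ε : ℝ) (hε : 0 < ε) :
    ∃ τ : ℂ → ℂ, Sympl1 τ ∧ (∀ z, ‖τ z‖ ≤ ‖z‖ + ε) ∧ (∀ z, ‖z‖ ≤ r → τ z ≠ 0) := by
  obtain ⟨j, hj⟩ := exists_nat_gt (r / (ε / 2))
  obtain ⟨τ, h1, h2, -, h4⟩ := push (ε / 2) (by positivity) j
  refine ⟨τ, h1, fun z => by have := h2 z; linarith only [this], ?_⟩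
  intro z hz h0
  have h5 : z = ((j * (ε / 2) : ℝ) : ℂ) := h1.inj (by rw [h0, h4])
  have h6 : ‖z‖ = j * (ε / 2) := by
    rw [h5, Complex.norm_real, Real.norm_of_nonneg (by positivity)]
  have h7 : r < j * (ε / 2) := by
    rwa [div_lt_iff₀ (by positivity)] at hj
  linarith only [hz, h6, h7]

end Vale.Agent.P209
end
end
end
end

section

section

section

section

namespace Vale.Agent.P209

/-- The open simplex of size `a` in order coordinates. -/
def tri (n : ℕ) (a : ℝ) : Set (Fin n → ℝ) :=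
  {y | (∀ i, 0 < y i) ∧ StrictMono y ∧ ∀ i, y i < a}

/-- Permuted translated simplex. -/
def cell {n : ℕ} (σ : Equiv.Perm (Fin n)) (b : Fin n → ℝ) (a : ℝ) : Set (Fin n → ℝ) :=
  {y | (fun i => y (σ i) - b i) ∈ tri n a}

/-- Packings of the simplex of size `R` by permuted translated simplices of sizes `a i`. -/
def TPack (n : ℕ) {ι : Type*} (a : ι → ℝ) (R : ℝ) : Prop :=
  ∃ (σ : ι → Equiv.Perm (Fin n)) (b : ι → Fin n → ℝ),
    (∀ i, cell (σ i) (b i) (a i) ⊆ tri n R) ∧
    Pairwise (fun i j => Disjoint (cell (σ i) (b i) (a i)) (cell (σ j) (b j) (a j)))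

lemma tri_mono {n : ℕ} {a a' : ℝ} (h : a ≤ a') : tri n a ⊆ tri n a' :=
  fun _ hy => ⟨hy.1, hy.2.1, fun i => (hy.2.2 i).trans_le h⟩

lemma cell_mono {n : ℕ} (σ : Equiv.Perm (Fin n)) (b : Fin n → ℝ) {a a' : ℝ} (h : a ≤ a') :
    cell σ b a ⊆ cell σ b a' :=
  fun _ hy => tri_mono h hy

lemma TPack.comp {n : ℕ} {ι κ : Type*} {a : ι → ℝ} {R : ℝ} (h : TPack n a R)
    {f : κ → ι} (hf : Function.Injective f) : TPack n (fun k => a (f k)) R := by
  obtain ⟨σ, b, h1, h2⟩ := h
  refine ⟨fun k => σ (f k), fun k => b (f k), fun k => h1 _, ?_⟩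
  intro i j hij
  exact h2 (hf.ne hij)

lemma tri_scale {n : ℕ} {a c : ℝ} (hc : 0 < c) (y : Fin n → ℝ) :
    (fun i => c * y i) ∈ tri n (c * a) ↔ y ∈ tri n a := by
  unfold tri
  simp only [Set.mem_ofPred_eq]
  refine and_congr ?_ (and_congr ?_ ?_)
  · exact forall_congr' fun i => by simp [hc]
  · constructor
    · intro h i j hij
      exact lt_of_mul_lt_mul_left (h hij) hc.le
    · intro h i j hij
      exact mul_lt_mul_of_pos_left (h hij) hc
  · exact forall_congr' fun i => by simp only [hc, mul_lt_mul_iff_right₀]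

end Vale.Agent.P209
end
end
end
end

section

section

section

section

namespace Vale.Agent.P209

/-- rank permutation: sorts `w` (ties broken by index). -/
noncomputable def rk {n m : ℕ} (w : Fin n → Fin m) : Equiv.Perm (Fin n) := (Tuple.sort w)⁻¹

lemma rk_sort {n m : ℕ} (w : Fin n → Fin m) (j : Fin n) : rk w (Tuple.sort w j) = j := by
  simp [rk]

lemma sort_rk {n m : ℕ} (w : Fin n → Fin m) (j : Fin n) : Tuple.sort w (rk w j) = j := by
  simp [rk]

/-- translation vector of the word cell. -/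
noncomputable def wb {n m : ℕ} (w : Fin (n + 1) → Fin m) (s D : ℝ) : Fin (n + 1) → ℝ :=
  fun i => s * ((w i : ℕ) : ℝ) + if rk w i = Fin.last n then D else 0

lemma word_y {n m : ℕ} (w : Fin (n + 1) → Fin m) (s D : ℝ) (y : Fin (n + 1) → ℝ)
    (j : Fin (n + 1)) :
    y j = (y (rk w (Tuple.sort w j)) - wb w s D (Tuple.sort w j)) +
      s * ((w (Tuple.sort w j) : ℕ) : ℝ) + if j = Fin.last n then D else 0 := by
  unfold wb
  rw [rk_sort]; ring

lemma word_cell_sub {n m : ℕ} (w : Fin (n + 1) → Fin m) {s D R : ℝ} (hs : 0 < s) (hD : 0 ≤ D)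
    (hR : m * s + D ≤ R) : cell (rk w) (wb w s D) s ⊆ tri (n + 1) R := by
  intro y hy
  obtain ⟨h0, h1, h2⟩ := hy
  set τ := Tuple.sort w with hτ
  set u : Fin (n + 1) → ℝ := fun i => y (rk w i) - wb w s D i with hu
  have hyj : ∀ j, y j = u (τ j) + s * ((w (τ j) : ℕ) : ℝ) + if j = Fin.last n then D else 0 :=
    fun j => word_y w s D y j
  have hsort := Tuple.eq_sort_iff.1 hτ
  have hw : ∀ i, ((w i : ℕ) : ℝ) + 1 ≤ m := by
    intro i
    have := (w i).2
    exact_mod_cast this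
  refine ⟨?_, ?_, ?_⟩
  · intro j
    rw [hyj]
    have a1 : 0 < u (τ j) := h0 _
    have a2 : 0 ≤ s * ((w (τ j) : ℕ) : ℝ) := by (clear * - hs; positivity)
    split_ifs <;> linarith only [a1, a2, hD]
  · intro j j' hjj
    rw [hyj, hyj]
    have hjl : j ≠ Fin.last n := (lt_of_lt_of_le hjj (Fin.le_last _)).ne
    rw [if_neg hjl]
    have key : u (τ j) + s * ((w (τ j) : ℕ) : ℝ) < u (τ j') + s * ((w (τ j') : ℕ) : ℝ) := by
      rcases (hsort.1 hjj.le).eq_or_lt with h | h
      · have h' : w (τ j) = w (τ j') := h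
        have := hsort.2 j j' hjj h'
        have := h1 this
        rw [h']
        linarith only [this]
      · have h' : (w (τ j) : ℕ) < (w (τ j') : ℕ) := h
        have h'' : ((w (τ j) : ℕ) : ℝ) + 1 ≤ ((w (τ j') : ℕ) : ℝ) := by exact_mod_cast h'
        have a1 : u (τ j) < s := h2 _
        have a2 : 0 < u (τ j') := h0 _
        linarith only [mul_nonneg (le_of_lt (sub_pos.2 hs)) (sub_nonneg.2 h''), a2, a1]
    split_ifs <;> linarith only [hD, key]
  · intro j
    rw [hyj]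
    have a1 : u (τ j) < s := h2 _
    have a2 := hw (τ j)
    have a3 : s * (((w (τ j) : ℕ) : ℝ) + 1) ≤ s * m := mul_le_mul_of_nonneg_left a2 hs.le
    split_ifs <;> linarith

lemma word_cell_disj {n m : ℕ} {w w' : Fin (n + 1) → Fin m} (hne : w ≠ w') {s D : ℝ}
    (hs : 0 < s) : Disjoint (cell (rk w) (wb w s D) s) (cell (rk w') (wb w' s D) s) := by
  rw [Set.disjoint_left]
  intro y hy hy'
  obtain ⟨h0, h1, h2⟩ := hy
  obtain ⟨h0', h1', h2'⟩ := hy'
  set τ := Tuple.sort w with hτ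
  set τ' := Tuple.sort w' with hτ'
  set u : Fin (n + 1) → ℝ := fun i => y (rk w i) - wb w s D i with hu
  set u' : Fin (n + 1) → ℝ := fun i => y (rk w' i) - wb w' s D i with hu'
  have hyj : ∀ j, y j = u (τ j) + s * ((w (τ j) : ℕ) : ℝ) + if j = Fin.last n then D else 0 :=
    fun j => word_y w s D y j
  have hyj' : ∀ j, y j = u' (τ' j) + s * ((w' (τ' j) : ℕ) : ℝ) + if j = Fin.last n then D else 0 :=
    fun j => word_y w' s D y j
  have e : ∀ j, u (τ j) + s * ((w (τ j) : ℕ) : ℝ) = u' (τ' j) + s * ((w' (τ' j) : ℕ) : ℝ) := by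
    intro j
    have := (hyj j).symm.trans (hyj' j)
    linarith only [this]
  have e1 : ∀ j, (w (τ j) : ℕ) = (w' (τ' j) : ℕ) := by
    intro j
    have a0 : 0 < u (τ j) := h0 _
    have a1 : u (τ j) < s := h2 _
    have b0 : 0 < u' (τ' j) := h0' _
    have b1 : u' (τ' j) < s := h2' _
    rcases lt_trichotomy (w (τ j) : ℕ) (w' (τ' j) : ℕ) with h | h | h
    · exfalso
      have h'' : ((w (τ j) : ℕ) : ℝ) + 1 ≤ ((w' (τ' j) : ℕ) : ℝ) := by exact_mod_cast h
      have := e j
      linarith [mul_nonneg (le_of_lt (sub_pos.2 hs)) (sub_nonneg.2 h''), mul_eq_zero_of_left (sub_eq_zero.2 this) (↑↑(w' (τ' j)) - (↑↑(w (τ j)) + 1)), b0, a1]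
    · exact h
    · exfalso
      have h'' : ((w' (τ' j) : ℕ) : ℝ) + 1 ≤ ((w (τ j) : ℕ) : ℝ) := by exact_mod_cast h
      have := e j
      linarith [mul_nonneg (le_of_lt (sub_pos.2 hs)) (sub_nonneg.2 h''), mul_eq_zero_of_left (sub_eq_zero.2 this) (↑↑(w (τ j)) - (↑↑(w' (τ' j)) + 1)), b1, a0]
  have e2 : ∀ j, u (τ j) = u' (τ' j) := by
    intro j
    have := e j
    rw [e1 j] at this
    linarith
  -- the permutation τ' * τ⁻¹ is strictly monotone
  have e3 : StrictMono (τ' * τ⁻¹ : Equiv.Perm (Fin (n + 1))) := by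
    intro i i' hii
    have := h1 hii
    have q : ∀ i, u i = u' ((τ' * τ⁻¹ : Equiv.Perm (Fin (n + 1))) i) := by
      intro i
      have := e2 (τ⁻¹ i)
      simpa only [Equiv.Perm.coe_mul, Equiv.Perm.coe_inv, Function.comp_apply, Equiv.apply_symm_apply] using this
    have : u i < u i' := h1 hii
    rw [q, q] at this
    exact (StrictMono.lt_iff_lt h1').1 this
  have e4 : τ' * τ⁻¹ = 1 := (Equiv.Perm.monotone_iff _).1 e3.monotone
  have e5 : τ' = τ := by
    rwa [mul_inv_eq_one] at e4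
  apply hne
  funext i
  have := e1 (τ⁻¹ i)
  rw [e5] at this
  apply Fin.ext
  simpa using this

lemma big_disj {n m : ℕ} (w : Fin (n + 1) → Fin m) {j : ℕ} (hw : ∃ i, j ≤ (w i : ℕ)) {s R : ℝ}
    (hs : 0 < s) :
    Disjoint (tri (n + 1) (R - (m - j) * s)) (cell (rk w) (wb w s (R - m * s)) s) := by
  rw [Set.disjoint_left]
  intro y hy hy'
  obtain ⟨h0, h1, h2⟩ := hy'
  have h3 := hy.2.2 (Fin.last n)
  have h4 := word_y w s (R - m * s) y (Fin.last n)
  rw [if_pos rfl] at h4
  have h5 : 0 < y (rk w (Tuple.sort w (Fin.last n))) -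
      wb w s (R - m * s) (Tuple.sort w (Fin.last n)) := h0 _
  obtain ⟨i, hi⟩ := hw
  have h6 : j ≤ (w (Tuple.sort w (Fin.last n)) : ℕ) := by
    have hm := Tuple.monotone_sort w (Fin.le_last (rk w i))
    simp only [Function.comp_apply, sort_rk] at hm
    exact hi.trans hm
  have h7 : (j : ℝ) ≤ ((w (Tuple.sort w (Fin.last n)) : ℕ) : ℝ) := by exact_mod_cast h6
  nlinarith only [h3, h4, h5, hs, h7]

/-- Packing of a simplex of size `R` by one simplex of size `R - (m - j) s` and the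
`m ^ n - j ^ n` simplices of size `s` indexed by words. -/
lemma TPack.words {n : ℕ} (m j : ℕ) (hj : j ≤ m) {s R : ℝ} (hs : 0 < s) (hR : m * s ≤ R) :
    TPack (n + 1) (fun o : Option {w : Fin (n + 1) → Fin m // ∃ i, j ≤ (w i : ℕ)} =>
      o.elim (R - (m - j) * s) (fun _ => s)) R := by
  refine ⟨fun o => o.elim 1 (fun w => rk w.1),
    fun o => o.elim 0 (fun w => wb w.1 s (R - m * s)), ?_, ?_⟩
  · rintro (_ | w)
    · intro y hy
      have hy' : y ∈ tri (n + 1) (R - (m - j) * s) := by simpa only [cell, Option.elim_none, Equiv.Perm.coe_one, id_eq, Pi.zero_apply, sub_zero,     Set.mem_ofPred_eq] using hy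
      refine tri_mono ?_ hy'
      have : (j : ℝ) ≤ m := by exact_mod_cast hj
      linarith only [mul_nonneg (le_of_lt (sub_pos.2 hs)) (sub_nonneg.2 this)]
    · exact word_cell_sub w.1 hs (by linarith) (by linarith)
  · have e : ∀ a : ℝ, cell (1 : Equiv.Perm (Fin (n + 1))) (0 : Fin (n + 1) → ℝ) a = tri (n + 1) a := by
      intro a
      ext y
      simp [cell]
    rintro (_ | w) (_ | w') hne
    · exact absurd rfl hne
    · simp only [Option.elim_none, Option.elim_some, e]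
      exact big_disj w'.1 w'.2 hs
    · simp only [Option.elim_none, Option.elim_some, e]
      exact (big_disj w.1 w.2 hs).symm
    · simp only [Option.elim_some]
      apply word_cell_disj _ hs
      intro h
      apply hne
      rw [Subtype.ext h]

/-- The `m ^ n` equal simplices. -/
lemma TPack.words_all {n : ℕ} (m : ℕ) {s R : ℝ} (hs : 0 < s) (hR : m * s ≤ R) :
    TPack (n + 1) (fun _ : Fin (n + 1) → Fin m => s) R := by
  have h := TPack.words (n := n) m 0 (Nat.zero_le _) hs hR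
  have := h.comp (f := fun w : Fin (n + 1) → Fin m =>
    (some ⟨w, 0, Nat.zero_le _⟩ : Option {w : Fin (n + 1) → Fin m // ∃ i, 0 ≤ (w i : ℕ)}))
    (by intro a b hab; simpa using hab)
  simpa using this

lemma card_words (n m j : ℕ) (hj : j ≤ m) :
    Fintype.card {w : Fin n → Fin m // ∃ i, j ≤ (w i : ℕ)} = m ^ n - j ^ n := by
  classical
  have h1 : Fintype.card {w : Fin n → Fin m // ¬ ∃ i, j ≤ (w i : ℕ)} = j ^ n := by
    have : Fintype.card (Fin n → Fin j) = j ^ n := by simp only [Fintype.card_pi, Fintype.card_fin, Finset.prod_const, Finset.card_univ]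
    rw [← this]
    apply Fintype.card_congr
    refine ⟨fun w i => ⟨(w.1 i : ℕ), ?_⟩, fun w => ⟨fun i => Fin.castLE hj (w i), ?_⟩, ?_, ?_⟩
    · have := w.2
      push_neg at this
      exact this i
    · push_neg
      intro i
      exact (w i).2
    · intro w
      apply Subtype.ext
      funext i
      rfl
    · intro w
      funext i
      rfl
  have h2 := Fintype.card_subtype_compl (fun w : Fin n → Fin m => ∃ i, j ≤ (w i : ℕ))
  rw [h1] at h2
  have h3 : Fintype.card (Fin n → Fin m) = m ^ n := by simp only [Fintype.card_pi, Fintype.card_fin, Finset.prod_const, Finset.card_univ]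
  rw [h3] at h2
  have h4 : Fintype.card {w : Fin n → Fin m // ∃ i, j ≤ (w i : ℕ)} ≤ m ^ n := by
    rw [← h3]; exact Fintype.card_subtype_le _
  omega

end Vale.Agent.P209
end
end
end
end

section

section

section

section

namespace Vale.Agent.P209

/-- rank permutation: sorts `w` (ties broken by index). -/
noncomputable def rnk {n m : ℕ} (w : Fin n → Fin m) : Equiv.Perm (Fin n) := (Tuple.sort w)⁻¹

lemma rnk_sort {n m : ℕ} (w : Fin n → Fin m) (j : Fin n) : rnk w (Tuple.sort w j) = j := by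
  simp [rnk]

/-- the cell of the word `w` for the intervals `(ℓ c, ℓ c + s)`. -/
noncomputable def wcell {n m : ℕ} (w : Fin n → Fin m) (ℓ : Fin m → ℝ) (s : ℝ) :
    Set (Fin n → ℝ) := cell (rnk w) (fun i => ℓ (w i)) s

lemma wcell_mem {n m : ℕ} {w : Fin n → Fin m} {ℓ : Fin m → ℝ} {s : ℝ} {y : Fin n → ℝ}
    (hy : y ∈ wcell w ℓ s) (i : Fin n) :
    ℓ (w i) < y (rnk w i) ∧ y (rnk w i) < ℓ (w i) + s := by
  have h0 := hy.1 i
  have h1 := hy.2.2 i
  simp only at h0 h1
  constructor <;> linarith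

lemma wcell_mem' {n m : ℕ} {w : Fin n → Fin m} {ℓ : Fin m → ℝ} {s : ℝ} {y : Fin n → ℝ}
    (hy : y ∈ wcell w ℓ s) (j : Fin n) :
    ℓ (w (Tuple.sort w j)) < y j ∧ y j < ℓ (w (Tuple.sort w j)) + s := by
  have := wcell_mem hy (Tuple.sort w j)
  rwa [rnk_sort] at this

lemma wcell_strictMono {n m : ℕ} {w : Fin n → Fin m} {ℓ : Fin m → ℝ} {s : ℝ}
    (hℓ : ∀ c c', c < c' → ℓ c + s ≤ ℓ c') {y : Fin n → ℝ}
    (hy : y ∈ wcell w ℓ s) : StrictMono y := by
  have hsort := Tuple.eq_sort_iff.1 (rfl : Tuple.sort w = Tuple.sort w)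
  intro j j' hjj
  have a := wcell_mem' hy j
  have a' := wcell_mem' hy j'
  rcases (hsort.1 hjj.le).eq_or_lt with h | h
  · have h' : w (Tuple.sort w j) = w (Tuple.sort w j') := h
    have h2 := hsort.2 j j' hjj h'
    have h3 := hy.2.1 h2
    simp only [rnk_sort] at h3
    rw [h'] at h3
    linarith only [h3]
  · have := hℓ _ _ h
    simp only [Function.comp_apply] at this
    linarith

/-- Packings inside an arbitrary region. -/
def TPackIn (n : ℕ) {ι : Type*} (a : ι → ℝ) (Ω : Set (Fin n → ℝ)) : Prop :=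
  ∃ (σ : ι → Equiv.Perm (Fin n)) (b : ι → Fin n → ℝ),
    (∀ i, cell (σ i) (b i) (a i) ⊆ Ω) ∧
    Pairwise (fun i j => Disjoint (cell (σ i) (b i) (a i)) (cell (σ j) (b j) (a j)))

end Vale.Agent.P209
end
end
end
end

section

section

section

section

namespace Vale.Agent.P209

end Vale.Agent.P209
end
end
end
end

section

section

section

section

namespace Vale.Agent.P209

end Vale.Agent.P209
end
end
end
end

section

section

section

section

namespace Vale.Agent.P209

end Vale.Agent.P209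
end
end
end
end

section

section

section

section

namespace Vale.Agent.P209

end Vale.Agent.P209
end
end
end
end

section

section

section

section

namespace Vale.Agent.P209

end Vale.Agent.P209
end
end
end
end

section

section

section

section

namespace Vale.Agent.P209

end Vale.Agent.P209
end
end
end
end

section

section

section

section

namespace Vale.Agent.P209

end Vale.Agent.P209
end
end
end
end

section

section

section

section

namespace Vale.Agent.P209

end Vale.Agent.P209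
end
end
end
end

section

section

section

section

namespace Vale.Agent.P209

universe u

end Vale.Agent.P209
end
end
end
end

section

section

section

section

namespace Vale.Agent.P209.Strong

/-! C2. Combinatorial lemmas on classes, and sorted enumerations. -/

/-- sorted enumeration of a finset -/
theorem exists_enum {ι : Type} (S : Finset ι) (key : ι → ℤ) :
    ∃ e : Fin S.card ≃ S, ∀ i j, i ≤ j → key (e i) ≤ key (e j) := by
  refine ⟨(Tuple.sort fun i => key (S.equivFin.symm i)).trans S.equivFin.symm, ?_⟩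
  intro i j hij
  exact Tuple.monotone_sort (fun i => key (S.equivFin.symm i)) hij

/-- Suffix counting: `e` enumerates the balls so that classes are monotone; in each class the
number of active balls is at most `ρ` times the number of big balls, and at most `X`. -/
theorem class_suffix {N NJ : ℕ} (cls : ℕ → ℤ) (hcls : ∀ i j, i ≤ j → j < N → cls i ≤ cls j)
    (a b : ℕ → Prop) [DecidablePred a] [DecidablePred b] {ρ X : ℝ} (hρ : 0 ≤ ρ) (hX : 0 ≤ X)
    (h1 : ∀ κ : ℤ, (∃ i, NJ ≤ i ∧ i < N ∧ cls i = κ) →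
      (((Finset.range N).filter (fun i => cls i = κ ∧ a i)).card : ℝ) ≤
        ρ * (((Finset.range N).filter (fun i => cls i = κ ∧ b i)).card : ℝ))
    (h2 : ∀ κ : ℤ, (∃ i, NJ ≤ i ∧ i < N ∧ cls i = κ) →
      (((Finset.range N).filter (fun i => cls i = κ ∧ a i)).card : ℝ) ≤ X)
    (h3 : ∀ i, i < NJ → ∀ j, NJ ≤ j → j < N → cls i < cls j) (s : ℕ) (hs : NJ ≤ s) :
    (((Finset.range N).filter (fun i => s ≤ i ∧ a i)).card : ℝ) ≤
      ρ * (((Finset.range N).filter (fun i => s ≤ i ∧ b i)).card : ℝ) + X := by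
  classical
  by_cases hsN : s < N
  · set K : Finset ℤ := ((Finset.range N).filter (fun i => s ≤ i)).image cls with hK
    have hmem : ∀ κ ∈ K, ∃ i, s ≤ i ∧ i < N ∧ cls i = κ := by
      intro κ hκ
      obtain ⟨i, hi, rfl⟩ := Finset.mem_image.1 hκ
      rw [Finset.mem_filter, Finset.mem_range] at hi
      exact ⟨i, hi.2, hi.1, rfl⟩
    have h0K : cls s ∈ K := Finset.mem_image.2
      ⟨s, Finset.mem_filter.2 ⟨Finset.mem_range.2 hsN, le_rfl⟩, rfl⟩
    have decomp : ∀ (p : ℕ → Prop) [DecidablePred p],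
        ((Finset.range N).filter (fun i => s ≤ i ∧ p i)).card =
        ∑ κ ∈ K, ((Finset.range N).filter (fun i => (s ≤ i ∧ p i) ∧ cls i = κ)).card := by
      intro p _
      rw [Finset.card_eq_sum_card_fiberwise (f := cls) (t := K)]
      · refine Finset.sum_congr rfl fun κ _ => ?_
        rw [Finset.filter_filter]
      · intro i hi
        have hi' := Finset.mem_filter.1 hi
        exact Finset.mem_image.2 ⟨i, Finset.mem_filter.2 ⟨hi'.1, hi'.2.1⟩, rfl⟩
    rw [decomp a, decomp b, ← Finset.sum_erase_add _ _ h0K, ← Finset.sum_erase_add _ _ h0K]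
    push_cast
    have e0 : (((Finset.range N).filter (fun i => (s ≤ i ∧ a i) ∧ cls i = cls s)).card : ℝ) ≤ X := by
      refine le_trans ?_ (h2 (cls s) ⟨s, hs, hsN, rfl⟩)
      refine Nat.cast_le.2 (Finset.card_le_card ?_)
      intro i hi
      rw [Finset.mem_filter] at hi ⊢
      exact ⟨hi.1, hi.2.2, hi.2.1.2⟩
    have e1 : ∀ κ ∈ K.erase (cls s),
        (((Finset.range N).filter (fun i => (s ≤ i ∧ a i) ∧ cls i = κ)).card : ℝ) ≤
        ρ * (((Finset.range N).filter (fun i => (s ≤ i ∧ b i) ∧ cls i = κ)).card : ℝ) := by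
      intro κ hκ
      obtain ⟨hne, hκK⟩ := Finset.mem_erase.1 hκ
      obtain ⟨j, hsj, hjN, hj⟩ := hmem κ hκK
      have hlt : cls s < κ := lt_of_le_of_ne (hj ▸ hcls s j hsj hjN) (Ne.symm hne)
      have hge : ∀ i, i < N → cls i = κ → s ≤ i := by
        intro i _ hi
        by_contra hcon
        push Not at hcon
        have := hcls i s hcon.le hsN
        omega
      refine le_trans ?_ ((h1 κ ⟨j, hs.trans hsj, hjN, hj⟩).trans
        (mul_le_mul_of_nonneg_left ?_ hρ))
      · refine Nat.cast_le.2 (Finset.card_le_card ?_)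
        intro i hi
        rw [Finset.mem_filter] at hi ⊢
        exact ⟨hi.1, hi.2.2, hi.2.1.2⟩
      · refine Nat.cast_le.2 (Finset.card_le_card ?_)
        intro i hi
        rw [Finset.mem_filter] at hi ⊢
        exact ⟨hi.1, ⟨hge i (Finset.mem_range.1 hi.1) hi.2.1, hi.2.2⟩, hi.2.1⟩
    have e2 := Finset.sum_le_sum e1
    rw [← Finset.mul_sum] at e2
    have e3 : 0 ≤ ρ * (((Finset.range N).filter
      (fun i => (s ≤ i ∧ b i) ∧ cls i = cls s)).card : ℝ) := mul_nonneg hρ (Nat.cast_nonneg _)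
    rw [mul_add]
    linarith only [e0, e2, e3]
  · have : (Finset.range N).filter (fun i => s ≤ i ∧ a i) = ∅ := by
      rw [Finset.filter_eq_empty_iff]
      intro i hi
      rw [Finset.mem_range] at hi
      omega
    rw [this, Finset.card_empty, Nat.cast_zero]
    (clear * - hρ hX; positivity)

end Vale.Agent.P209.Strong
end
end
end
end

section

section

section

section

namespace Vale.Agent.P209.Strong

/-- The members of `T` strictly between two members of `T`. -/
lemma c2b_card (T : Finset ℕ) :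
    T.card ≤ (T.filter (fun κ => (∃ a ∈ T, a < κ) ∧ (∃ b ∈ T, κ < b))).card + 2 := by
  classical
  rcases T.eq_empty_or_nonempty with h | h
  · subst h; simp
  have hsub : T ⊆ (T.filter (fun κ => (∃ a ∈ T, a < κ) ∧ (∃ b ∈ T, κ < b))) ∪
      {T.min' h, T.max' h} := by
    intro κ hκ
    rw [Finset.mem_union, Finset.mem_filter]
    by_cases h1 : κ = T.min' h
    · right; simp [h1]
    by_cases h2 : κ = T.max' h
    · right; simp [h2]
    left
    refine ⟨hκ, ⟨T.min' h, T.min'_mem h, ?_⟩, ⟨T.max' h, T.max'_mem h, ?_⟩⟩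
    · exact lt_of_le_of_ne (T.min'_le κ hκ) (Ne.symm h1)
    · exact lt_of_le_of_ne (T.le_max' κ hκ) h2
  calc T.card ≤ _ := Finset.card_le_card hsub
    _ ≤ _ := Finset.card_union_le _ _
    _ ≤ _ := Nat.add_le_add_left Finset.card_le_two _

/-- A class strictly between two classes which meet an interval is contained in it. -/
lemma c2b_mem {ι : Type} [DecidableEq ι] (S : Finset ι) (k : ι → ℕ) (p : ι → ℝ)
    (I : Set ℝ) [DecidablePred (· ∈ I)] (hI : I.OrdConnected)
    (hp : ∀ i ∈ S, ∀ j ∈ S, k i < k j → p i ≤ p j) (κ : ℕ)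
    (hκ : κ ∈ ((S.filter (fun i => p i ∈ I)).image k).filter
      (fun κ => (∃ a ∈ (S.filter (fun i => p i ∈ I)).image k, a < κ) ∧
        (∃ b ∈ (S.filter (fun i => p i ∈ I)).image k, κ < b)))
    (i : ι) (hi : i ∈ S) (hk : k i = κ) : p i ∈ I := by
  rw [Finset.mem_filter] at hκ
  obtain ⟨-, ⟨a, ha, haκ⟩, ⟨b, hb, hbκ⟩⟩ := hκ
  obtain ⟨u, hu, rfl⟩ := Finset.mem_image.1 ha
  obtain ⟨v, hv, rfl⟩ := Finset.mem_image.1 hb
  rw [Finset.mem_filter] at hu hv
  exact hI.out hu.2 hv.2 ⟨hp u hu.1 i hi (by omega), hp i hi v hv.1 (by omega)⟩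

/-- If the peaks are ordered by classes, then all but two of the classes which meet an interval are
contained in it; weighted lower bound for the number of contained classes. -/
theorem class_inner {ι : Type} [DecidableEq ι] (S : Finset ι) (k : ι → ℕ) (p w : ι → ℝ)
    (I : Set ℝ) [DecidablePred (· ∈ I)] (hI : I.OrdConnected)
    (hp : ∀ i ∈ S, ∀ j ∈ S, k i < k j → p i ≤ p j) {X m : ℝ} (hX0 : 0 ≤ X)
    (hX : ∀ κ, ∑ i ∈ S.filter (fun i => k i = κ), w i ≤ X)
    (hm : m ≤ ∑ i ∈ S.filter (fun i => p i ∈ I), w i) (hw : ∀ i ∈ S, 0 ≤ w i) :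
    ∃ F : Finset ℕ, (∀ κ ∈ F, ∀ i ∈ S, k i = κ → p i ∈ I) ∧ (∀ κ ∈ F, ∃ i ∈ S, k i = κ) ∧
      m ≤ (F.card + 2) * X := by
  classical
  refine ⟨((S.filter (fun i => p i ∈ I)).image k).filter
      (fun κ => (∃ a ∈ (S.filter (fun i => p i ∈ I)).image k, a < κ) ∧
        (∃ b ∈ (S.filter (fun i => p i ∈ I)).image k, κ < b)),
    fun κ hκ i hi hk => c2b_mem S k p I hI hp κ hκ i hi hk, ?_, ?_⟩
  · intro κ hκ
    rw [Finset.mem_filter] at hκ
    obtain ⟨i, hi, rfl⟩ := Finset.mem_image.1 hκ.1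
    exact ⟨i, (Finset.mem_filter.1 hi).1, rfl⟩
  · have h1 : ∑ i ∈ S.filter (fun i => p i ∈ I), w i ≤
        (((S.filter (fun i => p i ∈ I)).image k).card : ℝ) * X := by
      rw [← Finset.sum_fiberwise_of_maps_to
        (fun i hi => Finset.mem_image_of_mem k hi : ∀ i ∈ S.filter (fun i => p i ∈ I),
          k i ∈ (S.filter (fun i => p i ∈ I)).image k)]
      calc _ ≤ ∑ _κ ∈ (S.filter (fun i => p i ∈ I)).image k, X := by
            refine Finset.sum_le_sum fun κ _ => le_trans ?_ (hX κ)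
            refine Finset.sum_le_sum_of_subset_of_nonneg ?_ ?_
            · intro i hi
              rw [Finset.mem_filter, Finset.mem_filter] at hi
              exact Finset.mem_filter.2 ⟨hi.1.1, hi.2⟩
            · intro i hi _
              exact hw i (Finset.mem_filter.1 hi).1
        _ = _ := by rw [Finset.sum_const, nsmul_eq_mul]
    have h2 : (((S.filter (fun i => p i ∈ I)).image k).card : ℝ) ≤
        ((((S.filter (fun i => p i ∈ I)).image k).filter
      (fun κ => (∃ a ∈ (S.filter (fun i => p i ∈ I)).image k, a < κ) ∧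
        (∃ b ∈ (S.filter (fun i => p i ∈ I)).image k, κ < b))).card : ℝ) + 2 := by
      exact_mod_cast c2b_card ((S.filter (fun i => p i ∈ I)).image k)
    exact hm.trans (h1.trans (mul_le_mul_of_nonneg_right h2 hX0))

/-- Upper bound for the number of classes which meet an interval. -/
theorem class_near {ι : Type} [DecidableEq ι] (S : Finset ι) (k : ι → ℕ) (p w : ι → ℝ)
    (I : Set ℝ) [DecidablePred (· ∈ I)] (hI : I.OrdConnected)
    (hp : ∀ i ∈ S, ∀ j ∈ S, k i < k j → p i ≤ p j) {X m : ℝ} (hX0 : 0 ≤ X)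
    (hX : ∀ κ, (∃ i ∈ S, k i = κ) → X ≤ ∑ i ∈ S.filter (fun i => k i = κ), w i)
    (hm : ∑ i ∈ S.filter (fun i => p i ∈ I), w i ≤ m) (hw : ∀ i ∈ S, 0 ≤ w i) :
    (((S.filter (fun i => p i ∈ I)).image k).card : ℝ) * X ≤ m + 2 * X := by
  classical
  set T := (S.filter (fun i => p i ∈ I)).image k with hT
  set F := T.filter (fun κ => (∃ a ∈ T, a < κ) ∧ (∃ b ∈ T, κ < b)) with hF
  have h2 : (T.card : ℝ) ≤ (F.card : ℝ) + 2 := by
    exact_mod_cast c2b_card T
  have h1 : (F.card : ℝ) * X ≤ ∑ i ∈ S.filter (fun i => p i ∈ I), w i := by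
    calc (F.card : ℝ) * X = ∑ _κ ∈ F, X := by rw [Finset.sum_const, nsmul_eq_mul]
      _ ≤ ∑ κ ∈ F, ∑ i ∈ S.filter (fun i => k i = κ), w i := by
          refine Finset.sum_le_sum fun κ hκ => hX κ ?_
          obtain ⟨i, hi, h⟩ := Finset.mem_image.1 (Finset.mem_filter.1 hκ).1
          exact ⟨i, (Finset.mem_filter.1 hi).1, h⟩
      _ = ∑ κ ∈ F, ∑ i ∈ (S.filter (fun i => p i ∈ I)).filter (fun i => k i = κ), w i := by
          refine Finset.sum_congr rfl fun κ hκ => Finset.sum_congr ?_ fun _ _ => rfl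
          ext i
          rw [Finset.mem_filter, Finset.mem_filter, Finset.mem_filter]
          constructor
          · rintro ⟨hi, hk⟩
            exact ⟨⟨hi, c2b_mem S k p I hI hp κ hκ i hi hk⟩, hk⟩
          · rintro ⟨⟨hi, -⟩, hk⟩
            exact ⟨hi, hk⟩
      _ ≤ ∑ κ ∈ T, ∑ i ∈ (S.filter (fun i => p i ∈ I)).filter (fun i => k i = κ), w i := by
          refine Finset.sum_le_sum_of_subset_of_nonneg (Finset.filter_subset _ _) ?_
          intro κ _ _
          refine Finset.sum_nonneg fun i hi => hw i ?_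
          exact (Finset.mem_filter.1 (Finset.mem_filter.1 hi).1).1
      _ = _ := Finset.sum_fiberwise_of_maps_to (fun i hi => Finset.mem_image_of_mem k hi) _
  calc (T.card : ℝ) * X ≤ ((F.card : ℝ) + 2) * X := mul_le_mul_of_nonneg_right h2 hX0
    _ = (F.card : ℝ) * X + 2 * X := by ring
    _ ≤ m + 2 * X := by linarith

end Vale.Agent.P209.Strong
end
end
end
end

section

section

section

section

end
end
end
end

section

section

section

section

namespace Vale.Agent.P209.Strong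

/-! C5b. Distributing a finite set evenly over the cells `(Fin D → {0, …, 2 K - 1})`. -/

theorem exists_digits {ι : Type} [Fintype ι] [DecidableEq ι] (S : Finset ι) (D K : ℕ) (hK : 1 ≤ K)
    (hS : (2 * K) ^ D ≤ S.card) :
    ∃ (dig : ι → Fin D → ℕ) (b : ℝ), (∀ i k, dig i k < 2 * K) ∧ 1 ≤ b ∧
      ∀ κ : Fin D → ℕ, (∀ k, κ k < 2 * K) →
        b ≤ ((S.filter (fun i => dig i = κ)).card : ℝ) ∧
        ((S.filter (fun i => dig i = κ)).card : ℝ) ≤ 2 * b := by
  have hM : 0 < (2 * K) ^ D := by positivity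
  set M := (2 * K) ^ D with hMdef
  set e : {x // x ∈ S} ≃ Fin S.card := S.equivFin with he
  set φ : (Fin D → Fin (2 * K)) ≃ Fin M := finFunctionFinEquiv with hφ
  set dig : ι → Fin D → ℕ := fun i k =>
    if h : i ∈ S then (φ.symm ⟨(e ⟨i, h⟩ : ℕ) % M, Nat.mod_lt _ hM⟩ k : ℕ) else 0 with hdig
  have hb1 : 1 ≤ S.card / M := (Nat.one_le_div_iff hM).2 hS
  refine ⟨dig, ((S.card / M : ℕ) : ℝ), ?_, by exact_mod_cast hb1, fun κ hκ => ?_⟩
  · intro i k
    simp only [hdig]
    split_ifs with h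
    · exact (φ.symm _ k).2
    · omega
  · set κ' : Fin D → Fin (2 * K) := fun k => ⟨κ k, hκ k⟩ with hκ'
    have hcard : (S.filter (fun i => dig i = κ)).card =
        S.card.count (· ≡ (φ κ' : ℕ) [MOD M]) := by
      rw [Nat.count_eq_card_filter_range]
      refine Finset.card_bij (fun i hi => (e ⟨i, (Finset.mem_filter.1 hi).1⟩ : ℕ)) ?_ ?_ ?_
      · intro i hi
        obtain ⟨h1, h2⟩ := Finset.mem_filter.1 hi
        rw [Finset.mem_filter, Finset.mem_range]
        refine ⟨(e ⟨i, h1⟩).2, ?_⟩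
        have h3 : φ.symm ⟨(e ⟨i, h1⟩ : ℕ) % M, Nat.mod_lt _ hM⟩ = κ' := by
          funext k
          apply Fin.ext
          have := congrFun h2 k
          simp only [hdig, dif_pos h1] at this
          exact this
        have h4 := (Equiv.symm_apply_eq φ).1 h3
        have h5 : (e ⟨i, h1⟩ : ℕ) % M = (φ κ' : ℕ) := congrArg Fin.val h4
        show (e ⟨i, h1⟩ : ℕ) % M = (φ κ' : ℕ) % M
        rw [h5, Nat.mod_eq_of_lt (φ κ').2]
      · intro i hi j hj hij
        have h1 := e.injective (Fin.ext hij)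
        exact congrArg Subtype.val h1
      · intro x hx
        rw [Finset.mem_filter, Finset.mem_range] at hx
        obtain ⟨h1, h2⟩ := hx
        set y := e.symm ⟨x, h1⟩ with hy
        have hey : (e y : ℕ) = x := by rw [hy, Equiv.apply_symm_apply]
        refine ⟨y, ?_, ?_⟩
        · rw [Finset.mem_filter]
          refine ⟨y.2, ?_⟩
          funext k
          simp only [hdig, dif_pos y.2]
          have h3 : x % M = (φ κ' : ℕ) % M := h2
          rw [Nat.mod_eq_of_lt (φ κ').2] at h3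
          have h4 : (⟨(e ⟨(y : ι), y.2⟩ : ℕ) % M, Nat.mod_lt _ hM⟩ : Fin M) = φ κ' := by
            apply Fin.ext
            show (e y : ℕ) % M = (φ κ' : ℕ)
            rw [hey, h3]
          rw [h4, Equiv.symm_apply_apply]
        · exact hey
    rw [hcard, Nat.count_modEq_card _ hM]
    have hb : ((1 : ℕ) : ℝ) ≤ ((S.card / M : ℕ) : ℝ) := by exact_mod_cast hb1
    push_cast at hb ⊢
    split_ifs <;> constructor <;> linarith only [hb]

end Vale.Agent.P209.Strong
end
end
end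
end

section

section

section

section

namespace Vale.Agent.P209.Strong

open MeasureTheory

/-! D1c. Volumes. -/

/-- Continuity of the volume of `{f < c * g}`. -/
theorem volume_lt_continuous {n : ℕ} {Ω : Set (Fin n → ℝ)} (hfin : volume Ω ≠ ⊤)
    (hΩ : MeasurableSet Ω) {f g : (Fin n → ℝ) → ℝ} (hf : Measurable f) (hg : Measurable g)
    (hg0 : ∀ a ∈ Ω, 0 < g a) (hnull : ∀ c : ℝ, volume (Ω ∩ {a | f a = c * g a}) = 0) :
    Continuous fun c : ℝ => (volume (Ω ∩ {a | f a < c * g a})).toReal := by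
  have hms : ∀ c : ℝ, MeasurableSet {a | f a < c * g a} := fun c =>
    measurableSet_lt hf (hg.const_mul c)
  have : IsFiniteMeasure (volume.restrict Ω) :=
    ⟨by rw [Measure.restrict_apply_univ]; exact lt_top_iff_ne_top.2 hfin⟩
  have e : ∀ c : ℝ, (volume (Ω ∩ {a | f a < c * g a})).toReal =
      ∫ a, ({a | f a < c * g a}.indicator (fun _ => (1 : ℝ)) a) ∂(volume.restrict Ω) := by
    intro c
    rw [integral_indicator (hms c), setIntegral_const, smul_eq_mul, mul_one, Measure.real,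
      Measure.restrict_apply (hms c), Set.inter_comm]
  simp only [e]
  rw [continuous_iff_continuousAt]
  intro c₀
  refine continuousAt_of_dominated (bound := fun _ => (1 : ℝ)) ?_ ?_ ?_ ?_
  · exact Filter.Eventually.of_forall fun c =>
      (measurable_const.indicator (hms c)).aestronglyMeasurable
  · refine Filter.Eventually.of_forall fun c => Filter.Eventually.of_forall fun a => ?_
    by_cases h : a ∈ {a | f a < c * g a}
    · rw [Set.indicator_of_mem h, norm_one]
    · rw [Set.indicator_of_notMem h, norm_zero]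
      exact zero_le_one
  · exact integrable_const _
  · have h0 : ∀ᵐ a ∂(volume.restrict Ω), f a ≠ c₀ * g a := by
      rw [ae_iff]
      have h1 : {a | ¬ f a ≠ c₀ * g a} = {a | f a = c₀ * g a} := by
        ext a
        simp
      rw [h1, Measure.restrict_apply (measurableSet_eq_fun hf (hg.const_mul c₀)),
        Set.inter_comm]
      exact hnull c₀
    filter_upwards [h0] with a ha
    have hc : ContinuousAt (fun c : ℝ => c * g a) c₀ := by fun_prop
    rcases lt_or_gt_of_ne ha with h | h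
    · have h1 : ∀ᶠ c in nhds c₀, f a < c * g a := hc.eventually_const_lt h
      refine ContinuousAt.congr (f := fun _ => (1 : ℝ)) continuousAt_const ?_
      filter_upwards [h1] with c hc
      rw [Set.indicator_of_mem (show a ∈ {a | f a < c * g a} from hc)]
    · have h1 : ∀ᶠ c in nhds c₀, c * g a < f a := hc.eventually_lt_const h
      refine ContinuousAt.congr (f := fun _ => (0 : ℝ)) continuousAt_const ?_
      filter_upwards [h1] with c hc
      rw [Set.indicator_of_notMem (show a ∉ {a | f a < c * g a} from not_lt.2 hc.le)]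

/-- The zero set of a nonconstant affine function is null. -/
theorem volume_affine_zero {n : ℕ} (m : Fin n → ℝ) (hm : m ≠ 0) (s : ℝ) :
    volume {a : Fin n → ℝ | ∑ i, m i * a i = s} = 0 := by
  let φ : (Fin n → ℝ) →ₗ[ℝ] ℝ := ∑ i, m i • LinearMap.proj i
  have hφ : ∀ a, φ a = ∑ i, m i * a i := by
    intro a
    simp only [LinearMap.sum_apply, LinearMap.smul_apply, LinearMap.coe_proj, Function.eval, smul_eq_mul, φ]
  have hker : LinearMap.ker φ ≠ ⊤ := by
    intro h
    apply hm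
    funext i
    have h1 : Pi.single i (1 : ℝ) ∈ LinearMap.ker φ := by rw [h]; trivial
    rw [LinearMap.mem_ker, hφ] at h1
    simpa only [Pi.zero_apply, Pi.single_apply, mul_ite, mul_one, mul_zero, Finset.sum_ite_eq', Finset.mem_univ,     ↓reduceIte] using h1
  rcases Set.eq_empty_or_nonempty {a : Fin n → ℝ | ∑ i, m i * a i = s} with h | ⟨a₀, h0⟩
  · rw [h, measure_empty]
  · have e : {a : Fin n → ℝ | ∑ i, m i * a i = s} =
        (fun a => a + -a₀) ⁻¹' (LinearMap.ker φ : Set (Fin n → ℝ)) := by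
      ext a
      have h1 : ∑ i, m i * a₀ i = s := h0
      have h2 : φ (a + -a₀) = ∑ i, m i * a i - s := by
        rw [map_add, map_neg, hφ, hφ, h1, sub_eq_add_neg]
      have h3 : a ∈ (fun a => a + -a₀) ⁻¹' (LinearMap.ker φ : Set (Fin n → ℝ)) ↔
          φ (a + -a₀) = 0 := Iff.rfl
      rw [h3, h2, sub_eq_zero]
      exact Iff.rfl
    rw [e, measure_preimage_add_right]
    exact Measure.addHaar_submodule _ _ hker

end Vale.Agent.P209.Strong
end
end
end
end

section

section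

section

section

set_option linter.all false

namespace Vale.Agent.P209.Strong

open MeasureTheory
open scoped Pointwise

/-! M1. Points of the positive part of the unit ball of `ℓ_n^k` with a large coordinate are
exponentially rare as `k → ∞`. -/

/-- positive part of the unit ball of `ℓ_n^k` -/
def VB (n k : ℕ) : Set (Fin k → ℝ) := {x | (∀ i, 0 < x i) ∧ ∑ i, x i ^ n < 1}

theorem VB_smul_vol (n m : ℕ) {a : ℝ} (ha : 0 < a) :
    volume (a • VB n m) = ENNReal.ofReal (a ^ m) * volume (VB n m) := by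
  rw [Measure.addHaar_smul, Module.finrank_fin_fun, abs_of_pos (pow_pos ha m)]

/-- upper bound for the points with the coordinate `i` larger than `ε` -/
theorem VB_upper {n m : ℕ} (hn : 1 ≤ n) {ε a : ℝ} (hε : 0 < ε) (ha : 0 < a)
    (han : a ^ n = 1 - ε ^ n) (i : Fin (m + 1)) :
    volume {x : Fin (m + 1) → ℝ | x ∈ VB n (m + 1) ∧ ε < x i} ≤
      ENNReal.ofReal (a ^ m) * volume (VB n m) := by
  set e := MeasurableEquiv.piFinSuccAbove (fun _ : Fin (m + 1) => ℝ) i
  have he : MeasurePreserving e := volume_preserving_piFinSuccAbove (fun _ : Fin (m + 1) => ℝ) i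
  have hsub : {x : Fin (m + 1) → ℝ | x ∈ VB n (m + 1) ∧ ε < x i} ⊆
      e ⁻¹' (Set.Ioo 0 1 ×ˢ (a • VB n m)) := by
    rintro x ⟨⟨hx1, hx2⟩, hx3⟩
    have hs : ∑ j, x j ^ n = x i ^ n + ∑ j, x (i.succAbove j) ^ n :=
      Fin.sum_univ_succAbove (fun j => x j ^ n) i
    have h0 : 0 ≤ ∑ j, x (i.succAbove j) ^ n :=
      Finset.sum_nonneg fun j _ => pow_nonneg (hx1 _).le _
    have h1 : x i ^ n < 1 := by linarith only [hx2, hs, h0]
    have h2 : x i < 1 := (pow_lt_one_iff_of_nonneg (hx1 i).le (by omega)).1 h1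
    have h3 : ε ^ n ≤ x i ^ n := pow_le_pow_left₀ hε.le hx3.le n
    refine ⟨⟨hx1 i, h2⟩, ?_⟩
    rw [Set.mem_smul_set_iff_inv_smul_mem₀ ha.ne']
    refine ⟨fun j => ?_, ?_⟩
    · exact mul_pos (inv_pos.2 ha) (hx1 _)
    · have h4 : ∑ j, ((a⁻¹ • (e x).2) j) ^ n = (a ^ n)⁻¹ * ∑ j, x (i.succAbove j) ^ n := by
        rw [Finset.mul_sum]
        refine Finset.sum_congr rfl fun j _ => ?_
        rw [Pi.smul_apply, smul_eq_mul, mul_pow, inv_pow]
        rfl
      rw [h4, inv_mul_lt_iff₀ (pow_pos ha n), han, mul_one]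
      linarith only [hx2, hs, h3]
  refine (measure_mono hsub).trans ?_
  rw [he.measure_preimage_equiv, Measure.volume_eq_prod, Measure.prod_prod, VB_smul_vol n m ha,
    Real.volume_Ioo]
  simp only [sub_zero, ENNReal.ofReal_one, one_mul, Std.le_refl]

/-- lower bound for the volume -/
theorem VB_lower {n m : ℕ} {d b : ℝ} (hd : 0 < d) (hb : 0 < b)
    (hbn : b ^ n = 1 - d ^ n) :
    ENNReal.ofReal d * (ENNReal.ofReal (b ^ m) * volume (VB n m)) ≤ volume (VB n (m + 1)) := by
  set e := MeasurableEquiv.piFinSuccAbove (fun _ : Fin (m + 1) => ℝ) 0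
  have he : MeasurePreserving e := volume_preserving_piFinSuccAbove (fun _ : Fin (m + 1) => ℝ) 0
  have hsub : e ⁻¹' (Set.Ioo 0 d ×ˢ (b • VB n m)) ⊆ VB n (m + 1) := by
    rintro x ⟨⟨hx1, hx2⟩, hx3⟩
    rw [Set.mem_smul_set_iff_inv_smul_mem₀ hb.ne'] at hx3
    obtain ⟨h1, h2⟩ := hx3
    have h1' : ∀ j, 0 < x (Fin.succAbove 0 j) := fun j => by
      have h := h1 j
      exact (mul_pos_iff_of_pos_left (inv_pos.2 hb)).1 h
    have h4 : ∑ j, ((b⁻¹ • (e x).2) j) ^ n = (b ^ n)⁻¹ * ∑ j, x (Fin.succAbove 0 j) ^ n := by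
      rw [Finset.mul_sum]
      refine Finset.sum_congr rfl fun j _ => ?_
      rw [Pi.smul_apply, smul_eq_mul, mul_pow, inv_pow]
      rfl
    rw [h4, inv_mul_lt_iff₀ (pow_pos hb n), hbn, mul_one] at h2
    refine ⟨fun j => ?_, ?_⟩
    · rcases Fin.eq_self_or_eq_succAbove 0 j with h | ⟨l, h⟩
      · rw [h]; exact hx1
      · rw [h]; exact h1' l
    · rw [Fin.sum_univ_succAbove (fun j => x j ^ n) 0]
      have h5 : x 0 ^ n ≤ d ^ n := pow_le_pow_left₀ hx1.le hx2.le n
      linarith only [h2, h5]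
  refine le_trans (le_of_eq ?_) (measure_mono hsub)
  rw [he.measure_preimage_equiv, Measure.volume_eq_prod, Measure.prod_prod, VB_smul_vol n m hb,
    Real.volume_Ioo, sub_zero]

theorem VB_geom {r : ℝ} (h0 : 0 ≤ r) (h1 : r < 1) (m : ℕ) : ((m : ℝ) + 1) * r ^ m ≤ 1 / (1 - r) := by
  rw [le_div_iff₀ (by linarith)]
  have h2 : ((m : ℝ) + 1) * r ^ m ≤ ∑ j ∈ Finset.range (m + 1), r ^ j := by
    have h3 : ∑ j ∈ Finset.range (m + 1), r ^ m ≤ ∑ j ∈ Finset.range (m + 1), r ^ j :=
      Finset.sum_le_sum fun j hj => pow_le_pow_of_le_one h0 h1.le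
        (Nat.lt_succ_iff.1 (Finset.mem_range.1 hj))
    rw [Finset.sum_const, Finset.card_range, nsmul_eq_mul] at h3
    push_cast at h3
    exact h3
  have h4 := mul_neg_geom_sum r (m + 1)
  have h5 : 0 ≤ r ^ (m + 1) := pow_nonneg h0 _
  linarith only [mul_nonneg (le_of_lt (sub_pos.2 h1)) (sub_nonneg.2 h2), h5, h4]

theorem VB_large (n : ℕ) (hn : 1 ≤ n) (ε : ℝ) (hε : 0 < ε) (hε1 : ε < 1) :
    ∃ C q : ℝ, 0 < C ∧ 0 < q ∧ q < 1 ∧ ∀ k : ℕ,
      volume {x : Fin k → ℝ | x ∈ VB n k ∧ ∃ i, ε < x i} ≤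
        ENNReal.ofReal (C * q ^ k) * volume (VB n k) := by
  have hn0 : n ≠ 0 := by omega
  set d : ℝ := ε / 2 with hd
  have hd0 : 0 < d := by positivity
  have hdε : d < ε := by rw [hd]; linarith only [hε]
  have hd1 : d < 1 := hdε.trans hε1
  have e1 : ε ^ n < 1 := pow_lt_one₀ hε.le hε1 hn0
  have e2 : d ^ n < 1 := pow_lt_one₀ hd0.le hd1 hn0
  have e3 : d ^ n < ε ^ n := pow_lt_pow_left₀ hdε hd0.le hn0
  set a : ℝ := (1 - ε ^ n) ^ ((n : ℝ)⁻¹) with ha
  set b : ℝ := (1 - d ^ n) ^ ((n : ℝ)⁻¹) with hb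
  have ha0 : 0 < a := Real.rpow_pos_of_pos (by linarith only [e1]) _
  have hb0 : 0 < b := Real.rpow_pos_of_pos (by linarith only [e1, e3]) _
  have han : a ^ n = 1 - ε ^ n := Real.rpow_inv_natCast_pow (by linarith only [e1]) hn0
  have hbn : b ^ n = 1 - d ^ n := Real.rpow_inv_natCast_pow (by linarith only [e1, e3]) hn0
  have hab : a < b := lt_of_pow_lt_pow_left₀ n hb0.le (by rw [han, hbn]; linarith only [e3])
  set ρ : ℝ := a / b with hρ
  have hρ0 : 0 < ρ := by (clear * - e1 e2; positivity)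
  have hρ1 : ρ < 1 := (div_lt_one hb0).2 hab
  set q : ℝ := (1 + ρ) / 2 with hq
  have hq0 : 0 < q := by positivity
  have hq1 : q < 1 := by rw [hq]; linarith only [hρ1]
  have hρq : ρ < q := by rw [hq]; linarith only [hρ1]
  set r : ℝ := ρ / q with hr
  have hr0 : 0 ≤ r := by (clear * - e1 e2; positivity)
  have hr1 : r < 1 := (div_lt_one hq0).2 hρq
  have hr2 : 0 < 1 - r := by linarith only [hr1]
  refine ⟨1 / ((1 - r) * d * q), q, by (clear * - hr1 hε e1 e2; positivity), hq0, hq1, fun k => ?_⟩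
  rcases k with _ | m
  · have : {x : Fin 0 → ℝ | x ∈ VB n 0 ∧ ∃ i, ε < x i} = ∅ := by
      ext x
      simp
    rw [this, measure_empty]
    exact zero_le
  have h1 : volume {x : Fin (m + 1) → ℝ | x ∈ VB n (m + 1) ∧ ∃ i, ε < x i} ≤
      ENNReal.ofReal ((m : ℝ) + 1) * (ENNReal.ofReal (a ^ m) * volume (VB n m)) := by
    have hsub : {x : Fin (m + 1) → ℝ | x ∈ VB n (m + 1) ∧ ∃ i, ε < x i} ⊆
        ⋃ i, {x : Fin (m + 1) → ℝ | x ∈ VB n (m + 1) ∧ ε < x i} := by
      rintro x ⟨hx, i, hi⟩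
      exact Set.mem_iUnion.2 ⟨i, hx, hi⟩
    refine (measure_mono hsub).trans ((measure_iUnion_le _).trans ?_)
    rw [tsum_fintype]
    refine (Finset.sum_le_sum fun i _ => VB_upper hn hε ha0 han i).trans (le_of_eq ?_)
    rw [Finset.sum_const, Finset.card_univ, Fintype.card_fin, nsmul_eq_mul]
    congr 1
    rw [← Nat.cast_succ, ENNReal.ofReal_natCast]
  have h2 := VB_lower (n := n) (m := m) hd0 hb0 hbn
  refine h1.trans (le_trans ?_ (mul_le_mul_right h2 _))
  rw [← mul_assoc, ← mul_assoc, ← mul_assoc, ← ENNReal.ofReal_mul (by (clear * -; positivity)),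
    ← ENNReal.ofReal_mul (by (clear * - hr1 hε e1 e2; positivity)), ← ENNReal.ofReal_mul (by positivity)]
  refine mul_le_mul_left (ENNReal.ofReal_le_ofReal ?_) _
  have h3 := VB_geom hr0 hr1 m
  have h4 : a = r * q * b := by
    rw [hr, hρ]
    (clear * - hb0 hq0 ha0; field_simp)
  have h5 : ((m : ℝ) + 1) * a ^ m = ((m : ℝ) + 1) * r ^ m * (q * b) ^ m := by
    rw [mul_assoc, ← mul_pow, ← mul_assoc, ← h4]
  have h6 : 1 / ((1 - r) * d * q) * q ^ (m + 1) * d * b ^ m = 1 / (1 - r) * (q * b) ^ m := by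
    rw [mul_pow, pow_succ]
    (clear * - hd0 hq0 hb0 hr2; field_simp)
  rw [h5, h6]
  exact mul_le_mul_of_nonneg_right h3 (by (clear * - e1 e2; positivity))

end Vale.Agent.P209.Strong
end
end
end
end

section

section

section

section

namespace Vale.Agent.P209.Strong

open MeasureTheory

/-- the parameter region of Conjecture A (with `R = 1`) -/
def PR (n k : ℕ) : Set (Fin k → ℝ) :=
  {x | (∀ i, 0 < x i) ∧ ∑ i, x i ^ n < 1 ∧ ∀ i j, i < j → x i + x j < 1}

theorem VB_vol_lt_top (n : ℕ) (hn : 1 ≤ n) (k : ℕ) : volume (VB n k) < ⊤ := by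
  have hsub : VB n k ⊆ Set.Icc (0 : Fin k → ℝ) 1 := by
    rintro x ⟨hx1, hx2⟩
    refine ⟨fun i => (hx1 i).le, fun i => ?_⟩
    have h1 : x i ^ n ≤ ∑ j, x j ^ n :=
      Finset.single_le_sum (f := fun j => x j ^ n) (fun j _ => pow_nonneg (hx1 j).le n)
        (Finset.mem_univ i)
    have h2 : x i ^ n < 1 := by linarith only [hx2, h1]
    exact ((pow_lt_one_iff_of_nonneg (hx1 i).le (by omega)).1 h2).le
  exact (measure_mono hsub).trans_lt isCompact_Icc.measure_lt_top

theorem PR_vol_pos (n : ℕ) (hn : 1 ≤ n) (k : ℕ) : 0 < volume (PR n k) := by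
  set c : ℝ := 1 / (2 * ((k : ℝ) + 1)) with hc
  have hk : (0 : ℝ) ≤ k := Nat.cast_nonneg k
  have hc0 : 0 < c := by positivity
  have hc1 : c ≤ 1 / 2 := by
    rw [hc]
    apply one_div_le_one_div_of_le (by norm_num)
    linarith only []
  have hck : (k : ℝ) * c < 1 := by
    rw [hc, mul_one_div, div_lt_one (by positivity)]
    linarith only []
  have hsub : Set.pi Set.univ (fun _ : Fin k => Set.Ioo 0 c) ⊆ PR n k := by
    intro x hx
    have h1 : ∀ i, 0 < x i := fun i => (hx i (Set.mem_univ i)).1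
    have h2 : ∀ i, x i < c := fun i => (hx i (Set.mem_univ i)).2
    refine ⟨h1, ?_, fun i j _ => ?_⟩
    · have h3 : ∑ i, x i ^ n ≤ ∑ _i : Fin k, c := by
        refine Finset.sum_le_sum fun i _ => ?_
        have h4 : x i ^ n ≤ x i := pow_le_of_le_one (h1 i).le (by linarith only [hc1, h2 i]) (by omega)
        exact h4.trans (h2 i).le
      rw [Finset.sum_const, Finset.card_univ, Fintype.card_fin, nsmul_eq_mul] at h3
      linarith only [hck, h3]
    · have := h2 i
      have := h2 j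
      (clear n hn hk hc0 hck h1; linarith)
  refine lt_of_lt_of_le ?_ (measure_mono hsub)
  rw [Real.volume_pi_Ioo]
  simp only [sub_zero, Finset.prod_const]
  exact ENNReal.pow_pos (ENNReal.ofReal_pos.2 hc0) _

theorem PR_sub_VB (n k : ℕ) : PR n k ⊆ VB n k := fun _ hx => ⟨hx.1, hx.2.1⟩

theorem VB_le_PR (n : ℕ) (hn : 1 ≤ n) : ∃ C : ℝ, 0 < C ∧ ∀ k : ℕ,
    volume (VB n k) ≤ ENNReal.ofReal C * volume (PR n k) := by
  obtain ⟨C0, q, hC0, hq0, hq1, hV⟩ := VB_large n hn (1 / 4) (by norm_num) (by norm_num)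
  have hlim : Filter.Tendsto (fun k : ℕ => C0 * q ^ k) Filter.atTop (nhds (C0 * 0)) :=
    (tendsto_pow_atTop_nhds_zero_of_lt_one hq0.le hq1).const_mul C0
  rw [mul_zero] at hlim
  obtain ⟨K0, hK0⟩ := Filter.eventually_atTop.1 (hlim.eventually (gt_mem_nhds
    (by norm_num : (0 : ℝ) < 1 / 2)))
  set r : ℕ → ℝ := fun k => (volume (VB n k) / volume (PR n k)).toReal with hr
  have hr0 : ∀ k, 0 ≤ r k := fun k => ENNReal.toReal_nonneg
  refine ⟨2 + ∑ k ∈ Finset.range K0, r k, by
    have := Finset.sum_nonneg (s := Finset.range K0) (fun k _ => hr0 k); linarith only [this], fun k => ?_⟩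
  have hfin := VB_vol_lt_top n hn k
  rcases lt_or_ge k K0 with hk | hk
  · have hpos := PR_vol_pos n hn k
    have h1 : volume (VB n k) / volume (PR n k) ≠ ⊤ := (ENNReal.div_lt_top hfin.ne hpos.ne').ne
    have h2 : volume (VB n k) ≤ ENNReal.ofReal (r k) * volume (PR n k) := by
      rw [hr]
      simp only
      rw [ENNReal.ofReal_toReal h1]
      have hPtop : volume (PR n k) ≠ ⊤ :=
        ((measure_mono (PR_sub_VB n k)).trans_lt hfin).ne
      rw [ENNReal.div_mul_cancel hpos.ne' hPtop]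
    refine h2.trans (mul_le_mul_left (ENNReal.ofReal_le_ofReal ?_) _)
    have h3 : r k ≤ ∑ k ∈ Finset.range K0, r k :=
      Finset.single_le_sum (f := r) (fun j _ => hr0 j) (Finset.mem_range.2 hk)
    linarith only [h3]
  · have hsub : VB n k ⊆ PR n k ∪ {x : Fin k → ℝ | x ∈ VB n k ∧ ∃ i, 1 / 4 < x i} := by
      intro x hx
      by_cases h : ∃ i, 1 / 4 < x i
      · exact Or.inr ⟨hx, h⟩
      · refine Or.inl ⟨hx.1, hx.2, fun i j _ => ?_⟩
        have h1 : x i ≤ 1 / 4 := not_lt.1 fun h' => h ⟨i, h'⟩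
        have h2 : x j ≤ 1 / 4 := not_lt.1 fun h' => h ⟨j, h'⟩
        linarith only [h1, h2]
    have h1 : volume (VB n k) ≤ volume (PR n k) + ENNReal.ofReal (1 / 2) * volume (VB n k) := by
      refine (measure_mono hsub).trans ((measure_union_le _ _).trans ?_)
      refine add_le_add le_rfl ((hV k).trans (mul_le_mul_left (ENNReal.ofReal_le_ofReal ?_) _))
      exact (hK0 k hk).le
    set V := volume (VB n k) with hVdef
    set P := volume (PR n k) with hPdef
    have h2 : V ≤ 2 * P := by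
      have hPtop : P ≠ ⊤ :=
        ((measure_mono (PR_sub_VB n k)).trans_lt hfin).ne
      have h3 : V.toReal ≤ P.toReal + 1 / 2 * V.toReal := by
        have h4 := ENNReal.toReal_mono (ENNReal.add_ne_top.2 ⟨hPtop,
          ENNReal.mul_ne_top ENNReal.ofReal_ne_top hfin.ne⟩) h1
        rw [ENNReal.toReal_add hPtop (ENNReal.mul_ne_top ENNReal.ofReal_ne_top hfin.ne),
          ENNReal.toReal_mul, ENNReal.toReal_ofReal (by norm_num)] at h4
        exact h4
      have h5 : V.toReal ≤ 2 * P.toReal := by linarith only [h3]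
      rw [← ENNReal.ofReal_toReal hfin.ne, ← ENNReal.ofReal_toReal hPtop]
      calc ENNReal.ofReal V.toReal ≤ ENNReal.ofReal (2 * P.toReal) := ENNReal.ofReal_le_ofReal h5
        _ = 2 * ENNReal.ofReal P.toReal := by
            rw [ENNReal.ofReal_mul (by norm_num), ENNReal.ofReal_ofNat]
    refine h2.trans (mul_le_mul_left ?_ _)
    rw [← ENNReal.ofReal_ofNat]
    apply ENNReal.ofReal_le_ofReal
    have := Finset.sum_nonneg (s := Finset.range K0) (fun k _ => hr0 k)
    linarith only [this]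

theorem PR_large (n : ℕ) (hn : 1 ≤ n) (ε : ℝ) (hε : 0 < ε) (hε1 : ε < 1) :
    ∃ C q : ℝ, 0 < C ∧ 0 < q ∧ q < 1 ∧ ∀ k : ℕ,
      volume {x : Fin k → ℝ | x ∈ PR n k ∧ ∃ i, ε < x i} ≤
        ENNReal.ofReal (C * q ^ k) * volume (PR n k) := by
  obtain ⟨C, q, hC, hq0, hq1, hV⟩ := VB_large n hn ε hε hε1
  obtain ⟨C', hC', hP⟩ := VB_le_PR n hn
  refine ⟨C * C', q, mul_pos hC hC', hq0, hq1, fun k => ?_⟩
  have h1 : volume {x : Fin k → ℝ | x ∈ PR n k ∧ ∃ i, ε < x i} ≤
      volume {x : Fin k → ℝ | x ∈ VB n k ∧ ∃ i, ε < x i} :=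
    measure_mono fun x hx => ⟨⟨hx.1.1, hx.1.2.1⟩, hx.2⟩
  refine h1.trans ((hV k).trans ((mul_le_mul_right (hP k) _).trans (le_of_eq ?_)))
  rw [← mul_assoc, ← ENNReal.ofReal_mul (by positivity)]
  congr 2
  ring

end Vale.Agent.P209.Strong
end
end
end
end

section

section

section

section

namespace Vale.Agent.P209.MM

/-! Q3. The inequality behind the induction. -/

theorem q3_deriv (N e : ℕ) (he : e + 1 ≤ N) (h t : ℝ) :
    HasDerivAt (fun t : ℝ => ∑ i ∈ Finset.range (e + 1),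
        (N.choose i : ℝ) * t ^ (N - i) * (h - t) ^ i)
      (((e : ℝ) + 1) * (N.choose (e + 1) : ℝ) * t ^ (N - (e + 1)) * (h - t) ^ e) t := by
  induction e with
  | zero =>
    have h1 : HasDerivAt (fun t : ℝ => t ^ N) ((N : ℝ) * t ^ (N - 1)) t := hasDerivAt_pow N t
    have h2 : (fun t : ℝ => ∑ i ∈ Finset.range (0 + 1),
        (N.choose i : ℝ) * t ^ (N - i) * (h - t) ^ i) = fun t : ℝ => t ^ N := by
      funext s
      simp only [zero_add, Finset.range_one, Finset.sum_singleton, Nat.choose_zero_right, Nat.cast_one, tsub_zero, one_mul, pow_zero, mul_one]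
    rw [h2]
    convert h1 using 1
    simp only [CharP.cast_eq_zero, zero_add, Nat.choose_one_right, one_mul, pow_zero, mul_one]
  | succ e ih =>
    have ih' := ih (by omega)
    have h1 : HasDerivAt (fun t : ℝ => t ^ (N - (e + 1)))
        (((N - (e + 1) : ℕ) : ℝ) * t ^ (N - (e + 1) - 1)) t := hasDerivAt_pow _ t
    have h2 : HasDerivAt (fun t : ℝ => (h - t) ^ (e + 1))
        (((e + 1 : ℕ) : ℝ) * (h - t) ^ (e + 1 - 1) * (-1)) t :=
      ((hasDerivAt_id t).const_sub h).pow (e + 1)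
    have h3 := ((h1.const_mul (N.choose (e + 1) : ℝ)).mul h2)
    have h4 := ih'.add h3
    have hfun : (fun t : ℝ => ∑ i ∈ Finset.range (e + 1 + 1),
        (N.choose i : ℝ) * t ^ (N - i) * (h - t) ^ i) =
        ((fun t : ℝ => ∑ i ∈ Finset.range (e + 1),
        (N.choose i : ℝ) * t ^ (N - i) * (h - t) ^ i) +
        ((fun t : ℝ => (N.choose (e + 1) : ℝ) * t ^ (N - (e + 1))) *
          fun t : ℝ => (h - t) ^ (e + 1))) := by
      funext s
      rw [Finset.sum_range_succ]
      rfl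
    rw [hfun]
    refine h4.congr_deriv ?_
    symm
    have hc : (((e + 1 : ℕ) : ℝ) + 1) * (N.choose (e + 1 + 1) : ℝ) =
        (N.choose (e + 1) : ℝ) * ((N - (e + 1) : ℕ) : ℝ) := by
      have := Nat.choose_succ_right_eq N (e + 1)
      have h5 : ((N.choose (e + 1 + 1) * (e + 1 + 1) : ℕ) : ℝ) =
          ((N.choose (e + 1) * (N - (e + 1)) : ℕ) : ℝ) := by rw [this]
      push_cast at h5 ⊢
      linarith only [h5]
    rw [hc, show N - (e + 1 + 1) = N - (e + 1) - 1 by omega, show e + 1 - 1 = e by omega]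
    push_cast
    ring

theorem star_step (N d : ℕ) (hd1 : 1 ≤ d) (hd : d ≤ N) {h w v : ℝ} (hv : 0 ≤ v) (hvw : v ≤ w)
    (hwh : w ≤ h) :
    ∑ i ∈ Finset.range (d + 1), (N.choose i : ℝ) * v ^ (N - i) * (h - v) ^ i ≤
      ∑ i ∈ Finset.range d, (N.choose i : ℝ) * w ^ (N - i) * (h - w) ^ i +
        (N.choose d : ℝ) * v ^ (N - d) * (h - w) ^ d := by
  obtain ⟨e, rfl⟩ : ∃ e, d = e + 1 := ⟨d - 1, by omega⟩
  rw [Finset.sum_range_succ]
  set φ : ℝ → ℝ := fun t => ∑ i ∈ Finset.range (e + 1),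
      (N.choose i : ℝ) * t ^ (N - i) * (h - t) ^ i +
        (N.choose (e + 1) : ℝ) * v ^ (N - (e + 1)) * (h - t) ^ (e + 1) with hφ
  have hder : ∀ t : ℝ, HasDerivAt φ
      (((e : ℝ) + 1) * (N.choose (e + 1) : ℝ) * t ^ (N - (e + 1)) * (h - t) ^ e +
        (N.choose (e + 1) : ℝ) * v ^ (N - (e + 1)) *
          (((e + 1 : ℕ) : ℝ) * (h - t) ^ (e + 1 - 1) * (-1))) t := by
    intro t
    have h2 : HasDerivAt (fun t : ℝ => (h - t) ^ (e + 1))
        (((e + 1 : ℕ) : ℝ) * (h - t) ^ (e + 1 - 1) * (-1)) t :=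
      ((hasDerivAt_id t).const_sub h).pow (e + 1)
    exact (q3_deriv N e hd h t).add (h2.const_mul _)
  have hmono : MonotoneOn φ (Set.Icc v h) := by
    apply monotoneOn_of_deriv_nonneg (convex_Icc v h)
    · exact fun t _ => (hder t).continuousAt.continuousWithinAt
    · exact fun t _ => (hder t).differentiableAt.differentiableWithinAt
    · intro t ht
      rw [interior_Icc] at ht
      rw [(hder t).deriv]
      have h1 : v ^ (N - (e + 1)) ≤ t ^ (N - (e + 1)) := pow_le_pow_left₀ hv ht.1.le _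
      have h2 : 0 ≤ (h - t) ^ e := pow_nonneg (by linarith only [ht.2]) _
      have h3 : 0 ≤ ((e : ℝ) + 1) * (N.choose (e + 1) : ℝ) := by (clear * -; positivity)
      have h4 : 0 ≤ ((e : ℝ) + 1) * (N.choose (e + 1) : ℝ) * (h - t) ^ e *
          (t ^ (N - (e + 1)) - v ^ (N - (e + 1))) :=
        mul_nonneg (mul_nonneg h3 h2) (by linarith only [h1])
      calc (0 : ℝ) ≤ _ := h4
        _ = _ := by
          rw [show e + 1 - 1 = e by omega]
          push_cast
          ring
  have := hmono (Set.mem_Icc.2 ⟨le_refl v, hvw.trans hwh⟩) (Set.mem_Icc.2 ⟨hvw, hwh⟩) hvw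
  simpa only [hφ] using this

/-- Binomial formula without its last term. -/
theorem star_top (n : ℕ) (h w : ℝ) :
    ∑ i ∈ Finset.range (n + 1), ((n + 1).choose i : ℝ) * w ^ (n + 1 - i) * (h - w) ^ i =
      h ^ (n + 1) - (h - w) ^ (n + 1) := by
  have h1 := add_pow (h - w) w (n + 1)
  rw [show h - w + w = h by ring, Finset.sum_range_succ] at h1
  rw [h1]
  simp only [Nat.sub_self, pow_zero, Nat.choose_self, Nat.cast_one, mul_one]
  rw [add_sub_cancel_right]
  apply Finset.sum_congr rfl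
  intro i _
  ring

end Vale.Agent.P209.MM
end
end
end
end

section

section

section

section

namespace Vale.Agent.P209.MM

open Vale.Agent.P209

/-! Q0. Ordered toric packings: definitions. The dimension is `n + 1`. -/

/-- Cells of sizes `a i` in `Ω`, which are ordered along the last coordinate by a key. -/
def OPackIn (n : ℕ) {ι : Type} (a : ι → ℝ) (Ω : Set (Fin (n + 1) → ℝ)) : Prop :=
  ∃ (σ : ι → Equiv.Perm (Fin (n + 1))) (b : ι → Fin (n + 1) → ℝ) (key : ι → ℕ),
    (∀ i, cell (σ i) (b i) (a i) ⊆ Ω) ∧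
    ∀ i j, i ≠ j → key i ≤ key j → ∀ y ∈ cell (σ i) (b i) (a i), ∀ y' ∈ cell (σ j) (b j) (a j),
      (∀ k : Fin (n + 1), (k : ℕ) < n → y k = y' k) → y (Fin.last n) < y' (Fin.last n)

/-- Points of the simplex of size `h + s` with exactly `d` coordinates below `h`. -/
def Reg (n d : ℕ) (h s : ℝ) : Set (Fin (n + 1) → ℝ) :=
  {y | y ∈ tri (n + 1) (h + s) ∧ (∀ i : Fin (n + 1), (i : ℕ) < d → y i < h) ∧
    ∀ i : Fin (n + 1), d ≤ (i : ℕ) → h < y i}

/-- Points of the simplex of size `h + s` with at most `m` coordinates below `h`. -/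
def RegLe (n m : ℕ) (h s : ℝ) : Set (Fin (n + 1) → ℝ) :=
  {y | y ∈ tri (n + 1) (h + s) ∧ ∀ i : Fin (n + 1), m ≤ (i : ℕ) → h < y i}

/-- The Meir-Moser type criterion in dimension `d`: a decreasing list packs the simplex of size
`h` if all its simplices but the first have volume less than the simplex of size `h - b 0`. -/
def MMd (d : ℕ) : Prop :=
  ∀ (k : ℕ) (b : ℕ → ℝ) (h : ℝ), Antitone b → (∀ i, 0 ≤ b i) → b 0 < h →
    ∑ i ∈ Finset.Ico 1 k, b i ^ d < (h - b 0) ^ d → TPack d (fun i : Fin k => b i) h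

/-- The size used by the first ball and `m ^ n - j ^ n` further balls placed in layers. -/
noncomputable def LL (n m j : ℕ) (r : ℕ → ℝ) : ℝ :=
  max (r 0) (j * r 1) + ∑ q ∈ Finset.Ico j m, r (q ^ n - j ^ n + 1)

end Vale.Agent.P209.MM
end
end
end
end

section

section

section

section

namespace Vale.Agent.P209.MM

open Vale.Agent.P209

/-! Q1. Basic properties of ordered packings. -/

theorem OPackIn.mono {n : ℕ} {ι : Type} {a a' : ι → ℝ} {Ω Ω' : Set (Fin (n + 1) → ℝ)}
    (h : OPackIn n a Ω) (ha : ∀ i, a' i ≤ a i) (hΩ : Ω ⊆ Ω') : OPackIn n a' Ω' := by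
  obtain ⟨σ, b, key, h1, h2⟩ := h
  exact ⟨σ, b, key, fun i => (cell_mono _ _ (ha i)).trans ((h1 i).trans hΩ),
    fun i j hij hk y hy y' hy' => h2 i j hij hk y (cell_mono _ _ (ha i) hy) y'
      (cell_mono _ _ (ha j) hy')⟩

theorem OPackIn.comp {n : ℕ} {ι κ : Type} {a : ι → ℝ} {Ω : Set (Fin (n + 1) → ℝ)}
    (h : OPackIn n a Ω) {f : κ → ι} (hf : Function.Injective f) :
    OPackIn n (fun k => a (f k)) Ω := by
  obtain ⟨σ, b, key, h1, h2⟩ := h
  exact ⟨fun k => σ (f k), fun k => b (f k), fun k => key (f k), fun k => h1 _,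
    fun i j hij hk => h2 (f i) (f j) (hf.ne hij) hk⟩

theorem OPackIn.empty {n : ℕ} {ι : Type} [IsEmpty ι] {a : ι → ℝ} {Ω : Set (Fin (n + 1) → ℝ)} :
    OPackIn n a Ω :=
  ⟨fun _ => 1, fun _ _ => 0, fun _ => 0, fun i => isEmptyElim i, fun i => isEmptyElim i⟩

theorem OPackIn.toTPackIn {n : ℕ} {ι : Type} {a : ι → ℝ} {Ω : Set (Fin (n + 1) → ℝ)}
    (h : OPackIn n a Ω) : TPackIn (n + 1) a Ω := by
  obtain ⟨σ, b, key, h1, h2⟩ := h
  refine ⟨σ, b, h1, fun i j hij => ?_⟩
  refine Set.disjoint_left.2 fun y hy hy' => ?_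
  rcases le_total (key i) (key j) with h | h
  · exact lt_irrefl _ (h2 i j hij h y hy y hy' fun _ _ => rfl)
  · exact lt_irrefl _ (h2 j i (Ne.symm hij) h y hy' y hy fun _ _ => rfl)

theorem OPackIn.toTPack {n : ℕ} {ι : Type} {a : ι → ℝ} {R : ℝ}
    (h : OPackIn n a (tri (n + 1) R)) : TPack (n + 1) a R :=
  h.toTPackIn

/-- scaling (compare `TPack.scale` in `Toric.lean`) -/
theorem OPackIn.scale {n : ℕ} {ι : Type} {a : ι → ℝ} {R c : ℝ} (hc : 0 < c)
    (h : OPackIn n a (tri (n + 1) R)) :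
    OPackIn n (fun i => c * a i) (tri (n + 1) (c * R)) := by
  obtain ⟨σ, b, key, h1, h2⟩ := h
  have hkey : ∀ i y, y ∈ cell (σ i) (fun l => c * b i l) (c * a i) ↔
      (fun l => c⁻¹ * y l) ∈ cell (σ i) (b i) (a i) := by
    intro i y
    unfold cell
    simp only [Set.mem_ofPred_eq]
    rw [← tri_scale hc (fun l => c⁻¹ * y (σ i l) - b i l)]
    have : (fun l => c * (c⁻¹ * y (σ i l) - b i l)) = fun l => y (σ i l) - c * b i l := by
      funext l; field_simp
    rw [this]
  refine ⟨σ, fun i l => c * b i l, key, ?_, ?_⟩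
  · intro i y hy
    rw [hkey] at hy
    have := h1 i hy
    rw [← tri_scale hc] at this
    have e : (fun l => c * (c⁻¹ * y l)) = y := by
      funext l; field_simp
    rwa [e] at this
  · intro i j hij hk y hy y' hy' hyy
    rw [hkey] at hy hy'
    have h3 := h2 i j hij hk _ hy _ hy' fun k hkn => by rw [hyy k hkn]
    exact lt_of_mul_lt_mul_left h3 (inv_pos.2 hc).le

/-- A packing of a lower and of an upper region. The keys of the upper cells are shifted above
those of the lower cells. -/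
theorem OPackIn.union {n : ℕ} {ι κ : Type} [Finite ι] {a : ι → ℝ} {b : κ → ℝ}
    {Ω₁ Ω₂ Ω : Set (Fin (n + 1) → ℝ)} (h1 : OPackIn n a Ω₁) (h2 : OPackIn n b Ω₂)
    (h1Ω : Ω₁ ⊆ Ω) (h2Ω : Ω₂ ⊆ Ω)
    (hsep : ∀ y ∈ Ω₁, ∀ y' ∈ Ω₂, (∀ k : Fin (n + 1), (k : ℕ) < n → y k = y' k) →
      y (Fin.last n) < y' (Fin.last n)) :
    OPackIn n (Sum.elim a b) Ω := by
  obtain ⟨σ₁, b₁, key₁, p1, p2⟩ := h1
  obtain ⟨σ₂, b₂, key₂, q1, q2⟩ := h2
  obtain ⟨K, hK⟩ := (Set.finite_range key₁).bddAbove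
  have hK' : ∀ i, key₁ i ≤ K := fun i => hK ⟨i, rfl⟩
  refine ⟨Sum.elim σ₁ σ₂, Sum.elim b₁ b₂, Sum.elim key₁ (fun k => key₂ k + K + 1), ?_, ?_⟩
  · rintro (i | i)
    · exact (p1 i).trans h1Ω
    · exact (q1 i).trans h2Ω
  · rintro (i | i) (j | j) hij hk y hy y' hy' hyy
    · exact p2 i j (fun h => hij (by rw [h])) hk y hy y' hy' hyy
    · exact hsep y (p1 i hy) y' (q1 j hy') hyy
    · exfalso
      have h3 := hK' j
      simp only [Sum.elim_inl, Sum.elim_inr] at hk
      omega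
    · refine q2 i j (fun h => hij (by rw [h])) ?_ y hy y' hy' hyy
      simp only [Sum.elim_inr] at hk
      omega

/-- One cell in the corner region. -/
theorem OPackIn.single {n : ℕ} {x h s : ℝ} (hh : 0 ≤ h) (hx : x ≤ s) :
    OPackIn n (fun _ : Fin 1 => x) (Reg n 0 h s) := by
  refine ⟨fun _ => 1, fun _ _ => h, fun _ => 0, ?_, ?_⟩
  · intro _ y hy
    have h1 : ∀ i, 0 < y i - h := hy.1
    have h2 : StrictMono fun i => y i - h := hy.2.1
    have h3 : ∀ i, y i - h < x := hy.2.2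
    refine ⟨⟨fun i => ?_, fun i j hij => ?_, fun i => ?_⟩, fun i hi => ?_, fun i _ => ?_⟩
    · have := h1 i
      linarith
    · have : y i - h < y j - h := h2 hij
      linarith only [this]
    · have := h3 i
      linarith
    · exact absurd hi (Nat.not_lt_zero _)
    · have := h1 i
      linarith only [this]
  · intro i j hij
    exact absurd (Subsingleton.elim i j) hij

/-- The size of a nonempty cell inside a simplex. -/
theorem OPackIn.le {n : ℕ} {ι : Type} {a : ι → ℝ} {R : ℝ}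
    (h : OPackIn n a (tri (n + 1) R)) (i : ι) (hi : 0 < a i) : a i ≤ R := by
  obtain ⟨σ, b, key, h1, -⟩ := h
  by_contra hcon
  push Not at hcon
  set e : ℝ := min (a i - R) (a i) / 2 with he
  have hm : 0 < min (a i - R) (a i) := lt_min (by linarith only [hcon]) hi
  have he0 : 0 < e := by positivity
  have he1 : e < a i := by
    have := min_le_right (a i - R) (a i)
    linarith only [he, he0, this]
  have he2 : e < a i - R := by
    have := min_le_left (a i - R) (a i)
    linarith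
  set δ : ℝ := e / (n + 2) with hδ
  have hn : (0 : ℝ) < n + 2 := by positivity
  have hδ0 : 0 < δ := by positivity
  have hδe : (n + 2) * δ = e := by
    rw [hδ]
    field_simp
  -- a point of the cell for a point of the simplex
  have hpt : ∀ u : Fin (n + 1) → ℝ, u ∈ tri (n + 1) (a i) →
      0 < u (Fin.last n) + b i (Fin.last n) ∧ u (Fin.last n) + b i (Fin.last n) < R := by
    intro u hu
    have hy : (fun j => u ((σ i).symm j) + b i ((σ i).symm j)) ∈ cell (σ i) (b i) (a i) := by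
      unfold cell
      simp only [Set.mem_ofPred_eq, Equiv.symm_apply_apply, add_sub_cancel_right]
      exact hu
    have h2 := h1 i hy
    have h3 := h2.1 (σ i (Fin.last n))
    have h4 := h2.2.2 (σ i (Fin.last n))
    simp only [Equiv.symm_apply_apply] at h3 h4
    exact ⟨h3, h4⟩
  have hk : ∀ k : Fin (n + 1), ((k : ℕ) : ℝ) ≤ n := fun k => by
    exact_mod_cast Nat.lt_succ_iff.1 k.2
  have hk0 : ∀ k : Fin (n + 1), (0 : ℝ) ≤ ((k : ℕ) : ℝ) := fun k => Nat.cast_nonneg _
  have hu1 : (fun k : Fin (n + 1) => (((k : ℕ) : ℝ) + 1) * δ) ∈ tri (n + 1) (a i) := by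
    refine ⟨fun k => ?_, fun k l hkl => ?_, fun k => ?_⟩
    · have := hk0 k
      (clear * - hcon hi; positivity)
    · have h2 : ((k : ℕ) : ℝ) < ((l : ℕ) : ℝ) := by exact_mod_cast hkl
      show (((k : ℕ) : ℝ) + 1) * δ < (((l : ℕ) : ℝ) + 1) * δ
      exact mul_lt_mul_of_pos_right (by linarith only [h2]) hδ0
    · have h2 : (((k : ℕ) : ℝ) + 1) * δ ≤ (n + 2) * δ :=
        mul_le_mul_of_nonneg_right (by linarith only [hk k]) hδ0.le
      show (((k : ℕ) : ℝ) + 1) * δ < a i
      linarith only [he1, hδe, h2]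
  have hu2 : (fun k : Fin (n + 1) => a i - (n + 1 - ((k : ℕ) : ℝ)) * δ) ∈
      tri (n + 1) (a i) := by
    refine ⟨fun k => ?_, fun k l hkl => ?_, fun k => ?_⟩
    · have h2 : (n + 1 - ((k : ℕ) : ℝ)) * δ ≤ (n + 2) * δ :=
        mul_le_mul_of_nonneg_right (by linarith only []) hδ0.le
      show 0 < a i - (n + 1 - ((k : ℕ) : ℝ)) * δ
      linarith only [he1, hδe, h2]
    · have h2 : ((k : ℕ) : ℝ) < ((l : ℕ) : ℝ) := by exact_mod_cast hkl
      have h3 : (n + 1 - ((l : ℕ) : ℝ)) * δ < (n + 1 - ((k : ℕ) : ℝ)) * δ :=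
        mul_lt_mul_of_pos_right (by linarith only [h2]) hδ0
      show a i - (n + 1 - ((k : ℕ) : ℝ)) * δ < a i - (n + 1 - ((l : ℕ) : ℝ)) * δ
      linarith only [h3]
    · have h2 : 0 < (n + 1 - ((k : ℕ) : ℝ)) * δ := mul_pos (by linarith only [hk k]) hδ0
      show a i - (n + 1 - ((k : ℕ) : ℝ)) * δ < a i
      linarith only [h2]
  have h5 := (hpt _ hu1).1
  have h6 := (hpt _ hu2).2
  simp only [Fin.val_last] at h5 h6
  linarith only [he2, hδe, h5, h6]

end Vale.Agent.P209.MM
end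
end
end
end

section

section

section

section

namespace Vale.Agent.P209.MM

open Vale.Agent.P209

/-! Q2. Cells over the cells of a packing of the base. -/

theorem q2_card {α : Type} [Fintype α] {N : ℕ} (τ : α ≃ Fin N) (p : Fin N) :
    (Finset.univ.filter fun k => τ k < p).card = (p : ℕ) := by
  have h : (Finset.univ.filter fun k => τ k < p) = (Finset.Iio p).map τ.symm.toEmbedding := by
    ext k
    simp only [Finset.mem_filter, Finset.mem_univ, true_and, Finset.mem_map, Finset.mem_Iio,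
      Equiv.coe_toEmbedding]
    constructor
    · intro hk
      exact ⟨τ k, hk, by simp⟩
    · rintro ⟨a, ha, rfl⟩
      simpa using ha
  rw [h, Finset.card_map, Fin.card_Iio]

theorem q2_order {α : Type} [Fintype α] {N : ℕ} (τ τ' : α ≃ Fin N) {v v' : α → ℝ} {l : α}
    (hlt : ∀ x x', τ x < τ x' ↔ v x < v x') (hlt' : ∀ x x', τ' x < τ' x' ↔ v' x < v' x')
    (hag : ∀ x, x ≠ l → v x = v' x) (hl : v' l ≤ v l) (hkey : τ l ≤ τ' l) : τ = τ' := by
  have hsub : (Finset.univ.filter fun k => τ' k < τ' l) ⊆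
      (Finset.univ.filter fun k => τ k < τ l) := by
    intro k hk
    rw [Finset.mem_filter] at hk ⊢
    refine ⟨Finset.mem_univ _, ?_⟩
    have hk2 := hk.2
    have hkl : k ≠ l := by
      rintro rfl
      exact lt_irrefl _ hk2
    rw [hlt'] at hk2
    rw [hlt, hag k hkl]
    linarith
  have hcard := q2_card τ (τ l)
  have hcard' := q2_card τ' (τ' l)
  have hset := Finset.eq_of_subset_of_card_le hsub (by
    rw [hcard, hcard']
    exact hkey)
  have hiff : ∀ k, τ' k < τ' l ↔ τ k < τ l := by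
    intro k
    have := Finset.ext_iff.1 hset k
    simpa only [Finset.mem_filter, Finset.mem_univ, true_and] using this
  have q : ∀ j j', τ j < τ j' → τ' j < τ' j' := by
    intro j j' hjj
    by_cases hj : j = l
    · have hj' : j' ≠ l := by
        rintro rfl
        rw [hj] at hjj
        exact lt_irrefl _ hjj
      rcases lt_trichotomy (τ' j) (τ' j') with h | h | h
      · exact h
      · exact absurd (τ'.injective h) (by rw [hj]; exact fun h => hj' h.symm)
      · rw [hj] at h hjj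
        have := (hiff j').1 h
        exact absurd hjj (not_lt.2 this.le)
    · by_cases hj' : j' = l
      · rw [hj'] at hjj ⊢
        exact (hiff j).2 hjj
      · rw [hlt] at hjj
        rw [hlt', ← hag j hj, ← hag j' hj']
        exact hjj
  have e3 : StrictMono (τ.symm.trans τ' : Equiv.Perm (Fin N)) := by
    intro i i' hii
    simp only [Equiv.trans_apply]
    apply q
    simpa using hii
  have e4 : (τ.symm.trans τ' : Equiv.Perm (Fin N)) = 1 := (Equiv.Perm.monotone_iff _).1 e3.monotone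
  ext x
  have := congrArg (fun e : Equiv.Perm (Fin N) => e (τ x)) e4
  simp only [Equiv.trans_apply, Equiv.symm_apply_apply, Equiv.Perm.coe_one, id] at this
  rw [this]

section
variable {n d k : ℕ} (hk : d + (k + 1) = n + 1)

/-- labels of the coordinates -/
def q2lab : Fin d ⊕ Fin (k + 1) ≃ Fin (n + 1) := finSumFinEquiv.trans (finCongr hk)

theorem q2lab_inl (c : Fin d) : ((q2lab hk (Sum.inl c) : Fin (n + 1)) : ℕ) = c := by
  simp [q2lab]

theorem q2lab_inr (c : Fin (k + 1)) : ((q2lab hk (Sum.inr c) : Fin (n + 1)) : ℕ) = d + c := by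
  simp [q2lab]

theorem q2lab_last : q2lab hk (Sum.inr (Fin.last k)) = Fin.last n := by
  apply Fin.ext
  rw [q2lab_inr]
  simp only [Fin.val_last]
  omega

/-- the permutation of a shuffle -/
def q2perm (S : Fin d ⊕ Fin (k + 1) ≃ Fin (n + 1)) (σ : Equiv.Perm (Fin d)) :
    Equiv.Perm (Fin (n + 1)) :=
  S.symm.trans ((Equiv.sumCongr σ (Equiv.refl _)).trans (q2lab hk))

/-- the shifts of a shuffle -/
def q2shift (S : Fin d ⊕ Fin (k + 1) ≃ Fin (n + 1)) (b : Fin d → ℝ) (h : ℝ) :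
    Fin (n + 1) → ℝ := fun p => Sum.elim b (fun _ => h) (S.symm p)

/-- fractional parts -/
def q2val (σ : Equiv.Perm (Fin d)) (b : Fin d → ℝ) (h : ℝ) (y : Fin (n + 1) → ℝ) :
    Fin d ⊕ Fin (k + 1) → ℝ :=
  Sum.elim (fun c => y (q2lab hk (Sum.inl (σ c))) - b c)
    (fun c => y (q2lab hk (Sum.inr c)) - h)

theorem q2_mem (S : Fin d ⊕ Fin (k + 1) ≃ Fin (n + 1)) (σ : Equiv.Perm (Fin d))
    (b : Fin d → ℝ) (h a : ℝ) (y : Fin (n + 1) → ℝ) :
    y ∈ cell (q2perm hk S σ) (q2shift S b h) a ↔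
      (∀ x, 0 < q2val hk σ b h y x) ∧
      (∀ x x', S x < S x' ↔ q2val hk σ b h y x < q2val hk σ b h y x') ∧
      ∀ x, q2val hk σ b h y x < a := by
  have hval : ∀ x, y (q2perm hk S σ (S x)) - q2shift S b h (S x) = q2val hk σ b h y x := by
    intro x
    rcases x with c | c <;> simp [q2perm, q2shift, q2val]
  constructor
  · intro hy
    obtain ⟨h0, h1, h2⟩ := hy
    refine ⟨fun x => ?_, fun x x' => ?_, fun x => ?_⟩
    · rw [← hval]; exact h0 (S x)
    · rw [← hval, ← hval]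
      exact (h1.lt_iff_lt (a := S x) (b := S x')).symm
    · rw [← hval]; exact h2 (S x)
  · rintro ⟨h0, h1, h2⟩
    refine ⟨fun p => ?_, fun p p' hpp => ?_, fun p => ?_⟩
    · have := h0 (S.symm p)
      rw [← hval] at this
      simpa using this
    · have := (h1 (S.symm p) (S.symm p')).1 (by simpa using hpp)
      rw [← hval, ← hval] at this
      simpa only [gt_iff_lt, Equiv.apply_symm_apply] using this
    · have := h2 (S.symm p)
      rw [← hval] at this
      simpa using this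

end

/-- the shuffle of a subset -/
noncomputable def q2S {n d k : ℕ} (hk : d + (k + 1) = n + 1)
    (A : {A : Finset (Fin (n + 1)) // A.card = d}) : Fin d ⊕ Fin (k + 1) ≃ Fin (n + 1) :=
  finSumEquivOfFinset A.2 (by rw [Finset.card_compl, A.2, Fintype.card_fin]; omega)

theorem q2S_inj {n d k : ℕ} (hk : d + (k + 1) = n + 1)
    {A A' : {A : Finset (Fin (n + 1)) // A.card = d}} (h : q2S hk A = q2S hk A') : A = A' := by
  have key : ∀ B : {A : Finset (Fin (n + 1)) // A.card = d},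
      (B.1 : Set (Fin (n + 1))) = Set.range fun c : Fin d => q2S hk B (Sum.inl c) := by
    intro B
    have : (fun c : Fin d => q2S hk B (Sum.inl c)) = B.1.orderEmbOfFin B.2 := by
      funext c
      simp [q2S]
    rw [this, Finset.range_orderEmbOfFin]
  apply Subtype.ext
  apply Finset.coe_injective
  rw [key A, key A', h]

theorem q2S_inl_lt {n d k : ℕ} (hk : d + (k + 1) = n + 1)
    (A : {A : Finset (Fin (n + 1)) // A.card = d}) {c c' : Fin d} (h : c < c') :
    q2S hk A (Sum.inl c) < q2S hk A (Sum.inl c') := by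
  simpa [q2S] using h

theorem q2S_inr_lt {n d k : ℕ} (hk : d + (k + 1) = n + 1)
    (A : {A : Finset (Fin (n + 1)) // A.card = d}) {c c' : Fin (k + 1)} (h : c < c') :
    q2S hk A (Sum.inr c) < q2S hk A (Sum.inr c') := by
  simpa [q2S] using h

/-- Over every cell of size `b i` of a packing of the `d`-dimensional simplex of size `h`, the
region of points with exactly `d` coordinates below `h` contains `(n + 1).choose d` cells. -/
theorem prod_cells {n d : ℕ} (hd1 : 1 ≤ d) (hd : d ≤ n) {ι : Type} {b : ι → ℝ} {h s : ℝ}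
    (hb : TPack d b h) (hbs : ∀ i, b i ≤ s) :
    OPackIn n (fun p : ι × Fin ((n + 1).choose d) => b p.1) (Reg n d h s) := by
  classical
  obtain ⟨σ, t, hsub, hdis⟩ := hb
  obtain ⟨k, hk⟩ : ∃ k, d + (k + 1) = n + 1 := ⟨n - d, by omega⟩
  let e : Fin ((n + 1).choose d) ≃ {A : Finset (Fin (n + 1)) // A.card = d} :=
    (Fintype.equivFinOfCardEq (by
      rw [Fintype.card_finset_len, Fintype.card_fin])).symm
  let S : Fin ((n + 1).choose d) → (Fin d ⊕ Fin (k + 1) ≃ Fin (n + 1)) := fun r => q2S hk (e r)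
  -- the base point
  have hbase : ∀ (i : ι) (r : Fin ((n + 1).choose d)) (y : Fin (n + 1) → ℝ),
      y ∈ cell (q2perm hk (S r) (σ i)) (q2shift (S r) (t i) h) (b i) →
      (fun c => y (q2lab hk (Sum.inl c))) ∈ cell (σ i) (t i) (b i) := by
    intro i r y hy
    rw [q2_mem] at hy
    obtain ⟨h0, h1, h2⟩ := hy
    refine ⟨fun c => h0 (Sum.inl c), fun c c' hcc => ?_, fun c => h2 (Sum.inl c)⟩
    exact (h1 (Sum.inl c) (Sum.inl c')).1 (q2S_inl_lt hk (e r) hcc)
  refine ⟨fun p => q2perm hk (S p.2) (σ p.1), fun p => q2shift (S p.2) (t p.1) h,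
    fun p => (S p.2 (Sum.inr (Fin.last k)) : ℕ), ?_, ?_⟩
  · rintro ⟨i, r⟩ y hy
    have hb1 := hsub i (hbase i r y hy)
    have hy' := hy
    rw [q2_mem] at hy'
    obtain ⟨h0, h1, h2⟩ := hy'
    have hlow : ∀ j : Fin (n + 1), (j : ℕ) < d → 0 < y j ∧ y j < h := by
      intro j hj
      have ej : q2lab hk (Sum.inl ⟨j, hj⟩) = j := Fin.ext (q2lab_inl hk _)
      have a0 := hb1.1 ⟨j, hj⟩
      have a1 := hb1.2.2 ⟨j, hj⟩
      simp only [ej] at a0 a1
      exact ⟨a0, a1⟩
    have hhpos : 0 < h := by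
      have := hlow ⟨0, Nat.succ_pos n⟩ hd1
      linarith only [this]
    have etop : ∀ j : Fin (n + 1), d ≤ (j : ℕ) → ∃ c : Fin (k + 1),
        q2lab hk (Sum.inr c) = j := by
      intro j hj
      have h3 := j.2
      refine ⟨⟨(j : ℕ) - d, by omega⟩, Fin.ext ?_⟩
      rw [q2lab_inr]
      simp only
      omega
    have htop : ∀ j : Fin (n + 1), d ≤ (j : ℕ) → h < y j ∧ y j < h + b i := by
      intro j hj
      obtain ⟨c, rfl⟩ := etop j hj
      have a0 := h0 (Sum.inr c)
      have a1 := h2 (Sum.inr c)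
      simp only [q2val, Sum.elim_inr] at a0 a1
      constructor <;> linarith only [a0, a1]
    refine ⟨⟨fun j => ?_, fun j j' hjj => ?_, fun j => ?_⟩, fun j hj => (hlow j hj).2,
      fun j hj => (htop j hj).1⟩
    · rcases lt_or_ge (j : ℕ) d with hj | hj
      · exact (hlow j hj).1
      · have := (htop j hj).1
        linarith only [hhpos, this]
    · rcases lt_or_ge (j : ℕ) d with hj | hj
      · rcases lt_or_ge (j' : ℕ) d with hj' | hj'
        · have ej : q2lab hk (Sum.inl ⟨j, hj⟩) = j := Fin.ext (q2lab_inl hk _)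
          have ej' : q2lab hk (Sum.inl ⟨j', hj'⟩) = j' := Fin.ext (q2lab_inl hk _)
          have a := hb1.2.1 (show (⟨j, hj⟩ : Fin d) < ⟨j', hj'⟩ from hjj)
          simp only [ej, ej'] at a
          exact a
        · have a1 := (hlow j hj).2
          have a2 := (htop j' hj').1
          linarith only [a1, a2]
      · have hj' : d ≤ (j' : ℕ) := hj.trans (le_of_lt hjj)
        obtain ⟨c, rfl⟩ := etop j hj
        obtain ⟨c', rfl⟩ := etop j' hj'
        have hcc : c < c' := by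
          have h3 : ((q2lab hk (Sum.inr c) : Fin (n + 1)) : ℕ) <
            ((q2lab hk (Sum.inr c') : Fin (n + 1)) : ℕ) := hjj
          rw [q2lab_inr, q2lab_inr] at h3
          exact Fin.lt_def.2 (by omega)
        have a := (h1 (Sum.inr c) (Sum.inr c')).1 (q2S_inr_lt hk (e r) hcc)
        simp only [q2val, Sum.elim_inr] at a
        linarith only [a]
    · rcases lt_or_ge (j : ℕ) d with hj | hj
      · have a1 := (hlow j hj).2
        have a2 := (htop (Fin.last n) (by simpa using hd))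
        have a3 := hbs i
        linarith only [a1, a2, a3]
      · have a1 := (htop j hj).2
        have a3 := hbs i
        linarith only [a1, a3]
  · rintro ⟨i, r⟩ ⟨i', r'⟩ hne hkey y hy y' hy' hag
    simp only at hy hy' hkey
    have hbb : (fun c => y (q2lab hk (Sum.inl c))) = fun c => y' (q2lab hk (Sum.inl c)) := by
      funext c
      apply hag
      rw [q2lab_inl]
      exact lt_of_lt_of_le c.2 hd
    by_cases hii : i = i'
    · subst hii
      by_contra hcon
      rw [not_lt] at hcon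
      rw [q2_mem] at hy hy'
      obtain ⟨h0, h1, h2⟩ := hy
      obtain ⟨h0', h1', h2'⟩ := hy'
      have hS : S r = S r' := by
        refine q2_order (S r) (S r') (l := Sum.inr (Fin.last k)) h1 h1' ?_ ?_ hkey
        · intro x hx
          rcases x with c | c
          · simp only [q2val, Sum.elim_inl]
            have := congrFun hbb (σ i c)
            rw [this]
          · simp only [q2val, Sum.elim_inr]
            rw [hag]
            rw [q2lab_inr]
            have h3 : c ≠ Fin.last k := fun h => hx (by rw [h])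
            have h4 : (c : ℕ) ≠ k := fun h => h3 (Fin.ext (by simpa using h))
            have h5 := c.2
            omega
        · simp only [q2val, Sum.elim_inr, q2lab_last]
          linarith only [hcon]
      have hrr : r = r' := e.injective (q2S_inj hk hS)
      exact hne (by rw [hrr])
    · exfalso
      have a := hbase i r y hy
      have a' := hbase i' r' y' hy'
      rw [← hbb] at a'
      exact Set.disjoint_left.1 (hdis hii) a a'

end Vale.Agent.P209.MM
end
end
end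
end

section

section

section

section

namespace Vale.Agent.P209.MM

open Vale.Agent.P209

/-! Q4. Filling one region with consecutive balls. -/

private lemma q4_block (N C : ℕ) (hC : 1 ≤ C) (x : ℕ → ℝ) (hx : Antitone x)
    (hx0 : ∀ i, 0 ≤ x i) (m : ℕ) :
    x m ^ N + ((C : ℝ) - 1) * x (m + C) ^ N ≤ ∑ c ∈ Finset.range C, x (m + c) ^ N := by
  obtain ⟨C', rfl⟩ : ∃ C', C = C' + 1 := ⟨C - 1, by omega⟩
  rw [Finset.sum_range_succ', add_comm, add_zero]
  have h1 : ∑ _c ∈ Finset.range C', x (m + (C' + 1)) ^ N ≤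
      ∑ c ∈ Finset.range C', x (m + (c + 1)) ^ N := by
    refine Finset.sum_le_sum fun c hc => ?_
    have hc' := Finset.mem_range.1 hc
    exact pow_le_pow_left₀ (hx0 _) (hx (by omega)) N
  rw [Finset.sum_const, Finset.card_range, nsmul_eq_mul] at h1
  push_cast
  linarith only [h1]

private lemma q4_vol (N C : ℕ) (hC : 1 ≤ C) (x : ℕ → ℝ) (hx : Antitone x)
    (hx0 : ∀ i, 0 ≤ x i) (p : ℕ) :
    x 0 ^ N + (C : ℝ) * ∑ g ∈ Finset.Ico 1 (p + 1), x (g * C) ^ N +
      ((C : ℝ) - 1) * x ((p + 1) * C) ^ N ≤ ∑ i ∈ Finset.range ((p + 1) * C), x i ^ N := by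
  induction p with
  | zero =>
    have h := q4_block N C hC x hx hx0 0
    simp only [zero_add] at h
    simpa only [zero_add, Std.le_refl, Finset.Ico_eq_empty_of_le, Finset.sum_empty, mul_zero, add_zero, one_mul,     ge_iff_le] using h
  | succ p ih =>
    have h := q4_block N C hC x hx hx0 ((p + 1) * C)
    have e1 : (p + 1 + 1) * C = (p + 1) * C + C := by ring
    rw [e1, Finset.sum_range_add, Finset.sum_Ico_succ_top (by omega)]
    linarith only [ih, h]

private lemma q4_pack (n d : ℕ) (hd1 : 1 ≤ d) (hd : d ≤ n) (IH : MMd d) (x : ℕ → ℝ)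
    (hx : Antitone x) (hx0 : ∀ i, 0 ≤ x i) {h s : ℝ} (hxh : x 0 < h) (hxs : x 0 ≤ s)
    (p : ℕ)
    (hp : ∑ g ∈ Finset.Ico 1 p, x (g * (n + 1).choose d) ^ d < (h - x 0) ^ d) :
    OPackIn n (fun i : Fin (p * (n + 1).choose d) => x i) (Reg n d h s) := by
  have h1 := IH p (fun g => x (g * (n + 1).choose d)) h
    (fun a b hab => hx (Nat.mul_le_mul_right _ hab)) (fun _ => hx0 _)
    (by simpa using hxh) (by simpa only [zero_mul] using hp)
  have h2 := prod_cells (n := n) (s := s) hd1 hd h1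
    (fun i => (hx (Nat.zero_le _)).trans hxs)
  have h3 := h2.comp (f := (finProdFinEquiv (m := p) (n := (n + 1).choose d)).symm)
    (Equiv.injective _)
  refine h3.mono (fun i => ?_) (subset_refl _)
  refine hx ?_
  show ((finProdFinEquiv.symm i).1 : ℕ) * (n + 1).choose d ≤ (i : ℕ)
  have e : ((finProdFinEquiv.symm i).1 : ℕ) = (i : ℕ) / (n + 1).choose d := rfl
  rw [e]
  exact Nat.div_mul_le_self _ _

/-- Either all balls are placed, or the balls placed have large volume. -/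
theorem class_fill (n d : ℕ) (hd1 : 1 ≤ d) (hd : d ≤ n) (IH : MMd d) (k : ℕ) (x : ℕ → ℝ)
    (hx : Antitone x) (hx0 : ∀ i, 0 ≤ x i) {h s : ℝ} (hxh : x 0 < h) (hxs : x 0 ≤ s) :
    ∃ t : ℕ, 1 ≤ t ∧ OPackIn n (fun i : Fin t => x i) (Reg n d h s) ∧
      (k ≤ t ∨ x 0 ^ (n + 1) - x t ^ (n + 1) +
        ((n + 1).choose d : ℝ) * x t ^ (n + 1 - d) * (h - x 0) ^ d ≤
          ∑ i ∈ Finset.range t, x i ^ (n + 1)) := by
  classical
  have hC : 1 ≤ (n + 1).choose d := Nat.choose_pos (by omega)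
  have hpos : 0 < (h - x 0) ^ d := pow_pos (by linarith only [hxh]) d
  by_cases hex : ∃ p : ℕ, (h - x 0) ^ d ≤
      ∑ g ∈ Finset.Ico 1 (p + 1), x (g * (n + 1).choose d) ^ d
  · have hfind := Nat.find_spec hex
    have hmin := fun q => Nat.find_min hex (m := q)
    set p0 := Nat.find hex with hp0
    have hp1 : p0 ≠ 0 := by
      intro h0
      rw [h0] at hfind
      simp at hfind
      linarith only [hpos, hfind]
    obtain ⟨p, hp⟩ : ∃ p, p0 = p + 1 := ⟨p0 - 1, by omega⟩
    have hlt : ∑ g ∈ Finset.Ico 1 (p + 1), x (g * (n + 1).choose d) ^ d < (h - x 0) ^ d := by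
      have := hmin p (by omega)
      exact not_le.1 this
    refine ⟨(p + 1) * (n + 1).choose d, ?_, ?_, Or.inr ?_⟩
    · exact Nat.mul_pos (by omega) hC
    · exact q4_pack n d hd1 hd IH x hx hx0 hxh hxs (p + 1) hlt
    · rw [hp] at hfind
      have hv := q4_vol (n + 1) ((n + 1).choose d) hC x hx hx0 p
      set C := (n + 1).choose d with hCdef
      set y := x ((p + 1) * C) with hy
      have hy0 : 0 ≤ y := hx0 _
      rw [Finset.sum_Ico_succ_top (by omega)] at hfind
      have hsum : y ^ (n + 1 - d) * ∑ g ∈ Finset.Ico 1 (p + 1), x (g * C) ^ d ≤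
          ∑ g ∈ Finset.Ico 1 (p + 1), x (g * C) ^ (n + 1) := by
        rw [Finset.mul_sum]
        refine Finset.sum_le_sum fun g hg => ?_
        have hg' := (Finset.mem_Ico.1 hg).2
        have e : n + 1 = (n + 1 - d) + d := by omega
        have e2 : x (g * C) ^ (n + 1) = x (g * C) ^ (n + 1 - d) * x (g * C) ^ d := by
          rw [← pow_add, ← e]
        rw [e2]
        refine mul_le_mul_of_nonneg_right ?_ (pow_nonneg (hx0 _) _)
        exact pow_le_pow_left₀ hy0 (hx (Nat.mul_le_mul_right _ (by omega))) _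
      have hyN : y ^ (n + 1) = y ^ (n + 1 - d) * y ^ d := by
        rw [← pow_add]
        congr 1
        omega
      have hCr : (1 : ℝ) ≤ (C : ℝ) := by exact_mod_cast hC
      have hyp : 0 ≤ y ^ (n + 1 - d) := pow_nonneg hy0 _
      have h1 : y ^ (n + 1 - d) * ((h - x 0) ^ d - y ^ d) ≤
          y ^ (n + 1 - d) * ∑ g ∈ Finset.Ico 1 (p + 1), x (g * C) ^ d :=
        mul_le_mul_of_nonneg_left (by linarith only [hfind]) hyp
      have h2 : (C : ℝ) * (y ^ (n + 1 - d) * ((h - x 0) ^ d - y ^ d)) ≤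
          (C : ℝ) * ∑ g ∈ Finset.Ico 1 (p + 1), x (g * C) ^ (n + 1) :=
        mul_le_mul_of_nonneg_left (h1.trans hsum) (by linarith only [])
      have h3 : x 0 ^ (n + 1) - y ^ (n + 1) + (C : ℝ) * y ^ (n + 1 - d) * (h - x 0) ^ d =
          x 0 ^ (n + 1) + (C : ℝ) * (y ^ (n + 1 - d) * ((h - x 0) ^ d - y ^ d)) +
            ((C : ℝ) - 1) * y ^ (n + 1) := by
        rw [hyN]
        ring
      rw [h3]
      linarith only [hv, h2]
  · push Not at hex
    refine ⟨(k + 1) * (n + 1).choose d, ?_, ?_, Or.inl ?_⟩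
    · exact Nat.mul_pos (by omega) hC
    · exact q4_pack n d hd1 hd IH x hx hx0 hxh hxs (k + 1) (hex k)
    · calc k ≤ (k + 1) * 1 := by omega
        _ ≤ (k + 1) * (n + 1).choose d := Nat.mul_le_mul_left _ hC

end Vale.Agent.P209.MM
end
end
end
end

section

section

section

section

namespace Vale.Agent.P209.MM

open Vale.Agent.P209

/-! Q5. Filling one layer. -/

/-- Filling the part of the layer where at most `m` coordinates are below `h`. -/
theorem layer_fill_aux (n : ℕ) (IH : ∀ d, 1 ≤ d → d ≤ n → MMd d) (k : ℕ) (x : ℕ → ℝ)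
    (hx : Antitone x) (hx0 : ∀ i, 0 ≤ x i) {h : ℝ} (hxh : x 1 < h) (m : ℕ) (hm : m ≤ n) :
    ∃ t : ℕ, 1 ≤ t ∧ OPackIn n (fun i : Fin t => x i) (RegLe n m h (x 0)) ∧
      (k ≤ t ∨ ∑ i ∈ Finset.range (m + 1),
        ((n + 1).choose i : ℝ) * x t ^ (n + 1 - i) * (h - x t) ^ i - x t ^ (n + 1) ≤
          ∑ i ∈ Finset.Ico 1 t, x i ^ (n + 1)) := by
  induction m with
  | zero =>
    have hh : 0 ≤ h := (hx0 1).trans hxh.le
    refine ⟨1, le_rfl, ?_, Or.inr ?_⟩
    · refine (OPackIn.single (n := n) hh (le_refl (x 0))).mono (fun i => ?_) (fun y hy => ?_)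
      · rw [Subsingleton.elim i 0]
        exact le_rfl
      · exact ⟨hy.1, hy.2.2⟩
    · simp only [zero_add, Finset.range_one, Finset.sum_singleton, Nat.choose_zero_right, Nat.cast_one, tsub_zero, one_mul, pow_zero, mul_one, sub_self, Std.le_refl, Finset.Ico_eq_empty_of_le, Finset.sum_empty]
  | succ m ih =>
    obtain ⟨t, ht1, hpack, halt⟩ := ih (by omega)
    have hmono : RegLe n m h (x 0) ⊆ RegLe n (m + 1) h (x 0) := fun y hy =>
      ⟨hy.1, fun i hi => hy.2 i (by omega)⟩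
    rcases halt with hkt | hvol
    · exact ⟨t, ht1, hpack.mono (fun _ => le_rfl) hmono, Or.inl hkt⟩
    · obtain ⟨t', ht1', hpack', halt'⟩ := class_fill n (m + 1) (by omega) hm
        (IH (m + 1) (by omega) hm) k (fun i => x (t + i))
        (fun a b hab => hx (by omega)) (fun _ => hx0 _) (h := h) (s := x 0)
        (lt_of_le_of_lt (hx (by omega : 1 ≤ t + 0)) hxh) (hx (Nat.zero_le _))
      have hun := OPackIn.union hpack hpack' hmono
        (Ω := RegLe n (m + 1) h (x 0)) (fun y hy => ⟨hy.1, hy.2.2⟩) (by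
          intro y hy y' hy' hyy
          exfalso
          have h1 := hy.2 ⟨m, by omega⟩ le_rfl
          have h2 := hy'.2.1 ⟨m, by omega⟩ (Nat.lt_succ_self m)
          have h3 := hyy ⟨m, by omega⟩ (by
            show m < n
            omega)
          linarith only [h1, h2, h3])
      have hre := hun.comp (f := (finSumFinEquiv (m := t) (n := t')).symm) (Equiv.injective _)
      refine ⟨t + t', by omega, ?_, ?_⟩
      · refine hre.mono (fun i => ?_) (subset_refl _)
        refine Fin.addCases (fun i => ?_) (fun i => ?_) i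
        · rw [finSumFinEquiv_symm_apply_castAdd]
          exact le_rfl
        · rw [finSumFinEquiv_symm_apply_natAdd]
          exact le_rfl
      · rcases halt' with hk' | hvol'
        · exact Or.inl (by omega)
        · refine Or.inr ?_
          have hs := star_step (n + 1) (m + 1) (by omega) (by omega) (h := h) (w := x t)
            (v := x (t + t')) (hx0 _) (hx (by omega))
            ((hx (by omega : 1 ≤ t)).trans hxh.le)
          have e1 : ∑ i ∈ Finset.Ico 1 (t + t'), x i ^ (n + 1) =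
              ∑ i ∈ Finset.Ico 1 t, x i ^ (n + 1) +
                ∑ i ∈ Finset.range t', x (t + i) ^ (n + 1) := by
            rw [← Finset.sum_Ico_consecutive _ ht1 (by omega : t ≤ t + t'),
              Finset.sum_Ico_eq_sum_range _ t (t + t'), Nat.add_sub_cancel_left]
          rw [e1]
          simp only [add_zero] at hvol'
          linarith only [hvol, hs, hvol']

theorem layer_fill (n : ℕ) (IH : ∀ d, 1 ≤ d → d ≤ n → MMd d) (k : ℕ) (x : ℕ → ℝ)
    (hx : Antitone x) (hx0 : ∀ i, 0 ≤ x i) {h : ℝ} (hxh : x 1 < h) :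
    ∃ t : ℕ, 1 ≤ t ∧ OPackIn n (fun i : Fin t => x i) (RegLe n n h (x 0)) ∧
      (k ≤ t ∨ h ^ (n + 1) - (h - x t) ^ (n + 1) - x t ^ (n + 1) ≤
          ∑ i ∈ Finset.Ico 1 t, x i ^ (n + 1)) := by
  obtain ⟨t, h1, h2, h3⟩ := layer_fill_aux n IH k x hx hx0 hxh n le_rfl
  rw [star_top] at h3
  exact ⟨t, h1, h2, h3⟩

end Vale.Agent.P209.MM
end
end
end
end

section

section

section

section
open Complex
open scoped ContDiff

namespace Vale.Agent.P209

noncomputable def actn {n : ℕ} (A : Matrix (Fin n) (Fin n) ℤ) (v : Fin n → ℝ) (z : Fin n → ℂ) (j : Fin n) : ℝ :=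
  ∑ k, (A j k : ℝ) * (Real.pi * normSq (z k)) + v j

noncomputable def Psi {n : ℕ} (A B : Matrix (Fin n) (Fin n) ℤ) (v : Fin n → ℝ) (z : Fin n → ℂ) :
    Fin n → ℂ :=
  fun j => ((Real.sqrt (actn A v z j / Real.pi) : ℝ) : ℂ) * ∏ k, (z k / ‖z k‖) ^ (B j k)

theorem unit_eq (w z : ℂ) (hw : w ≠ 0) (hz : z ≠ 0) :
    w / ‖w‖ = (z / ‖z‖) * exp (((log (w / z)).im : ℂ) * I) := by
  have h1 : (w / z) ≠ 0 := div_ne_zero hw hz
  have h2 : exp (((log (w / z)).im : ℂ) * I) = (w / z) / ‖w / z‖ := by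
    rw [eq_div_iff (by simpa using ⟨hw, hz⟩), Complex.log_im, mul_comm]
    exact Complex.norm_mul_exp_arg_mul_I _
  rw [h2]
  rw [norm_div]
  have : (‖w‖ : ℂ) ≠ 0 := by simpa using hw
  have : (‖z‖ : ℂ) ≠ 0 := by simpa using hz
  push_cast
  field_simp

/-- local angle sum -/
noncomputable def angs {n : ℕ} (B : Matrix (Fin n) (Fin n) ℤ) (z0 z : Fin n → ℂ) (j : Fin n) : ℝ :=
  ∑ k, (B j k : ℝ) * (log (z k / z0 k)).im

theorem Psi_eq {n : ℕ} (A B : Matrix (Fin n) (Fin n) ℤ) (v : Fin n → ℝ) (z z0 : Fin n → ℂ)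
    (hz : ∀ k, z k ≠ 0) (hz0 : ∀ k, z0 k ≠ 0) (j : Fin n) :
    Psi A B v z j = (∏ k, (z0 k / ‖z0 k‖) ^ (B j k)) *
      (((Real.sqrt (actn A v z j / Real.pi) : ℝ) : ℂ) * exp ((angs B z0 z j : ℂ) * I)) := by
  have h : ∏ k, (z k / ‖z k‖) ^ (B j k) =
      (∏ k, (z0 k / ‖z0 k‖) ^ (B j k)) * exp ((angs B z0 z j : ℂ) * I) := by
    unfold angs
    push_cast
    rw [Finset.sum_mul, Complex.exp_sum, ← Finset.prod_mul_distrib]
    refine Finset.prod_congr rfl fun k _ => ?_
    rw [unit_eq (z k) (z0 k) (hz k) (hz0 k), mul_zpow, ← Complex.exp_int_mul]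
    congr 2
    ring
  unfold Psi
  rw [h]
  ring

theorem arg_hasFDerivAt (z : ℂ) (hz : z ≠ 0) :
    HasFDerivAt (fun w : ℂ => (log (w / z)).im) 
      (Complex.imCLM.comp ((z⁻¹ : ℂ) • (ContinuousLinearMap.id ℝ ℂ))) z := by
  have h1 : HasDerivAt (fun w : ℂ => log (w / z)) (z⁻¹) z := by
    have h2 : HasDerivAt (fun w : ℂ => w / z) (z⁻¹) z := by
      simpa using (hasDerivAt_id z).div_const z
    have h3 := h2.clog (by rw [div_self hz]; simp)
    simpa [div_self hz] using h3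
  have h4 : HasFDerivAt (fun w : ℂ => log (w / z)) ((z⁻¹ : ℂ) • (ContinuousLinearMap.id ℝ ℂ)) z := by
    have := h1.hasFDerivAt.restrictScalars ℝ
    refine this.congr_fderiv ?_
    ext
    simp [mul_comm]
  exact Complex.imCLM.hasFDerivAt.comp z h4

theorem angs_hasFDerivAt {n : ℕ} (B : Matrix (Fin n) (Fin n) ℤ) (z : Fin n → ℂ)
    (hz : ∀ k, z k ≠ 0) (j : Fin n) :
    ∃ L : (Fin n → ℂ) →L[ℝ] ℝ, HasFDerivAt (fun w => angs B z w j) L z ∧
      ∀ v, L v = ∑ k, (B j k : ℝ) * ((z k)⁻¹ * v k).im := by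
  have h1 : ∀ k, HasFDerivAt (fun w : Fin n → ℂ => (log (w k / z k)).im)
      ((Complex.imCLM.comp ((z k)⁻¹ • (ContinuousLinearMap.id ℝ ℂ))).comp
        (ContinuousLinearMap.proj (R := ℝ) k)) z := by
    intro k
    exact HasFDerivAt.comp (g := fun w : ℂ => (log (w / z k)).im) (f := fun w : Fin n → ℂ => w k) z
      (arg_hasFDerivAt (z k) (hz k)) (hasFDerivAt_apply k z)
  have h2 := HasFDerivAt.fun_sum (u := Finset.univ) fun k _ => (h1 k).const_mul (B j k : ℝ)
  refine ⟨_, h2, ?_⟩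
  intro v
  simp only [sum_apply, smul_apply, ContinuousLinearMap.comp_apply, ContinuousLinearMap.proj_apply, ContinuousLinearMap.id_apply, smul_eq_mul, imCLM_apply, mul_im, inv_re, inv_im]

theorem actn_hasFDerivAt {n : ℕ} (A : Matrix (Fin n) (Fin n) ℤ) (v : Fin n → ℝ) (z : Fin n → ℂ)
    (j : Fin n) :
    ∃ L : (Fin n → ℂ) →L[ℝ] ℝ, HasFDerivAt (fun w => actn A v w j) L z ∧
      ∀ u, L u = 2 * Real.pi * ∑ k, (A j k : ℝ) * ((z k).re * (u k).re + (z k).im * (u k).im) := by
  have h1 : ∀ k, HasFDerivAt (fun w : Fin n → ℂ => normSq (w k))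
      (((2 * (z k).re) • Complex.reCLM + (2 * (z k).im) • Complex.imCLM).comp
        (ContinuousLinearMap.proj (R := ℝ) k)) z := by
    intro k
    exact HasFDerivAt.comp (g := fun w : ℂ => normSq w) (f := fun w : Fin n → ℂ => w k) z
      (normSq_hasFDerivAt (z k)) (hasFDerivAt_apply k z)
  have h2 := HasFDerivAt.fun_sum (u := Finset.univ) fun k _ =>
    ((h1 k).const_mul Real.pi).const_mul (A j k : ℝ)
  refine ⟨_, h2.add_const (v j), ?_⟩
  intro u
  simp only [ContinuousLinearMap.add_comp, ContinuousLinearMap.smul_comp, smul_add, sum_apply, add_apply, smul_apply, ContinuousLinearMap.comp_apply, ContinuousLinearMap.proj_apply, reCLM_apply, smul_eq_mul, imCLM_apply, Finset.mul_sum]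
  refine Finset.sum_congr rfl fun k _ => ?_
  ring

/-- The set on which `Psi` is well-behaved. -/
def good {n : ℕ} (A : Matrix (Fin n) (Fin n) ℤ) (v : Fin n → ℝ) : Set (Fin n → ℂ) :=
  {z | (∀ k, z k ≠ 0) ∧ ∀ j, 0 < actn A v z j}

theorem good_nonzero_open {n : ℕ} : IsOpen {z : Fin n → ℂ | ∀ k, z k ≠ 0} := by
  have : {z : Fin n → ℂ | ∀ k, z k ≠ 0} = ⋂ k, {z : Fin n → ℂ | z k ≠ 0} := by
    ext z; simp only [ne_eq, Set.mem_ofPred_eq, Set.mem_iInter]
  rw [this]
  exact isOpen_iInter_of_finite fun k => isOpen_ne_fun (continuous_apply k) continuous_const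

theorem actn_contDiff {n : ℕ} (A : Matrix (Fin n) (Fin n) ℤ) (v : Fin n → ℝ) (j : Fin n) :
    ContDiff ℝ ∞ (fun z => actn A v z j) := by
  unfold actn
  refine (ContDiff.sum fun k _ => ?_).add contDiff_const
  exact contDiff_const.mul (contDiff_const.mul (normSq_contDiff.comp
    (ContinuousLinearMap.proj (R := ℝ) k : (Fin n → ℂ) →L[ℝ] ℂ).contDiff))

theorem good_isOpen {n : ℕ} (A : Matrix (Fin n) (Fin n) ℤ) (v : Fin n → ℝ) :
    IsOpen (good A v) := by
  have : good A v = {z : Fin n → ℂ | ∀ k, z k ≠ 0} ∩ ⋂ j, {z | 0 < actn A v z j} := by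
    ext z; simp only [good, ne_eq, Set.mem_ofPred_eq, Set.mem_inter_iff, Set.mem_iInter]
  rw [this]
  refine good_nonzero_open.inter (isOpen_iInter_of_finite fun j => ?_)
  exact isOpen_lt continuous_const (actn_contDiff A v j).continuous

theorem angs_contDiffAt {n : ℕ} (B : Matrix (Fin n) (Fin n) ℤ) (z : Fin n → ℂ)
    (hz : ∀ k, z k ≠ 0) (j : Fin n) : ContDiffAt ℝ ∞ (fun w => angs B z w j) z := by
  unfold angs
  refine ContDiffAt.sum fun k _ => contDiffAt_const.mul ?_
  have h1 : ContDiffAt ℝ ∞ (fun w : ℂ => log (w / z k)) (z k) := by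
    have h2 : ContDiffAt ℝ ∞ (fun w : ℂ => w / z k) (z k) := contDiffAt_id.div_const _
    have h3 : ContDiffAt ℝ ∞ log ((fun w : ℂ => w / z k) (z k)) := by
      refine (Complex.contDiffAt_log ?_).restrict_scalars ℝ
      show z k / z k ∈ slitPlane
      rw [div_self (hz k)]; simp
    exact ContDiffAt.comp (g := log) (f := fun w : ℂ => w / z k) (z k) h3 h2
  have h4 : ContDiffAt ℝ ∞ (fun w : ℂ => (log (w / z k)).im) (z k) :=
    Complex.imCLM.contDiff.contDiffAt.comp (z k) h1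
  exact ContDiffAt.comp (g := fun w : ℂ => (log (w / z k)).im) (f := fun w : Fin n → ℂ => w k) z h4
    (contDiff_apply ℝ ℂ k).contDiffAt

theorem Psi_contDiffAt {n : ℕ} (A B : Matrix (Fin n) (Fin n) ℤ) (v : Fin n → ℝ) (z : Fin n → ℂ)
    (hz : z ∈ good A v) : ContDiffAt ℝ ∞ (Psi A B v) z := by
  rw [contDiffAt_pi]
  intro j
  have h1 : (fun w => Psi A B v w j) =ᶠ[nhds z] fun w => (∏ k, (z k / ‖z k‖) ^ (B j k)) *
      (((Real.sqrt (actn A v w j / Real.pi) : ℝ) : ℂ) * exp ((angs B z w j : ℂ) * I)) := by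
    filter_upwards [(good_isOpen A v).mem_nhds hz] with w hw
    exact Psi_eq A B v w z hw.1 hz.1 j
  refine ContDiffAt.congr_of_eventuallyEq ?_ h1
  refine contDiffAt_const.mul (ContDiffAt.mul ?_ ?_)
  · refine Complex.ofRealCLM.contDiff.contDiffAt.comp z ?_
    refine ContDiffAt.sqrt ((actn_contDiff A v j).contDiffAt.div_const _) ?_
    have := hz.2 j
    positivity
  · refine Complex.contDiff_exp.contDiffAt.comp z ?_
    refine ContDiffAt.mul ?_ contDiffAt_const
    exact Complex.ofRealCLM.contDiff.contDiffAt.comp z (angs_contDiffAt B z hz.1 j)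

theorem Psi_fderiv {n : ℕ} (A B : Matrix (Fin n) (Fin n) ℤ) (v : Fin n → ℝ) (z : Fin n → ℂ)
    (hz : z ∈ good A v) (j : Fin n) (u : Fin n → ℂ) :
    fderiv ℝ (Psi A B v) z u j = (∏ k, (z k / ‖z k‖) ^ (B j k)) *
      ((((∑ k, (A j k : ℝ) * ((z k).re * (u k).re + (z k).im * (u k).im)) /
        Real.sqrt (actn A v z j / Real.pi) : ℝ) : ℂ) +
      ((Real.sqrt (actn A v z j / Real.pi) *
        (∑ k, (B j k : ℝ) * ((z k)⁻¹ * u k).im) : ℝ) : ℂ) * I) := by
  obtain ⟨L1, hL1, hL1'⟩ := actn_hasFDerivAt A v z j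
  obtain ⟨L2, hL2, hL2'⟩ := angs_hasFDerivAt B z hz.1 j
  have hpos : 0 < actn A v z j / Real.pi := div_pos (hz.2 j) Real.pi_pos
  have h1 : (fun w => Psi A B v w j) =ᶠ[nhds z] fun w => (∏ k, (z k / ‖z k‖) ^ (B j k)) *
      (((Real.sqrt (actn A v w j / Real.pi) : ℝ) : ℂ) * exp ((angs B z w j : ℂ) * I)) := by
    filter_upwards [(good_isOpen A v).mem_nhds hz] with w hw
    exact Psi_eq A B v w z hw.1 hz.1 j
  have hd : DifferentiableAt ℝ (Psi A B v) z :=
    (Psi_contDiffAt A B v z hz).differentiableAt (by simp)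
  have h2 : fderiv ℝ (Psi A B v) z u j = fderiv ℝ (fun w => Psi A B v w j) z u := by
    have := (hasFDerivAt_pi'.1 hd.hasFDerivAt) j
    rw [this.fderiv]
    rfl
  rw [h2, h1.fderiv_eq]
  have h3 : HasFDerivAt (fun w => actn A v w j / Real.pi) (Real.pi⁻¹ • L1) z := by
    simpa [div_eq_mul_inv] using hL1.mul_const Real.pi⁻¹
  have h4 := h3.sqrt hpos.ne'
  have h5 := HasFDerivAt.comp (g := fun x : ℝ => (x : ℂ))
    (f := fun w => Real.sqrt (actn A v w j / Real.pi)) z Complex.ofRealCLM.hasFDerivAt h4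
  have h6 := HasFDerivAt.comp (g := fun x : ℝ => (x : ℂ))
    (f := fun w => angs B z w j) z Complex.ofRealCLM.hasFDerivAt hL2
  have h7 := (h6.mul_const I).cexp
  have h8 := (h5.mul h7).const_mul (∏ k, (z k / ‖z k‖) ^ (B j k))
  have h9 : angs B z z j = 0 := by
    unfold angs
    refine Finset.sum_eq_zero fun k _ => ?_
    rw [div_self (hz.1 k)]
    simp
  have h10 : HasFDerivAt (fun w => (∏ k, (z k / ‖z k‖) ^ (B j k)) *
      (((Real.sqrt (actn A v w j / Real.pi) : ℝ) : ℂ) * exp ((angs B z w j : ℂ) * I))) _ z := h8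
  rw [h10.fderiv]
  have hs : ((Real.sqrt (actn A v z j / Real.pi) : ℝ) : ℂ) ≠ 0 := by
    rw [Complex.ofReal_ne_zero]
    exact (Real.sqrt_pos.2 hpos).ne'
  have hpi : (Real.pi : ℂ) ≠ 0 := by
    rw [Complex.ofReal_ne_zero]
    exact Real.pi_ne_zero
  simp only [add_apply, smul_apply, Function.comp, h9, Complex.ofReal_zero, zero_mul,
    Complex.exp_zero,
    ContinuousLinearMap.comp_apply, Complex.ofRealCLM_apply, hL1', hL2', smul_eq_mul]
  push_cast
  generalize (∑ k, (A j k : ℂ) * (((z k).re : ℂ) * ((u k).re : ℂ) + ((z k).im : ℂ) * ((u k).im : ℂ))) = α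
  generalize (∑ k, (B j k : ℂ) * ((((z k)⁻¹ * u k).im : ℝ) : ℂ)) = β
  field_simp
  ring


theorem norm_unit_prod {n : ℕ} (B : Matrix (Fin n) (Fin n) ℤ) (z : Fin n → ℂ)
    (hz : ∀ k, z k ≠ 0) (j : Fin n) : ‖∏ k, (z k / ‖z k‖) ^ (B j k)‖ = 1 := by
  rw [norm_prod]
  refine Finset.prod_eq_one fun k _ => ?_
  rw [norm_zpow, norm_div, Complex.norm_real, norm_norm, div_self (by simpa using hz k), one_zpow]

theorem om1_eq (c : ℂ) (hc : ‖c‖ = 1) (p q p' q' : ℝ) :
    om1 (c * ((p : ℂ) + (q : ℂ) * I)) (c * ((p' : ℂ) + (q' : ℂ) * I)) = p * q' - q * p' := by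
  rw [om1_rot, Complex.normSq_eq_norm_sq, hc]
  unfold om1
  simp

theorem om1_pair (z u w : ℂ) (hz : z ≠ 0) :
    (z.re * u.re + z.im * u.im) * (z⁻¹ * w).im - (z⁻¹ * u).im * (z.re * w.re + z.im * w.im) =
      om1 u w := by
  have h : normSq z ≠ 0 := by simpa using hz
  unfold om1
  simp only [Complex.mul_im, Complex.inv_re, Complex.inv_im]
  field_simp
  rw [Complex.normSq_apply]
  ring

theorem dot_inv {n : ℕ} (A B : Matrix (Fin n) (Fin n) ℤ) (hAB : A.transpose * B = 1)
    (a t : Fin n → ℝ) :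
    ∑ j, (∑ k, (A j k : ℝ) * a k) * (∑ k, (B j k : ℝ) * t k) = ∑ k, a k * t k := by
  have h1 : ∀ k l, ∑ j, (A j k : ℝ) * (B j l : ℝ) = if k = l then 1 else 0 := by
    intro k l
    have h2 := congrFun (congrFun hAB k) l
    rw [Matrix.mul_apply, Matrix.one_apply] at h2
    simp only [Matrix.transpose_apply] at h2
    exact_mod_cast h2
  calc ∑ j, (∑ k, (A j k : ℝ) * a k) * (∑ l, (B j l : ℝ) * t l)
      = ∑ j, ∑ k, ∑ l, (a k * t l) * ((A j k : ℝ) * (B j l : ℝ)) := by
        refine Finset.sum_congr rfl fun j _ => ?_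
        rw [Finset.sum_mul_sum]
        refine Finset.sum_congr rfl fun k _ => Finset.sum_congr rfl fun l _ => ?_
        ring
    _ = ∑ k, ∑ l, (a k * t l) * ∑ j, (A j k : ℝ) * (B j l : ℝ) := by
        rw [Finset.sum_comm]
        refine Finset.sum_congr rfl fun k _ => ?_
        rw [Finset.sum_comm]
        refine Finset.sum_congr rfl fun l _ => ?_
        rw [Finset.mul_sum]
    _ = ∑ k, a k * t k := by
        refine Finset.sum_congr rfl fun k _ => ?_
        simp only [h1, mul_ite, mul_one, mul_zero, Finset.sum_ite_eq, Finset.mem_univ, ↓reduceIte]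

theorem Psi_sympl {n : ℕ} (A B : Matrix (Fin n) (Fin n) ℤ) (hAB : A.transpose * B = 1)
    (v : Fin n → ℝ) (z : Fin n → ℂ) (hz : z ∈ good A v) (u w : Fin n → ℂ) :
    omega (fderiv ℝ (Psi A B v) z u) (fderiv ℝ (Psi A B v) z w) = omega u w := by
  have h1 : omega (fderiv ℝ (Psi A B v) z u) (fderiv ℝ (Psi A B v) z w) =
      ∑ j, om1 (fderiv ℝ (Psi A B v) z u j) (fderiv ℝ (Psi A B v) z w j) := rfl
  have h2 : omega u w = ∑ j, om1 (u j) (w j) := rfl
  have h3 : ∀ j, om1 (fderiv ℝ (Psi A B v) z u j) (fderiv ℝ (Psi A B v) z w j) =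
      (∑ k, (A j k : ℝ) * ((z k).re * (u k).re + (z k).im * (u k).im)) *
        (∑ k, (B j k : ℝ) * ((z k)⁻¹ * w k).im) -
      (∑ k, (A j k : ℝ) * ((z k).re * (w k).re + (z k).im * (w k).im)) *
        (∑ k, (B j k : ℝ) * ((z k)⁻¹ * u k).im) := by
    intro j
    rw [Psi_fderiv A B v z hz, Psi_fderiv A B v z hz, om1_eq _ (norm_unit_prod B z hz.1 j)]
    have hs : Real.sqrt (actn A v z j / Real.pi) ≠ 0 :=
      (Real.sqrt_pos.2 (div_pos (hz.2 j) Real.pi_pos)).ne'
    field_simp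
  rw [h1, h2]
  simp_rw [h3]
  rw [Finset.sum_sub_distrib, dot_inv A B hAB, dot_inv A B hAB, ← Finset.sum_sub_distrib]
  refine Finset.sum_congr rfl fun k _ => ?_
  rw [← om1_pair (z k) (u k) (w k) (hz.1 k)]
  ring


theorem Psi_norm_sq {n : ℕ} (A B : Matrix (Fin n) (Fin n) ℤ) (v : Fin n → ℝ) (z : Fin n → ℂ)
    (hz : z ∈ good A v) (j : Fin n) : Real.pi * ‖Psi A B v z j‖ ^ 2 = actn A v z j := by
  unfold Psi
  rw [norm_mul, norm_unit_prod B z hz.1 j, mul_one, Complex.norm_real,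
    Real.norm_of_nonneg (Real.sqrt_nonneg _), Real.sq_sqrt (div_pos (hz.2 j) Real.pi_pos).le]
  field_simp

theorem prod_zpow_eq {ι : Type*} (s : Finset ι) (a : ℂ) (ha : a ≠ 0) (f : ι → ℤ) :
    ∏ x ∈ s, a ^ (f x) = a ^ (∑ x ∈ s, f x) := by
  classical
  induction s using Finset.induction_on with
  | empty => simp
  | insert x s hx ih => rw [Finset.prod_insert hx, Finset.sum_insert hx, zpow_add₀ ha, ih]

theorem unit_recover {n : ℕ} (A B : Matrix (Fin n) (Fin n) ℤ) (hAB : A.transpose * B = 1)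
    (u : Fin n → ℂ) (hu : ∀ k, u k ≠ 0) (l : Fin n) :
    ∏ j, (∏ k, u k ^ (B j k)) ^ (A j l) = u l := by
  have h1 : ∀ k l, ∑ j, (B j k) * (A j l) = if k = l then 1 else 0 := by
    intro k l
    have h2 := congrFun (congrFun hAB l) k
    rw [Matrix.mul_apply, Matrix.one_apply] at h2
    simp only [Matrix.transpose_apply] at h2
    rw [← Finset.sum_congr rfl fun j _ => mul_comm (A j l) (B j k), h2]
    simp only [eq_comm]
  calc ∏ j, (∏ k, u k ^ (B j k)) ^ (A j l) = ∏ j, ∏ k, u k ^ (B j k * A j l) := by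
        refine Finset.prod_congr rfl fun j _ => ?_
        rw [← Finset.prod_zpow]
        refine Finset.prod_congr rfl fun k _ => ?_
        rw [zpow_mul]
    _ = ∏ k, u k ^ (∑ j, B j k * A j l) := by
        rw [Finset.prod_comm]
        refine Finset.prod_congr rfl fun k _ => ?_
        exact prod_zpow_eq _ _ (hu k) _
    _ = u l := by
        simp_rw [h1]
        rw [Finset.prod_eq_single l]
        · simp
        · intro k _ hk
          simp [hk]
        · simp only [Finset.mem_univ, not_true_eq_false, ↓reduceIte, zpow_ofNat, pow_one, IsEmpty.forall_iff]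

theorem Psi_injOn {n : ℕ} (A B : Matrix (Fin n) (Fin n) ℤ) (hAB : A.transpose * B = 1)
    (v : Fin n → ℝ) : Set.InjOn (Psi A B v) (good A v) := by
  intro z hz z' hz' h
  have hx : ∀ j, ∑ k, (A j k : ℝ) * (Real.pi * normSq (z k)) =
      ∑ k, (A j k : ℝ) * (Real.pi * normSq (z' k)) := by
    intro j
    have h1 := Psi_norm_sq A B v z hz j
    rw [h, Psi_norm_sq A B v z' hz' j] at h1
    unfold actn at h1
    linarith only [h1]
  have hA : ∀ a a' : Fin n → ℝ, (∀ j, ∑ k, (A j k : ℝ) * a k = ∑ k, (A j k : ℝ) * a' k) →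
      a = a' := by
    intro a a' haa
    funext l
    have h1 := dot_inv A B hAB a (fun k => if k = l then 1 else 0)
    have h2 := dot_inv A B hAB a' (fun k => if k = l then 1 else 0)
    simp only [haa] at h1
    rw [h1] at h2
    simpa only [mul_ite, mul_one, mul_zero, Finset.sum_ite_eq', Finset.mem_univ, ↓reduceIte] using h2
  have hn : ∀ l, normSq (z l) = normSq (z' l) := by
    intro l
    have := congrFun (hA _ _ hx) l
    simpa only [mul_eq_mul_left_iff, Real.pi_ne_zero, or_false] using this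
  have hn' : ∀ l, ‖z l‖ = ‖z' l‖ := by
    intro l
    have := hn l
    rw [Complex.normSq_eq_norm_sq, Complex.normSq_eq_norm_sq] at this
    exact (sq_eq_sq₀ (norm_nonneg _) (norm_nonneg _)).1 this
  have hu : ∀ j, ∏ k, (z k / ‖z k‖) ^ (B j k) = ∏ k, (z' k / ‖z' k‖) ^ (B j k) := by
    intro j
    have h1 := congrFun h j
    unfold Psi at h1
    have h2 : actn A v z j = actn A v z' j := by
      unfold actn
      rw [hx j]
    rw [h2] at h1
    refine mul_left_cancel₀ ?_ h1
    rw [Complex.ofReal_ne_zero]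
    exact (Real.sqrt_pos.2 (div_pos (hz'.2 j) Real.pi_pos)).ne'
  funext l
  have h1 := unit_recover A B hAB (fun k => z k / ‖z k‖)
    (fun k => div_ne_zero (hz.1 k) (by simpa using hz.1 k)) l
  have h2 := unit_recover A B hAB (fun k => z' k / ‖z' k‖)
    (fun k => div_ne_zero (hz'.1 k) (by simpa using hz'.1 k)) l
  simp only [hu] at h1
  rw [h1, ← hn' l] at h2
  have h3 : ((‖z l‖ : ℝ) : ℂ) ≠ 0 := by simpa using hz.1 l
  field_simp at h2
  exact h2

end Vale.Agent.P209
end
end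
end
end

section

section

section

section
open Complex
open scoped ContDiff

namespace Vale.Agent.P209

theorem omega_nondeg {n : ℕ} (v : Fin n → ℂ) (h : ∀ w : Fin n → ℂ, omega v w = 0) : v = 0 := by
  have h1 := h (fun j => I * v j)
  unfold omega at h1
  have h2 : ∀ j ∈ Finset.univ, 0 ≤ (v j).re * (I * v j).im - (v j).im * (I * v j).re := by
    intro j _
    simp only [mul_im, I_re, zero_mul, I_im, one_mul, zero_add, mul_re, zero_sub, mul_neg, sub_neg_eq_add]
    nlinarith only []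
  have h3 := (Finset.sum_eq_zero_iff_of_nonneg h2).1 h1
  funext j
  have h4 := h3 j (Finset.mem_univ j)
  simp only [mul_im, I_re, zero_mul, I_im, one_mul, zero_add, mul_re, zero_sub, mul_neg, sub_neg_eq_add] at h4
  have h5 : (v j).re = 0 := by nlinarith only [h4]
  have h6 : (v j).im = 0 := by nlinarith only [h4]
  exact Complex.ext h5 h6

theorem isOpenEmbedding_of_sympl {n : ℕ} {U : Set (Fin n → ℂ)} (hU : IsOpen U)
    {f : (Fin n → ℂ) → (Fin n → ℂ)} (hf : ContDiffOn ℝ ∞ f U) (hinj : Set.InjOn f U)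
    (hs : ∀ z ∈ U, ∀ v w : Fin n → ℂ, omega (fderiv ℝ f z v) (fderiv ℝ f z w) = omega v w) :
    Topology.IsOpenEmbedding (fun z : U => f z) := by
  refine Topology.IsOpenEmbedding.of_continuous_injective_isOpenMap ?_ ?_ ?_
  · exact continuousOn_iff_continuous_domRestrict.1 hf.continuousOn
  · intro a b hab
    exact Subtype.ext (hinj a.2 b.2 hab)
  · rw [isOpenMap_iff_nhds_le]
    rintro ⟨z, hz⟩
    have hcd : ContDiffAt ℝ ∞ f z := hf.contDiffAt (hU.mem_nhds hz)
    have hstrict : HasStrictFDerivAt f (fderiv ℝ f z) z := hcd.hasStrictFDerivAt (by simp)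
    have hker : Function.Injective (fderiv ℝ f z) := by
      rw [injective_iff_map_eq_zero]
      intro v hv
      refine omega_nondeg v fun w => ?_
      rw [← hs z hz v w, hv]
      simp only [omega, Pi.zero_apply, zero_re, zero_mul, zero_im, sub_self, Finset.sum_const_zero]
    let e : (Fin n → ℂ) ≃ₗ[ℝ] (Fin n → ℂ) :=
      LinearEquiv.ofInjectiveEndo (fderiv ℝ f z : (Fin n → ℂ) →ₗ[ℝ] (Fin n → ℂ)) hker
    let e' : (Fin n → ℂ) ≃L[ℝ] (Fin n → ℂ) := e.toContinuousLinearEquiv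
    have he : (e' : (Fin n → ℂ) →L[ℝ] (Fin n → ℂ)) = fderiv ℝ f z := by
      ext v
      rfl
    rw [← he] at hstrict
    have h1 := hstrict.map_nhds_eq_of_equiv
    have h2 : Filter.map (fun z : U => f z) (nhds ⟨z, hz⟩) = nhds (f z) := by
      have h3 : (fun z : U => f z) = f ∘ Subtype.val := rfl
      rw [h3, ← Filter.map_map, map_nhds_subtype_coe_eq_nhds hz (hU.mem_nhds hz)]
      exact h1
    exact h2.ge

end Vale.Agent.P209
end
end
end
end

section

section

section

section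
open Complex
open scoped ContDiff

namespace Vale.Agent.P209

/-- product of a plane map -/
def prodMap (n : ℕ) (τ : ℂ → ℂ) (z : Fin n → ℂ) : Fin n → ℂ := fun k => τ (z k)

theorem prodMap_contDiff {n : ℕ} {τ : ℂ → ℂ} (h : Sympl1 τ) : ContDiff ℝ ∞ (prodMap n τ) := by
  rw [contDiff_pi]
  intro k
  exact h.smooth.comp (contDiff_apply ℝ ℂ k)

theorem prodMap_inj {n : ℕ} {τ : ℂ → ℂ} (h : Sympl1 τ) : Function.Injective (prodMap n τ) := by
  intro z w hzw
  funext k
  exact h.inj (congrFun hzw k)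

theorem prodMap_fderiv {n : ℕ} {τ : ℂ → ℂ} (h : Sympl1 τ) (z u : Fin n → ℂ) (k : Fin n) :
    fderiv ℝ (prodMap n τ) z u k = fderiv ℝ τ (z k) (u k) := by
  have hd : DifferentiableAt ℝ (prodMap n τ) z :=
    (prodMap_contDiff h).contDiffAt.differentiableAt (by simp)
  have h1 := (hasFDerivAt_pi'.1 hd.hasFDerivAt) k
  have h2 : HasFDerivAt (fun w : Fin n → ℂ => τ (w k))
      ((fderiv ℝ τ (z k)).comp (ContinuousLinearMap.proj (R := ℝ) k)) z :=
    HasFDerivAt.comp (g := τ) (f := fun w : Fin n → ℂ => w k) z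
      (h.smooth.contDiffAt.differentiableAt (by simp)).hasFDerivAt (hasFDerivAt_apply k z)
  have h3 := h1.unique h2
  have h4 := congrArg (fun L => L u) h3
  exact h4

theorem prodMap_sympl {n : ℕ} {τ : ℂ → ℂ} (h : Sympl1 τ) (z u w : Fin n → ℂ) :
    omega (fderiv ℝ (prodMap n τ) z u) (fderiv ℝ (prodMap n τ) z w) = omega u w := by
  unfold omega
  refine Finset.sum_congr rfl fun k _ => ?_
  rw [prodMap_fderiv h, prodMap_fderiv h]
  exact h.sympl (z k) (u k) (w k)

/-- Moving a ball off the coordinate hyperplanes. -/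
theorem exists_off_axes (n : ℕ) (r a : ℝ) (hr : 0 < r) (hra : r < a) :
    ∃ τ : ℂ → ℂ, Sympl1 τ ∧ ∀ z ∈ closedBall n r,
      (∀ k, τ (z k) ≠ 0) ∧ ∑ k, Real.pi * normSq (τ (z k)) < a := by
  set M := Real.sqrt (r / Real.pi) with hM
  have hM0 : 0 ≤ M := Real.sqrt_nonneg _
  have hpi := Real.pi_pos
  set K := Real.pi * n * (2 * M + 1) + 1 with hK
  have hK0 : 0 < K := by (clear * - hr; positivity)
  set ε := min 1 ((a - r) / (2 * K)) with hε
  have hε0 : 0 < ε := lt_min one_pos (div_pos (by linarith only [hra]) (by (clear * - hr; positivity)))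
  obtain ⟨τ, h1, h2, h3⟩ := exists_off_origin M ε hε0
  refine ⟨τ, h1, ?_⟩
  intro z hz
  have hz' : Real.pi * ∑ j, ‖z j‖ ^ 2 ≤ r := hz
  have hzk : ∀ k, ‖z k‖ ≤ M := by
    intro k
    rw [hM]
    refine Real.le_sqrt_of_sq_le ?_
    rw [le_div_iff₀ hpi]
    have : ‖z k‖ ^ 2 ≤ ∑ j, ‖z j‖ ^ 2 :=
      Finset.single_le_sum (f := fun j => ‖z j‖ ^ 2) (fun _ _ => by (clear * -; positivity)) (Finset.mem_univ k)
    nlinarith only [hz', hpi, this]
  refine ⟨fun k => h3 _ (hzk k), ?_⟩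
  have hε1 : ε ≤ 1 := min_le_left _ _
  have hε2 : ε * K ≤ (a - r) / 2 := by
    have : ε ≤ (a - r) / (2 * K) := min_le_right _ _
    rw [le_div_iff₀ (by (clear * - hr; positivity))] at this
    linarith only [this]
  have hterm : ∀ k, Real.pi * normSq (τ (z k)) ≤ Real.pi * ‖z k‖ ^ 2 + Real.pi * (ε * (2 * M + 1)) := by
    intro k
    rw [Complex.normSq_eq_norm_sq, ← mul_add]
    refine mul_le_mul_of_nonneg_left ?_ hpi.le
    have h4 := h2 (z k)
    have h5 : ‖τ (z k)‖ ^ 2 ≤ (‖z k‖ + ε) ^ 2 := by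
      (clear * - h4; gcongr)
    have h6 := hzk k
    nlinarith only [h5, hε0, hε1, h6]
  calc ∑ k, Real.pi * normSq (τ (z k))
      ≤ ∑ k, (Real.pi * ‖z k‖ ^ 2 + Real.pi * (ε * (2 * M + 1))) :=
        Finset.sum_le_sum fun k _ => hterm k
    _ = Real.pi * ∑ k, ‖z k‖ ^ 2 + n * (Real.pi * (ε * (2 * M + 1))) := by
        rw [Finset.sum_add_distrib, ← Finset.mul_sum]
        simp only [Finset.sum_const, Finset.card_univ, Fintype.card_fin, nsmul_eq_mul]
    _ < a := by
        have : n * (Real.pi * (ε * (2 * M + 1))) = ε * (K - 1) := by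
          rw [hK]; ring
        rw [this]
        linarith

/-- The general embedding: plane map followed by an integral affine map of the torus model. -/
theorem isSymplecticEmbedding_comp {n : ℕ} {r : ℝ} {τ : ℂ → ℂ} (hτ : Sympl1 τ)
    (A B : Matrix (Fin n) (Fin n) ℤ) (hAB : A.transpose * B = 1) (v : Fin n → ℝ)
    (h : ∀ z ∈ closedBall n r, prodMap n τ z ∈ good A v) :
    IsSymplecticEmbedding r (fun z => Psi A B v (prodMap n τ z)) := by
  have hcd := prodMap_contDiff (n := n) hτ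
  have hUo : IsOpen (prodMap n τ ⁻¹' good A v) := (good_isOpen A v).preimage hcd.continuous
  have hsm : ContDiffOn ℝ ∞ (fun z => Psi A B v (prodMap n τ z)) (prodMap n τ ⁻¹' good A v) := by
    intro z hz
    exact ((Psi_contDiffAt A B v _ hz).comp z hcd.contDiffAt).contDiffWithinAt
  have hinj : Set.InjOn (fun z => Psi A B v (prodMap n τ z)) (prodMap n τ ⁻¹' good A v) := by
    intro z hz w hw hzw
    exact prodMap_inj hτ (Psi_injOn A B hAB v hz hw hzw)
  have hs : ∀ z ∈ prodMap n τ ⁻¹' good A v, ∀ u w : Fin n → ℂ,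
      omega (fderiv ℝ (fun z => Psi A B v (prodMap n τ z)) z u)
        (fderiv ℝ (fun z => Psi A B v (prodMap n τ z)) z w) = omega u w := by
    intro z hz u w
    have h1 : fderiv ℝ (fun z => Psi A B v (prodMap n τ z)) z =
        (fderiv ℝ (Psi A B v) (prodMap n τ z)).comp (fderiv ℝ (prodMap n τ) z) :=
      fderiv_comp z ((Psi_contDiffAt A B v _ hz).differentiableAt (by simp))
        (hcd.contDiffAt.differentiableAt (by simp))
    rw [h1]
    simp only [ContinuousLinearMap.comp_apply]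
    rw [Psi_sympl A B hAB v _ hz, prodMap_sympl hτ]
  exact ⟨_, hUo, h, hsm, isOpenEmbedding_of_sympl hUo hsm hinj hs, hs⟩


/-- partial sums, as an integer matrix -/
def SM (n : ℕ) : Matrix (Fin n) (Fin n) ℤ := fun i k => if k ≤ i then 1 else 0

/-- differences, as an integer matrix -/
def DM (n : ℕ) : Matrix (Fin n) (Fin n) ℤ :=
  fun i k => (if k = i then 1 else 0) - (if (k : ℕ) + 1 = i then 1 else 0)

/-- permutation matrix -/
def PM {n : ℕ} (σ : Equiv.Perm (Fin n)) : Matrix (Fin n) (Fin n) ℤ :=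
  fun j k => if σ k = j then 1 else 0

theorem DM_mul_SM (n : ℕ) : DM n * SM n = 1 := by
  ext i k
  rw [Matrix.mul_apply, Matrix.one_apply]
  unfold DM SM
  simp only [sub_mul, ite_mul, one_mul, zero_mul, Finset.sum_sub_distrib]
  rw [Finset.sum_ite_eq' Finset.univ i]
  simp only [Finset.mem_univ, if_true]
  have h : ∑ j : Fin n, (if (j : ℕ) + 1 = i then (if k ≤ j then (1 : ℤ) else 0) else 0) =
      if k < i then 1 else 0 := by
    by_cases hi : (i : ℕ) = 0
    · rw [Finset.sum_eq_zero]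
      · rw [if_neg]
        intro hki
        rw [Fin.lt_def] at hki
        omega
      · intro j _
        rw [if_neg]
        omega
    · have hlt : (i : ℕ) - 1 < n := by omega
      rw [Finset.sum_eq_single (⟨(i : ℕ) - 1, hlt⟩ : Fin n)]
      · have h1 : ((⟨(i : ℕ) - 1, hlt⟩ : Fin n) : ℕ) + 1 = i := by
          simp only; omega
        rw [if_pos h1]
        by_cases hk : k < i
        · rw [if_pos hk, if_pos]
          rw [Fin.lt_def] at hk
          rw [Fin.le_def]
          simp only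
          omega
        · rw [if_neg hk, if_neg]
          rw [Fin.lt_def] at hk
          rw [Fin.le_def]
          simp only [not_le]
          omega
      · intro j _ hj
        rw [if_neg]
        intro h2
        apply hj
        ext
        simp
        omega
      · simp only [Finset.mem_univ, not_true_eq_false, ite_eq_right_iff, one_ne_zero, imp_false, not_le, IsEmpty.forall_iff]
  rw [h]
  by_cases h1 : i = k
  · subst h1; simp
  · rw [if_neg h1]
    by_cases h2 : k < i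
    · rw [if_pos h2, if_pos h2.le]; simp
    · rw [if_neg h2, if_neg]
      · simp
      · intro h3
        exact h2 (lt_of_le_of_ne h3 (Ne.symm h1))

theorem SM_mul_DM (n : ℕ) : SM n * DM n = 1 := mul_eq_one_comm.1 (DM_mul_SM n)

theorem PM_tr_mul {n : ℕ} (σ : Equiv.Perm (Fin n)) : (PM σ).transpose * PM σ = 1 := by
  ext i k
  rw [Matrix.mul_apply, Matrix.one_apply]
  simp only [Matrix.transpose_apply, PM, mul_ite, mul_one, mul_zero]
  rw [Finset.sum_eq_single (σ k)]
  · simp [EmbeddingLike.apply_eq_iff_eq]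
  · intro j _ hj
    rw [if_neg (Ne.symm hj)]
  · simp only [Finset.mem_univ, not_true_eq_false, ↓reduceIte, EmbeddingLike.apply_eq_iff_eq, ite_eq_right_iff, one_ne_zero, imp_false, IsEmpty.forall_iff]

/-- the integral matrix of the cell map and its inverse transpose -/
def AM {n : ℕ} (σ : Equiv.Perm (Fin n)) : Matrix (Fin n) (Fin n) ℤ := DM n * PM σ * SM n

def BM {n : ℕ} (σ : Equiv.Perm (Fin n)) : Matrix (Fin n) (Fin n) ℤ :=
  (SM n).transpose * PM σ * (DM n).transpose

theorem AM_tr_mul_BM {n : ℕ} (σ : Equiv.Perm (Fin n)) : (AM σ).transpose * BM σ = 1 := by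
  unfold AM BM
  rw [Matrix.transpose_mul, Matrix.transpose_mul]
  calc (SM n).transpose * ((PM σ).transpose * (DM n).transpose) *
        ((SM n).transpose * PM σ * (DM n).transpose)
      = (SM n).transpose * ((PM σ).transpose * ((DM n).transpose * (SM n).transpose) * PM σ) *
        (DM n).transpose := by
        simp only [Matrix.mul_assoc]
    _ = 1 := by
        rw [← Matrix.transpose_mul, SM_mul_DM, Matrix.transpose_one, Matrix.mul_one, PM_tr_mul,
          Matrix.mul_one, ← Matrix.transpose_mul, DM_mul_SM, Matrix.transpose_one]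

/-- partial sums of a real vector -/
def psum {n : ℕ} (x : Fin n → ℝ) (i : Fin n) : ℝ := ∑ k, (SM n i k : ℝ) * x k

theorem psum_eq {n : ℕ} (x : Fin n → ℝ) (i : Fin n) : psum x i = ∑ k ∈ Finset.Iic i, x k := by
  unfold psum SM
  rw [← Finset.sum_filter_add_sum_filter_not Finset.univ (fun k => k ≤ i)]
  rw [Finset.sum_congr rfl (g := fun k => x k), Finset.sum_eq_zero (s := Finset.univ.filter fun k => ¬ k ≤ i)]
  · rw [add_zero]
    congr 1
    ext k
    simp only [Finset.mem_filter, Finset.mem_univ, true_and, Finset.mem_Iic]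
  · intro k hk
    simp only [not_le, Finset.mem_filter, Finset.mem_univ, true_and] at hk
    simp [hk]
  · intro k hk
    simp only [Finset.mem_filter, Finset.mem_univ, true_and] at hk
    simp [hk]


/-- the real matrix of an integer matrix -/
noncomputable def cm {n : ℕ} (M : Matrix (Fin n) (Fin n) ℤ) : Matrix (Fin n) (Fin n) ℝ :=
  (Int.castRingHom ℝ).mapMatrix M

theorem cm_mul {n : ℕ} (M N : Matrix (Fin n) (Fin n) ℤ) : cm (M * N) = cm M * cm N :=
  map_mul _ _ _

theorem cm_mulVec {n : ℕ} (M : Matrix (Fin n) (Fin n) ℤ) (x : Fin n → ℝ) (i : Fin n) :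
    (cm M).mulVec x i = ∑ k, (M i k : ℝ) * x k := rfl

/-- translation vector of the cell map -/
noncomputable def tv {n : ℕ} (σ : Equiv.Perm (Fin n)) (b : Fin n → ℝ) : Fin n → ℝ :=
  (cm (DM n * PM σ)).mulVec b

theorem PM_mulVec {n : ℕ} (σ : Equiv.Perm (Fin n)) (y : Fin n → ℝ) (i : Fin n) :
    (cm (PM σ)).mulVec y (σ i) = y i := by
  rw [cm_mulVec]
  rw [Finset.sum_eq_single i]
  · simp [PM]
  · intro k _ hk
    simp [PM, hk]
  · simp only [Finset.mem_univ, not_true_eq_false, mul_eq_zero, Int.cast_eq_zero, IsEmpty.forall_iff]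

theorem psum_actn {n : ℕ} (σ : Equiv.Perm (Fin n)) (b : Fin n → ℝ) (z : Fin n → ℂ) (i : Fin n) :
    psum (actn (AM σ) (tv σ b) z) (σ i) = psum (fun k => Real.pi * normSq (z k)) i + b i := by
  have h1 : psum (actn (AM σ) (tv σ b) z) = (cm (SM n)).mulVec ((cm (AM σ)).mulVec
      (fun k => Real.pi * normSq (z k)) + (cm (DM n * PM σ)).mulVec b) := rfl
  have h2 : (cm (SM n)).mulVec ((cm (AM σ)).mulVec
      (fun k => Real.pi * normSq (z k)) + (cm (DM n * PM σ)).mulVec b) =
      (cm (PM σ)).mulVec ((cm (SM n)).mulVec (fun k => Real.pi * normSq (z k)) + b) := by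
    rw [Matrix.mulVec_add, Matrix.mulVec_mulVec, Matrix.mulVec_mulVec, ← cm_mul, ← cm_mul,
      Matrix.mulVec_add, Matrix.mulVec_mulVec, ← cm_mul]
    unfold AM
    rw [← Matrix.mul_assoc, ← Matrix.mul_assoc, SM_mul_DM, Matrix.one_mul]
  rw [h1, h2, PM_mulVec]
  rfl

theorem psum_mem_tri {n : ℕ} {a : ℝ} {x : Fin n → ℝ} (hx : ∀ k, 0 < x k) (hs : ∑ k, x k < a) :
    psum x ∈ tri n a := by
  refine ⟨?_, ?_, ?_⟩
  · intro i
    rw [psum_eq]
    exact Finset.sum_pos (fun k _ => hx k) ⟨i, by simp⟩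
  · intro i j hij
    rw [psum_eq, psum_eq]
    refine Finset.sum_lt_sum_of_subset (i := j) ?_ ?_ ?_ (hx j) ?_
    · intro k hk
      simp at hk ⊢
      exact hk.trans hij.le
    · simp
    · simp [hij]
    · intro k _ _
      exact (hx k).le
  · intro i
    rw [psum_eq]
    refine lt_of_le_of_lt ?_ hs
    exact Finset.sum_le_sum_of_subset_of_nonneg (Finset.subset_univ _) fun k _ _ => (hx k).le

theorem psum_last {n : ℕ} (hn : 0 < n) (x : Fin n → ℝ) : psum x ⟨n - 1, by omega⟩ = ∑ k, x k := by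
  rw [psum_eq]
  congr 1
  ext k
  simp only [Finset.mem_Iic, Finset.mem_univ, iff_true]
  rw [Fin.le_def]
  simp only
  omega

theorem pos_of_psum_mem {n : ℕ} {a : ℝ} {x : Fin n → ℝ} (h : psum x ∈ tri n a) (k : Fin n) :
    0 < x k := by
  by_cases hk : (k : ℕ) = 0
  · have h1 := h.1 k
    rw [psum_eq] at h1
    have h2 : Finset.Iic k = {k} := by
      ext j
      simp only [Finset.mem_Iic, Finset.mem_singleton]
      constructor
      · intro h3
        rw [Fin.le_def] at h3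
        ext
        omega
      · rintro rfl
        exact le_rfl
    rw [h2, Finset.sum_singleton] at h1
    exact h1
  · have hlt : (k : ℕ) - 1 < n := by omega
    have h1 : (⟨(k : ℕ) - 1, hlt⟩ : Fin n) < k := by
      rw [Fin.lt_def]
      simp only [tsub_lt_self_iff, Order.lt_one_iff, and_true]
      omega
    have h2 := h.2.1 h1
    rw [psum_eq, psum_eq] at h2
    have h3 : Finset.Iic k = insert k (Finset.Iic (⟨(k : ℕ) - 1, hlt⟩ : Fin n)) := by
      ext j
      rw [Finset.mem_insert, Finset.mem_Iic, Finset.mem_Iic, Fin.le_def, Fin.le_def]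
      simp only
      constructor
      · intro h4
        by_cases h5 : j = k
        · exact Or.inl h5
        · right
          have : (j : ℕ) ≠ k := fun h6 => h5 (Fin.ext h6)
          omega
      · rintro (rfl | h4)
        · exact le_rfl
        · omega
    rw [h3, Finset.sum_insert] at h2
    · linarith only [h2]
    · rw [Finset.mem_Iic, Fin.le_def]
      simp only
      omega

/-- **Bridge**: a toric packing by simplices gives a symplectic packing by balls. -/
theorem bridge {ι : Type*} {n : ℕ} (hn : 0 < n) {a r : ι → ℝ} {R : ℝ} (h : TPack n a R)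
    (hr : ∀ i, 0 < r i) (hra : ∀ i, r i < a i) : Packs (openBall n R) r := by
  obtain ⟨σ, b, hsub, hdisj⟩ := h
  choose τ hτ hτ' using fun i => exists_off_axes n (r i) (a i) (hr i) (hra i)
  have key : ∀ i, ∀ z ∈ closedBall n (r i),
      psum (actn (AM (σ i)) (tv (σ i) (b i)) (prodMap n (τ i) z)) ∈ cell (σ i) (b i) (a i) := by
    intro i z hz
    show (fun j => _ - _) ∈ tri n (a i)
    simp only [psum_actn, add_sub_cancel_right]
    refine psum_mem_tri (fun k => ?_) (hτ' i z hz).2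
    have h1 := (hτ' i z hz).1 k
    have h2 : 0 < normSq (prodMap n (τ i) z k) := by
      rw [Complex.normSq_pos]
      exact h1
    have := Real.pi_pos
    positivity
  have hgood : ∀ i, ∀ z ∈ closedBall n (r i),
      prodMap n (τ i) z ∈ good (AM (σ i)) (tv (σ i) (b i)) := by
    intro i z hz
    exact ⟨(hτ' i z hz).1, fun j => pos_of_psum_mem (hsub i (key i z hz)) j⟩
  have hval : ∀ i, ∀ z ∈ closedBall n (r i),
      (fun j => Real.pi * ‖Psi (AM (σ i)) (BM (σ i)) (tv (σ i) (b i)) (prodMap n (τ i) z) j‖ ^ 2) =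
        actn (AM (σ i)) (tv (σ i) (b i)) (prodMap n (τ i) z) := by
    intro i z hz
    funext j
    exact Psi_norm_sq _ _ _ _ (hgood i z hz) j
  refine ⟨fun i z => Psi (AM (σ i)) (BM (σ i)) (tv (σ i) (b i)) (prodMap n (τ i) z), ?_, ?_, ?_⟩
  · intro i
    exact isSymplecticEmbedding_comp (hτ i) _ _ (AM_tr_mul_BM (σ i)) _ (hgood i)
  · rintro i _ ⟨z, hz, rfl⟩
    show Real.pi * ∑ j, ‖Psi (AM (σ i)) (BM (σ i)) (tv (σ i) (b i)) (prodMap n (τ i) z) j‖ ^ 2 < R
    rw [Finset.mul_sum]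
    have h1 := hval i z hz
    have h2 := (hsub i (key i z hz)).2.2 ⟨n - 1, by omega⟩
    rw [psum_last hn, ← h1] at h2
    exact h2
  · intro i i' hii'
    rw [Set.disjoint_left]
    rintro _ ⟨z, hz, rfl⟩ ⟨z', hz', hzz'⟩
    have h1 := hval i z hz
    have h2 := hval i' z' hz'
    simp only at hzz'
    have h3 : actn (AM (σ i)) (tv (σ i) (b i)) (prodMap n (τ i) z) =
        actn (AM (σ i')) (tv (σ i') (b i')) (prodMap n (τ i') z') := by
      rw [← h1, ← h2, hzz']
    have h4 := key i z hz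
    have h5 := key i' z' hz'
    rw [← h3] at h5
    exact Set.disjoint_left.1 (hdisj hii') h4 h5

end Vale.Agent.P209
end
end
end
end

section

section

section

section

namespace Vale.Agent.P209

/-- `TPack` for at most `2^(n+1)` simplices of dimension `n+1` satisfying the two-ball condition. -/
theorem tpack_small (n k : ℕ) (R : ℝ) (r : Fin k → ℝ) (hk : k ≤ 2 ^ (n + 1)) (hR : 0 < R)
    (hr : ∀ i, 0 < r i) (hvol : ∑ i, r i ^ (n + 1) < R ^ (n + 1))
    (hpair : ∀ i j, i < j → r i + r j < R) :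
    ∃ a : Fin k → ℝ, (∀ i, r i < a i) ∧ TPack (n + 1) a R := by
  have hone : ∀ i, r i < R := by
    intro i
    have h1 : r i ^ (n + 1) ≤ ∑ i, r i ^ (n + 1) :=
      Finset.single_le_sum (f := fun i => r i ^ (n + 1)) (fun j _ => by have := hr j; positivity)
        (Finset.mem_univ i)
    exact lt_of_pow_lt_pow_left₀ (n + 1) hR.le (h1.trans_lt hvol)
  have hpair' : ∀ i j, i ≠ j → r i + r j < R := by
    intro i j hij
    rcases lt_or_gt_of_ne hij with h | h
    · exact hpair i j h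
    · rw [add_comm]; exact hpair j i h
  by_cases hbig : ∀ i, r i < R / 2
  · -- all balls are smaller than half
    have hcard : Fintype.card (Fin k) ≤ Fintype.card (Fin (n + 1) → Fin 2) := by simpa only [Fintype.card_fin, Fintype.card_pi, Finset.prod_const, Finset.card_univ] using hk
    obtain ⟨e⟩ := Function.Embedding.nonempty_of_card_le hcard
    refine ⟨fun _ => R / 2, hbig, ?_⟩
    have h1 := TPack.words_all (n := n) 2 (s := R / 2) (R := R) (by positivity)
      (by push_cast; linarith only [])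
    exact h1.comp e.injective
  · push Not at hbig
    obtain ⟨i0, hi0⟩ := hbig
    -- choose the common size of the other simplices
    obtain ⟨s, hs1, hs2, hs3⟩ : ∃ s : ℝ, (∀ i, i ≠ i0 → r i < s) ∧ 0 < s ∧ s < R - r i0 := by
      have hfin : ∀ t : Finset (Fin k), i0 ∉ t → ∃ s : ℝ, (∀ i ∈ t, r i < s) ∧ 0 < s ∧
          s < R - r i0 := by
        intro t ht
        by_cases hne : t.Nonempty
        · obtain ⟨j, hj, hj'⟩ := t.exists_max_image r hne
          have h1 : j ≠ i0 := fun h => ht (h ▸ hj)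
          have h2 := hpair' j i0 h1
          have h3 := hr j
          refine ⟨(r j + (R - r i0)) / 2, ?_, ?_, ?_⟩
          · intro i hi
            have := hj' i hi
            linarith only [h2, this]
          · linarith only [h2, h3]
          · linarith only [h2]
        · rw [Finset.not_nonempty_iff_eq_empty] at hne
          subst hne
          have h2 := hone i0
          exact ⟨(R - r i0) / 2, by simp, by linarith only [h2], by linarith only [h2]⟩
      obtain ⟨s, h1, h2, h3⟩ := hfin (Finset.univ.erase i0) (by simp only [Finset.mem_erase, ne_eq, not_true_eq_false, Finset.mem_univ, and_true, not_false_eq_true])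
      exact ⟨s, fun i hi => h1 i (by simp only [Finset.mem_erase, ne_eq, hi, not_false_eq_true, Finset.mem_univ, and_self]), h2, h3⟩
    have hcard : Fintype.card {i : Fin k // i ≠ i0} ≤
        Fintype.card {w : Fin (n + 1) → Fin 2 // ∃ i, 1 ≤ (w i : ℕ)} := by
      rw [card_words (n + 1) 2 1 (by norm_num)]
      have h1 : Fintype.card {i : Fin k // i ≠ i0} = k - 1 := by
        rw [Fintype.card_subtype_compl]
        simp only [Fintype.card_fin, Fintype.card_unique]
      rw [h1, one_pow]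
      exact Nat.sub_le_sub_right hk 1
    obtain ⟨e⟩ := Function.Embedding.nonempty_of_card_le hcard
    have hw := TPack.words (n := n) 2 1 (by norm_num) hs2 (R := R) (by push_cast; linarith only [hi0, hs3])
    let f : Fin k → Option {w : Fin (n + 1) → Fin 2 // ∃ i, 1 ≤ (w i : ℕ)} :=
      fun i => if h : i = i0 then none else some (e ⟨i, h⟩)
    have hf : Function.Injective f := by
      intro i j hij
      by_cases hi : i = i0
      · by_cases hj : j = i0
        · rw [hi, hj]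
        · simp [f, hi, hj] at hij
      · by_cases hj : j = i0
        · simp [f, hi, hj] at hij
        · have h1 : e ⟨i, hi⟩ = e ⟨j, hj⟩ := by simpa [f, hi, hj] using hij
          simpa using e.injective h1
    refine ⟨fun i => (f i).elim (R - (2 - 1) * s) (fun _ => s), ?_, ?_⟩
    · intro i
      by_cases hi : i = i0
      · subst hi
        simp [f]
        linarith only [hs3]
      · simp [f, hi]
        exact hs1 i hi
    · have := hw.comp hf
      simpa using this

/-- The sufficiency half of the Siegel-Yao conjecture for at most `2^n` balls. -/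
theorem packs_small (n k : ℕ) (hn : 1 ≤ n) (hk : k ≤ 2 ^ n) (R : ℝ) (r : Fin k → ℝ) (hR : 0 < R)
    (hr : ∀ i, 0 < r i) (hvol : ∑ i, r i ^ n < R ^ n)
    (hpair : ∀ i j, i < j → r i + r j < R) : Packs (openBall n R) r := by
  obtain ⟨n, rfl⟩ : ∃ m, n = m + 1 := ⟨n - 1, by omega⟩
  obtain ⟨a, ha, hT⟩ := tpack_small n k R r hk hR hr hvol hpair
  exact bridge (Nat.succ_pos n) hT hr ha

end Vale.Agent.P209
end
end
end
end

section

section

section

section

namespace Vale.Agent.P209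

open Filter Topology

end Vale.Agent.P209
end
end
end
end

section

section

section

section

/-!
# Definitions for strong packing stability (P209, module `Strong`)

Target coordinates: a point `w : Fin n → ℂ` of the toric target has action coordinates
`a j = (w j).re` and angle coordinates `b j = (w j).im` (taken mod `ℤ`).
-/

open scoped ContDiff

namespace Vale.Agent.P209.Strong

open Vale.Agent.P209

/-- action part of a point of the toric target -/
def act {n : ℕ} (w : Fin n → ℂ) : Fin n → ℝ := fun j => (w j).re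

/-- equality in `ℝⁿ × (ℝ/ℤ)ⁿ` -/
def SameMod {n : ℕ} (w w' : Fin n → ℂ) : Prop :=
  ∀ j, (w j).re = (w' j).re ∧ ∃ m : ℤ, (w j).im - (w' j).im = m

/-- `f` is a symplectic embedding of (a neighbourhood of) the closed ball of capacity `r` into
`Ω × (ℝ/ℤ)ⁿ`. -/
def TEmb {n : ℕ} (r : ℝ) (f : (Fin n → ℂ) → (Fin n → ℂ)) (Ω : Set (Fin n → ℝ)) : Prop :=
  ∃ U : Set (Fin n → ℂ), IsOpen U ∧ closedBall n r ⊆ U ∧ ContDiffOn ℝ ∞ f U ∧
    (∀ z ∈ U, ∀ v w : Fin n → ℂ, omega (fderiv ℝ f z v) (fderiv ℝ f z w) = omega v w) ∧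
    (∀ z ∈ U, act (f z) ∈ Ω) ∧
    (∀ z ∈ U, ∀ w ∈ U, SameMod (f z) (f w) → z = w)

/-- packing of `Ω × (ℝ/ℤ)ⁿ` by balls, with pairwise disjoint projections to `Ω` -/
def TPk {n : ℕ} {ι : Type} (Ω : Set (Fin n → ℝ)) (r : ι → ℝ) : Prop :=
  ∃ f : ι → (Fin n → ℂ) → (Fin n → ℂ), (∀ i, TEmb (r i) (f i) Ω) ∧
    ∀ i j, i ≠ j → ∀ z ∈ closedBall n (r i), ∀ w ∈ closedBall n (r j), act (f i z) ≠ act (f j w)

/-- The region of a ball of capacity `r` twisted by the continuous functions `W j`. -/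
def KK {n : ℕ} (W : Fin n → (Fin n → ℝ) → ℝ → ℝ) (r : ℝ) : Set (Fin n → ℝ) :=
  {a | ∃ x : ℕ → ℝ, x 0 ≤ r ∧ (∀ j, 0 ≤ x j) ∧ x n = 0 ∧
    ∀ j : Fin n, W j a (x (j + 1)) ≤ a j ∧ a j ≤ W j a (x (j + 1)) + (x j - x (j + 1))}

/-- `F j` only depends on the coordinates before `j` -/
def DepLt {n : ℕ} {β : Type*} (F : Fin n → (Fin n → ℝ) → β) : Prop :=
  ∀ j y y', (∀ i, i < j → y i = y' i) → F j y = F j y'

/-- A family over `Θ` of iterated boxes, with walls `l j < y j < u j` of bounded slope and width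
between `c * R` and `R`. -/
structure IsBox {n : ℕ} {Θ : Type} [TopologicalSpace Θ] (c L R : ℝ)
    (l u : Fin n → Θ → (Fin n → ℝ) → ℝ) : Prop where
  dep_l : ∀ θ, DepLt fun j => l j θ
  dep_u : ∀ θ, DepLt fun j => u j θ
  cont_l : ∀ j, Continuous fun x : Θ × (Fin n → ℝ) => l j x.1 x.2
  cont_u : ∀ j, Continuous fun x : Θ × (Fin n → ℝ) => u j x.1 x.2
  lip_l : ∀ j θ y y', |l j θ y - l j θ y'| ≤ L * dist y y'
  lip_u : ∀ j θ y y', |u j θ y - u j θ y'| ≤ L * dist y y'
  lo : ∀ j θ y, c * R ≤ u j θ y - l j θ y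
  hi : ∀ j θ y, u j θ y - l j θ y ≤ R

/-- the open iterated box -/
def boxSet {n : ℕ} (l u : Fin n → (Fin n → ℝ) → ℝ) : Set (Fin n → ℝ) :=
  {y | ∀ j, l j y < y j ∧ y j < u j y}

/-- slices of the walls: the first coordinate becomes a parameter -/
def sl {n : ℕ} {Θ : Type} (l : Fin (n + 1) → Θ → (Fin (n + 1) → ℝ) → ℝ) :
    Fin n → Θ × ℝ → (Fin n → ℝ) → ℝ :=
  fun j p y => l j.succ p.1 (Fin.cons p.2 y)

/-- volume of an iterated box, as an iterated integral -/
noncomputable def vol : (n : ℕ) → {Θ : Type} → (l u : Fin n → Θ → (Fin n → ℝ) → ℝ) → Θ → ℝ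
  | 0, _, _, _, _ => 1
  | n + 1, _, l, u, θ => ∫ t in (l 0 θ 0)..(u 0 θ 0), vol n (sl l) (sl u) (θ, t)

/-- Every collection of balls, bulk balls of capacity in `[δ, 1]` and tail balls of total
capacity at most `N`, whose volume is smaller than that of `Ω`, packs `Ω`. -/
def Fill {n : ℕ} (δ N : ℝ) (Ω : Set (Fin n → ℝ)) : Prop :=
  ∀ (ι : Type) [Fintype ι] (r : ι → ℝ) (J : Finset ι), (∀ i, 0 < r i ∧ r i ≤ 1) →
    (∀ i, i ∉ J → δ ≤ r i) → ∑ i ∈ J, r i ≤ N →
    ∑ i, r i ^ n / (n.factorial : ℝ) < (MeasureTheory.volume Ω).toReal → TPk Ω r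

/-- open simplex of size `R` -/
def simplex (n : ℕ) (R : ℝ) : Set (Fin n → ℝ) := {a | (∀ j, 0 < a j) ∧ ∑ j, a j < R}

end Vale.Agent.P209.Strong
end
end
end
end

section

section

section

section

open scoped ContDiff
open Complex

namespace Vale.Agent.P209.Strong

open Vale.Agent.P209

/-- action-angle coordinates of the plane -/
noncomputable def phiA (w : ℂ) : ℂ :=
  ((Real.sqrt (w.re / Real.pi) : ℝ) : ℂ) * exp (((2 * Real.pi * w.im : ℝ) : ℂ) * I)

theorem phiA_normSq {w : ℂ} (hw : 0 < w.re) : Real.pi * ‖phiA w‖ ^ 2 = w.re := by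
  unfold phiA
  rw [norm_mul, Complex.norm_exp_ofReal_mul_I, mul_one, Complex.norm_real,
    Real.norm_of_nonneg (Real.sqrt_nonneg _), Real.sq_sqrt (by positivity)]
  field_simp

theorem phiA_hasFDerivAt {w : ℂ} (hw : 0 < w.re) :
    HasFDerivAt phiA
      ((((2 * Real.pi * Real.sqrt (w.re / Real.pi))⁻¹ : ℝ) : ℂ) •
        (exp (((2 * Real.pi * w.im : ℝ) : ℂ) * I) • (Complex.ofRealCLM.comp Complex.reCLM)) +
        ((((2 * Real.pi * Real.sqrt (w.re / Real.pi)) : ℝ) : ℂ) *
          (exp (((2 * Real.pi * w.im : ℝ) : ℂ) * I)) * I) •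
            (Complex.ofRealCLM.comp Complex.imCLM)) w := by
  have hpos : 0 < w.re / Real.pi := by positivity
  have hre : HasFDerivAt (fun z : ℂ => z.re) Complex.reCLM w := Complex.reCLM.hasFDerivAt
  have him : HasFDerivAt (fun z : ℂ => z.im) Complex.imCLM w := Complex.imCLM.hasFDerivAt
  have h1 : HasFDerivAt (fun z : ℂ => z.re / Real.pi) (Real.pi⁻¹ • Complex.reCLM) w := by
    have := hre.mul_const Real.pi⁻¹
    simpa only [div_eq_mul_inv] using this
  have h2 := (Real.hasDerivAt_sqrt hpos.ne').comp_hasFDerivAt w h1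
  have h3 : HasFDerivAt (fun z : ℂ => ((Real.sqrt (z.re / Real.pi) : ℝ) : ℂ)) _ w :=
    Complex.ofRealCLM.hasFDerivAt.comp w h2
  have h4 : HasFDerivAt (fun z : ℂ => 2 * Real.pi * z.im) ((2 * Real.pi) • Complex.imCLM) w := by
    exact him.const_mul (2 * Real.pi)
  have h5 : HasFDerivAt (fun z : ℂ => ((2 * Real.pi * z.im : ℝ) : ℂ)) _ w :=
    Complex.ofRealCLM.hasFDerivAt.comp w h4
  have h6 := (h5.mul_const I).cexp
  have h7 := h3.mul h6
  refine HasFDerivAt.congr_fderiv (f := phiA) h7 ?_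
  have hs : (0 : ℝ) < Real.sqrt (w.re / Real.pi) := Real.sqrt_pos.2 hpos
  ext v
  simp only [ofReal_mul, ofReal_ofNat, ContinuousLinearMap.comp_smulₛₗ, Real.ringHom_apply, coe_smul, one_div, mul_inv_rev, map_inv₀, add_apply, smul_apply, ContinuousLinearMap.comp_apply, imCLM_apply, ofRealCLM_apply, real_smul, smul_eq_mul, reCLM_apply, ofReal_inv]
  have hpi : (Real.pi : ℂ) ≠ 0 := by exact_mod_cast Real.pi_ne_zero
  have hsc : ((Real.sqrt (w.re / Real.pi) : ℝ) : ℂ) ≠ 0 := by exact_mod_cast hs.ne'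
  field_simp
  ring

theorem phiA_sympl {w : ℂ} (hw : 0 < w.re) (v v' : ℂ) :
    om1 (fderiv ℝ phiA w v) (fderiv ℝ phiA w v') = om1 v v' := by
  rw [(phiA_hasFDerivAt hw).fderiv]
  have hpos : 0 < w.re / Real.pi := by positivity
  have hs : (0 : ℝ) < Real.sqrt (w.re / Real.pi) := Real.sqrt_pos.2 hpos
  set s : ℝ := Real.sqrt (w.re / Real.pi) with hsdef
  set e : ℂ := exp (((2 * Real.pi * w.im : ℝ) : ℂ) * I) with hedef
  have he : normSq e = 1 := by
    rw [Complex.normSq_eq_norm_sq, hedef, Complex.norm_exp_ofReal_mul_I]; norm_num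
  have key : ∀ x : ℂ, ((((2 * Real.pi * s)⁻¹ : ℝ) : ℂ) •
        (e • (Complex.ofRealCLM.comp Complex.reCLM)) +
        ((((2 * Real.pi * s) : ℝ) : ℂ) * e * I) •
            (Complex.ofRealCLM.comp Complex.imCLM)) x =
      e * (((((2 * Real.pi * s)⁻¹ * x.re : ℝ) : ℂ)) + ((2 * Real.pi * s * x.im : ℝ) : ℂ) * I) := by
    intro x
    simp only [mul_inv_rev, ofReal_mul, ofReal_inv, ofReal_ofNat, add_apply, smul_apply, ContinuousLinearMap.comp_apply, reCLM_apply, ofRealCLM_apply, smul_eq_mul, imCLM_apply]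
    ring
  rw [key, key, om1_rot, he]
  unfold om1
  simp only [one_mul, Complex.add_re, Complex.add_im, Complex.ofReal_re, Complex.ofReal_im,
    Complex.mul_re, Complex.mul_im, Complex.I_re, Complex.I_im, mul_zero, mul_one, sub_zero,
    add_zero, zero_add]
  have h2 : (2 * Real.pi * s) ≠ 0 := by positivity
  field_simp

theorem phiA_contDiffAt {w : ℂ} (hw : 0 < w.re) : ContDiffAt ℝ ∞ phiA w := by
  have hpos : 0 < w.re / Real.pi := by positivity
  have hre : ContDiff ℝ ∞ (fun z : ℂ => z.re) := Complex.reCLM.contDiff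
  have him : ContDiff ℝ ∞ (fun z : ℂ => z.im) := Complex.imCLM.contDiff
  have h1 : ContDiffAt ℝ ∞ (fun z : ℂ => Real.sqrt (z.re / Real.pi)) w :=
    ContDiffAt.sqrt (hre.div_const _).contDiffAt hpos.ne'
  have h2 : ContDiffAt ℝ ∞ (fun z : ℂ => ((Real.sqrt (z.re / Real.pi) : ℝ) : ℂ)) w :=
    Complex.ofRealCLM.contDiff.contDiffAt.comp w h1
  have h3 : ContDiff ℝ ∞ (fun z : ℂ => exp (((2 * Real.pi * z.im : ℝ) : ℂ) * I)) := by
    have h4 : ContDiff ℝ ∞ (fun z : ℂ => 2 * Real.pi * z.im) := contDiff_const.mul him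
    exact Complex.contDiff_exp.comp ((Complex.ofRealCLM.contDiff.comp h4).mul contDiff_const)
  exact h2.mul h3.contDiffAt

theorem phiA_inj {w w' : ℂ} (hw : 0 < w.re) (hw' : 0 < w'.re) (h : phiA w = phiA w') :
    w.re = w'.re ∧ ∃ m : ℤ, w.im - w'.im = m := by
  have h1 : w.re = w'.re := by
    rw [← phiA_normSq hw, ← phiA_normSq hw', h]
  refine ⟨h1, ?_⟩
  have hpos : 0 < w.re / Real.pi := by positivity
  have hs : (0 : ℝ) < Real.sqrt (w.re / Real.pi) := Real.sqrt_pos.2 hpos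
  unfold phiA at h
  rw [← h1] at h
  have hsc : ((Real.sqrt (w.re / Real.pi) : ℝ) : ℂ) ≠ 0 := by exact_mod_cast hs.ne'
  have h2 := mul_left_cancel₀ hsc h
  rw [Complex.exp_eq_exp_iff_exists_int] at h2
  obtain ⟨m, hm⟩ := h2
  refine ⟨m, ?_⟩
  have hpi : (Real.pi : ℝ) ≠ 0 := Real.pi_ne_zero
  have h3 : ((2 * Real.pi * w.im : ℝ) : ℂ) * I =
      ((2 * Real.pi * w'.im + m * (2 * Real.pi) : ℝ) : ℂ) * I := by
    rw [hm]; push_cast; ring
  have h4 := mul_right_cancel₀ Complex.I_ne_zero h3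
  have h5 : (2 * Real.pi * w.im : ℝ) = 2 * Real.pi * w'.im + m * (2 * Real.pi) := by
    exact_mod_cast h4
  have h6 : (2 * Real.pi) * (w.im - w'.im - m) = 0 := by linarith only [h5]
  rcases mul_eq_zero.1 h6 with h7 | h7
  · exact absurd h7 (by positivity)
  · linarith only [h7]

/-- slotwise application -/
noncomputable def phiV {n : ℕ} (w : Fin n → ℂ) : Fin n → ℂ := fun j => phiA (w j)

theorem phiV_hasFDerivAt {n : ℕ} {w : Fin n → ℂ} (hw : ∀ j, 0 < (w j).re) :
    HasFDerivAt (phiV (n := n))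
      (ContinuousLinearMap.pi fun j =>
        (fderiv ℝ phiA (w j)).comp (ContinuousLinearMap.proj j)) w := by
  rw [hasFDerivAt_pi']
  intro j
  have h1 : HasFDerivAt phiA (fderiv ℝ phiA (w j)) (w j) :=
    (phiA_hasFDerivAt (hw j)).differentiableAt.hasFDerivAt
  have h2 : HasFDerivAt (fun w : Fin n → ℂ => w j) (ContinuousLinearMap.proj (R := ℝ) j) w :=
    (ContinuousLinearMap.proj (R := ℝ) (φ := fun _ : Fin n => ℂ) j).hasFDerivAt
  exact h1.comp w h2

/-- A8. From toric packings of the simplex to packings of the ball: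
`z j = √(a j / π) * exp (2 π i b j)`. -/
theorem packs_of_TPk {n : ℕ} {ι : Type} {R : ℝ} {r : ι → ℝ} (h : TPk (simplex n R) r) :
    Packs (openBall n R) r := by
  obtain ⟨f, hf, hdisj⟩ := h
  refine ⟨fun i z => phiV (f i z), ?_, ?_, ?_⟩
  · intro i
    obtain ⟨U, hU, hBU, hcd, hs, hact, hinj⟩ := hf i
    have hre : ∀ z ∈ U, ∀ j, 0 < (f i z j).re := fun z hz j => (hact z hz).1 j
    have hcdg : ContDiffOn ℝ ∞ (fun z => phiV (f i z)) U := by
      rw [contDiffOn_pi]
      intro j z hz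
      have h1 : ContDiffAt ℝ ∞ (f i) z := hcd.contDiffAt (hU.mem_nhds hz)
      have h2 : ContDiffAt ℝ ∞ (fun z => f i z j) z := (contDiffAt_pi.1 h1) j
      exact ((phiA_contDiffAt (hre z hz j)).comp z h2).contDiffWithinAt
    have hsg : ∀ z ∈ U, ∀ v w : Fin n → ℂ,
        omega (fderiv ℝ (fun z => phiV (f i z)) z v) (fderiv ℝ (fun z => phiV (f i z)) z w) =
          omega v w := by
      intro z hz v w
      have h1 : ContDiffAt ℝ ∞ (f i) z := hcd.contDiffAt (hU.mem_nhds hz)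
      have h2 : HasFDerivAt (f i) (fderiv ℝ (f i) z) z :=
        (h1.differentiableAt (by simp)).hasFDerivAt
      have h3 := (phiV_hasFDerivAt (hre z hz)).comp z h2
      have h4 : HasFDerivAt (fun z => phiV (f i z)) _ z := h3
      rw [h4.fderiv]
      rw [← hs z hz v w]
      unfold omega
      refine Finset.sum_congr rfl fun j _ => ?_
      have := phiA_sympl (hre z hz j) (fderiv ℝ (f i) z v j) (fderiv ℝ (f i) z w j)
      unfold om1 at this
      simpa only [ContinuousLinearMap.comp_apply, ContinuousLinearMap.coe_pi', ContinuousLinearMap.proj_apply] using     this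
    refine ⟨U, hU, hBU, hcdg, ?_, hsg⟩
    refine isOpenEmbedding_of_sympl hU hcdg ?_ hsg
    intro z hz w hw hzw
    refine hinj z hz w hw fun j => ?_
    exact phiA_inj (hre z hz j) (hre w hw j) (congrFun hzw j)
  · rintro i _ ⟨z, hz, rfl⟩
    obtain ⟨U, hU, hBU, hcd, hs, hact, hinj⟩ := hf i
    have hzU := hBU hz
    obtain ⟨h1, h2⟩ := hact z hzU
    show Real.pi * ∑ j, ‖phiV (f i z) j‖ ^ 2 < R
    rw [Finset.mul_sum]
    refine lt_of_eq_of_lt (Finset.sum_congr rfl fun j _ => ?_) h2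
    exact phiA_normSq (h1 j)
  · intro i j hij
    rw [Set.disjoint_left]
    rintro _ ⟨z, hz, rfl⟩ ⟨w, hw, hzw⟩
    obtain ⟨U, hU, hBU, hcd, hs, hact, hinj⟩ := hf i
    obtain ⟨U', hU', hBU', hcd', hs', hact', hinj'⟩ := hf j
    refine hdisj i j hij z hz w hw ?_
    funext k
    exact (phiA_inj ((hact' w (hBU' hw)).1 k) ((hact z (hBU hz)).1 k) (congrFun hzw k)).1.symm

end Vale.Agent.P209.Strong
end
end
end
end

section

section

section

section

open scoped ContDiff

namespace Vale.Agent.P209.Strong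

open Vale.Agent.P209

lemma a1_re (a b : ℝ) : ((a : ℂ) + (b : ℂ) * Complex.I).re = a := by simp

lemma a1_im (a b : ℝ) : ((a : ℂ) + (b : ℂ) * Complex.I).im = b := by simp

/-- a branch of the logarithm of a map without zeros on a disc, with its local form -/
lemma a1_log {τ : ℂ → ℂ} (hτ : ContDiff ℝ ∞ τ) {R : ℝ} (hR : 0 < R)
    (h0 : ∀ z, ‖z‖ < R → τ z ≠ 0) :
    ∃ f : ℂ → ℂ, (∀ z, ‖z‖ < R → Complex.exp (f z) = τ z) ∧
      ∀ z₀, ‖z₀‖ < R → ∀ᶠ z in nhds z₀, f z = f z₀ + Complex.log (τ z / τ z₀) := by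
  have hD : ∀ z : ℂ, z ∈ Metric.ball (0 : ℂ) R ↔ ‖z‖ < R := fun z => by simp
  have hsc : IsSimplyConnected (Metric.ball (0 : ℂ) R) := by
    have : ContractibleSpace (Metric.ball (0 : ℂ) R) :=
      (convex_ball (0 : ℂ) R).contractibleSpace ⟨0, by simpa using hR⟩
    exact SimplyConnectedSpace.ofContractible _
  obtain ⟨f, hfc, hf⟩ := Complex.exists_continuousOn_eqOn_exp_comp hsc Metric.isOpen_ball
    (g := τ) hτ.continuous.continuousOn (by
      rintro ⟨z, hz, h⟩
      exact h0 z ((hD z).1 hz) h)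
  have hf' : ∀ z, ‖z‖ < R → Complex.exp (f z) = τ z := fun z hz => hf ((hD z).2 hz)
  refine ⟨f, hf', fun z₀ hz₀ => ?_⟩
  have hc : ContinuousAt f z₀ := hfc.continuousAt (Metric.isOpen_ball.mem_nhds ((hD z₀).2 hz₀))
  have hc2 : ContinuousAt (fun z => |(f z - f z₀).im|) z₀ :=
    (Complex.continuous_im.continuousAt.comp (hc.sub continuousAt_const)).abs
  have hev : ∀ᶠ z in nhds z₀, |(f z - f z₀).im| < Real.pi := by
    refine hc2.eventually (gt_mem_nhds ?_)
    simp [Real.pi_pos]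
  filter_upwards [hev, Metric.isOpen_ball.mem_nhds ((hD z₀).2 hz₀)] with z hz hzD
  have h1 := abs_lt.1 hz
  have h2 : Complex.log (Complex.exp (f z - f z₀)) = f z - f z₀ :=
    Complex.log_exp h1.1 h1.2.le
  rw [Complex.exp_sub, hf' z ((hD z).1 hzD), hf' z₀ hz₀] at h2
  rw [h2]
  ring

lemma a1_log_contDiffAt {τ : ℂ → ℂ} (hτ : ContDiff ℝ ∞ τ) {z₀ : ℂ} (h0 : τ z₀ ≠ 0) {f : ℂ → ℂ}
    (hf : ∀ᶠ z in nhds z₀, f z = f z₀ + Complex.log (τ z / τ z₀)) : ContDiffAt ℝ ∞ f z₀ := by
  refine ContDiffAt.congr_of_eventuallyEq ?_ hf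
  refine contDiffAt_const.add ?_
  have h2 : ContDiffAt ℝ ∞ (fun w : ℂ => τ w / τ z₀) z₀ := hτ.contDiffAt.div_const _
  have h3 : ContDiffAt ℝ ∞ Complex.log ((fun w : ℂ => τ w / τ z₀) z₀) := by
    refine (Complex.contDiffAt_log ?_).restrict_scalars ℝ
    show τ z₀ / τ z₀ ∈ Complex.slitPlane
    rw [div_self h0]
    simp
  exact ContDiffAt.comp (g := Complex.log) (f := fun w : ℂ => τ w / τ z₀) z₀ h3 h2

lemma a1_log_fderiv {τ : ℂ → ℂ} (hτ : ContDiff ℝ ∞ τ) {z₀ : ℂ} (h0 : τ z₀ ≠ 0) {f : ℂ → ℂ}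
    (hf : ∀ᶠ z in nhds z₀, f z = f z₀ + Complex.log (τ z / τ z₀)) (v : ℂ) :
    (fderiv ℝ f z₀ v).im = ((τ z₀)⁻¹ * fderiv ℝ τ z₀ v).im := by
  have hd : HasFDerivAt τ (fderiv ℝ τ z₀) z₀ :=
    (hτ.contDiffAt.differentiableAt (by simp)).hasFDerivAt
  have h1 : HasFDerivAt (fun z => (Complex.log (τ z / τ z₀)).im) _ z₀ :=
    HasFDerivAt.comp (g := fun w : ℂ => (Complex.log (w / τ z₀)).im) (f := τ) z₀
      (arg_hasFDerivAt (τ z₀) h0) hd
  have h2 : (fun z => (f z).im) =ᶠ[nhds z₀]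
      fun z => (f z₀).im + (Complex.log (τ z / τ z₀)).im := by
    filter_upwards [hf] with z hz
    rw [hz, Complex.add_im]
  have h3 : HasFDerivAt (fun z => (f z).im) _ z₀ := (h1.const_add (f z₀).im).congr_of_eventuallyEq h2
  have h4 : HasFDerivAt (fun z => (f z).im) (Complex.imCLM.comp (fderiv ℝ f z₀)) z₀ :=
    Complex.imCLM.hasFDerivAt.comp z₀
      ((a1_log_contDiffAt hτ h0 hf).differentiableAt (by simp)).hasFDerivAt
  have h5 := congrArg (fun L : ℂ →L[ℝ] ℝ => L v) (h4.unique h3)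
  simpa only [Complex.mul_im, Complex.inv_re, Complex.inv_im, ContinuousLinearMap.comp_apply,     Complex.imCLM_apply, smul_apply, ContinuousLinearMap.id_apply, smul_eq_mul] using h5

/-- A1. Area preserving chart of a disc into `(0, ∞) × ℝ`, injective mod `ℤ` in the second
coordinate: first coordinate `π |τ z|²`, second coordinate a lift of `arg (τ z) / 2π`, where `τ` is
the map of `exists_off_origin`. -/
theorem exists_plane_chart (r ε : ℝ) (hr : 0 ≤ r) (hε : 0 < ε) :
    ∃ (r' : ℝ) (ζ : ℂ → ℂ), r < Real.pi * r' ^ 2 ∧ 0 < r' ∧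
      ContDiffOn ℝ ∞ ζ {z | ‖z‖ < r'} ∧
      (∀ z, ‖z‖ < r' → ∀ v w, om1 (fderiv ℝ ζ z v) (fderiv ℝ ζ z w) = om1 v w) ∧
      (∀ z, ‖z‖ < r' → 0 < (ζ z).re ∧ (ζ z).re ≤ Real.pi * ‖z‖ ^ 2 + ε) ∧
      (∀ z w, ‖z‖ < r' → ‖w‖ < r' → (ζ z).re = (ζ w).re →
        (∃ m : ℤ, (ζ z).im - (ζ w).im = m) → z = w) := by
  have hpi := Real.pi_pos
  obtain ⟨r', hr'pos, hrr'⟩ : ∃ r' : ℝ, 0 < r' ∧ r < Real.pi * r' ^ 2 := by
    refine ⟨Real.sqrt (r / Real.pi) + 1, by positivity, ?_⟩
    have h1 : Real.sqrt (r / Real.pi) ^ 2 = r / Real.pi := Real.sq_sqrt (by positivity)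
    have h2 : r / Real.pi < (Real.sqrt (r / Real.pi) + 1) ^ 2 := by
      linarith only [Real.sqrt_nonneg (r / Real.pi), h1]
    rw [div_lt_iff₀ hpi] at h2
    linarith only [h2]
  obtain ⟨ε1, hε1, hε1'⟩ : ∃ ε1 : ℝ, 0 < ε1 ∧ ∀ x, 0 ≤ x → x < r' →
      Real.pi * (x + ε1) ^ 2 ≤ Real.pi * x ^ 2 + ε := by
    have h1 : 0 < Real.pi * (2 * r' + 1) := by positivity
    refine ⟨min 1 (ε / (Real.pi * (2 * r' + 1))), lt_min one_pos (div_pos hε h1), ?_⟩
    intro x hx hx'
    set e := min 1 (ε / (Real.pi * (2 * r' + 1))) with he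
    have e0 : 0 < e := lt_min one_pos (div_pos hε h1)
    have e1 : e ≤ 1 := min_le_left _ _
    have e2 : e * (Real.pi * (2 * r' + 1)) ≤ ε := by
      have := min_le_right 1 (ε / (Real.pi * (2 * r' + 1)))
      rwa [← he, le_div_iff₀ h1] at this
    have e3 : e * (2 * x + e) ≤ e * (2 * r' + 1) :=
      mul_le_mul_of_nonneg_left (by linarith only [hx', e1]) e0.le
    have e4 : Real.pi * (e * (2 * x + e)) ≤ Real.pi * (e * (2 * r' + 1)) :=
      mul_le_mul_of_nonneg_left e3 hpi.le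
    linarith
  obtain ⟨τ, hτ, hτn, hτ0⟩ := exists_off_origin r' ε1 hε1
  have h0 : ∀ z, ‖z‖ < r' → τ z ≠ 0 := fun z hz => hτ0 z hz.le
  obtain ⟨f, hf, hfl⟩ := a1_log hτ.smooth hr'pos h0
  set ζ : ℂ → ℂ := fun z => ((Real.pi * Complex.normSq (τ z) : ℝ) : ℂ) +
    (((f z).im / (2 * Real.pi) : ℝ) : ℂ) * Complex.I with hζ
  have hre : ∀ z, (ζ z).re = Real.pi * Complex.normSq (τ z) := fun z => a1_re _ _
  have him : ∀ z, (ζ z).im = (f z).im / (2 * Real.pi) := fun z => a1_im _ _
  have hfs : ∀ z, ‖z‖ < r' → ContDiffAt ℝ ∞ f z := fun z hz =>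
    a1_log_contDiffAt hτ.smooth (h0 z hz) (hfl z hz)
  have hζs : ∀ z, ‖z‖ < r' → ContDiffAt ℝ ∞ ζ z := by
    intro z hz
    have h1 : ContDiffAt ℝ ∞ (fun z => ((Real.pi * Complex.normSq (τ z) : ℝ) : ℂ)) z :=
      Complex.ofRealCLM.contDiff.contDiffAt.comp z
        (contDiffAt_const.mul (normSq_contDiff.contDiffAt.comp z hτ.smooth.contDiffAt))
    have h2 : ContDiffAt ℝ ∞ (fun z => (((f z).im / (2 * Real.pi) : ℝ) : ℂ)) z :=
      Complex.ofRealCLM.contDiff.contDiffAt.comp z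
        ((Complex.imCLM.contDiff.contDiffAt.comp z (hfs z hz)).div_const _)
    exact h1.add (h2.mul contDiffAt_const)
  have hder : ∀ z, ‖z‖ < r' → ∀ v, fderiv ℝ ζ z v =
      ((2 * Real.pi * ((τ z).re * (fderiv ℝ τ z v).re + (τ z).im * (fderiv ℝ τ z v).im) : ℝ) : ℂ) +
        ((((τ z)⁻¹ * fderiv ℝ τ z v).im / (2 * Real.pi) : ℝ) : ℂ) * Complex.I := by
    intro z hz v
    have hd : HasFDerivAt τ (fderiv ℝ τ z) z :=
      (hτ.smooth.contDiffAt.differentiableAt (by simp)).hasFDerivAt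
    have hdf : HasFDerivAt f (fderiv ℝ f z) z :=
      ((hfs z hz).differentiableAt (by simp)).hasFDerivAt
    have h1 : HasFDerivAt (fun z => Real.pi * Complex.normSq (τ z)) _ z :=
      ((normSq_hasFDerivAt (τ z)).comp z hd).const_mul Real.pi
    have h2 : HasFDerivAt (fun z => (f z).im / (2 * Real.pi)) ((2 * Real.pi)⁻¹ •
        (Complex.imCLM.comp (fderiv ℝ f z))) z := by
      have := (Complex.imCLM.hasFDerivAt.comp z hdf).mul_const (2 * Real.pi)⁻¹
      simpa only [div_eq_mul_inv, mul_inv_rev, Function.comp_apply, Complex.imCLM_apply] using this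
    have h3 : HasFDerivAt (fun z => ((Real.pi * Complex.normSq (τ z) : ℝ) : ℂ)) _ z :=
      Complex.ofRealCLM.hasFDerivAt.comp z h1
    have h4 : HasFDerivAt (fun z => (((f z).im / (2 * Real.pi) : ℝ) : ℂ)) _ z :=
      Complex.ofRealCLM.hasFDerivAt.comp z h2
    have h5 : HasFDerivAt ζ _ z := h3.add (h4.mul_const Complex.I)
    rw [h5.fderiv]
    have h6 := a1_log_fderiv hτ.smooth (h0 z hz) (hfl z hz) v
    simp only [add_apply, smul_apply, ContinuousLinearMap.comp_apply, Complex.ofRealCLM_apply,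
      Complex.imCLM_apply, Complex.reCLM_apply, smul_eq_mul, h6]
    push_cast
    ring
  refine ⟨r', ζ, hrr', hr'pos, fun z hz => (hζs z hz).contDiffWithinAt, ?_, ?_, ?_⟩
  · intro z hz v w
    have h1 := om1_pair (τ z) (fderiv ℝ τ z v) (fderiv ℝ τ z w) (h0 z hz)
    rw [hder z hz, hder z hz, ← hτ.sympl z v w, ← h1]
    unfold om1
    rw [a1_re, a1_re, a1_im, a1_im]
    generalize ((τ z)⁻¹ * fderiv ℝ τ z v).im = α
    generalize ((τ z)⁻¹ * fderiv ℝ τ z w).im = β
    (clear * -; field_simp)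
  · intro z hz
    rw [hre]
    refine ⟨mul_pos hpi (Complex.normSq_pos.2 (h0 z hz)), ?_⟩
    rw [Complex.normSq_eq_norm_sq]
    refine le_trans ?_ (hε1' ‖z‖ (norm_nonneg _) hz)
    exact mul_le_mul_of_nonneg_left
      (pow_le_pow_left₀ (norm_nonneg _) (hτn z) 2) hpi.le
  · intro z w hz hw h1 h2
    obtain ⟨m, hm⟩ := h2
    rw [hre, hre] at h1
    rw [him, him] at hm
    have h3 : Complex.normSq (τ z) = Complex.normSq (τ w) := mul_left_cancel₀ hpi.ne' h1
    rw [Complex.normSq_eq_norm_sq, Complex.normSq_eq_norm_sq] at h3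
    have h4 : ‖τ z‖ = ‖τ w‖ := (sq_eq_sq₀ (norm_nonneg _) (norm_nonneg _)).1 h3
    rw [← hf z hz, ← hf w hw, Complex.norm_exp, Complex.norm_exp] at h4
    have h5 : (f z).re = (f w).re := Real.exp_injective h4
    have h6 : f z = f w + m * (2 * Real.pi * Complex.I) := by
      apply Complex.ext
      · simp [h5]
      · simp
        have h7 : (f z).im - (f w).im = m * (2 * Real.pi) := by
          field_simp at hm
          linarith only [hm]
        linarith only [h7]
    refine hτ.inj ?_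
    rw [← hf z hz, ← hf w hw]
    exact Complex.exp_eq_exp_iff_exists_int.2 ⟨m, h6⟩

end Vale.Agent.P209.Strong
end
end
end
end

section

section

section

section

set_option linter.all false

open scoped ContDiff

namespace Vale.Agent.P209.Strong

open Vale.Agent.P209 Complex

/-- `∑_{k > j} π |P k|²` -/
noncomputable def tailSum {n : ℕ} (j : Fin n) (P : Fin n → ℂ) : ℝ :=
  ∑ k, if j < k then Real.pi * ‖P k‖ ^ 2 else 0

/-- One step of the construction: slot `j` is converted to action-angle coordinates by the plane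
chart `ζ`, and sheared by `W`. The slots `i < j` are already in action-angle coordinates. -/
noncomputable def stepMap {n : ℕ} (j : Fin n) (ζ : ℂ → ℂ) (W : (Fin n → ℝ) × ℝ → ℝ)
    (P : Fin n → ℂ) : Fin n → ℂ := fun i =>
  if i < j then
    P i - I * (((ζ (P j)).im * fderiv ℝ W (act P, tailSum j P) (Pi.single i 1, 0) : ℝ) : ℂ)
  else if i = j then
    ζ (P j) + ((W (act P, tailSum j P) : ℝ) : ℂ)
  else
    exp ((((-2 * Real.pi) * ((ζ (P j)).im * fderiv ℝ W (act P, tailSum j P) (0, 1)) : ℝ) : ℂ) * I)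
      * P i

theorem A2_act_contDiff {n : ℕ} : ContDiff ℝ ∞ (act : (Fin n → ℂ) → (Fin n → ℝ)) := by
  refine contDiff_pi.2 fun i => ?_
  exact Complex.reCLM.contDiff.comp (contDiff_apply ℝ ℂ i)

theorem A2_tailSum_contDiff {n : ℕ} (j : Fin n) : ContDiff ℝ ∞ (tailSum j) := by
  refine ContDiff.sum fun k _ => ?_
  by_cases h : j < k
  · simp only [h, if_true]
    exact contDiff_const.mul ((contDiff_norm_sq ℝ).comp (contDiff_apply ℝ ℂ k))
  · simp only [h, if_false]
    exact contDiff_const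

/-- A2. The step map is smooth where `ζ` is. -/
theorem stepMap_contDiffOn {n : ℕ} (j : Fin n) {ζ : ℂ → ℂ} {r' : ℝ}
    (hζ : ContDiffOn ℝ ∞ ζ {z | ‖z‖ < r'}) {W : (Fin n → ℝ) × ℝ → ℝ} (hW : ContDiff ℝ ∞ W) :
    ContDiffOn ℝ ∞ (stepMap j ζ W) {P | ‖P j‖ < r'} := by
  have hq : ContDiff ℝ ∞ (fun P : Fin n → ℂ => (act P, tailSum j P)) :=
    A2_act_contDiff.prodMk (A2_tailSum_contDiff j)
  have hWq : ContDiff ℝ ∞ (fun P : Fin n → ℂ => W (act P, tailSum j P)) := hW.comp hq
  have hD : ContDiff ℝ ∞ (fderiv ℝ W) := hW.fderiv_right (by simp)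
  have hDv : ∀ v : (Fin n → ℝ) × ℝ,
      ContDiff ℝ ∞ (fun P : Fin n → ℂ => fderiv ℝ W (act P, tailSum j P) v) := by
    intro v
    exact (hD.comp hq).clm_apply contDiff_const
  have hζ' : ContDiffOn ℝ ∞ (fun P : Fin n → ℂ => ζ (P j)) {P | ‖P j‖ < r'} :=
    hζ.comp (contDiff_apply ℝ ℂ j).contDiffOn (fun P hP => hP)
  have hζim : ContDiffOn ℝ ∞ (fun P : Fin n → ℂ => (ζ (P j)).im) {P | ‖P j‖ < r'} :=
    Complex.imCLM.contDiff.comp_contDiffOn hζ'
  have hof : ∀ {f : (Fin n → ℂ) → ℝ} {s : Set (Fin n → ℂ)}, ContDiffOn ℝ ∞ f s →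
      ContDiffOn ℝ ∞ (fun P => ((f P : ℝ) : ℂ)) s := by
    intro f s hf
    exact Complex.ofRealCLM.contDiff.comp_contDiffOn hf
  refine contDiffOn_pi.2 fun i => ?_
  have hPi : ContDiffOn ℝ ∞ (fun P : Fin n → ℂ => P i) {P | ‖P j‖ < r'} :=
    (contDiff_apply ℝ ℂ i).contDiffOn
  by_cases h1 : i < j
  · simp only [stepMap, h1, if_true]
    exact hPi.sub (contDiffOn_const.mul (hof (hζim.mul (hDv _).contDiffOn)))
  · by_cases h2 : i = j
    · simp only [stepMap, h1, if_false, h2, if_true]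
      subst h2
      simp only [lt_irrefl, if_false]
      exact hζ'.add (hof hWq.contDiffOn)
    · simp only [stepMap, h1, if_false, h2]
      exact (((hof (contDiffOn_const.mul (hζim.mul (hDv _).contDiffOn))).mul
        contDiffOn_const).cexp).mul hPi

end Vale.Agent.P209.Strong
end
end
end
end

section

section

section

section

set_option linter.all false

open scoped ContDiff

namespace Vale.Agent.P209.Strong

open Vale.Agent.P209 Complex

/-! ### Dependence of `W` -/

theorem A3_d1 {n : ℕ} {j : Fin n} {W : (Fin n → ℝ) × ℝ → ℝ} (hW : ContDiff ℝ ∞ W)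
    (hdep : ∀ y y' x, (∀ i, i < j → y i = y' i) → W (y, x) = W (y', x))
    {i : Fin n} (hi : ¬ i < j) (p : (Fin n → ℝ) × ℝ) :
    fderiv ℝ W p (Pi.single i 1, 0) = 0 := by
  have h1 : HasFDerivAt W (fderiv ℝ W p) (p + (0 : ℝ) • ((Pi.single i 1, 0) : (Fin n → ℝ) × ℝ)) := by
    rw [zero_smul, add_zero]
    exact (hW.differentiable (by simp) p).hasFDerivAt
  have h2 : HasDerivAt (fun t : ℝ => p + t • ((Pi.single i 1, 0) : (Fin n → ℝ) × ℝ))
      ((Pi.single i 1, 0) : (Fin n → ℝ) × ℝ) 0 := by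
    simpa using ((hasDerivAt_id (0 : ℝ)).smul_const ((Pi.single i 1, 0) : (Fin n → ℝ) × ℝ)).const_add p
  have h3 := h1.comp_hasDerivAt (0 : ℝ) h2
  have h4 : (W ∘ fun t : ℝ => p + t • ((Pi.single i 1, 0) : (Fin n → ℝ) × ℝ)) = fun _ => W p := by
    funext t
    show W (p.1 + t • Pi.single i 1, p.2 + t • 0) = W (p.1, p.2)
    rw [smul_zero, add_zero]
    refine hdep _ _ _ fun k hk => ?_
    have hne : k ≠ i := fun h => hi (h ▸ hk)
    simp [Pi.single_eq_of_ne hne]
  rw [h4] at h3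
  exact h3.unique (hasDerivAt_const _ _)

theorem A3_d2 {n : ℕ} {j : Fin n} {W : (Fin n → ℝ) × ℝ → ℝ} (hW : ContDiff ℝ ∞ W)
    (hdep : ∀ y y' x, (∀ i, i < j → y i = y' i) → W (y, x) = W (y', x))
    {i : Fin n} (hi : ¬ i < j) (p w : (Fin n → ℝ) × ℝ) :
    fderiv ℝ (fderiv ℝ W) p w (Pi.single i 1, 0) = 0 := by
  have hs : ContDiff ℝ ∞ (fderiv ℝ W) := hW.fderiv_right (by simp)
  have h1 : HasFDerivAt (fderiv ℝ W) (fderiv ℝ (fderiv ℝ W) p) p :=
    (hs.differentiable (by simp) p).hasFDerivAt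
  have h2 := h1.clm_apply (hasFDerivAt_const ((Pi.single i 1, 0) : (Fin n → ℝ) × ℝ) p)
  have h3 : (fun q => fderiv ℝ W q ((Pi.single i 1, 0) : (Fin n → ℝ) × ℝ)) = fun _ => (0 : ℝ) := by
    funext q
    exact A3_d1 hW hdep hi q
  rw [h3] at h2
  have h4 := h2.unique (hasFDerivAt_const (0 : ℝ) p)
  have h5 := congrArg (fun T : ((Fin n → ℝ) × ℝ) →L[ℝ] ℝ => T w) h4
  simpa only [ContinuousLinearMap.comp_zero, zero_add, ContinuousLinearMap.flip_apply, zero_apply] using h5

theorem A3_lin {n : ℕ} {j : Fin n} (T : ((Fin n → ℝ) × ℝ) →L[ℝ] ℝ)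
    (hT : ∀ i, ¬ i < j → T (Pi.single i 1, 0) = 0) (z : (Fin n → ℝ) × ℝ) :
    T z = ∑ i, (if i < j then z.1 i * T (Pi.single i 1, 0) else 0) + z.2 * T (0, 1) := by
  have h1 : z = ∑ i, z.1 i • ((Pi.single i 1, 0) : (Fin n → ℝ) × ℝ) + z.2 • ((0, 1) : (Fin n → ℝ) × ℝ) := by
    ext k
    · simp only [Prod.smul_mk, smul_eq_mul, mul_zero, smul_zero, mul_one, Prod.fst_add, Prod.fst_sum, Pi.add_apply, Finset.sum_apply, Pi.smul_apply, Pi.single_apply, mul_ite, Finset.sum_ite_eq, Finset.mem_univ, ↓reduceIte, Pi.zero_apply, add_zero]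
    · simp only [Prod.smul_mk, smul_eq_mul, mul_zero, smul_zero, mul_one, Prod.snd_add, Prod.snd_sum, Finset.sum_const_zero, zero_add]
  conv_lhs => rw [h1]
  rw [map_add, map_sum, map_smul, smul_eq_mul]
  congr 1
  refine Finset.sum_congr rfl fun i _ => ?_
  rw [map_smul, smul_eq_mul]
  split_ifs with h
  · rfl
  · rw [hT i h, mul_zero]

/-! ### The derivative of `(act, tailSum)` -/

/-- the derivative of `tailSum j` -/
noncomputable def A3_X {n : ℕ} (j : Fin n) (P : Fin n → ℂ) : (Fin n → ℂ) →L[ℝ] ℝ :=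
  ∑ k, if j < k then (2 * Real.pi) • ((P k).re • (Complex.reCLM.comp (ContinuousLinearMap.proj k)) +
    (P k).im • (Complex.imCLM.comp (ContinuousLinearMap.proj k))) else 0

theorem A3_X_apply {n : ℕ} (j : Fin n) (P u : Fin n → ℂ) :
    A3_X j P u = ∑ k, if j < k then 2 * Real.pi * ((P k).re * (u k).re + (P k).im * (u k).im)
      else 0 := by
  unfold A3_X
  rw [ContinuousLinearMap.sum_apply]
  refine Finset.sum_congr rfl fun k _ => ?_
  split_ifs with h
  · simp
    ring
  · simp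

/-- the derivative of `act` -/
noncomputable def A3_A (n : ℕ) : (Fin n → ℂ) →L[ℝ] (Fin n → ℝ) :=
  ContinuousLinearMap.pi fun k => Complex.reCLM.comp (ContinuousLinearMap.proj k)

theorem A3_act {n : ℕ} (P : Fin n → ℂ) : HasFDerivAt act (A3_A n) P := by
  have : (act : (Fin n → ℂ) → _) = fun P => A3_A n P := rfl
  rw [this]
  exact (A3_A n).hasFDerivAt

theorem A3_tail {n : ℕ} (j : Fin n) (P : Fin n → ℂ) : HasFDerivAt (tailSum j) (A3_X j P) P := by
  unfold tailSum A3_X
  refine HasFDerivAt.fun_sum fun k _ => ?_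
  split_ifs with h
  · have h1 : HasFDerivAt (fun P : Fin n → ℂ => P k)
        (ContinuousLinearMap.proj k : (Fin n → ℂ) →L[ℝ] ℂ) P :=
      (ContinuousLinearMap.proj k : (Fin n → ℂ) →L[ℝ] ℂ).hasFDerivAt
    have h2 := (normSq_hasFDerivAt (P k)).comp P h1
    have h3 : HasFDerivAt (fun P : Fin n → ℂ => Real.pi * normSq (P k)) _ P := h2.const_mul Real.pi
    have h4 : (fun P : Fin n → ℂ => Real.pi * ‖P k‖ ^ 2) = fun P => Real.pi * normSq (P k) := by
      funext P
      rw [Complex.normSq_eq_norm_sq]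
    rw [h4]
    refine h3.congr_fderiv ?_
    ext u
    simp
    ring
  · exact hasFDerivAt_const _ _

theorem A3_q {n : ℕ} (j : Fin n) (P : Fin n → ℂ) :
    HasFDerivAt (fun P => (act P, tailSum j P)) ((A3_A n).prod (A3_X j P)) P :=
  (A3_act P).prodMk (A3_tail j P)

/-! ### Algebra in one slot -/

theorem A3_slot1 (u v : ℂ) (b b' : ℝ) :
    om1 (u - I * (b : ℂ)) (v - I * (b' : ℂ)) = om1 u v - u.re * b' + v.re * b := by
  unfold om1
  simp
  ring

theorem A3_slot2 (u v : ℂ) (a a' : ℝ) :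
    om1 (u + (a : ℂ)) (v + (a' : ℂ)) = om1 u v + a * v.im - a' * u.im := by
  unfold om1
  simp
  ring

theorem A3_slot3 (θ t t' : ℝ) (u v p : ℂ) :
    om1 (exp ((θ : ℂ) * I) * (u + (t : ℂ) * (I * p))) (exp ((θ : ℂ) * I) * (v + (t' : ℂ) * (I * p))) =
      om1 u v + t' * (p.re * u.re + p.im * u.im) - t * (p.re * v.re + p.im * v.im) := by
  rw [om1_rot, Complex.normSq_eq_norm_sq, Complex.norm_exp_ofReal_mul_I]
  unfold om1
  simp only [one_pow, add_re, mul_re, ofReal_re, I_re, zero_mul, I_im, one_mul, zero_sub, mul_neg, ofReal_im, mul_im, zero_add, sub_zero, add_im, neg_zero, add_zero]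
  ring

/-! ### The derivative of the step map -/

section Deriv

variable {n : ℕ} (j : Fin n) {ζ : ℂ → ℂ} {W : (Fin n → ℝ) × ℝ → ℝ} (P : Fin n → ℂ)

/-- the value of the derivative of `(ζ (P j)).im * fderiv ℝ W (q P) e` -/
noncomputable def A3_b (ζ : ℂ → ℂ) (W : (Fin n → ℝ) × ℝ → ℝ) (e : (Fin n → ℝ) × ℝ)
    (u : Fin n → ℂ) : ℝ :=
  (ζ (P j)).im * fderiv ℝ (fderiv ℝ W) (act P, tailSum j P) (A3_A n u, A3_X j P u) e +
    (fderiv ℝ ζ (P j) (u j)).im * fderiv ℝ W (act P, tailSum j P) e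

theorem A3_hb (hζ : DifferentiableAt ℝ ζ (P j)) (hW : ContDiff ℝ ∞ W) (e : (Fin n → ℝ) × ℝ) :
    ∃ B : (Fin n → ℂ) →L[ℝ] ℝ, HasFDerivAt
      (fun P : Fin n → ℂ => (ζ (P j)).im * fderiv ℝ W (act P, tailSum j P) e) B P ∧
      ∀ u, B u = A3_b j P ζ W e u := by
  have hs : ContDiff ℝ ∞ (fderiv ℝ W) := hW.fderiv_right (by simp)
  have h0 : HasFDerivAt (fun P : Fin n → ℂ => P j)
      (ContinuousLinearMap.proj j : (Fin n → ℂ) →L[ℝ] ℂ) P :=
    (ContinuousLinearMap.proj j : (Fin n → ℂ) →L[ℝ] ℂ).hasFDerivAt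
  have h1 : HasFDerivAt (fun P : Fin n → ℂ => ζ (P j)) _ P := hζ.hasFDerivAt.comp P h0
  have h2 : HasFDerivAt (fun P : Fin n → ℂ => (ζ (P j)).im) _ P :=
    Complex.imCLM.hasFDerivAt.comp P h1
  have h3 : HasFDerivAt (fun P : Fin n → ℂ => fderiv ℝ W (act P, tailSum j P)) _ P :=
    (hs.differentiable (by simp) _).hasFDerivAt.comp P (A3_q j P)
  have h4 : HasFDerivAt (fun P : Fin n → ℂ => fderiv ℝ W (act P, tailSum j P) e) _ P :=
    h3.clm_apply (hasFDerivAt_const e P)
  have h5 := h2.mul h4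
  refine ⟨_, h5, fun u => ?_⟩
  unfold A3_b
  simp
  ring

/-- the value of the derivative of the step map -/
noncomputable def A3_D (ζ : ℂ → ℂ) (W : (Fin n → ℝ) × ℝ → ℝ) (u : Fin n → ℂ) : Fin n → ℂ :=
  fun i =>
  if i < j then u i - I * ((A3_b j P ζ W (Pi.single i 1, 0) u : ℝ) : ℂ)
  else if i = j then fderiv ℝ ζ (P j) (u j) +
    ((fderiv ℝ W (act P, tailSum j P) (A3_A n u, A3_X j P u) : ℝ) : ℂ)
  else exp ((((-2 * Real.pi) * ((ζ (P j)).im * fderiv ℝ W (act P, tailSum j P) (0, 1)) : ℝ) : ℂ) * I)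
      * (u i + (((-2 * Real.pi) * A3_b j P ζ W (0, 1) u : ℝ) : ℂ) * (I * P i))

theorem A3_slot (hζ : DifferentiableAt ℝ ζ (P j)) (hW : ContDiff ℝ ∞ W) (i : Fin n) :
    ∃ B : (Fin n → ℂ) →L[ℝ] ℂ, HasFDerivAt (fun P => stepMap j ζ W P i) B P ∧
      ∀ u, B u = A3_D j P ζ W u i := by
  have hpr : ∀ k, HasFDerivAt (fun P : Fin n → ℂ => P k)
      (ContinuousLinearMap.proj k : (Fin n → ℂ) →L[ℝ] ℂ) P := fun k =>
    (ContinuousLinearMap.proj k : (Fin n → ℂ) →L[ℝ] ℂ).hasFDerivAt
  unfold stepMap A3_D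
  split_ifs with h1 h2
  · obtain ⟨B, hB, hBu⟩ := A3_hb j P hζ hW (Pi.single i 1, 0)
    have h3 : HasFDerivAt (fun P : Fin n → ℂ => (((ζ (P j)).im *
        fderiv ℝ W (act P, tailSum j P) (Pi.single i 1, 0) : ℝ) : ℂ)) (Complex.ofRealCLM.comp B) P :=
      Complex.ofRealCLM.hasFDerivAt.comp P hB
    have h4 := (hpr i).sub (h3.const_mul I)
    refine ⟨_, h4, fun u => ?_⟩
    rw [← hBu u]
    simp
  · have h3 : HasFDerivAt (fun P : Fin n → ℂ => ζ (P j)) _ P := hζ.hasFDerivAt.comp P (hpr j)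
    have h4 : HasFDerivAt (fun P : Fin n → ℂ => W (act P, tailSum j P)) _ P :=
      (hW.differentiable (by simp) _).hasFDerivAt.comp P (A3_q j P)
    have h5 : HasFDerivAt (fun P : Fin n → ℂ => ((W (act P, tailSum j P) : ℝ) : ℂ)) _ P :=
      Complex.ofRealCLM.hasFDerivAt.comp P h4
    refine ⟨_, h3.add h5, fun u => ?_⟩
    simp only [add_apply, ContinuousLinearMap.comp_apply, ContinuousLinearMap.proj_apply, ContinuousLinearMap.prod_apply, ofRealCLM_apply]
  · obtain ⟨B, hB, hBu⟩ := A3_hb j P hζ hW (0, 1)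
    have h3 : HasFDerivAt (fun P : Fin n → ℂ => (((-2 * Real.pi) * ((ζ (P j)).im *
        fderiv ℝ W (act P, tailSum j P) (0, 1)) : ℝ) : ℂ)) _ P :=
      Complex.ofRealCLM.hasFDerivAt.comp P (hB.const_mul (-2 * Real.pi))
    have h4 := (h3.mul_const I).cexp.mul (hpr i)
    refine ⟨_, h4, fun u => ?_⟩
    rw [← hBu u]
    simp
    ring

theorem A3_fderiv (hζ : DifferentiableAt ℝ ζ (P j)) (hW : ContDiff ℝ ∞ W) (u : Fin n → ℂ) :
    fderiv ℝ (stepMap j ζ W) P u = A3_D j P ζ W u := by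
  choose B hB hBu using A3_slot j P hζ hW
  have h1 : HasFDerivAt (stepMap j ζ W) (ContinuousLinearMap.pi B) P := hasFDerivAt_pi.2 hB
  rw [h1.fderiv]
  funext i
  exact hBu i u

end Deriv

/-- A3. The step map is symplectic: here `W` only depends on the actions of the slots `i < j`. -/
theorem stepMap_sympl {n : ℕ} (j : Fin n) {ζ : ℂ → ℂ} {r' : ℝ}
    (hζ : ContDiffOn ℝ ∞ ζ {z | ‖z‖ < r'})
    (hs : ∀ z, ‖z‖ < r' → ∀ v w, om1 (fderiv ℝ ζ z v) (fderiv ℝ ζ z w) = om1 v w)
    {W : (Fin n → ℝ) × ℝ → ℝ} (hW : ContDiff ℝ ∞ W)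
    (hdep : ∀ y y' x, (∀ i, i < j → y i = y' i) → W (y, x) = W (y', x))
    (P : Fin n → ℂ) (hP : ‖P j‖ < r') (u v : Fin n → ℂ) :
    omega (fderiv ℝ (stepMap j ζ W) P u) (fderiv ℝ (stepMap j ζ W) P v) = omega u v := by
  have hd : DifferentiableAt ℝ ζ (P j) := by
    have ho : IsOpen {z : ℂ | ‖z‖ < r'} := isOpen_lt continuous_norm continuous_const
    exact (hζ.differentiableOn (by simp)).differentiableAt (ho.mem_nhds hP)
  rw [A3_fderiv j P hd hW, A3_fderiv j P hd hW]
  set q : (Fin n → ℝ) × ℝ := (act P, tailSum j P) with hq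
  set qu : (Fin n → ℝ) × ℝ := (A3_A n u, A3_X j P u) with hqu
  set qv : (Fin n → ℝ) × ℝ := (A3_A n v, A3_X j P v) with hqv
  set G := fderiv ℝ W q with hG
  set H := fderiv ℝ (fderiv ℝ W) q with hH
  set y : ℝ := (ζ (P j)).im with hy
  set au : ℝ := (fderiv ℝ ζ (P j) (u j)).im with hau
  set av : ℝ := (fderiv ℝ ζ (P j) (v j)).im with hav
  have hbu : ∀ e, A3_b j P ζ W e u = y * H qu e + au * G e := fun e => rfl
  have hbv : ∀ e, A3_b j P ζ W e v = y * H qv e + av * G e := fun e => rfl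
  -- symmetry of the second derivative
  have hsymm : H qu qv = H qv qu := by
    have h1 : ContDiffAt ℝ ∞ W q := hW.contDiffAt
    have h2 := h1.isSymmSndFDerivAt (by
      rw [minSmoothness_of_isRCLikeNormedField]
      exact WithTop.coe_le_coe.2 (le_top (a := (2 : ℕ∞))))
    exact h2 qu qv
  -- expansions
  have eG : ∀ z : (Fin n → ℝ) × ℝ, G z =
      ∑ i, (if i < j then z.1 i * G (Pi.single i 1, 0) else 0) + z.2 * G (0, 1) :=
    A3_lin G fun i hi => A3_d1 hW hdep hi q
  have eH : ∀ w z : (Fin n → ℝ) × ℝ, H w z =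
      ∑ i, (if i < j then z.1 i * H w (Pi.single i 1, 0) else 0) + z.2 * H w (0, 1) := fun w =>
    A3_lin (H w) fun i hi => A3_d2 hW hdep hi q w
  -- slots
  have key : ∀ i, om1 (A3_D j P ζ W u i) (A3_D j P ζ W v i) = om1 (u i) (v i) -
      (if i < j then (u i).re * (y * H qv (Pi.single i 1, 0) + av * G (Pi.single i 1, 0)) else 0) +
      (if i < j then (v i).re * (y * H qu (Pi.single i 1, 0) + au * G (Pi.single i 1, 0)) else 0) +
      (if i = j then G qu * av - G qv * au else 0) -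
      (if j < i then 2 * Real.pi * ((P i).re * (u i).re + (P i).im * (u i).im) else 0) *
        (y * H qv (0, 1) + av * G (0, 1)) +
      (if j < i then 2 * Real.pi * ((P i).re * (v i).re + (P i).im * (v i).im) else 0) *
        (y * H qu (0, 1) + au * G (0, 1)) := by
    intro i
    unfold A3_D
    rcases lt_trichotomy i j with h | h | h
    · have h2 : i ≠ j := h.ne
      have h3 : ¬ j < i := not_lt.2 h.le
      simp only [if_pos h, if_neg h2, if_neg h3]
      rw [A3_slot1, hbu, hbv]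
      ring
    · subst h
      simp only [lt_irrefl, if_false, if_true]
      rw [A3_slot2, hs (P i) hP]
      ring
    · have h2 : i ≠ j := h.ne'
      have h3 : ¬ i < j := not_lt.2 h.le
      simp only [if_pos h, if_neg h2, if_neg h3]
      rw [A3_slot3, hbu, hbv]
      ring
  have h1 : omega (A3_D j P ζ W u) (A3_D j P ζ W v) =
      ∑ i, om1 (A3_D j P ζ W u i) (A3_D j P ζ W v i) := rfl
  have h2 : omega u v = ∑ i, om1 (u i) (v i) := rfl
  rw [h1, h2]
  simp only [key, Finset.sum_add_distrib, Finset.sum_sub_distrib, ← Finset.sum_mul,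
    ← A3_X_apply, Finset.sum_ite_eq', Finset.mem_univ, if_true]
  -- the sums
  have s1 : ∑ i, (if i < j then (u i).re * (y * H qv (Pi.single i 1, 0) +
      av * G (Pi.single i 1, 0)) else 0) =
      y * (H qv qu - qu.2 * H qv (0, 1)) + av * (G qu - qu.2 * G (0, 1)) := by
    rw [eH qv qu, eG qu]
    simp only [add_sub_cancel_right, Finset.mul_sum, ← Finset.sum_add_distrib]
    refine Finset.sum_congr rfl fun i _ => ?_
    split_ifs with h
    · show (u i).re * _ = y * ((u i).re * _) + av * ((u i).re * _)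
      ring
    · simp
  have s2 : ∑ i, (if i < j then (v i).re * (y * H qu (Pi.single i 1, 0) +
      au * G (Pi.single i 1, 0)) else 0) =
      y * (H qu qv - qv.2 * H qu (0, 1)) + au * (G qv - qv.2 * G (0, 1)) := by
    rw [eH qu qv, eG qv]
    simp only [add_sub_cancel_right, Finset.mul_sum, ← Finset.sum_add_distrib]
    refine Finset.sum_congr rfl fun i _ => ?_
    split_ifs with h
    · show (v i).re * _ = y * ((v i).re * _) + au * ((v i).re * _)
      ring
    · simp
  rw [s1, s2, hsymm]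
  have e1 : qu.2 = A3_X j P u := rfl
  have e2 : qv.2 = A3_X j P v := rfl
  rw [e1, e2]
  ring

end Vale.Agent.P209.Strong
end
end
end
end

section

section

section

section

open scoped ContDiff

namespace Vale.Agent.P209.Strong

open Vale.Agent.P209 Complex

theorem stepMap_lt {n : ℕ} (j : Fin n) (ζ : ℂ → ℂ) (W : (Fin n → ℝ) × ℝ → ℝ)
    (P : Fin n → ℂ) (i : Fin n) (h : i < j) : stepMap j ζ W P i =
      P i - I * (((ζ (P j)).im * fderiv ℝ W (act P, tailSum j P) (Pi.single i 1, 0) : ℝ) : ℂ) := by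
  rw [stepMap, if_pos h]

theorem stepMap_self {n : ℕ} (j : Fin n) (ζ : ℂ → ℂ) (W : (Fin n → ℝ) × ℝ → ℝ)
    (P : Fin n → ℂ) : stepMap j ζ W P j = ζ (P j) + ((W (act P, tailSum j P) : ℝ) : ℂ) := by
  rw [stepMap, if_neg (lt_irrefl j), if_pos rfl]

theorem stepMap_gt {n : ℕ} (j : Fin n) (ζ : ℂ → ℂ) (W : (Fin n → ℝ) × ℝ → ℝ)
    (P : Fin n → ℂ) (i : Fin n) (h : j < i) : stepMap j ζ W P i =
      exp ((((-2 * Real.pi) * ((ζ (P j)).im * fderiv ℝ W (act P, tailSum j P) (0, 1)) : ℝ) : ℂ) * I)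
      * P i := by
  rw [stepMap, if_neg (not_lt.2 h.le), if_neg h.ne']

theorem stepMap_re_lt {n : ℕ} (j : Fin n) (ζ : ℂ → ℂ) (W : (Fin n → ℝ) × ℝ → ℝ)
    (P : Fin n → ℂ) (i : Fin n) (h : i < j) : (stepMap j ζ W P i).re = (P i).re := by
  rw [stepMap_lt j ζ W P i h]
  simp

theorem stepMap_im_lt {n : ℕ} (j : Fin n) (ζ : ℂ → ℂ) (W : (Fin n → ℝ) × ℝ → ℝ)
    (P : Fin n → ℂ) (i : Fin n) (h : i < j) : (stepMap j ζ W P i).im =
      (P i).im - (ζ (P j)).im * fderiv ℝ W (act P, tailSum j P) (Pi.single i 1, 0) := by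
  rw [stepMap_lt j ζ W P i h]
  simp only [sub_im, I_mul_im, ofReal_re]

theorem stepMap_norm_gt {n : ℕ} (j : Fin n) (ζ : ℂ → ℂ) (W : (Fin n → ℝ) × ℝ → ℝ)
    (P : Fin n → ℂ) (i : Fin n) (h : j < i) : ‖stepMap j ζ W P i‖ = ‖P i‖ := by
  rw [stepMap_gt j ζ W P i h, norm_mul, norm_exp_ofReal_mul_I, one_mul]

theorem tailSum_congr {n : ℕ} (j : Fin n) {P Q : Fin n → ℂ} (h : ∀ k, j < k → ‖P k‖ = ‖Q k‖) :
    tailSum j P = tailSum j Q := by
  rw [tailSum, tailSum]
  refine Finset.sum_congr rfl fun k _ => ?_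
  split_ifs with hk
  · rw [h k hk]
  · rfl

theorem W_congr {n : ℕ} (j : Fin n) {W : (Fin n → ℝ) × ℝ → ℝ}
    (hdep : ∀ y y' x, (∀ i, i < j → y i = y' i) → W (y, x) = W (y', x)) {y y' : Fin n → ℝ}
    (x : ℝ) (h : ∀ i, i < j → y i = y' i) : fderiv ℝ W (y, x) = fderiv ℝ W (y', x) := by
  have h1 : (fun p : (Fin n → ℝ) × ℝ => W (p + (y' - y, 0))) = W := by
    funext p
    obtain ⟨p1, p2⟩ := p
    show W (p1 + (y' - y), p2 + 0) = W (p1, p2)
    rw [add_zero]
    refine hdep _ _ _ fun i hi => ?_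
    show p1 i + (y' i - y i) = p1 i
    rw [h i hi]
    ring
  have h2 := fderiv_comp_add_right (𝕜 := ℝ) (f := W) (x := (y, x)) (y' - y, (0 : ℝ))
  rw [h1] at h2
  rw [h2]
  congr 1
  ext <;> simp

/-- The relation used for injectivity. -/
def RelJ {n : ℕ} (m : ℕ) (P Q : Fin n → ℂ) : Prop :=
  ∀ i : Fin n, (i.val < m → (P i).re = (Q i).re ∧ ∃ k : ℤ, (P i).im - (Q i).im = k) ∧
    (m ≤ i.val → P i = Q i)

theorem relJ_step {n : ℕ} (j : Fin n) {ζ : ℂ → ℂ} {r' : ℝ}
    (hinj : ∀ z w, ‖z‖ < r' → ‖w‖ < r' → (ζ z).re = (ζ w).re →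
        (∃ m : ℤ, (ζ z).im - (ζ w).im = m) → z = w)
    {W : (Fin n → ℝ) × ℝ → ℝ}
    (hdep : ∀ y y' x, (∀ i, i < j → y i = y' i) → W (y, x) = W (y', x))
    {P Q : Fin n → ℂ} (hP : ‖P j‖ < r') (hQ : ‖Q j‖ < r')
    (h : RelJ (j.val + 1) (stepMap j ζ W P) (stepMap j ζ W Q)) : RelJ j.val P Q := by
  have hgt : ∀ k, j < k → stepMap j ζ W P k = stepMap j ζ W Q k := fun k hk =>
    (h k).2 (Nat.succ_le_of_lt (Fin.lt_def.1 hk))
  have hts : tailSum j P = tailSum j Q := by
    refine tailSum_congr j fun k hk => ?_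
    rw [← stepMap_norm_gt j ζ W P k hk, ← stepMap_norm_gt j ζ W Q k hk, hgt k hk]
  have hact : ∀ i, i < j → act P i = act Q i := by
    intro i hi
    have h1 := ((h i).1 (Nat.lt_succ_of_lt (Fin.lt_def.1 hi))).1
    rw [stepMap_re_lt j ζ W P i hi, stepMap_re_lt j ζ W Q i hi] at h1
    exact h1
  have hW : W (act P, tailSum j P) = W (act Q, tailSum j Q) := by
    rw [hts]
    exact hdep _ _ _ hact
  have hD : fderiv ℝ W (act P, tailSum j P) = fderiv ℝ W (act Q, tailSum j Q) := by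
    rw [hts]
    exact W_congr j hdep _ hact
  have hj : P j = Q j := by
    have h1 := (h j).1 (Nat.lt_succ_self _)
    rw [stepMap_self, stepMap_self, hW] at h1
    simp only [add_re, add_im, ofReal_re, ofReal_im, add_zero, add_left_inj] at h1
    exact hinj _ _ hP hQ h1.1 h1.2
  intro i
  refine ⟨fun hi => ?_, fun hi => ?_⟩
  · have hi' : i < j := Fin.lt_def.2 hi
    refine ⟨hact i hi', ?_⟩
    obtain ⟨k, hk⟩ := ((h i).1 (Nat.lt_succ_of_lt hi)).2
    refine ⟨k, ?_⟩
    rw [stepMap_im_lt j ζ W P i hi', stepMap_im_lt j ζ W Q i hi', hD, hj] at hk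
    rw [← hk]
    ring
  · rcases eq_or_lt_of_le (Fin.le_def.2 hi : j ≤ i) with hij | hij
    · rw [← hij]
      exact hj
    · have h1 := hgt i hij
      rw [stepMap_gt j ζ W P i hij, stepMap_gt j ζ W Q i hij, hD, hj] at h1
      exact mul_left_cancel₀ (exp_ne_zero _) h1

/-- Composition of the first `m` step maps. -/
noncomputable def stepF {n : ℕ} (ζ : ℂ → ℂ) (W : Fin n → (Fin n → ℝ) × ℝ → ℝ) :
    ℕ → (Fin n → ℂ) → (Fin n → ℂ)
  | 0 => fun z => z
  | m + 1 => fun z => if h : m < n then stepMap ⟨m, h⟩ ζ (W ⟨m, h⟩) (stepF ζ W m z)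
      else stepF ζ W m z

theorem stepF_succ {n : ℕ} (ζ : ℂ → ℂ) (W : Fin n → (Fin n → ℝ) × ℝ → ℝ) {m : ℕ} (h : m < n)
    (z : Fin n → ℂ) :
    stepF ζ W (m + 1) z = stepMap ⟨m, h⟩ ζ (W ⟨m, h⟩) (stepF ζ W m z) := by
  simp only [stepF, dif_pos h]

theorem stepF_norm {n : ℕ} (ζ : ℂ → ℂ) (W : Fin n → (Fin n → ℝ) × ℝ → ℝ) (m : ℕ) :
    m ≤ n → ∀ (z : Fin n → ℂ) (k : Fin n), m ≤ k.val → ‖stepF ζ W m z k‖ = ‖z k‖ := by
  induction m with
  | zero => intro _ z k _; rfl
  | succ m ih =>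
    intro hm z k hk
    rw [stepF_succ ζ W hm, stepMap_norm_gt _ _ _ _ _ (Fin.lt_def.2 (by show m < k.val; omega))]
    exact ih (Nat.le_of_succ_le hm) z k (Nat.le_of_succ_le hk)

theorem stepF_re {n : ℕ} (ζ : ℂ → ℂ) (W : Fin n → (Fin n → ℝ) × ℝ → ℝ) (m d : ℕ) :
    m + d ≤ n → ∀ (z : Fin n → ℂ) (k : Fin n), k.val < m →
      (stepF ζ W (m + d) z k).re = (stepF ζ W m z k).re := by
  induction d with
  | zero => intro _ z k _; rfl
  | succ d ih =>
    intro hm z k hk
    rw [← add_assoc, stepF_succ ζ W (by omega : m + d < n),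
      stepMap_re_lt _ _ _ _ _ (Fin.lt_def.2 (by show k.val < m + d; omega))]
    exact ih (by omega) z k hk

/-- A4. Realization for smooth `W`: composition of the `n` step maps. -/
theorem exists_smooth_realization {n : ℕ} (r ε : ℝ) (hr : 0 ≤ r) (hε : 0 < ε)
    (W : Fin n → (Fin n → ℝ) × ℝ → ℝ) (hW : ∀ j, ContDiff ℝ ∞ (W j))
    (hdep : ∀ j y y' x, (∀ i, i < j → y i = y' i) → W j (y, x) = W j (y', x)) :
    ∃ (U : Set (Fin n → ℂ)) (f : (Fin n → ℂ) → (Fin n → ℂ)), IsOpen U ∧ closedBall n r ⊆ U ∧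
      ContDiffOn ℝ ∞ f U ∧
      (∀ z ∈ U, ∀ v w : Fin n → ℂ, omega (fderiv ℝ f z v) (fderiv ℝ f z w) = omega v w) ∧
      (∀ z ∈ U, ∀ w ∈ U, SameMod (f z) (f w) → z = w) ∧
      (∀ z ∈ U, ∀ j, 0 ≤ act (f z) j - W j (act (f z), tailSum j z) ∧
        act (f z) j - W j (act (f z), tailSum j z) ≤ Real.pi * ‖z j‖ ^ 2 + ε) := by
  obtain ⟨r', ζ, hr', hr'0, hζ, hsym, hrange, hinj⟩ := exists_plane_chart r ε hr hε
  set U : Set (Fin n → ℂ) := {z | ∀ k, ‖z k‖ < r'} with hU
  have hUo : IsOpen U := by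
    rw [hU, Set.ofPred_forall]
    exact isOpen_iInter_of_finite fun k => isOpen_lt (by fun_prop) continuous_const
  have hslot : ∀ j : Fin n, IsOpen {P : Fin n → ℂ | ‖P j‖ < r'} := fun j =>
    isOpen_lt (by fun_prop) continuous_const
  have hmaps : ∀ (m : ℕ) (hm : m < n), ∀ z ∈ U, ‖stepF ζ W m z ⟨m, hm⟩‖ < r' := by
    intro m hm z hz
    rw [stepF_norm ζ W m hm.le z ⟨m, hm⟩ le_rfl]
    exact hz _
  have hsmooth : ∀ m, m ≤ n → ContDiffOn ℝ ∞ (stepF ζ W m) U := by
    intro m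
    induction m with
    | zero => intro _; exact contDiffOn_id
    | succ m ih =>
      intro hm
      have h1 : Set.EqOn (stepF ζ W (m + 1))
          (stepMap ⟨m, hm⟩ ζ (W ⟨m, hm⟩) ∘ stepF ζ W m) U := fun z _ => stepF_succ ζ W hm z
      refine ContDiffOn.congr ?_ h1
      exact (stepMap_contDiffOn ⟨m, hm⟩ hζ (hW _)).comp (ih (Nat.le_of_succ_le hm))
        fun z hz => hmaps m hm z hz
  have hdiff : ∀ m, m ≤ n → ∀ z ∈ U, DifferentiableAt ℝ (stepF ζ W m) z := fun m hm z hz =>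
    ((hsmooth m hm).contDiffAt (hUo.mem_nhds hz)).differentiableAt (by simp)
  have homega : ∀ m, m ≤ n → ∀ z ∈ U, ∀ v w : Fin n → ℂ,
      omega (fderiv ℝ (stepF ζ W m) z v) (fderiv ℝ (stepF ζ W m) z w) = omega v w := by
    intro m
    induction m with
    | zero =>
      intro _ z _ v w
      show omega (fderiv ℝ (fun z => z) z v) (fderiv ℝ (fun z => z) z w) = omega v w
      rw [fderiv_fun_id]
      rfl
    | succ m ih =>
      intro hm z hz v w
      have h1 : stepF ζ W (m + 1) = stepMap ⟨m, hm⟩ ζ (W ⟨m, hm⟩) ∘ stepF ζ W m :=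
        funext fun z => stepF_succ ζ W hm z
      have h2 : DifferentiableAt ℝ (stepMap ⟨m, hm⟩ ζ (W ⟨m, hm⟩)) (stepF ζ W m z) :=
        ((stepMap_contDiffOn ⟨m, hm⟩ hζ (hW _)).contDiffAt
          ((hslot _).mem_nhds (hmaps m hm z hz))).differentiableAt (by simp)
      rw [h1, fderiv_comp z h2 (hdiff m (Nat.le_of_succ_le hm) z hz)]
      show omega (fderiv ℝ (stepMap ⟨m, hm⟩ ζ (W ⟨m, hm⟩)) (stepF ζ W m z)
          (fderiv ℝ (stepF ζ W m) z v)) (fderiv ℝ (stepMap ⟨m, hm⟩ ζ (W ⟨m, hm⟩)) (stepF ζ W m z)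
          (fderiv ℝ (stepF ζ W m) z w)) = omega v w
      rw [stepMap_sympl ⟨m, hm⟩ hζ hsym (hW _) (hdep _) _ (hmaps m hm z hz)]
      exact ih (Nat.le_of_succ_le hm) z hz v w
  have hback : ∀ m, m ≤ n → ∀ z ∈ U, ∀ w ∈ U, RelJ m (stepF ζ W m z) (stepF ζ W m w) → z = w := by
    intro m
    induction m with
    | zero =>
      intro _ z _ w _ h
      exact funext fun i => (h i).2 (Nat.zero_le _)
    | succ m ih =>
      intro hm z hz w hw h
      refine ih (Nat.le_of_succ_le hm) z hz w hw ?_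
      rw [stepF_succ ζ W hm, stepF_succ ζ W hm] at h
      exact relJ_step ⟨m, hm⟩ hinj (hdep _) (hmaps m hm z hz) (hmaps m hm w hw) h
  refine ⟨U, stepF ζ W n, hUo, ?_, hsmooth n le_rfl, homega n le_rfl, ?_, ?_⟩
  · intro z hz k
    have h1 : Real.pi * ‖z k‖ ^ 2 ≤ r := by
      refine le_trans ?_ hz
      exact mul_le_mul_of_nonneg_left
        (Finset.single_le_sum (f := fun j => ‖z j‖ ^ 2) (fun j _ => sq_nonneg _)
          (Finset.mem_univ k)) Real.pi_pos.le
    have h2 : Real.pi * ‖z k‖ ^ 2 < Real.pi * r' ^ 2 := lt_of_le_of_lt h1 hr'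
    have h3 : ‖z k‖ ^ 2 < r' ^ 2 := lt_of_mul_lt_mul_left h2 Real.pi_pos.le
    exact lt_of_pow_lt_pow_left₀ 2 hr'0.le h3
  · intro z hz w hw h
    exact hback n le_rfl z hz w hw fun i => ⟨fun _ => h i, fun hi => absurd hi (not_le.2 i.2)⟩
  · intro z hz j
    have h1 : ∀ i, i < j → act (stepF ζ W n z) i = act (stepF ζ W j.val z) i := by
      intro i hi
      obtain ⟨d, hd⟩ := Nat.exists_eq_add_of_le j.2.le
      have h2 := stepF_re ζ W j.val d (by omega) z i (Fin.lt_def.1 hi)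
      rw [← hd] at h2
      exact h2
    have h3 : act (stepF ζ W n z) j = (stepF ζ W (j.val + 1) z j).re := by
      obtain ⟨d, hd⟩ := Nat.exists_eq_add_of_le (Nat.succ_le_of_lt j.2)
      have h2 := stepF_re ζ W (j.val + 1) d (by omega) z j (Nat.lt_succ_self _)
      have hd' : j.val + 1 + d = n := hd.symm
      rw [hd'] at h2
      exact h2
    have h4 : stepF ζ W (j.val + 1) z j = ζ (stepF ζ W j.val z j) +
        ((W j (act (stepF ζ W j.val z), tailSum j (stepF ζ W j.val z)) : ℝ) : ℂ) := by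
      rw [stepF_succ ζ W j.2]
      exact stepMap_self j ζ (W j) _
    have h5 : tailSum j (stepF ζ W j.val z) = tailSum j z :=
      tailSum_congr j fun k hk => stepF_norm ζ W j.val j.2.le z k (Fin.lt_def.1 hk).le
    have h6 : act (stepF ζ W n z) j - W j (act (stepF ζ W n z), tailSum j z) =
        (ζ (stepF ζ W j.val z j)).re := by
      rw [h3, h4, h5, add_re, ofReal_re, hdep j _ _ (tailSum j z) h1]
      ring
    have h7 : ‖stepF ζ W j.val z j‖ = ‖z j‖ := stepF_norm ζ W j.val j.2.le z j le_rfl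
    have h8 : ‖stepF ζ W j.val z j‖ < r' := by
      rw [h7]
      exact hz j
    have h9 := hrange _ h8
    rw [h7] at h9
    rw [h6]
    exact ⟨h9.1.le, h9.2⟩

end Vale.Agent.P209.Strong
end
end
end
end

section

section

section

section

open scoped ContDiff

namespace Vale.Agent.P209.Strong

open Vale.Agent.P209

/-- A5. Smooth approximation which keeps the dependence on the first coordinates only. -/
theorem exists_smooth_approx {n : ℕ} (W : Fin n → (Fin n → ℝ) → ℝ → ℝ)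
    (hc : ∀ j, Continuous fun p : (Fin n → ℝ) × ℝ => W j p.1 p.2)
    (hdep : DepLt W) (ε : ℝ) (hε : 0 < ε) :
    ∃ V : Fin n → (Fin n → ℝ) × ℝ → ℝ, (∀ j, ContDiff ℝ ∞ (V j)) ∧
      (∀ j y y' x, (∀ i, i < j → y i = y' i) → V j (y, x) = V j (y', x)) ∧
      (∀ j p, |V j p - W j p.1 p.2| ≤ ε) := by
  have h := fun j => (hc j).exists_contDiff_approx (⊤ : ℕ∞) (ε := fun _ => ε) continuous_const
    (fun _ => hε)
  choose g hg1 hg2 _ using h
  refine ⟨fun j p => g j (fun i => if i < j then p.1 i else 0, p.2), fun j => ?_, ?_, ?_⟩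
  · refine (hg1 j).comp (ContDiff.prodMk (contDiff_pi.2 fun i => ?_) contDiff_snd)
    by_cases hi : i < j
    · simp only [if_pos hi]
      exact (contDiff_apply ℝ ℝ i).comp contDiff_fst
    · simp only [if_neg hi]
      exact contDiff_const
  · intro j y y' x hy
    have : (fun i => if i < j then y i else 0) = (fun i => if i < j then y' i else 0) := by
      funext i
      by_cases hi : i < j
      · rw [if_pos hi, if_pos hi, hy i hi]
      · rw [if_neg hi, if_neg hi]
    simp only [this]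
  · intro j p
    have h1 := (hg2 j (fun i => if i < j then p.1 i else 0, p.2)).le
    rw [Real.dist_eq] at h1
    have h2 : W j (fun i => if i < j then p.1 i else 0) = W j p.1 :=
      hdep j _ _ fun i hi => if_pos hi
    simp only [h2] at h1
    exact h1

end Vale.Agent.P209.Strong
end
end
end
end

section

section

section

section

namespace Vale.Agent.P209.Strong

open Vale.Agent.P209

/-- Pairs `(a, x)` which satisfy the inequalities of `KK` up to `ε`, with the parameter `ε`. -/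
def A6set {n : ℕ} (W : Fin n → (Fin n → ℝ) → ℝ → ℝ) (r : ℝ) :
    Set (ℝ × (Fin n → ℝ) × (ℕ → ℝ)) :=
  {p | (0 ≤ p.1 ∧ p.1 ≤ 1) ∧ p.2.2 0 ≤ r + p.1 ∧ (∀ j, 0 ≤ p.2.2 j) ∧ (∀ j, n ≤ j → p.2.2 j = 0) ∧
    ∀ j : Fin n, W j p.2.1 (p.2.2 (j + 1)) - p.1 ≤ p.2.1 j ∧
      p.2.1 j ≤ W j p.2.1 (p.2.2 (j + 1)) + (p.2.2 j - p.2.2 (j + 1)) + p.1}

theorem A6_isClosed {n : ℕ} (W : Fin n → (Fin n → ℝ) → ℝ → ℝ)
    (hc : ∀ j, Continuous fun p : (Fin n → ℝ) × ℝ => W j p.1 p.2) (r : ℝ) :
    IsClosed (A6set W r) := by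
  have h1 : ∀ k : ℕ, Continuous fun p : ℝ × (Fin n → ℝ) × (ℕ → ℝ) => p.2.2 k := fun k => by
    fun_prop
  have h2 : ∀ j : Fin n, Continuous fun p : ℝ × (Fin n → ℝ) × (ℕ → ℝ) => p.2.1 j := fun j => by
    fun_prop
  have h3 : ∀ j : Fin n, Continuous fun p : ℝ × (Fin n → ℝ) × (ℕ → ℝ) =>
      W j p.2.1 (p.2.2 (j + 1)) := fun j =>
    (hc j).comp ((continuous_fst.comp continuous_snd).prodMk (h1 _))
  have h4 : Continuous fun p : ℝ × (Fin n → ℝ) × (ℕ → ℝ) => p.1 := continuous_fst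
  have c1 : IsClosed {p : ℝ × (Fin n → ℝ) × (ℕ → ℝ) | ∀ j, 0 ≤ p.2.2 j} := by
    simp only [Set.ofPred_forall]
    exact isClosed_iInter fun j => isClosed_le continuous_const (h1 j)
  have c2 : IsClosed {p : ℝ × (Fin n → ℝ) × (ℕ → ℝ) | ∀ j, n ≤ j → p.2.2 j = 0} := by
    simp only [Set.ofPred_forall]
    exact isClosed_iInter fun j => isClosed_iInter fun _ => isClosed_eq (h1 j) continuous_const
  have c3 : IsClosed {p : ℝ × (Fin n → ℝ) × (ℕ → ℝ) | ∀ j : Fin n,
      W j p.2.1 (p.2.2 (j + 1)) - p.1 ≤ p.2.1 j ∧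
      p.2.1 j ≤ W j p.2.1 (p.2.2 (j + 1)) + (p.2.2 j - p.2.2 (j + 1)) + p.1} := by
    simp only [Set.ofPred_forall]
    exact isClosed_iInter fun j => (isClosed_le ((h3 j).sub h4) (h2 j)).inter
      (isClosed_le (h2 j) (((h3 j).add ((h1 _).sub (h1 _))).add h4))
  exact ((isClosed_le continuous_const h4).inter (isClosed_le h4 continuous_const)).inter
    ((isClosed_le (h1 0) (continuous_const.add h4)).inter (c1.inter (c2.inter c3)))

theorem A6_x_le {n : ℕ} {W : Fin n → (Fin n → ℝ) → ℝ → ℝ} {r : ℝ}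
    {p : ℝ × (Fin n → ℝ) × (ℕ → ℝ)} (hp : p ∈ A6set W r) (j : ℕ) :
    p.2.2 j ≤ |r| + 1 + 2 * n := by
  obtain ⟨⟨e0, e1⟩, hr, h0, hn, h⟩ := hp
  have key : ∀ j : ℕ, j ≤ n → p.2.2 j ≤ |r| + 1 + 2 * j := by
    intro j
    induction j with
    | zero =>
      intro _
      have := le_abs_self r
      push_cast
      linarith only [e1, hr, this]
    | succ j ih =>
      intro hj
      have h1 := ih (by omega)
      have h2 := h ⟨j, by omega⟩
      simp only at h2
      push_cast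
      linarith only [e1, h1, h2]
  by_cases hj : j ≤ n
  · have h1 := key j hj
    have h2 : (j : ℝ) ≤ n := by exact_mod_cast hj
    linarith only [h1, h2]
  · rw [hn j (by omega)]
    (clear * -; positivity)

theorem A6_a_le {n : ℕ} {W : Fin n → (Fin n → ℝ) → ℝ → ℝ}
    (hc : ∀ j, Continuous fun p : (Fin n → ℝ) × ℝ => W j p.1 p.2)
    (hdep : DepLt W) (r : ℝ) (k : ℕ) : ∃ B : ℝ, 0 ≤ B ∧ ∀ p ∈ A6set W r, ∀ i : Fin n,
      (i : ℕ) < k → |p.2.1 i| ≤ B := by
  induction k with
  | zero => exact ⟨0, le_rfl, fun p _ i hi => absurd hi (by omega)⟩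
  | succ k ih =>
    obtain ⟨B, hB0, hB⟩ := ih
    by_cases hk : k < n
    · set R : ℝ := |r| + 1 + 2 * n with hR
      have hR0 : 0 ≤ R := by (clear * -; positivity)
      set j : Fin n := ⟨k, hk⟩ with hj
      obtain ⟨B', hB'⟩ := (((isCompact_Icc (a := fun _ : Fin n => -B)
        (b := fun _ : Fin n => B)).prod (isCompact_Icc (a := (0 : ℝ)) (b := R)))).exists_bound_of_continuousOn
        (hc j).continuousOn
      refine ⟨max B (B' + R + 1), le_max_of_le_left hB0, fun p hp i hi => ?_⟩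
      by_cases hik : (i : ℕ) < k
      · exact le_max_of_le_left (hB p hp i hik)
      · have hij : i = j := Fin.ext (by simp only [hj]; omega)
        rw [hij]
        refine le_max_of_le_right ?_
        set y : Fin n → ℝ := fun i => if (i : ℕ) < k then p.2.1 i else 0 with hy
        have hW : W j p.2.1 (p.2.2 (j + 1)) = W j y (p.2.2 (j + 1)) := by
          rw [hdep j p.2.1 y (fun l hl => by
            have : (l : ℕ) < k := by
              have := Fin.lt_def.mp hl
              simp only [hj] at this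
              exact this
            simp [hy, this])]
        have hx := A6_x_le hp
        obtain ⟨⟨e0, e1⟩, hr, h0, hn, h⟩ := hp
        have hmem : (y, p.2.2 (j + 1)) ∈ Set.Icc (fun _ : Fin n => -B) (fun _ : Fin n => B) ×ˢ
            Set.Icc (0 : ℝ) R := by
          refine ⟨⟨fun l => ?_, fun l => ?_⟩, h0 _, hx _⟩
          · simp only [hy]
            split_ifs with hl
            · exact (abs_le.mp (hB p ⟨⟨e0, e1⟩, hr, h0, hn, h⟩ l hl)).1
            · linarith only [hB0]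
          · simp only [hy]
            split_ifs with hl
            · exact (abs_le.mp (hB p ⟨⟨e0, e1⟩, hr, h0, hn, h⟩ l hl)).2
            · linarith only [hB0]
        have hb := hB' _ hmem
        simp only [Real.norm_eq_abs] at hb
        have h2 := h j
        rw [hW] at h2
        have h3 := abs_le.mp hb
        have h4 := hx j
        have h5 := h0 (j + 1)
        rw [abs_le]
        constructor
        · linarith only [hR0, e1, h2, h3]
        · linarith only [e1, h2, h3, h4, h5]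
    · exact ⟨B, hB0, fun p hp i _ => hB p hp i (lt_of_lt_of_le i.2 (not_lt.mp hk))⟩

theorem A6_isCompact {n : ℕ} (W : Fin n → (Fin n → ℝ) → ℝ → ℝ)
    (hc : ∀ j, Continuous fun p : (Fin n → ℝ) × ℝ => W j p.1 p.2)
    (hdep : DepLt W) (r : ℝ) : IsCompact (A6set W r) := by
  obtain ⟨B, hB0, hB⟩ := A6_a_le hc hdep r n
  refine IsCompact.of_isClosed_subset
    ((isCompact_Icc (a := (0 : ℝ)) (b := 1)).prod
      ((isCompact_Icc (a := fun _ : Fin n => -B) (b := fun _ : Fin n => B)).prod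
        (isCompact_univ_pi (fun _ : ℕ => isCompact_Icc (a := (0 : ℝ)) (b := |r| + 1 + 2 * n)))))
    (A6_isClosed W hc r) ?_
  intro p hp
  refine ⟨hp.1, ⟨fun l => ?_, fun l => ?_⟩, fun j _ => ⟨hp.2.2.1 j, A6_x_le hp j⟩⟩
  · exact (abs_le.mp (hB p hp l l.2)).1
  · exact (abs_le.mp (hB p hp l l.2)).2

theorem A6_mem {n : ℕ} {W : Fin n → (Fin n → ℝ) → ℝ → ℝ} {r ε : ℝ} (h0 : 0 ≤ ε) (h1 : ε ≤ 1)
    {a : Fin n → ℝ} {x : ℕ → ℝ} (hr : x 0 ≤ r + ε) (hx : ∀ j, 0 ≤ x j) (hn : x n = 0)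
    (h : ∀ j : Fin n, W j a (x (j + 1)) - ε ≤ a j ∧
        a j ≤ W j a (x (j + 1)) + (x j - x (j + 1)) + ε) :
    (ε, a, fun j => if j < n then x j else 0) ∈ A6set W r := by
  have hx' : ∀ j, j ≤ n → (if j < n then x j else 0) = x j := by
    intro j hj
    split_ifs with hjn
    · rfl
    · rw [show j = n by omega, hn]
  refine ⟨⟨h0, h1⟩, ?_, fun j => ?_, fun j hj => ?_, fun j => ?_⟩
  · simp only
    rw [hx' 0 (by omega)]
    exact hr
  · simp only
    split_ifs
    · exact hx j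
    · exact le_rfl
  · simp only
    rw [if_neg (by omega)]
  · have hj1 := hx' j (by omega)
    have hj2 := hx' (j + 1) (by omega)
    simp only [hj1, hj2]
    exact h j

/-- A6a. `KK W r` is compact. -/
theorem isCompact_KK {n : ℕ} (W : Fin n → (Fin n → ℝ) → ℝ → ℝ)
    (hc : ∀ j, Continuous fun p : (Fin n → ℝ) × ℝ => W j p.1 p.2)
    (hdep : DepLt W) (r : ℝ) : IsCompact (KK W r) := by
  have h1 : IsCompact (A6set W r ∩ {p | p.1 = 0}) :=
    (A6_isCompact W hc hdep r).inter_right (isClosed_eq continuous_fst continuous_const)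
  have h2 := h1.image (f := fun p : ℝ × (Fin n → ℝ) × (ℕ → ℝ) => p.2.1) (by fun_prop)
  convert h2 using 1
  ext a
  constructor
  · rintro ⟨x, hr, hx, hn, h⟩
    refine ⟨(0, a, fun j => if j < n then x j else 0), ⟨A6_mem le_rfl zero_le_one (by simpa using hr)
      hx hn (fun j => by simpa only [sub_zero, add_zero] using h j), rfl⟩, rfl⟩
  · rintro ⟨⟨e, b, x⟩, ⟨⟨_, hr, hx, hn, h⟩, he⟩, rfl⟩
    simp only [Set.mem_ofPred_eq] at he
    subst he
    refine ⟨x, by simpa using hr, hx, hn n le_rfl, fun j => by simpa only [sub_zero, add_zero] using h j⟩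

/-- A6b. Points which satisfy the inequalities of `KK` up to a small error are in a given open
neighbourhood of `KK`. -/
theorem exists_eps_KK {n : ℕ} (W : Fin n → (Fin n → ℝ) → ℝ → ℝ)
    (hc : ∀ j, Continuous fun p : (Fin n → ℝ) × ℝ => W j p.1 p.2)
    (hdep : DepLt W) (r : ℝ) {Ω : Set (Fin n → ℝ)} (hΩ : IsOpen Ω) (hK : KK W r ⊆ Ω) :
    ∃ ε > 0, ∀ (a : Fin n → ℝ) (x : ℕ → ℝ), x 0 ≤ r + ε → (∀ j, 0 ≤ x j) → x n = 0 →
      (∀ j : Fin n, W j a (x (j + 1)) - ε ≤ a j ∧
        a j ≤ W j a (x (j + 1)) + (x j - x (j + 1)) + ε) → a ∈ Ω := by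
  have hcl : IsClosed {p : ℝ × (Fin n → ℝ) × (ℕ → ℝ) | p.2.1 ∈ Ωᶜ} :=
    hΩ.isClosed_compl.preimage (by fun_prop)
  have h1 : IsCompact (A6set W r ∩ {p | p.2.1 ∈ Ωᶜ}) :=
    (A6_isCompact W hc hdep r).inter_right hcl
  by_cases hne : (A6set W r ∩ {p | p.2.1 ∈ Ωᶜ}).Nonempty
  · obtain ⟨p, ⟨hp, hpΩ⟩, hmin⟩ := h1.exists_isMinOn hne
      (f := fun p : ℝ × (Fin n → ℝ) × (ℕ → ℝ) => p.1) (by fun_prop)
    have hp1 : 0 < p.1 := by
      refine lt_of_le_of_ne hp.1.1 fun h0 => hpΩ (hK ?_)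
      obtain ⟨⟨_, _⟩, hr, hx, hn, h⟩ := hp
      rw [← h0] at hr h
      exact ⟨p.2.2, by simpa using hr, hx, hn n le_rfl, fun j => by simpa only [sub_zero, add_zero] using h j⟩
    refine ⟨p.1 / 2, by positivity, fun a x hr hx hn h => ?_⟩
    by_contra ha
    have hmem := A6_mem (by positivity : 0 ≤ p.1 / 2) (by linarith only [hp.1.2]) hr hx hn h
    have := hmin (show _ ∈ A6set W r ∩ {p | p.2.1 ∈ Ωᶜ} from ⟨hmem, ha⟩)
    simp only [Set.mem_ofPred_eq] at this
    linarith only [hp1, this]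
  · refine ⟨1, one_pos, fun a x hr hx hn h => ?_⟩
    by_contra ha
    exact hne ⟨_, A6_mem zero_le_one le_rfl hr hx hn h, ha⟩

end Vale.Agent.P209.Strong
end
end
end
end

section

section

section

section

namespace Vale.Agent.P209.Strong

open Vale.Agent.P209

/-- A7a. Symplectic realization of a single ball. -/
theorem exists_TEmb {n : ℕ} (W : Fin n → (Fin n → ℝ) → ℝ → ℝ)
    (hc : ∀ j, Continuous fun p : (Fin n → ℝ) × ℝ => W j p.1 p.2)
    (hdep : DepLt W) (r : ℝ) (hr : 0 ≤ r) {Ω : Set (Fin n → ℝ)} (hΩ : IsOpen Ω)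
    (hK : KK W r ⊆ Ω) : ∃ f, TEmb r f Ω := by
  obtain ⟨ε, hε, hεΩ⟩ := exists_eps_KK W hc hdep r hΩ hK
  obtain ⟨V, hVs, hVd, hVW⟩ := exists_smooth_approx W hc hdep (ε / 4) (by positivity)
  obtain ⟨U, f, hU, hBU, hf, hs, hi, hb⟩ :=
    exists_smooth_realization r (ε / 4) hr (by positivity) V hVs hVd
  have hcont : Continuous fun z : Fin n → ℂ => Real.pi * ∑ j, ‖z j‖ ^ 2 := by fun_prop
  refine ⟨f, U ∩ {z | Real.pi * ∑ j, ‖z j‖ ^ 2 < r + ε},
    hU.inter (isOpen_lt hcont continuous_const), ?_, hf.mono Set.inter_subset_left,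
    fun z hz => hs z hz.1, ?_, fun z hz w hw => hi z hz.1 w hw.1⟩
  · intro z hz
    refine ⟨hBU hz, ?_⟩
    have h1 : Real.pi * ∑ j, ‖z j‖ ^ 2 ≤ r := hz
    show Real.pi * ∑ j, ‖z j‖ ^ 2 < r + ε
    linarith
  · intro z hz
    have hx0 : ∀ k : Fin n, 0 ≤ Real.pi * ‖z k‖ ^ 2 := fun k => by (clear * -; positivity)
    refine hεΩ (act (f z)) (fun j : ℕ => ∑ k : Fin n, if j ≤ k.val then Real.pi * ‖z k‖ ^ 2 else 0)
      ?_ ?_ ?_ ?_
    · have h1 : Real.pi * ∑ j, ‖z j‖ ^ 2 < r + ε := hz.2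
      simp only [Nat.zero_le, if_true]
      rw [← Finset.mul_sum]
      exact h1.le
    · intro j
      refine Finset.sum_nonneg fun k _ => ?_
      split_ifs
      · exact hx0 k
      · exact le_rfl
    · refine Finset.sum_eq_zero fun k _ => ?_
      rw [if_neg (by have := k.isLt; omega)]
    · intro j
      have htail : tailSum j z =
          ∑ k : Fin n, if (j : ℕ) + 1 ≤ k.val then Real.pi * ‖z k‖ ^ 2 else 0 := by
        unfold tailSum
        refine Finset.sum_congr rfl fun k _ => ?_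
        by_cases h : j < k
        · have h' : (j : ℕ) + 1 ≤ k.val := by
            have := Fin.lt_def.mp h
            omega
          rw [if_pos h, if_pos h']
        · have h' : ¬ (j : ℕ) + 1 ≤ k.val := by
            intro h'
            exact h (Fin.lt_def.mpr (by omega))
          rw [if_neg h, if_neg h']
      have hdiff : (∑ k : Fin n, if (j : ℕ) ≤ k.val then Real.pi * ‖z k‖ ^ 2 else 0) -
          (∑ k : Fin n, if (j : ℕ) + 1 ≤ k.val then Real.pi * ‖z k‖ ^ 2 else 0) =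
          Real.pi * ‖z j‖ ^ 2 := by
        rw [← Finset.sum_sub_distrib]
        rw [Finset.sum_eq_single j]
        · rw [if_pos le_rfl, if_neg (by omega), sub_zero]
        · intro k _ hk
          have hk' : (k : ℕ) ≠ j := fun h => hk (Fin.ext h)
          by_cases h : (j : ℕ) ≤ k.val
          · rw [if_pos h, if_pos (by omega), sub_self]
          · rw [if_neg h, if_neg (by omega), sub_self]
        · intro h
          exact absurd (Finset.mem_univ j) h
      have h1 := hb z hz.1 j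
      have h2 := hVW j (act (f z), tailSum j z)
      rw [abs_le] at h2
      rw [htail] at h1 h2
      dsimp only at h2 ⊢
      constructor
      · linarith only [h1, h2]
      · rw [hdiff]
        linarith only [h1, h2]

/-- A7b. Symplectic realization. -/
theorem TPk_of_KK {n : ℕ} {ι : Type} [Finite ι] (W : ι → Fin n → (Fin n → ℝ) → ℝ → ℝ)
    (hc : ∀ i j, Continuous fun p : (Fin n → ℝ) × ℝ => W i j p.1 p.2)
    (hdep : ∀ i, DepLt (W i)) (r : ι → ℝ) (hr : ∀ i, 0 ≤ r i) {Ω : Set (Fin n → ℝ)}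
    (hΩ : IsOpen Ω) (hK : ∀ i, KK (W i) (r i) ⊆ Ω)
    (hd : ∀ i j, i ≠ j → Disjoint (KK (W i) (r i)) (KK (W j) (r j))) : TPk Ω r := by
  classical
  have hcomp : ∀ i, IsCompact (KK (W i) (r i)) := fun i => isCompact_KK (W i) (hc i) (hdep i) (r i)
  have hsep : ∀ i j, i ≠ j → ∃ A B : Set (Fin n → ℝ), IsOpen A ∧ IsOpen B ∧
      KK (W i) (r i) ⊆ A ∧ KK (W j) (r j) ⊆ B ∧ Disjoint A B := fun i j hij =>
    SeparatedNhds.of_isCompact_isCompact (hcomp i) (hcomp j) (hd i j hij)
  have hsep' : ∀ i j, ∃ A B : Set (Fin n → ℝ), IsOpen A ∧ IsOpen B ∧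
      KK (W i) (r i) ⊆ A ∧ (i ≠ j → KK (W j) (r j) ⊆ B ∧ Disjoint A B) := by
    intro i j
    by_cases hij : i = j
    · exact ⟨Set.univ, Set.univ, isOpen_univ, isOpen_univ, Set.subset_univ _,
        fun h => absurd hij h⟩
    · obtain ⟨A, B, hA, hB, h1, h2, h3⟩ := hsep i j hij
      exact ⟨A, B, hA, hB, h1, fun _ => ⟨h2, h3⟩⟩
  choose A B hA hB hKA hKB using hsep'
  -- the disjoint neighbourhoods
  let O : ι → Set (Fin n → ℝ) := fun i => Ω ∩ ⋂ j, (A i j ∩ (if i = j then Set.univ else B j i))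
  have hO : ∀ i, IsOpen (O i) := by
    intro i
    refine hΩ.inter (isOpen_iInter_of_finite fun j => (hA i j).inter ?_)
    split_ifs
    · exact isOpen_univ
    · exact hB j i
  have hKO : ∀ i, KK (W i) (r i) ⊆ O i := by
    intro i
    refine Set.subset_inter (hK i) (Set.subset_iInter fun j => Set.subset_inter (hKA i j) ?_)
    split_ifs with h
    · exact Set.subset_univ _
    · exact (hKB j i (fun h' => h h'.symm)).1
  have hOd : ∀ i j, i ≠ j → Disjoint (O i) (O j) := by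
    intro i j hij
    rw [Set.disjoint_left]
    rintro a ⟨_, ha⟩ ⟨_, ha'⟩
    have h1 : a ∈ A i j := (Set.mem_iInter.mp ha j).1
    have h2 := (Set.mem_iInter.mp ha' i).2
    rw [if_neg (fun h => hij h.symm)] at h2
    exact Set.disjoint_left.mp (hKB i j hij).2 h1 h2
  have hex : ∀ i, ∃ f, TEmb (r i) f (O i) := fun i =>
    exists_TEmb (W i) (hc i) (hdep i) (r i) (hr i) (hO i) (hKO i)
  choose f hf using hex
  refine ⟨f, fun i => ?_, fun i j hij z hz w hw heq => ?_⟩
  · obtain ⟨U, h1, h2, h3, h4, h5, h6⟩ := hf i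
    exact ⟨U, h1, h2, h3, h4, fun z hz => (h5 z hz).1, h6⟩
  · obtain ⟨U, h1, h2, h3, h4, h5, h6⟩ := hf i
    obtain ⟨U', h1', h2', h3', h4', h5', h6'⟩ := hf j
    have ha := h5 z (h2 hz)
    have hb := h5' w (h2' hw)
    rw [heq] at ha
    exact Set.disjoint_left.mp (hOd i j hij) ha hb

end Vale.Agent.P209.Strong
end
end
end
end

section

section

section

section

namespace Vale.Agent.P209.Strong

open Vale.Agent.P209

/-- A9a -/
theorem TPk.mono {n : ℕ} {ι : Type} {Ω Ω' : Set (Fin n → ℝ)} {r : ι → ℝ} (h : TPk Ω r)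
    (hs : Ω ⊆ Ω') : TPk Ω' r := by
  obtain ⟨f, hf, hd⟩ := h
  refine ⟨f, fun i => ?_, hd⟩
  obtain ⟨U, h1, h2, h3, h4, h5, h6⟩ := hf i
  exact ⟨U, h1, h2, h3, h4, fun z hz => hs (h5 z hz), h6⟩

/-- A9b -/
theorem TPk.comp_inj {n : ℕ} {ι κ : Type} {Ω : Set (Fin n → ℝ)} {r : ι → ℝ} (h : TPk Ω r)
    (e : κ → ι) (he : Function.Injective e) : TPk Ω (fun k => r (e k)) := by
  obtain ⟨f, hf, hd⟩ := h
  exact ⟨fun k => f (e k), fun k => hf (e k), fun i j hij => hd _ _ (fun h => hij (he h))⟩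

/-- A9c -/
theorem TPk.union {n : ℕ} {ι : Type} {Ω₁ Ω₂ Ω : Set (Fin n → ℝ)} {r : ι → ℝ} (S : Set ι)
    (h₁ : TPk Ω₁ (fun i : S => r i)) (h₂ : TPk Ω₂ (fun i : (Sᶜ : Set ι) => r i))
    (hd : Disjoint Ω₁ Ω₂) (hs₁ : Ω₁ ⊆ Ω) (hs₂ : Ω₂ ⊆ Ω) : TPk Ω r := by
  classical
  obtain ⟨f₁, hf₁, hd₁⟩ := h₁
  obtain ⟨f₂, hf₂, hd₂⟩ := h₂
  have m1 : ∀ (i : S), ∀ z ∈ closedBall n (r i), act (f₁ i z) ∈ Ω₁ := by
    intro i z hz
    obtain ⟨U, h1, h2, h3, h4, h5, h6⟩ := hf₁ i
    exact h5 z (h2 hz)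
  have m2 : ∀ (i : (Sᶜ : Set ι)), ∀ z ∈ closedBall n (r i), act (f₂ i z) ∈ Ω₂ := by
    intro i z hz
    obtain ⟨U, h1, h2, h3, h4, h5, h6⟩ := hf₂ i
    exact h5 z (h2 hz)
  refine ⟨fun i => if h : i ∈ S then f₁ ⟨i, h⟩ else f₂ ⟨i, h⟩, fun i => ?_, ?_⟩
  · by_cases hi : i ∈ S
    · simp only [dif_pos hi]
      obtain ⟨U, h1, h2, h3, h4, h5, h6⟩ := hf₁ ⟨i, hi⟩
      exact ⟨U, h1, h2, h3, h4, fun z hz => hs₁ (h5 z hz), h6⟩
    · simp only [dif_neg hi]
      obtain ⟨U, h1, h2, h3, h4, h5, h6⟩ := hf₂ ⟨i, hi⟩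
      exact ⟨U, h1, h2, h3, h4, fun z hz => hs₂ (h5 z hz), h6⟩
  · intro i j hij z hz w hw
    simp only
    by_cases hi : i ∈ S <;> by_cases hj : j ∈ S
    · rw [dif_pos hi, dif_pos hj]
      exact hd₁ ⟨i, hi⟩ ⟨j, hj⟩ (fun h => hij (by simpa using h)) z hz w hw
    · rw [dif_pos hi, dif_neg hj]
      intro h
      exact Set.disjoint_left.1 hd (m1 ⟨i, hi⟩ z hz) (h ▸ m2 ⟨j, hj⟩ w hw)
    · rw [dif_neg hi, dif_pos hj]
      intro h
      exact Set.disjoint_left.1 hd (m1 ⟨j, hj⟩ w hw) (h ▸ m2 ⟨i, hi⟩ z hz)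
    · rw [dif_neg hi, dif_neg hj]
      exact hd₂ ⟨i, hi⟩ ⟨j, hj⟩ (fun h => hij (by simpa using h)) z hz w hw

end Vale.Agent.P209.Strong
end
end
end
end

section

section

section

section

namespace Vale.Agent.P209.Strong

open MeasureTheory

/-! C1. Volumes of iterated boxes. -/

private theorem cons_cont {n : ℕ} {Θ : Type} [TopologicalSpace Θ] :
    Continuous fun x : (Θ × ℝ) × (Fin n → ℝ) =>
      (x.1.1, (Fin.cons x.1.2 x.2 : Fin (n + 1) → ℝ)) := by
  refine (continuous_fst.comp continuous_fst).prodMk ?_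
  refine continuous_pi fun i => ?_
  refine Fin.cases ?_ (fun j => ?_) i
  · exact continuous_snd.comp continuous_fst
  · exact (continuous_apply j).comp continuous_snd

private theorem cons_dist {n : ℕ} (t : ℝ) (y y' : Fin n → ℝ) :
    dist (Fin.cons t y : Fin (n + 1) → ℝ) (Fin.cons t y') = dist y y' := by
  refine le_antisymm ?_ ?_
  · refine (dist_pi_le_iff dist_nonneg).2 fun i => ?_
    refine Fin.cases ?_ (fun j => ?_) i
    · simp
    · simpa using dist_le_pi_dist y y' j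
  · refine (dist_pi_le_iff dist_nonneg).2 fun i => ?_
    simpa using dist_le_pi_dist (Fin.cons t y : Fin (n + 1) → ℝ) (Fin.cons t y') i.succ

private theorem dep_slice {n : ℕ} {F : Fin (n + 1) → (Fin (n + 1) → ℝ) → ℝ} (hF : DepLt F)
    (t : ℝ) : DepLt fun (j : Fin n) (y : Fin n → ℝ) => F j.succ (Fin.cons t y) := by
  intro j y y' hy
  refine hF j.succ _ _ fun i => ?_
  refine Fin.cases ?_ (fun k => ?_) i
  · intro _
    simp
  · intro hk
    simpa using hy k (Fin.succ_lt_succ_iff.1 hk)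

theorem IsBox.slice {n : ℕ} {Θ : Type} [TopologicalSpace Θ] {c L R : ℝ}
    {l u : Fin (n + 1) → Θ → (Fin (n + 1) → ℝ) → ℝ} (h : IsBox c L R l u) :
    IsBox c L R (sl l) (sl u) where
  dep_l θ := dep_slice (h.dep_l θ.1) θ.2
  dep_u θ := dep_slice (h.dep_u θ.1) θ.2
  cont_l j := (h.cont_l j.succ).comp cons_cont
  cont_u j := (h.cont_u j.succ).comp cons_cont
  lip_l j θ y y' := by
    have := h.lip_l j.succ θ.1 (Fin.cons θ.2 y) (Fin.cons θ.2 y')
    rwa [cons_dist] at this
  lip_u j θ y y' := by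
    have := h.lip_u j.succ θ.1 (Fin.cons θ.2 y) (Fin.cons θ.2 y')
    rwa [cons_dist] at this
  lo j θ y := h.lo j.succ θ.1 (Fin.cons θ.2 y)
  hi j θ y := h.hi j.succ θ.1 (Fin.cons θ.2 y)

/-- change of parameter -/
theorem IsBox.comp {n : ℕ} {Θ Θ' : Type} [TopologicalSpace Θ] [TopologicalSpace Θ'] {c L R : ℝ}
    {l u : Fin n → Θ → (Fin n → ℝ) → ℝ} (h : IsBox c L R l u) {f : Θ' → Θ} (hf : Continuous f) :
    IsBox c L R (fun j θ => l j (f θ)) (fun j θ => u j (f θ)) where
  dep_l θ := h.dep_l (f θ)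
  dep_u θ := h.dep_u (f θ)
  cont_l j := (h.cont_l j).comp ((hf.comp continuous_fst).prodMk continuous_snd)
  cont_u j := (h.cont_u j).comp ((hf.comp continuous_fst).prodMk continuous_snd)
  lip_l j θ y y' := h.lip_l j (f θ) y y'
  lip_u j θ y y' := h.lip_u j (f θ) y y'
  lo j θ y := h.lo j (f θ) y
  hi j θ y := h.hi j (f θ) y

theorem vol_comp {n : ℕ} {Θ Θ' : Type} (l u : Fin n → Θ → (Fin n → ℝ) → ℝ) (f : Θ' → Θ) (θ : Θ') :
    vol n (fun j θ => l j (f θ)) (fun j θ => u j (f θ)) θ = vol n l u (f θ) := by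
  induction n generalizing Θ Θ' with
  | zero => rfl
  | succ n ih =>
    show (∫ t in (l 0 (f θ) 0)..(u 0 (f θ) 0),
        vol n (sl fun j θ => l j (f θ)) (sl fun j θ => u j (f θ)) (θ, t)) =
      ∫ t in (l 0 (f θ) 0)..(u 0 (f θ) 0), vol n (sl l) (sl u) (f θ, t)
    refine intervalIntegral.integral_congr fun t _ => ?_
    exact ih (sl l) (sl u) (fun p : Θ' × ℝ => (f p.1, p.2)) (θ, t)

theorem vol_continuous {n : ℕ} {Θ : Type} [TopologicalSpace Θ] {c L R : ℝ}
    {l u : Fin n → Θ → (Fin n → ℝ) → ℝ} (h : IsBox c L R l u) : Continuous (vol n l u) := by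
  induction n generalizing Θ with
  | zero => exact continuous_const
  | succ n ih =>
    have hF : Continuous (vol n (sl l) (sl u)) := ih h.slice
    have hl : Continuous fun θ : Θ => l 0 θ 0 :=
      (h.cont_l 0).comp (continuous_id.prodMk continuous_const)
    have hu : Continuous fun θ : Θ => u 0 θ 0 :=
      (h.cont_u 0).comp (continuous_id.prodMk continuous_const)
    have hf : Continuous (fun (θ : Θ) (t : ℝ) => vol n (sl l) (sl u) (θ, t)).uncurry := hF
    have e : vol (n + 1) l u = fun θ =>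
        (∫ t in (0 : ℝ)..(u 0 θ 0), vol n (sl l) (sl u) (θ, t)) -
          ∫ t in (0 : ℝ)..(l 0 θ 0), vol n (sl l) (sl u) (θ, t) := by
      funext θ
      have hc : Continuous fun t : ℝ => vol n (sl l) (sl u) (θ, t) :=
        hF.comp (continuous_const.prodMk continuous_id)
      exact (intervalIntegral.integral_interval_sub_left (hc.intervalIntegrable _ _)
        (hc.intervalIntegrable _ _)).symm
    rw [e]
    exact (intervalIntegral.continuous_parametric_intervalIntegral_of_continuous hf hu).sub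
      (intervalIntegral.continuous_parametric_intervalIntegral_of_continuous hf hl)

theorem vol_bounds {n : ℕ} {Θ : Type} [TopologicalSpace Θ] {c L R : ℝ} (hc : 0 < c) (hR : 0 < R)
    {l u : Fin n → Θ → (Fin n → ℝ) → ℝ} (h : IsBox c L R l u) (θ : Θ) :
    (c * R) ^ n ≤ vol n l u θ ∧ vol n l u θ ≤ R ^ n := by
  induction n generalizing Θ with
  | zero => simp only [pow_zero, vol, Std.le_refl, and_self]
  | succ n ih =>
    have hcR : 0 < c * R := mul_pos hc hR
    have hlo := h.lo 0 θ 0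
    have hhi := h.hi 0 θ 0
    have hle : l 0 θ 0 ≤ u 0 θ 0 := by linarith
    have hF : Continuous (vol n (sl l) (sl u)) := vol_continuous h.slice
    have hct : Continuous fun t : ℝ => vol n (sl l) (sl u) (θ, t) :=
      hF.comp (continuous_const.prodMk continuous_id)
    have hb := fun t : ℝ => ih h.slice (θ, t)
    have h1 : ∫ _ in (l 0 θ 0)..(u 0 θ 0), (c * R) ^ n ≤
        ∫ t in (l 0 θ 0)..(u 0 θ 0), vol n (sl l) (sl u) (θ, t) :=
      intervalIntegral.integral_mono_on hle (continuous_const.intervalIntegrable _ _)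
        (hct.intervalIntegrable _ _) fun t _ => (hb t).1
    have h2 : ∫ t in (l 0 θ 0)..(u 0 θ 0), vol n (sl l) (sl u) (θ, t) ≤
        ∫ _ in (l 0 θ 0)..(u 0 θ 0), R ^ n :=
      intervalIntegral.integral_mono_on hle (hct.intervalIntegrable _ _)
        (continuous_const.intervalIntegrable _ _) fun t _ => (hb t).2
    rw [intervalIntegral.integral_const, smul_eq_mul] at h1 h2
    have e : vol (n + 1) l u θ = ∫ t in (l 0 θ 0)..(u 0 θ 0), vol n (sl l) (sl u) (θ, t) := rfl
    rw [e]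
    constructor
    · calc (c * R) ^ (n + 1) = (c * R) * (c * R) ^ n := by ring
        _ ≤ (u 0 θ 0 - l 0 θ 0) * (c * R) ^ n :=
          mul_le_mul_of_nonneg_right hlo (pow_nonneg hcR.le n)
        _ ≤ _ := h1
    · calc _ ≤ (u 0 θ 0 - l 0 θ 0) * R ^ n := h2
        _ ≤ R * R ^ n := mul_le_mul_of_nonneg_right hhi (pow_nonneg hR.le n)
        _ = R ^ (n + 1) := by ring

theorem isOpen_boxSet {n : ℕ} {l u : Fin n → (Fin n → ℝ) → ℝ} (hl : ∀ j, Continuous (l j))
    (hu : ∀ j, Continuous (u j)) : IsOpen (boxSet l u) := by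
  have e : boxSet l u = ⋂ j : Fin n, ({y | l j y < y j} ∩ {y | y j < u j y}) := by
    ext y
    simp only [boxSet, Set.mem_ofPred_eq, Set.mem_iInter, Set.mem_inter_iff]
  rw [e]
  exact isOpen_iInter_of_finite fun j =>
    (isOpen_lt (hl j) (continuous_apply j)).inter (isOpen_lt (continuous_apply j) (hu j))

end Vale.Agent.P209.Strong
end
end
end
end

section

section

section

section

namespace Vale.Agent.P209.Strong

open MeasureTheory

/-- The constants of the comparison of volumes. -/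
noncomputable def lipConst (L : ℝ) : ℕ → ℝ
  | 0 => 0
  | n + 1 => 2 + (1 + L) * lipConst L n

theorem lipConst_nonneg {L : ℝ} (hL : 0 ≤ L) (n : ℕ) : 0 ≤ lipConst L n := by
  induction n with
  | zero => exact le_rfl
  | succ n ih => simp only [lipConst]; positivity

theorem dist_cons_le {n : ℕ} (x x' : ℝ) (y y' : Fin n → ℝ) {e : ℝ} (h : |x - x'| ≤ e) :
    dist (Fin.cons x y : Fin (n + 1) → ℝ) (Fin.cons x' y') ≤ e + dist y y' := by
  have he : 0 ≤ e := (abs_nonneg _).trans h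
  rw [dist_pi_le_iff (add_nonneg he dist_nonneg)]
  intro i
  refine Fin.cases ?_ (fun j => ?_) i
  · simp only [Fin.cons_zero, Real.dist_eq]
    exact h.trans (le_add_of_nonneg_right dist_nonneg)
  · simp only [Fin.cons_succ]
    exact (dist_le_pi_dist y y' j).trans (le_add_of_nonneg_left he)

/-- Comparison of the volumes of two iterated boxes whose walls are close. -/
theorem vol_compare (n : ℕ) (L : ℝ) (hL : 0 ≤ L) :
    ∀ (Θ Θ' : Type) [TopologicalSpace Θ] [TopologicalSpace Θ'] (c R : ℝ)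
      (l u : Fin n → Θ → (Fin n → ℝ) → ℝ) (l' u' : Fin n → Θ' → (Fin n → ℝ) → ℝ),
      0 < c → 0 < R → IsBox c L R l u → IsBox c L R l' u' → ∀ (θ : Θ) (θ' : Θ') (e : ℝ), 0 ≤ e →
        (∀ j y y', |l j θ y - l' j θ' y'| ≤ L * dist y y' + e) →
        (∀ j y y', |u j θ y - u' j θ' y'| ≤ L * dist y y' + e) →
        |vol n l u θ - vol n l' u' θ'| ≤ lipConst L n * e * R ^ (n - 1) := by
  induction n with
  | zero =>
    intro Θ Θ' _ _ c R l u l' u' _ _ _ _ θ θ' e _ _ _
    simp [vol, lipConst]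
  | succ n ih =>
    intro Θ Θ' _ _ c R l u l' u' hc hR hB hB' θ θ' e he hl hu
    have hS := hB.slice
    have hS' := hB'.slice
    have hD := lipConst_nonneg hL n
    set F : ℝ → ℝ := fun t => vol n (sl l) (sl u) (θ, t) with hF
    set F' : ℝ → ℝ := fun t => vol n (sl l') (sl u') (θ', t) with hF'
    have cF : Continuous F := (vol_continuous hS).comp (Continuous.prodMk_right θ)
    have cF' : Continuous F' := (vol_continuous hS').comp (Continuous.prodMk_right θ')
    set a := l 0 θ 0 with ha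
    set b := u 0 θ 0 with hb
    set a' := l' 0 θ' 0 with ha'
    set b' := u' 0 θ' 0 with hb'
    have h1 : |a - a'| ≤ e := by simpa using hl 0 0 0
    have h2 : |b - b'| ≤ e := by simpa using hu 0 0 0
    have e1 : vol (n + 1) l u θ = (b - a) * ∫ s in (0 : ℝ)..1, F (a + (b - a) * s) := by
      show (∫ t in a..b, F t) = _
      have := intervalIntegral.mul_integral_comp_add_mul (a := 0) (b := 1) (f := F) (b - a) a
      rw [this]
      congr 1 <;> ring
    have e2 : vol (n + 1) l' u' θ' = (b' - a') * ∫ s in (0 : ℝ)..1, F' (a' + (b' - a') * s) := by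
      show (∫ t in a'..b', F' t) = _
      have := intervalIntegral.mul_integral_comp_add_mul (a := 0) (b := 1) (f := F') (b' - a') a'
      rw [this]
      congr 1 <;> ring
    set I := ∫ s in (0 : ℝ)..1, F (a + (b - a) * s) with hI
    set I' := ∫ s in (0 : ℝ)..1, F' (a' + (b' - a') * s) with hI'
    have cG : Continuous fun s : ℝ => F (a + (b - a) * s) := cF.comp (by fun_prop)
    have cG' : Continuous fun s : ℝ => F' (a' + (b' - a') * s) := cF'.comp (by fun_prop)
    have hIb : |I| ≤ R ^ n := by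
      have : ‖∫ s in (0 : ℝ)..1, F (a + (b - a) * s)‖ ≤ R ^ n * |1 - 0| := by
        refine intervalIntegral.norm_integral_le_of_norm_le_const fun s _ => ?_
        have h3 := vol_bounds hc hR hS (θ, a + (b - a) * s)
        rw [Real.norm_eq_abs, abs_le]
        exact ⟨by nlinarith only [h3, pow_pos (mul_pos hc hR) n], h3.2⟩
      simpa only [ge_iff_le, Real.norm_eq_abs, sub_zero, abs_one, mul_one] using this
    have hdiff : |I - I'| ≤ lipConst L n * ((1 + L) * e) * R ^ (n - 1) := by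
      rw [hI, hI', ← intervalIntegral.integral_sub (cG.intervalIntegrable _ _)
        (cG'.intervalIntegrable _ _)]
      have : ‖∫ s in (0 : ℝ)..1, (F (a + (b - a) * s) - F' (a' + (b' - a') * s))‖ ≤
          lipConst L n * ((1 + L) * e) * R ^ (n - 1) * |1 - 0| := by
        refine intervalIntegral.norm_integral_le_of_norm_le_const fun s hs => ?_
        rw [Set.uIoc_of_le zero_le_one] at hs
        have h3 : |(a + (b - a) * s) - (a' + (b' - a') * s)| ≤ e := by
          have h4 : (a + (b - a) * s) - (a' + (b' - a') * s) =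
              (1 - s) * (a - a') + s * (b - b') := by ring
          rw [h4]
          calc |(1 - s) * (a - a') + s * (b - b')|
              ≤ |(1 - s) * (a - a')| + |s * (b - b')| := abs_add_le _ _
            _ = (1 - s) * |a - a'| + s * |b - b'| := by
                rw [abs_mul, abs_mul, abs_of_nonneg (by linarith only [hs.2] : 0 ≤ 1 - s),
                  abs_of_nonneg hs.1.le]
            _ ≤ (1 - s) * e + s * e := by
                have := mul_le_mul_of_nonneg_left h1 (by linarith [hs.2] : 0 ≤ 1 - s)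
                have := mul_le_mul_of_nonneg_left h2 hs.1.le
                (clear hL ih c R hc hR hB hB' he hS hS' hD F hF F' hF' cF cF' ha hb ha' hb' I e1 hI I' e2 hI' cG cG' hIb h4; linarith)
            _ = e := by ring
        have key : ∀ x x' : ℝ, |x - x'| ≤ e → ∀ y y' : Fin n → ℝ,
            L * dist (Fin.cons x y : Fin (n + 1) → ℝ) (Fin.cons x' y') + e ≤
              L * dist y y' + (1 + L) * e := by
          intro x x' hx y y'
          have := mul_le_mul_of_nonneg_left (dist_cons_le x x' y y' hx) hL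
          linarith only [this]
        exact ih (Θ × ℝ) (Θ' × ℝ) c R (sl l) (sl u) (sl l') (sl u') hc hR hS hS'
          (θ, a + (b - a) * s) (θ', a' + (b' - a') * s) ((1 + L) * e) (by (clear * - hL he; positivity))
          (fun j y y' => (hl j.succ _ _).trans (key _ _ h3 y y'))
          (fun j y y' => (hu j.succ _ _).trans (key _ _ h3 y y'))
      simpa only [ge_iff_le, Real.norm_eq_abs, sub_zero, abs_one, mul_one] using this
    have hw' : |b' - a'| ≤ R := by
      have h3 := hB'.hi 0 θ' 0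
      have h4 := hB'.lo 0 θ' 0
      rw [abs_le]
      exact ⟨by nlinarith only [hR, h4, hc], h3⟩
    have hww : |(b - a) - (b' - a')| ≤ 2 * e := by
      rw [abs_le] at h1 h2 ⊢
      exact ⟨by linarith only [h1, h2], by linarith only [h1, h2]⟩
    rw [e1, e2]
    have e3 : (b - a) * I - (b' - a') * I' =
        ((b - a) - (b' - a')) * I + (b' - a') * (I - I') := by ring
    rw [e3]
    have hRR : lipConst L n * ((1 + L) * e) * R ^ (n - 1) * R =
        lipConst L n * ((1 + L) * e) * R ^ n := by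
      rcases n with _ | n
      · simp [lipConst]
      · simp only [Nat.add_sub_cancel]
        rw [pow_succ]
        ring
    calc |((b - a) - (b' - a')) * I + (b' - a') * (I - I')|
        ≤ |((b - a) - (b' - a')) * I| + |(b' - a') * (I - I')| := abs_add_le _ _
      _ = |(b - a) - (b' - a')| * |I| + |b' - a'| * |I - I'| := by rw [abs_mul, abs_mul]
      _ ≤ 2 * e * R ^ n + R * (lipConst L n * ((1 + L) * e) * R ^ (n - 1)) := by
          have t1 := mul_le_mul hww hIb (abs_nonneg _) (by (clear * - he; positivity))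
          have t2 := mul_le_mul hw' hdiff (abs_nonneg _) hR.le
          linarith only [t1, t2]
      _ = lipConst L (n + 1) * e * R ^ (n + 1 - 1) := by
          rw [mul_comm R, hRR]
          simp only [lipConst, Nat.add_sub_cancel]
          ring

/-- Lipschitz dependence of the volume of the slice on the time -/
theorem vol_lip (n : ℕ) (L : ℝ) (hL : 0 ≤ L) : ∃ D : ℝ, 0 ≤ D ∧
    ∀ (Θ : Type) [TopologicalSpace Θ] (c R : ℝ) (l u : Fin (n + 1) → Θ → (Fin (n + 1) → ℝ) → ℝ),
      0 < c → 0 < R → IsBox c L R l u → ∀ (θ : Θ) (t t' : ℝ),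
        |vol n (sl l) (sl u) (θ, t) - vol n (sl l) (sl u) (θ, t')| ≤
          D * R ^ (n - 1) * |t - t'| := by
  have hD := lipConst_nonneg hL n
  refine ⟨lipConst L n * L, by positivity, ?_⟩
  intro Θ _ c R l u hc hR hB θ t t'
  have hS := hB.slice
  have key : ∀ y y' : Fin n → ℝ,
      L * dist (Fin.cons t y : Fin (n + 1) → ℝ) (Fin.cons t' y') ≤
        L * dist y y' + L * |t - t'| := by
    intro y y'
    have := mul_le_mul_of_nonneg_left (dist_cons_le t t' y y' le_rfl) hL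
    linarith
  have h := vol_compare n L hL (Θ × ℝ) (Θ × ℝ) c R (sl l) (sl u) (sl l) (sl u) hc hR hS hS
    (θ, t) (θ, t') (L * |t - t'|) (by (clear * - hL; positivity))
    (fun j y y' => (hB.lip_l j.succ θ _ _).trans (key y y'))
    (fun j y y' => (hB.lip_u j.succ θ _ _).trans (key y y'))
  calc _ ≤ lipConst L n * (L * |t - t'|) * R ^ (n - 1) := h
    _ = lipConst L n * L * R ^ (n - 1) * |t - t'| := by ring

end Vale.Agent.P209.Strong
end
end
end
end

section

section

section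

section

namespace Vale.Agent.P209.Strong

open MeasureTheory

theorem c1c_succ {n : ℕ} {Θ : Type} [TopologicalSpace Θ] {c L R : ℝ} (hc : 0 < c)
    (hR : 0 < R) {l u : Fin (n + 1) → Θ → (Fin (n + 1) → ℝ) → ℝ} (h : IsBox c L R l u)
    (ih : ∀ p : Θ × ℝ, volume (boxSet (fun j => sl l j p) (fun j => sl u j p)) =
      ENNReal.ofReal (vol n (sl l) (sl u) p)) (θ : Θ) :
    volume (boxSet (fun j => l j θ) (fun j => u j θ)) = ENNReal.ofReal (vol (n + 1) l u θ) := by
  have hopen : IsOpen (boxSet (fun j => l j θ) (fun j => u j θ)) :=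
    isOpen_boxSet (fun j => (h.cont_l j).comp (Continuous.prodMk_right θ))
      (fun j => (h.cont_u j).comp (Continuous.prodMk_right θ))
  have hpres := (volume_preserving_piFinSuccAbove (fun _ : Fin (n + 1) => ℝ) 0).symm
  have h1 := hpres.measure_preimage hopen.measurableSet.nullMeasurableSet
  rw [← h1]
  have hmeas : MeasurableSet ((MeasurableEquiv.piFinSuccAbove (fun _ : Fin (n + 1) => ℝ) 0).symm ⁻¹'
      (boxSet (fun j => l j θ) (fun j => u j θ))) :=
    (MeasurableEquiv.piFinSuccAbove (fun _ : Fin (n + 1) => ℝ) 0).symm.measurable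
      hopen.measurableSet
  have hl0 : ∀ y, l 0 θ y = l 0 θ 0 := fun y =>
    h.dep_l θ 0 y 0 (fun i hi => absurd hi (Fin.not_lt_zero i))
  have hu0 : ∀ y, u 0 θ y = u 0 θ 0 := fun y =>
    h.dep_u θ 0 y 0 (fun i hi => absurd hi (Fin.not_lt_zero i))
  have hle : l 0 θ 0 ≤ u 0 θ 0 := by
    have := h.lo 0 θ 0
    linarith only [mul_pos (sub_pos.2 hc) (sub_pos.2 hR), this]
  have hslice : ∀ t : ℝ, (Prod.mk t ⁻¹' ((MeasurableEquiv.piFinSuccAbove
      (fun _ : Fin (n + 1) => ℝ) 0).symm ⁻¹' (boxSet (fun j => l j θ) (fun j => u j θ)))) =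
      {y | t ∈ Set.Ioo (l 0 θ 0) (u 0 θ 0) ∧
        y ∈ boxSet (fun j => sl l j (θ, t)) (fun j => sl u j (θ, t))} := by
    intro t
    ext y
    have he : (MeasurableEquiv.piFinSuccAbove (fun _ : Fin (n + 1) => ℝ) 0).symm (t, y) =
        (Fin.cons t y : Fin (n + 1) → ℝ) := by
      ext j
      refine Fin.cases ?_ (fun j => ?_) j
      · simp [MeasurableEquiv.piFinSuccAbove, Fin.insertNthEquiv]
      · simp [MeasurableEquiv.piFinSuccAbove, Fin.insertNthEquiv]
    change (MeasurableEquiv.piFinSuccAbove (fun _ : Fin (n + 1) => ℝ) 0).symm (t, y) ∈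
      boxSet (fun j => l j θ) (fun j => u j θ) ↔ _
    rw [he]
    change (∀ j, l j θ (Fin.cons t y) < (Fin.cons t y : Fin (n + 1) → ℝ) j ∧
      (Fin.cons t y : Fin (n + 1) → ℝ) j < u j θ (Fin.cons t y)) ↔
      (t ∈ Set.Ioo (l 0 θ 0) (u 0 θ 0) ∧ ∀ j, sl l j (θ, t) y < y j ∧ y j < sl u j (θ, t) y)
    rw [Fin.forall_fin_succ, hl0, hu0]
    simp only [Fin.cons_zero, Fin.cons_succ, sl, Set.mem_Ioo]
  rw [Measure.volume_eq_prod, Measure.prod_apply hmeas]
  have h2 : ∀ t : ℝ, volume (Prod.mk t ⁻¹' ((MeasurableEquiv.piFinSuccAbove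
      (fun _ : Fin (n + 1) => ℝ) 0).symm ⁻¹' (boxSet (fun j => l j θ) (fun j => u j θ)))) =
      (Set.Ioo (l 0 θ 0) (u 0 θ 0)).indicator
        (fun t => ENNReal.ofReal (vol n (sl l) (sl u) (θ, t))) t := by
    intro t
    rw [hslice t]
    by_cases ht : t ∈ Set.Ioo (l 0 θ 0) (u 0 θ 0)
    · rw [Set.indicator_of_mem ht, ← ih (θ, t)]
      congr 1
      ext y
      exact and_iff_right ht
    · rw [Set.indicator_of_notMem ht]
      have : {y | t ∈ Set.Ioo (l 0 θ 0) (u 0 θ 0) ∧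
        y ∈ boxSet (fun j => sl l j (θ, t)) (fun j => sl u j (θ, t))} = ∅ := by
        ext y
        exact ⟨fun h => (ht h.1).elim, fun h => h.elim⟩
      rw [this, measure_empty]
  rw [lintegral_congr h2, lintegral_indicator measurableSet_Ioo]
  have hcont : Continuous fun t : ℝ => vol n (sl l) (sl u) (θ, t) :=
    (vol_continuous h.slice).comp (Continuous.prodMk_right θ)
  have hint : IntegrableOn (fun t : ℝ => vol n (sl l) (sl u) (θ, t))
      (Set.Ioo (l 0 θ 0) (u 0 θ 0)) :=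
    (hcont.integrableOn_Icc).mono_set Set.Ioo_subset_Icc_self
  have hnn : ∀ t : ℝ, 0 ≤ vol n (sl l) (sl u) (θ, t) := fun t =>
    (pow_nonneg (mul_pos hc hR).le n).trans (vol_bounds hc hR h.slice (θ, t)).1
  rw [← ofReal_integral_eq_lintegral_ofReal hint (Filter.Eventually.of_forall hnn)]
  congr 1
  change _ = ∫ t in (l 0 θ 0)..(u 0 θ 0), vol n (sl l) (sl u) (θ, t)
  rw [intervalIntegral.integral_of_le hle, integral_Ioc_eq_integral_Ioo]

theorem volume_boxSet {n : ℕ} {Θ : Type} [TopologicalSpace Θ] {c L R : ℝ} (hc : 0 < c)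
    (hR : 0 < R) {l u : Fin n → Θ → (Fin n → ℝ) → ℝ} (h : IsBox c L R l u) (θ : Θ) :
    volume (boxSet (fun j => l j θ) (fun j => u j θ)) = ENNReal.ofReal (vol n l u θ) := by
  induction n generalizing Θ with
  | zero =>
    have h1 : boxSet (fun j => l j θ) (fun j => u j θ) = Set.univ := by
      ext y
      exact ⟨fun _ => trivial, fun _ j => j.elim0⟩
    rw [h1]
    have h2 : vol 0 l u θ = 1 := rfl
    rw [h2, ENNReal.ofReal_one]
    simp only [volume_pi, Measure.pi_empty_univ]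
  | succ n ih => exact c1c_succ hc hR h (fun p => ih h.slice p) θ

end Vale.Agent.P209.Strong
end
end
end
end

section

section

section

section

end
end
end
end

section

section

section

section

namespace Vale.Agent.P209.Strong

/-! C3. The stage theorem (column lemma with parameters), by induction on the dimension. -/

/-- closed iterated box -/
def cboxSet {n : ℕ} (l u : Fin n → (Fin n → ℝ) → ℝ) : Set (Fin n → ℝ) :=
  {y | ∀ j, l j y ≤ y j ∧ y j ≤ u j y}

/-- input of stage `D` (`D` chain directions and one final direction) -/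
structure StageIn (D : ℕ) {Θ : Type} [TopologicalSpace Θ] (c L R δ ρ N : ℝ) (K : ℕ)
    (l u : Fin (D + 1) → Θ → (Fin (D + 1) → ℝ) → ℝ) {ι : Type} [Fintype ι] [DecidableEq ι]
    (r : ι → Θ → ℝ)
    (J : Finset ι) (dig : ι → Fin D → ℕ) (b η : ℝ) : Prop where
  box : IsBox c L R l u
  cr : ∀ i, Continuous (r i)
  r01 : ∀ i θ, 0 ≤ r i θ ∧ r i θ ≤ 1
  tail : ∀ θ, ∑ i ∈ J, r i θ ≤ N
  dlt : ∀ i k, dig i k < 2 * K
  b0 : 0 < b
  big : ∀ θ (κ : Fin D → ℕ), (∀ k, κ k < 2 * K) →
    b ≤ ((Finset.univ.filter (fun i => i ∉ J ∧ dig i = κ ∧ δ ≤ r i θ)).card : ℝ)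
  act : ∀ θ (κ : Fin D → ℕ), (∀ k, κ k < 2 * K) →
    ((Finset.univ.filter (fun i => i ∉ J ∧ dig i = κ ∧ 0 < r i θ)).card : ℝ) ≤ ρ * b
  η0 : 0 < η
  lo : ∀ θ, (1 / 2 + η) * ((D + 1).factorial * vol (D + 1) l u θ) ≤ ∑ i, r i θ ^ (D + 1)
  hi : ∀ θ, ∑ i, r i θ ^ (D + 1) ≤ (1 - η) * ((D + 1).factorial * vol (D + 1) l u θ)

/-- output of a stage -/
structure StageOut (D : ℕ) {Θ : Type} [TopologicalSpace Θ]
    (l u : Fin (D + 1) → Θ → (Fin (D + 1) → ℝ) → ℝ) {ι : Type} (r : ι → Θ → ℝ)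
    (W : ι → Fin (D + 1) → Θ → (Fin (D + 1) → ℝ) → ℝ → ℝ) : Prop where
  cont : ∀ i j, Continuous fun z : (Θ × (Fin (D + 1) → ℝ)) × ℝ => W i j z.1.1 z.1.2 z.2
  dep : ∀ i θ, DepLt fun j => W i j θ
  sub : ∀ i θ, KK (fun j => W i j θ) (r i θ) ⊆ cboxSet (fun j => l j θ) (fun j => u j θ)
  disj : ∀ i i' θ, i ≠ i' → Disjoint (KK (fun j => W i j θ) (r i θ)) (KK (fun j => W i' j θ) (r i' θ))

/-- statement of stage `D` -/
def Stage (D : ℕ) : Prop :=
  ∀ c L δ ρ N : ℝ, 0 < c → 0 ≤ L → 0 < δ → δ ≤ 1 → 1 ≤ ρ → 0 ≤ N →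
    ∃ C1 R0 : ℝ, 0 < C1 ∧ 0 < R0 ∧ ∀ R : ℝ, R0 ≤ R → ∀ K : ℕ, C1 * R ≤ K →
      ∀ (Θ : Type) [TopologicalSpace Θ] (l u : Fin (D + 1) → Θ → (Fin (D + 1) → ℝ) → ℝ)
        (ι : Type) [Fintype ι] [DecidableEq ι] (r : ι → Θ → ℝ) (J : Finset ι)
        (dig : ι → Fin D → ℕ) (b η : ℝ), StageIn D c L R δ ρ N K l u r J dig b η →
        ∃ W : ι → Fin (D + 1) → Θ → (Fin (D + 1) → ℝ) → ℝ → ℝ, StageOut D l u r W

end Vale.Agent.P209.Strong
end
end
end
end

section

section

section

section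

set_option linter.all false

namespace Vale.Agent.P209.Strong

section C3z

variable {ι : Type} [Fintype ι] [DecidableEq ι]

/-- left end of the interval of `i` -/
noncomputable def c3zA (e : ι → ℕ) (r : ι → ℝ) (l0 g : ℝ) (i : ι) : ℝ :=
  l0 + ∑ k ∈ Finset.univ.filter (fun k => e k < e i), r k + ((e i : ℝ) + 1) * g

lemma c3z_lt {e : ι → ℕ} {r : ι → ℝ} (hr : ∀ i, 0 ≤ r i) {l0 g : ℝ} (hg : 0 < g) {i i' : ι}
    (h : e i < e i') : c3zA e r l0 g i + r i < c3zA e r l0 g i' := by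
  have h1 : ∑ k ∈ Finset.univ.filter (fun k => e k < e i), r k + r i ≤
      ∑ k ∈ Finset.univ.filter (fun k => e k < e i'), r k := by
    have h2 : i ∉ Finset.univ.filter (fun k => e k < e i) := by simp only [Finset.mem_filter, Finset.mem_univ, lt_self_iff_false, and_false, not_false_eq_true]
    rw [add_comm, ← Finset.sum_insert h2]
    refine Finset.sum_le_sum_of_subset_of_nonneg ?_ fun k _ _ => hr k
    intro k hk
    rcases Finset.mem_insert.1 hk with rfl | hk
    · exact Finset.mem_filter.2 ⟨Finset.mem_univ _, h⟩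
    · exact Finset.mem_filter.2 ⟨Finset.mem_univ _, (Finset.mem_filter.1 hk).2.trans h⟩
  have h3 : ((e i : ℝ) + 1) ≤ (e i' : ℝ) := by exact_mod_cast h
  unfold c3zA
  linarith only [mul_nonneg (le_of_lt (sub_pos.2 hg)) (sub_nonneg.2 h3), h1, hg]

lemma c3z_ge {e : ι → ℕ} {r : ι → ℝ} (hr : ∀ i, 0 ≤ r i) {l0 g : ℝ} (hg : 0 < g) (i : ι) :
    l0 ≤ c3zA e r l0 g i := by
  unfold c3zA
  have h1 : 0 ≤ ∑ k ∈ Finset.univ.filter (fun k => e k < e i), r k :=
    Finset.sum_nonneg fun k _ => hr k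
  have h2 : 0 ≤ ((e i : ℝ) + 1) * g := by (clear * - hg; positivity)
  linarith

lemma c3z_le {e : ι → ℕ} {r : ι → ℝ} (hr : ∀ i, 0 ≤ r i) {l0 g : ℝ} (hg : 0 < g) {C : ℕ}
    (he : ∀ i, e i < C) (i : ι) :
    c3zA e r l0 g i + r i ≤ l0 + ∑ k, r k + C * g := by
  have h1 : ∑ k ∈ Finset.univ.filter (fun k => e k < e i), r k + r i ≤ ∑ k, r k := by
    have h2 : i ∉ Finset.univ.filter (fun k => e k < e i) := by simp only [Finset.mem_filter, Finset.mem_univ, lt_self_iff_false, and_false, not_false_eq_true]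
    rw [add_comm, ← Finset.sum_insert h2]
    exact Finset.sum_le_sum_of_subset_of_nonneg (Finset.subset_univ _) fun k _ _ => hr k
  have h3 : ((e i : ℝ) + 1) ≤ (C : ℝ) := by exact_mod_cast he i
  unfold c3zA
  linarith only [mul_nonneg (le_of_lt (sub_pos.2 hg)) (sub_nonneg.2 h3), h1]

end C3z

/-- last direction: intervals next to each other -/
theorem stage_zero : Stage 0 := by
  intro c L δ ρ N hc hL hδ hδ1 hρ hN
  refine ⟨1, 1, one_pos, one_pos, fun R hR K hK Θ _ l u ι _ _ r J dig b η h => ?_⟩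
  have hRpos : 0 < R := lt_of_lt_of_le one_pos hR
  set e : ι → ℕ := fun i => (Fintype.equivFin ι i : ℕ) with he
  have heinj : ∀ i i', e i = e i' → i = i' := fun i i' hii =>
    (Fintype.equivFin ι).injective (Fin.ext hii)
  have hec : ∀ i, e i < Fintype.card ι := fun i => (Fintype.equivFin ι i).2
  have hw : ∀ θ, 0 < u 0 θ 0 - l 0 θ 0 := fun θ =>
    lt_of_lt_of_le (mul_pos hc hRpos) (h.box.lo 0 θ 0)
  have hlc : ∀ θ y, l 0 θ y = l 0 θ 0 := fun θ y =>
    h.box.dep_l θ 0 y 0 fun i hi => absurd hi (by simp)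
  have huc : ∀ θ y, u 0 θ y = u 0 θ 0 := fun θ y =>
    h.box.dep_u θ 0 y 0 fun i hi => absurd hi (by simp)
  have hr : ∀ θ i, 0 ≤ r i θ := fun θ i => (h.r01 i θ).1
  have hvol : ∀ θ, vol (0 + 1) l u θ = u 0 θ 0 - l 0 θ 0 := by
    intro θ
    simp [vol]
  have hsum : ∀ θ, ∑ i, r i θ ≤ (1 - η) * (u 0 θ 0 - l 0 θ 0) := by
    intro θ
    have := h.hi θ
    rw [hvol] at this
    simpa only [Fin.isValue, ge_iff_le, zero_add, pow_one, Nat.factorial_one, Nat.cast_one, one_mul] using this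
  set g : Θ → ℝ := fun θ => η * (u 0 θ 0 - l 0 θ 0) / (Fintype.card ι + 1) with hg
  have hgpos : ∀ θ, 0 < g θ := fun θ => by
    have h1 := h.η0
    have h2 := hw θ
    simp only [hg]
    (clear * - h1 h2; positivity)
  have hlcont : Continuous fun θ => l 0 θ 0 :=
    (h.box.cont_l 0).comp (continuous_id.prodMk continuous_const)
  have hucont : Continuous fun θ => u 0 θ 0 :=
    (h.box.cont_u 0).comp (continuous_id.prodMk continuous_const)
  have hgcont : Continuous g := (continuous_const.mul (hucont.sub hlcont)).div_const _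
  have hAcont : ∀ i, Continuous fun θ => c3zA e (fun k => r k θ) (l 0 θ 0) (g θ) i := by
    intro i
    unfold c3zA
    exact (hlcont.add (continuous_finsetSum _ fun k _ => h.cr k)).add
      (continuous_const.mul hgcont)
  have hmem : ∀ i θ a, a ∈ KK (n := 0 + 1)
      (fun _ _ _ => c3zA e (fun k => r k θ) (l 0 θ 0) (g θ) i) (r i θ) →
      c3zA e (fun k => r k θ) (l 0 θ 0) (g θ) i ≤ a 0 ∧
        a 0 ≤ c3zA e (fun k => r k θ) (l 0 θ 0) (g θ) i + r i θ := by
    rintro i θ a ⟨x, hx0, hxn, hx1, hx⟩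
    have h1 := hx 0
    have h2 : x ((0 : Fin (0 + 1)) + 1) = 0 := by simpa using hx1
    have h3 : x ((0 : Fin (0 + 1)) : ℕ) = x 0 := rfl
    refine ⟨h1.1, h1.2.trans ?_⟩
    simp only [Fin.val_zero, zero_add] at hx1 ⊢
    rw [hx1]
    linarith only [hx0]
  refine ⟨fun i j θ y x => c3zA e (fun k => r k θ) (l 0 θ 0) (g θ) i, ?_, ?_, ?_, ?_⟩
  · intro i j
    exact (hAcont i).comp (continuous_fst.comp continuous_fst)
  · intro i θ j y y' _
    rfl
  · intro i θ a ha
    obtain ⟨h1, h2⟩ := hmem i θ a ha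
    intro j
    obtain rfl : j = 0 := Fin.ext (by omega)
    change l 0 θ a ≤ a 0 ∧ a 0 ≤ u 0 θ a
    rw [hlc θ a, huc θ a]
    refine ⟨(c3z_ge (hr θ) (hgpos θ) i).trans h1, h2.trans ?_⟩
    refine (c3z_le (hr θ) (hgpos θ) hec i).trans ?_
    have h3 := hsum θ
    have h4 : (Fintype.card ι : ℝ) * g θ ≤ η * (u 0 θ 0 - l 0 θ 0) := by
      have h5 : 0 < (Fintype.card ι : ℝ) + 1 := by (clear * -; positivity)
      have h6 : ((Fintype.card ι : ℝ) + 1) * g θ = η * (u 0 θ 0 - l 0 θ 0) := by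
        simp only [hg]
        (clear * -; field_simp)
      have h7 := hgpos θ
      linarith only [h6, h7]
    linarith only [h3, h4]
  · intro i i' θ hii
    rw [Set.disjoint_left]
    intro a ha ha'
    obtain ⟨h1, h2⟩ := hmem i θ a ha
    obtain ⟨h3, h4⟩ := hmem i' θ a ha'
    rcases lt_trichotomy (e i) (e i') with hlt | heq | hlt
    · have := c3z_lt (hr θ) (l0 := l 0 θ 0) (hgpos θ) hlt
      linarith only [h2, h3, this]
    · exact hii (heinj i i' heq)
    · have := c3z_lt (hr θ) (l0 := l 0 θ 0) (hgpos θ) hlt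
      linarith only [h1, h4, this]

end Vale.Agent.P209.Strong
end
end
end
end

section

section

section

section

set_option linter.all false

namespace Vale.Agent.P209.Strong

theorem c3b_tail {D : ℕ} {Θ : Type}
    {l u : Fin (D + 1 + 1) → Θ → (Fin (D + 1 + 1) → ℝ) → ℝ} {ι : Type}
    {r : ι → Θ → ℝ} {W v : ι → Θ → ℝ → ℝ}
    (sec : ∀ i θ x t, 0 ≤ x → x ≤ r i θ → W i θ x ≤ t → t ≤ W i θ x + (r i θ - x) →
      0 ≤ t ∧ t ≤ u 0 θ 0 - l 0 θ 0 ∧ x ≤ v i θ t)
    {cl : Θ × ℝ → Θ × ℝ} (hcl : ∀ θ t, cl (θ, t) = (θ, max (l 0 θ 0) (min (u 0 θ 0) t)))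
    {W' : ι → Fin (D + 1) → Θ × ℝ → (Fin (D + 1) → ℝ) → ℝ → ℝ} (i : ι) (θ : Θ)
    (a : Fin (D + 1 + 1) → ℝ)
    (ha : a ∈ KK (fun j y x => Fin.cases (motive := fun _ => ℝ) (l 0 θ 0 + W i θ x)
        (fun j' => W' i j' (θ, y 0) (Fin.tail y) x) j) (r i θ)) :
    cl (θ, a 0) = (θ, a 0) ∧ l 0 θ 0 ≤ a 0 ∧ a 0 ≤ u 0 θ 0 ∧
      Fin.tail a ∈ KK (fun j => W' i j (θ, a 0)) (v i θ ((cl (θ, a 0)).2 - l 0 θ 0)) := by
  obtain ⟨x, hx0, hx, hxn, hj⟩ := ha
  have h0 := hj 0
  simp only [Fin.cases_zero, Fin.val_zero, zero_add] at h0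
  obtain ⟨h1, h2⟩ := h0
  have hx1 : x 1 ≤ r i θ := by linarith
  obtain ⟨s1, s2, s3⟩ := sec i θ (x 1) (a 0 - l 0 θ 0) (hx 1) hx1 (by linarith) (by linarith)
  have hc : cl (θ, a 0) = (θ, a 0) := by
    rw [hcl, min_eq_right (by linarith), max_eq_right (by linarith)]
  refine ⟨hc, by linarith, by linarith, ?_⟩
  rw [hc]
  refine ⟨fun k => x (k + 1), s3, fun k => hx _, hxn, fun j => ?_⟩
  have h3 := hj j.succ
  simp only [Fin.cases_succ, Fin.val_succ] at h3
  exact h3

/-- C3b. Formal assembly: from the output of the chain lemma (direction 0) and of the next stage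
(over `Θ × ℝ`, with the slices clamped to the time interval) to the output of the stage. -/
theorem stage_assemble {D : ℕ} {Θ : Type} [TopologicalSpace Θ] {c L R : ℝ}
    {l u : Fin (D + 1 + 1) → Θ → (Fin (D + 1 + 1) → ℝ) → ℝ} (hbox : IsBox c L R l u) {ι : Type}
    {r : ι → Θ → ℝ} {W v : ι → Θ → ℝ → ℝ}
    (cW : ∀ i, Continuous fun z : Θ × ℝ => W i z.1 z.2)
    (sec : ∀ i θ x t, 0 ≤ x → x ≤ r i θ → W i θ x ≤ t → t ≤ W i θ x + (r i θ - x) →
      0 ≤ t ∧ t ≤ u 0 θ 0 - l 0 θ 0 ∧ x ≤ v i θ t)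
    {cl : Θ × ℝ → Θ × ℝ} (hcl : ∀ θ t, cl (θ, t) = (θ, max (l 0 θ 0) (min (u 0 θ 0) t)))
    {W' : ι → Fin (D + 1) → Θ × ℝ → (Fin (D + 1) → ℝ) → ℝ → ℝ}
    (hout : StageOut D (fun j z => sl l j (cl z)) (fun j z => sl u j (cl z))
      (fun i z => v i z.1 ((cl z).2 - l 0 z.1 0)) W') :
    StageOut (D + 1) l u r (fun i j θ y x =>
      Fin.cases (motive := fun _ => ℝ) (l 0 θ 0 + W i θ x)
        (fun j' => W' i j' (θ, y 0) (Fin.tail y) x) j) := by
  constructor
  · -- continuity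
    intro i j
    refine Fin.cases ?_ (fun j' => ?_) j
    · simp only [Fin.cases_zero]
      refine Continuous.add ?_ ?_
      · exact (hbox.cont_l 0).comp ((continuous_fst.comp continuous_fst).prodMk continuous_const)
      · exact (cW i).comp ((continuous_fst.comp continuous_fst).prodMk continuous_snd)
    · simp only [Fin.cases_succ]
      have hc := hout.cont i j'
      refine hc.comp (Continuous.prodMk (Continuous.prodMk (Continuous.prodMk ?_ ?_) ?_) ?_)
      · exact continuous_fst.comp continuous_fst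
      · exact (continuous_apply 0).comp (continuous_snd.comp continuous_fst)
      · refine continuous_pi fun k => ?_
        exact (continuous_apply k.succ).comp (continuous_snd.comp continuous_fst)
      · exact continuous_snd
  · -- dependence
    intro i θ j
    refine Fin.cases ?_ (fun j' => ?_) j
    · intro y y' _
      funext x
      simp only [Fin.cases_zero]
    · intro y y' h
      have h0 : y 0 = y' 0 := h 0 (Fin.succ_pos j')
      have h1 := hout.dep i (θ, y 0) j' (Fin.tail y) (Fin.tail y') fun k hk =>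
        h k.succ (Fin.succ_lt_succ_iff.2 hk)
      funext x
      simp only [Fin.cases_succ]
      rw [← h0]
      exact congrFun h1 x
  · -- inclusion
    intro i θ a ha
    obtain ⟨hc, h1, h2, h3⟩ := c3b_tail sec hcl i θ a ha
    have h4 := hout.sub i (θ, a 0) h3
    intro j
    refine Fin.cases ?_ (fun j' => ?_) j
    · have e1 : l 0 θ a = l 0 θ 0 :=
        hbox.dep_l θ 0 a 0 fun k hk => absurd hk (Fin.not_lt_zero k)
      have e2 : u 0 θ a = u 0 θ 0 :=
        hbox.dep_u θ 0 a 0 fun k hk => absurd hk (Fin.not_lt_zero k)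
      show l 0 θ a ≤ a 0 ∧ a 0 ≤ u 0 θ a
      rw [e1, e2]
      exact ⟨h1, h2⟩
    · have h5 := h4 j'
      simp only [hc, sl, Fin.cons_self_tail] at h5
      exact h5
  · -- disjointness
    intro i i' θ hii
    rw [Set.disjoint_left]
    intro a ha ha'
    obtain ⟨hc, h1, h2, h3⟩ := c3b_tail sec hcl i θ a ha
    obtain ⟨hc', h1', h2', h3'⟩ := c3b_tail sec hcl i' θ a ha'
    exact Set.disjoint_left.1 (hout.disj i i' (θ, a 0) hii) h3 h3'

end Vale.Agent.P209.Strong
end
end
end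
end

section

section

section

section

namespace Vale.Agent.P209.Strong

/-- C3c. The target of the chain lemma. -/
theorem stage_target {D : ℕ} (c L : ℝ) (hc : 0 < c) (hL : 0 ≤ L) : ∃ R0 : ℝ, 0 < R0 ∧
    ∀ (R : ℝ), R0 ≤ R → ∀ (Θ : Type) [TopologicalSpace Θ]
      (l u : Fin (D + 1 + 1) → Θ → (Fin (D + 1 + 1) → ℝ) → ℝ) (V : Θ → ℝ) (A : Θ → ℝ → ℝ),
      IsBox c L R l u → Continuous V →
      (∀ θ, 1 / 2 * ((D + 1 + 1).factorial * vol (D + 1 + 1) l u θ) ≤ V θ ∧
        V θ ≤ (D + 1 + 1).factorial * vol (D + 1 + 1) l u θ) →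
      (∀ θ t, A θ t = V θ / ((D + 1 + 1).factorial * vol (D + 1 + 1) l u θ) *
        ((D + 1).factorial * vol (D + 1) (sl l) (sl u) (θ, l 0 θ 0 + t))) →
      (Continuous fun z : Θ × ℝ => A z.1 z.2) ∧
      (∀ θ t, 1 / 2 * ((D + 1).factorial * (c * R) ^ (D + 1)) ≤ A θ t ∧
        A θ t ≤ 2 / c ^ (D + 1) * (1 / 2 * ((D + 1).factorial * (c * R) ^ (D + 1)))) ∧
      (∀ θ t t', |A θ t - A θ t'| ≤
        1 / 2 * ((D + 1).factorial * (c * R) ^ (D + 1)) / 256 * |t - t'|) ∧
      (∀ θ, ∫ t in (0 : ℝ)..(u 0 θ 0 - l 0 θ 0), A θ t = V θ / (D + 1 + 1)) := by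
  obtain ⟨D', hD', hlip⟩ := vol_lip (D + 1) L hL
  have hcp : 0 < c ^ (D + 1) := pow_pos hc _
  refine ⟨512 * D' / c ^ (D + 1) + 1, by positivity, ?_⟩
  intro R hR Θ _ l u V A hbox hV hVb hA
  have hR0 : 0 < R := lt_of_lt_of_le (by positivity) hR
  have hcR : 0 < c * R := mul_pos hc hR0
  have hDR : 512 * D' ≤ c ^ (D + 1) * R := by
    have h1 : 512 * D' / c ^ (D + 1) ≤ R := by linarith
    rw [div_le_iff₀ hcp] at h1
    linarith only [h1]
  -- bounds for the volume of the box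
  have hW : ∀ θ, 0 < vol (D + 1 + 1) l u θ := fun θ =>
    lt_of_lt_of_le (pow_pos hcR _) (vol_bounds hc hR0 hbox θ).1
  have hf2 : (0 : ℝ) < ((D + 1 + 1).factorial : ℝ) := by exact_mod_cast Nat.factorial_pos _
  have hf1 : (0 : ℝ) < ((D + 1).factorial : ℝ) := by exact_mod_cast Nat.factorial_pos _
  have hden : ∀ θ, 0 < ((D + 1 + 1).factorial : ℝ) * vol (D + 1 + 1) l u θ := fun θ =>
    mul_pos hf2 (hW θ)
  have hρ1 : ∀ θ, 1 / 2 ≤ V θ / (((D + 1 + 1).factorial : ℝ) * vol (D + 1 + 1) l u θ) := fun θ => by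
    rw [le_div_iff₀ (hden θ)]
    exact (hVb θ).1
  have hρ2 : ∀ θ, V θ / (((D + 1 + 1).factorial : ℝ) * vol (D + 1 + 1) l u θ) ≤ 1 := fun θ => by
    rw [div_le_one (hden θ)]
    exact (hVb θ).2
  have hS : ∀ p : Θ × ℝ, (c * R) ^ (D + 1) ≤ vol (D + 1) (sl l) (sl u) p ∧
      vol (D + 1) (sl l) (sl u) p ≤ R ^ (D + 1) := fun p => vol_bounds hc hR0 hbox.slice p
  have hSp : 0 < (c * R) ^ (D + 1) := pow_pos hcR _
  refine ⟨?_, ?_, ?_, ?_⟩
  · have h1 : Continuous fun z : Θ × ℝ => l 0 z.1 0 :=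
      (hbox.cont_l 0).comp (continuous_fst.prodMk continuous_const)
    have h2 : Continuous (vol (D + 1) (sl l) (sl u)) := vol_continuous hbox.slice
    have h3 : Continuous fun z : Θ × ℝ => vol (D + 1) (sl l) (sl u) (z.1, l 0 z.1 0 + z.2) :=
      h2.comp (continuous_fst.prodMk (h1.add continuous_snd))
    have h4 : Continuous fun z : Θ × ℝ => vol (D + 1 + 1) l u z.1 :=
      (vol_continuous hbox).comp continuous_fst
    simp only [hA]
    exact ((hV.comp continuous_fst).div (continuous_const.mul h4) fun z => (hden z.1).ne').mul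
      (continuous_const.mul h3)
  · intro θ t
    rw [hA]
    obtain ⟨hs1, hs2⟩ := hS (θ, l 0 θ 0 + t)
    constructor
    · have h1 : ((D + 1).factorial : ℝ) * (c * R) ^ (D + 1) ≤
          (D + 1).factorial * vol (D + 1) (sl l) (sl u) (θ, l 0 θ 0 + t) :=
        mul_le_mul_of_nonneg_left hs1 hf1.le
      exact mul_le_mul (hρ1 θ) h1 (by positivity) (le_trans (by norm_num) (hρ1 θ))
    · have h1 : ((D + 1).factorial : ℝ) * vol (D + 1) (sl l) (sl u) (θ, l 0 θ 0 + t) ≤
          (D + 1).factorial * R ^ (D + 1) :=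
        mul_le_mul_of_nonneg_left hs2 hf1.le
      have h0 : (0 : ℝ) ≤ ((D + 1).factorial : ℝ) * vol (D + 1) (sl l) (sl u) (θ, l 0 θ 0 + t) :=
        mul_nonneg hf1.le (hSp.le.trans hs1)
      calc V θ / (((D + 1 + 1).factorial : ℝ) * vol (D + 1 + 1) l u θ) *
            (((D + 1).factorial : ℝ) * vol (D + 1) (sl l) (sl u) (θ, l 0 θ 0 + t))
          ≤ 1 * (((D + 1).factorial : ℝ) * R ^ (D + 1)) :=
            mul_le_mul (hρ2 θ) h1 h0 zero_le_one
        _ = 2 / c ^ (D + 1) * (1 / 2 * ((D + 1).factorial * (c * R) ^ (D + 1))) := by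
            rw [mul_pow]
            field_simp
  · intro θ t t'
    rw [hA, hA]
    have h1 := hlip Θ c R l u hc hR0 hbox θ (l 0 θ 0 + t) (l 0 θ 0 + t')
    have h2 : |l 0 θ 0 + t - (l 0 θ 0 + t')| = |t - t'| := by
      congr 1
      ring
    rw [h2] at h1
    have h3 : D + 1 - 1 = D := by omega
    rw [h3] at h1
    set S1 := vol (D + 1) (sl l) (sl u) (θ, l 0 θ 0 + t) with hS1
    set S2 := vol (D + 1) (sl l) (sl u) (θ, l 0 θ 0 + t') with hS2
    set ρ := V θ / (((D + 1 + 1).factorial : ℝ) * vol (D + 1 + 1) l u θ) with hρ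
    have hρ0 : 0 ≤ ρ := le_trans (by norm_num) (hρ1 θ)
    have h4 : ρ * (((D + 1).factorial : ℝ) * S1) - ρ * (((D + 1).factorial : ℝ) * S2) =
        ρ * (((D + 1).factorial : ℝ) * (S1 - S2)) := by ring
    rw [h4, abs_mul, abs_mul, abs_of_nonneg hρ0, abs_of_pos hf1]
    have h5 : ρ * (((D + 1).factorial : ℝ) * |S1 - S2|) ≤ 1 * (((D + 1).factorial : ℝ) * |S1 - S2|) :=
      mul_le_mul_of_nonneg_right (hρ2 θ) (by (clear * -; positivity))
    have h6 : D' * R ^ D ≤ (c * R) ^ (D + 1) / 512 := by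
      have : 512 * D' * R ^ D ≤ c ^ (D + 1) * R * R ^ D :=
        mul_le_mul_of_nonneg_right hDR (by positivity)
      rw [mul_pow, pow_succ R D]
      linarith only [this]
    have h7 : |S1 - S2| ≤ (c * R) ^ (D + 1) / 512 * |t - t'| :=
      h1.trans (mul_le_mul_of_nonneg_right h6 (abs_nonneg _))
    have h8 : ((D + 1).factorial : ℝ) * |S1 - S2| ≤
        (D + 1).factorial * ((c * R) ^ (D + 1) / 512 * |t - t'|) :=
      mul_le_mul_of_nonneg_left h7 hf1.le
    calc ρ * (((D + 1).factorial : ℝ) * |S1 - S2|)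
        ≤ (D + 1).factorial * ((c * R) ^ (D + 1) / 512 * |t - t'|) := by linarith only [h5, h8]
      _ = 1 / 2 * ((D + 1).factorial * (c * R) ^ (D + 1)) / 256 * |t - t'| := by ring
  · intro θ
    have h1 : ∀ t, A θ t = V θ / ((D + 1 + 1).factorial * vol (D + 1 + 1) l u θ) *
        ((D + 1).factorial * vol (D + 1) (sl l) (sl u) (θ, l 0 θ 0 + t)) := hA θ
    simp only [h1]
    rw [intervalIntegral.integral_const_mul, intervalIntegral.integral_const_mul,
      intervalIntegral.integral_comp_add_left (fun t => vol (D + 1) (sl l) (sl u) (θ, t))]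
    have h2 : (∫ x in (l 0 θ 0 + 0)..(l 0 θ 0 + (u 0 θ 0 - l 0 θ 0)),
        vol (D + 1) (sl l) (sl u) (θ, x)) = vol (D + 1 + 1) l u θ := by
      rw [add_zero, add_sub_cancel]
      rfl
    rw [h2]
    have hW0 := (hW θ).ne'
    have h3 : ((D + 1 + 1).factorial : ℝ) = ((D : ℝ) + 1 + 1) * ((D + 1).factorial : ℝ) := by
      rw [Nat.factorial_succ (D + 1)]
      push_cast
      ring
    rw [h3]
    have h4 : ((D : ℝ) + 1 + 1) ≠ 0 := by (clear * -; positivity)
    (clear * - hW0 h4; field_simp)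

end Vale.Agent.P209.Strong
end
end
end
end

section

section

section

section

/-!
# One-sided evolution (L-balls)

`q ≥ 1` is the exponent, `T` the length of the time interval, `m : ℝ → ℝ` the residual target,
`p` the peak time of the previous ball, `u ∈ [0, 1]` the size of the ball which is placed.
-/

namespace Vale.Agent.P209.Strong

/-- Start time of the level `x`. -/
noncomputable def Wf (q : ℕ) (T : ℝ) (m : ℝ → ℝ) (p x : ℝ) : ℝ :=
  sSup ((fun s : ℝ => max 0 (s * T -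
    max 0 (m (s * T) + 2 * q * max 0 (s * T - p - 1) - x ^ q) / (2 * q))) '' Set.Icc 0 1)

/-- Falling profile of the ball of size `u`: the largest `x ≤ u` with `t ≤ W x + (u - x)`. -/
noncomputable def cf (q : ℕ) (T : ℝ) (m : ℝ → ℝ) (p u t : ℝ) : ℝ :=
  sSup ((fun s : ℝ => max 0 (s * u -
    2 * max 0 (t - u - Wf q T m p (s * u) + s * u))) '' Set.Icc 0 1)

/-- Size of the slice at time `t` of the ball of size `u`. -/
noncomputable def vf (q : ℕ) (T : ℝ) (m : ℝ → ℝ) (p u t : ℝ) : ℝ :=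
  min ((max 0 (m t)) ^ ((q : ℝ)⁻¹)) (cf q T m p u t)

/-- Residual target after placing a ball of size `u`. -/
noncomputable def stepm (q : ℕ) (T : ℝ) (m : ℝ → ℝ) (p u : ℝ) : ℝ → ℝ :=
  fun t => max 0 (m t - cf q T m p u t ^ q)

/-- The evolution: residual target and last peak time, after placing the first `i` balls. -/
noncomputable def evo (q : ℕ) (T : ℝ) (a : ℝ → ℝ) (u : ℕ → ℝ) : ℕ → (ℝ → ℝ) × ℝ
  | 0 => (a, 0)
  | i + 1 => (stepm q T (evo q T a u i).1 (evo q T a u i).2 (u i),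
      Wf q T (evo q T a u i).1 (evo q T a u i).2 (u i))

/-- residual after the first `i` balls -/
noncomputable def eM (q : ℕ) (T : ℝ) (a : ℝ → ℝ) (u : ℕ → ℝ) (i : ℕ) : ℝ → ℝ := (evo q T a u i).1

/-- peak time of ball `i - 1` (for `i = 0`: zero). So the peak of ball `i` is `eP (i + 1)`. -/
noncomputable def eP (q : ℕ) (T : ℝ) (a : ℝ → ℝ) (u : ℕ → ℝ) (i : ℕ) : ℝ := (evo q T a u i).2

/-- slice size of ball `i` at time `t` -/
noncomputable def ev (q : ℕ) (T : ℝ) (a : ℝ → ℝ) (u : ℕ → ℝ) (i : ℕ) (t : ℝ) : ℝ :=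
  vf q T (eM q T a u i) (eP q T a u i) (u i) t

/-- start time of level `x` of ball `i` -/
noncomputable def eW (q : ℕ) (T : ℝ) (a : ℝ → ℝ) (u : ℕ → ℝ) (i : ℕ) (x : ℝ) : ℝ :=
  Wf q T (eM q T a u i) (eP q T a u i) x

/-- admissible targets -/
structure Target (q : ℕ) (T : ℝ) (a : ℝ → ℝ) : Prop where
  cont : Continuous a
  lo : ∀ t, 0 ≤ t → t ≤ T → 3 + 5 * q ≤ a t
  slow : ∀ t t', 0 ≤ t → t ≤ t' → t' ≤ T → t' ≤ t + 1 → a t - 1 / 8 * a t * (t' - t) ≤ a t'

/-- invariant of the evolution -/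
structure Inv (q : ℕ) (T : ℝ) (a m : ℝ → ℝ) (p : ℝ) : Prop where
  cont : Continuous m
  p0 : 0 ≤ p
  nn : ∀ t, 0 ≤ t → t ≤ T → 0 ≤ m t
  le : ∀ t, 0 ≤ t → t ≤ T → m t ≤ a t
  zero : ∀ t, 0 ≤ t → t < p → t ≤ T → m t = 0
  K : ∀ t t', p ≤ t → t ≤ t' → t' ≤ T → t' ≤ t + 1 →
    m t + (a t' - a t) + (t' - t) * (a t - m t) ≤ m t'
  eq : ∀ t, p + 1 ≤ t → t ≤ T → m t = a t

end Vale.Agent.P209.Strong
end
end
end
end

section

section

section

section

namespace Vale.Agent.P209.Strong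

/-! B1a. Continuity in parameters. -/

theorem Wf_continuous {Θ : Type} [TopologicalSpace Θ] (q : ℕ) {T : Θ → ℝ} {m : Θ → ℝ → ℝ}
    {p x : Θ → ℝ} (hT : Continuous T) (hm : Continuous fun z : Θ × ℝ => m z.1 z.2)
    (hp : Continuous p) (hx : Continuous x) :
    Continuous fun θ => Wf q (T θ) (m θ) (p θ) (x θ) := by
  have hT1 : Continuous fun z : Θ × ℝ => T z.1 := hT.comp continuous_fst
  have hp1 : Continuous fun z : Θ × ℝ => p z.1 := hp.comp continuous_fst
  have hx1 : Continuous fun z : Θ × ℝ => x z.1 := hx.comp continuous_fst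
  have hs : Continuous fun z : Θ × ℝ => z.2 * T z.1 := continuous_snd.mul hT1
  have hm1 : Continuous fun z : Θ × ℝ => m z.1 (z.2 * T z.1) :=
    hm.comp (continuous_fst.prodMk hs)
  have h1 : Continuous fun z : Θ × ℝ => max 0 (m z.1 (z.2 * T z.1) +
      2 * (q : ℝ) * max 0 (z.2 * T z.1 - p z.1 - 1) - x z.1 ^ q) :=
    continuous_const.max ((hm1.add (continuous_const.mul (continuous_const.max
      ((hs.sub hp1).sub continuous_const)))).sub (hx1.pow q))
  have h2 : Continuous fun z : Θ × ℝ => max 0 (z.2 * T z.1 -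
      max 0 (m z.1 (z.2 * T z.1) +
      2 * (q : ℝ) * max 0 (z.2 * T z.1 - p z.1 - 1) - x z.1 ^ q) / (2 * (q : ℝ))) :=
    continuous_const.max (hs.sub (h1.div_const _))
  exact (isCompact_Icc (a := (0 : ℝ)) (b := 1)).continuous_sSup
    (f := fun (θ : Θ) (s : ℝ) => max 0 (s * T θ -
      max 0 (m θ (s * T θ) + 2 * (q : ℝ) * max 0 (s * T θ - p θ - 1) - x θ ^ q) / (2 * (q : ℝ)))) h2

theorem cf_continuous {Θ : Type} [TopologicalSpace Θ] (q : ℕ) {T : Θ → ℝ} {m : Θ → ℝ → ℝ}
    {p u t : Θ → ℝ} (hT : Continuous T) (hm : Continuous fun z : Θ × ℝ => m z.1 z.2)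
    (hp : Continuous p) (hu : Continuous u) (ht : Continuous t) :
    Continuous fun θ => cf q (T θ) (m θ) (p θ) (u θ) (t θ) := by
  have hT1 : Continuous fun z : Θ × ℝ => T z.1 := hT.comp continuous_fst
  have hp1 : Continuous fun z : Θ × ℝ => p z.1 := hp.comp continuous_fst
  have hu1 : Continuous fun z : Θ × ℝ => u z.1 := hu.comp continuous_fst
  have ht1 : Continuous fun z : Θ × ℝ => t z.1 := ht.comp continuous_fst
  have hs : Continuous fun z : Θ × ℝ => z.2 * u z.1 := continuous_snd.mul hu1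
  have hm1 : Continuous fun w : (Θ × ℝ) × ℝ => m w.1.1 w.2 :=
    hm.comp ((continuous_fst.comp continuous_fst).prodMk continuous_snd)
  have hW : Continuous fun z : Θ × ℝ => Wf q (T z.1) (m z.1) (p z.1) (z.2 * u z.1) :=
    Wf_continuous (Θ := Θ × ℝ) q (m := fun z => m z.1) hT1 hm1 hp1 hs
  have h2 : Continuous fun z : Θ × ℝ => max 0 (z.2 * u z.1 -
      2 * max 0 (t z.1 - u z.1 - Wf q (T z.1) (m z.1) (p z.1) (z.2 * u z.1) + z.2 * u z.1)) :=
    continuous_const.max (hs.sub (continuous_const.mul (continuous_const.max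
      (((ht1.sub hu1).sub hW).add hs))))
  exact (isCompact_Icc (a := (0 : ℝ)) (b := 1)).continuous_sSup
    (f := fun (θ : Θ) (s : ℝ) => max 0 (s * u θ -
      2 * max 0 (t θ - u θ - Wf q (T θ) (m θ) (p θ) (s * u θ) + s * u θ))) h2

theorem vf_continuous {Θ : Type} [TopologicalSpace Θ] (q : ℕ) {T : Θ → ℝ} {m : Θ → ℝ → ℝ}
    {p u t : Θ → ℝ} (hT : Continuous T) (hm : Continuous fun z : Θ × ℝ => m z.1 z.2)
    (hp : Continuous p) (hu : Continuous u) (ht : Continuous t) :
    Continuous fun θ => vf q (T θ) (m θ) (p θ) (u θ) (t θ) := by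
  have h1 : Continuous fun θ => max 0 (m θ (t θ)) :=
    continuous_const.max (hm.comp (continuous_id.prodMk ht))
  exact (h1.rpow_const fun _ => Or.inr (inv_nonneg.2 (Nat.cast_nonneg q))).min
    (cf_continuous q hT hm hp hu ht)

end Vale.Agent.P209.Strong
end
end
end
end

section

section

section

section

namespace Vale.Agent.P209.Strong

/-! B1. Unconditional properties of `Wf` and `cf`. -/

theorem b1_div_nonneg (q : ℕ) (y : ℝ) : 0 ≤ max 0 y / (2 * (q : ℝ)) :=
  div_nonneg (le_max_left _ _) (by positivity)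

theorem b1_W_term_le {q : ℕ} {T : ℝ} {m : ℝ → ℝ} {p x : ℝ} (hT : 0 ≤ T) {s : ℝ}
    (hs : s ∈ Set.Icc (0 : ℝ) 1) : max 0 (s * T -
      max 0 (m (s * T) + 2 * q * max 0 (s * T - p - 1) - x ^ q) / (2 * q)) ≤ T := by
  have h1 := b1_div_nonneg q (m (s * T) + 2 * q * max 0 (s * T - p - 1) - x ^ q)
  have h2 : s * T ≤ T := by linarith only [mul_nonneg (sub_nonneg.2 hT) (sub_nonneg.2 hs.2)]
  exact max_le hT (by linarith)

theorem b1_W_bdd {q : ℕ} {T : ℝ} {m : ℝ → ℝ} {p x : ℝ} (hT : 0 ≤ T) :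
    BddAbove ((fun s : ℝ => max 0 (s * T -
    max 0 (m (s * T) + 2 * q * max 0 (s * T - p - 1) - x ^ q) / (2 * q))) '' Set.Icc 0 1) := by
  refine ⟨T, ?_⟩
  rintro _ ⟨s, hs, rfl⟩
  exact b1_W_term_le hT hs

theorem b1_nonempty (f : ℝ → ℝ) : (f '' Set.Icc 0 1).Nonempty :=
  Set.Nonempty.image _ ⟨0, by simp only [Set.mem_Icc, Std.le_refl, zero_le_one, and_self]⟩

theorem Wf_nonneg {q : ℕ} {T : ℝ} {m : ℝ → ℝ} {p x : ℝ} (hT : 0 ≤ T) : 0 ≤ Wf q T m p x := by
  unfold Wf
  refine le_csSup_of_le (b1_W_bdd hT) ⟨0, by simp only [Set.mem_Icc, Std.le_refl, zero_le_one, and_self], rfl⟩ (le_max_left _ _)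

/-- every time `t ∈ [0, T]` gives a lower bound -/
theorem le_Wf {q : ℕ} {T : ℝ} {m : ℝ → ℝ} {p x t : ℝ} (ht : 0 ≤ t) (htT : t ≤ T) :
    t - max 0 (m t + 2 * q * max 0 (t - p - 1) - x ^ q) / (2 * q) ≤ Wf q T m p x := by
  have hT : 0 ≤ T := ht.trans htT
  obtain ⟨s, hs, hst⟩ : ∃ s ∈ Set.Icc (0 : ℝ) 1, s * T = t := by
    rcases hT.eq_or_lt with h0 | h0
    · exact ⟨0, by simp only [Set.mem_Icc, Std.le_refl, zero_le_one, and_self], by rw [zero_mul]; linarith only [htT, h0, ht]⟩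
    · exact ⟨t / T, ⟨div_nonneg ht hT, (div_le_one h0).2 htT⟩, div_mul_cancel₀ t h0.ne'⟩
  unfold Wf
  refine le_csSup_of_le (b1_W_bdd hT) ⟨s, hs, rfl⟩ ?_
  simp only [hst]
  exact le_max_right _ _

/-- upper bounds are checked on all `t ∈ [0, T]` -/
theorem Wf_le_of {q : ℕ} {T : ℝ} {m : ℝ → ℝ} {p x w : ℝ} (hT : 0 ≤ T) (hw : 0 ≤ w)
    (h : ∀ t, 0 ≤ t → t ≤ T →
      t - max 0 (m t + 2 * q * max 0 (t - p - 1) - x ^ q) / (2 * q) ≤ w) :
    Wf q T m p x ≤ w := by
  unfold Wf
  refine csSup_le (b1_nonempty _) ?_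
  rintro _ ⟨s, hs, rfl⟩
  exact max_le hw (h (s * T) (mul_nonneg hs.1 hT) (by linarith only [mul_nonneg (sub_nonneg.2 hT) (sub_nonneg.2 hs.2)]))

theorem b1_term_mono {q : ℕ} {t A B : ℝ} (h : A ≤ B) :
    t - max 0 B / (2 * (q : ℝ)) ≤ t - max 0 A / (2 * (q : ℝ)) := by
  have : max 0 A / (2 * (q : ℝ)) ≤ max 0 B / (2 * (q : ℝ)) :=
    div_le_div_of_nonneg_right (max_le_max_left 0 h) (by positivity)
  linarith

theorem Wf_mono {q : ℕ} {T : ℝ} {m : ℝ → ℝ} {p x x' : ℝ} (hT : 0 ≤ T) (hx : 0 ≤ x)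
    (hxx : x ≤ x') : Wf q T m p x ≤ Wf q T m p x' := by
  refine Wf_le_of hT (Wf_nonneg hT) fun t ht htT => ?_
  refine le_trans (b1_term_mono ?_) (le_Wf ht htT)
  have := pow_le_pow_left₀ hx hxx q
  linarith

theorem b1_pow {x x' : ℝ} (hx : 0 ≤ x) (hxx : x ≤ x') (hx' : x' ≤ 1) (q : ℕ) :
    x' ^ q - x ^ q ≤ q * (x' - x) := by
  induction q with
  | zero => simp
  | succ q ih =>
    have h0 : 0 ≤ x' ^ q - x ^ q := sub_nonneg.2 (pow_le_pow_left₀ hx hxx q)
    have h1 : x ^ q ≤ 1 := pow_le_one₀ hx (hxx.trans hx')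
    have h2 : x' ^ (q + 1) - x ^ (q + 1) = x' * (x' ^ q - x ^ q) + x ^ q * (x' - x) := by ring
    rw [h2]
    push_cast
    have h3 : x' * (x' ^ q - x ^ q) ≤ 1 * (x' ^ q - x ^ q) := mul_le_mul_of_nonneg_right hx' h0
    have h4 : x ^ q * (x' - x) ≤ 1 * (x' - x) :=
      mul_le_mul_of_nonneg_right h1 (sub_nonneg.2 hxx)
    linarith only [ih, h3, h4]

theorem Wf_lip {q : ℕ} (hq : 1 ≤ q) {T : ℝ} {m : ℝ → ℝ} {p x x' : ℝ} (hT : 0 ≤ T) (hx : 0 ≤ x)
    (hxx : x ≤ x') (hx' : x' ≤ 1) : Wf q T m p x' - Wf q T m p x ≤ (x' - x) / 2 := by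
  have hW := Wf_nonneg (q := q) (m := m) (p := p) (x := x) hT
  suffices h : Wf q T m p x' ≤ Wf q T m p x + (x' - x) / 2 by linarith only [h]
  refine Wf_le_of hT (by linarith only [hxx, hW]) fun t ht htT => ?_
  have h1 := le_Wf (q := q) (m := m) (p := p) (x := x) ht htT
  have h2 := b1_pow hx hxx hx' q
  have hq0 : (0 : ℝ) < q := by exact_mod_cast hq
  set A := m t + 2 * q * max 0 (t - p - 1) with hA
  have h3 : max 0 (A - x ^ q) ≤ max 0 (A - x' ^ q) + q * (x' - x) := by
    refine max_le ?_ ?_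
    · have := le_max_left (0 : ℝ) (A - x' ^ q)
      have h4 : 0 ≤ (q : ℝ) * (x' - x) := mul_nonneg hq0.le (sub_nonneg.2 hxx)
      linarith only [this, h4]
    · have := le_max_right (0 : ℝ) (A - x' ^ q)
      linarith only [h2, this]
  have h4 : max 0 (A - x ^ q) / (2 * q) ≤ max 0 (A - x' ^ q) / (2 * q) + (x' - x) / 2 := by
    have h5 : (max 0 (A - x' ^ q) + q * (x' - x)) / (2 * q) =
        max 0 (A - x' ^ q) / (2 * q) + (x' - x) / 2 := by
      field_simp
    rw [← h5]
    exact div_le_div_of_nonneg_right h3 (by positivity)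
  linarith only [h4, h1]

theorem Wf_anti {q : ℕ} {T : ℝ} {m m' : ℝ → ℝ} {p p' x : ℝ} (hT : 0 ≤ T)
    (hm : ∀ t, 0 ≤ t → t ≤ T → m t ≤ m' t) (hp : p' ≤ p) :
    Wf q T m' p' x ≤ Wf q T m p x := by
  refine Wf_le_of hT (Wf_nonneg hT) fun t ht htT => ?_
  refine le_trans (b1_term_mono ?_) (le_Wf ht htT)
  have h1 := hm t ht htT
  have h2 : max 0 (t - p - 1) ≤ max 0 (t - p' - 1) := max_le_max_left 0 (by linarith)
  have h3 : 2 * (q : ℝ) * max 0 (t - p - 1) ≤ 2 * q * max 0 (t - p' - 1) :=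
    mul_le_mul_of_nonneg_left h2 (by positivity)
  linarith only [h1, h3]

theorem b1_c_term_le {q : ℕ} {T : ℝ} {m : ℝ → ℝ} {p u t : ℝ} (hu : 0 ≤ u) {s : ℝ}
    (hs : s ∈ Set.Icc (0 : ℝ) 1) : max 0 (s * u -
      2 * max 0 (t - u - Wf q T m p (s * u) + s * u)) ≤ u := by
  have h1 := le_max_left (0 : ℝ) (t - u - Wf q T m p (s * u) + s * u)
  have h2 : s * u ≤ u := by linarith only [mul_nonneg (sub_nonneg.2 hu) (sub_nonneg.2 hs.2)]
  exact max_le hu (by linarith)

theorem b1_c_bdd {q : ℕ} {T : ℝ} {m : ℝ → ℝ} {p u t : ℝ} (hu : 0 ≤ u) :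
    BddAbove ((fun s : ℝ => max 0 (s * u -
      2 * max 0 (t - u - Wf q T m p (s * u) + s * u))) '' Set.Icc 0 1) := by
  refine ⟨u, ?_⟩
  rintro _ ⟨s, hs, rfl⟩
  exact b1_c_term_le hu hs

/-- every level `y ∈ [0, u]` gives a lower bound -/
theorem b1_le_cf {q : ℕ} {T : ℝ} {m : ℝ → ℝ} {p u t y : ℝ} (hy : 0 ≤ y) (hyu : y ≤ u) :
    y - 2 * max 0 (t - u - Wf q T m p y + y) ≤ cf q T m p u t := by
  have hu : 0 ≤ u := hy.trans hyu
  obtain ⟨s, hs, hst⟩ : ∃ s ∈ Set.Icc (0 : ℝ) 1, s * u = y := by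
    rcases hu.eq_or_lt with h0 | h0
    · exact ⟨0, by simp only [Set.mem_Icc, Std.le_refl, zero_le_one, and_self], by rw [zero_mul]; linarith⟩
    · exact ⟨y / u, ⟨div_nonneg hy hu, (div_le_one h0).2 hyu⟩, div_mul_cancel₀ y h0.ne'⟩
  unfold cf
  refine le_csSup_of_le (b1_c_bdd hu) ⟨s, hs, rfl⟩ ?_
  simp only [hst]
  exact le_max_right _ _

/-- upper bounds are checked on all `y ∈ [0, u]` -/
theorem b1_cf_le_of {q : ℕ} {T : ℝ} {m : ℝ → ℝ} {p u t w : ℝ} (hu : 0 ≤ u) (hw : 0 ≤ w)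
    (h : ∀ y, 0 ≤ y → y ≤ u → y - 2 * max 0 (t - u - Wf q T m p y + y) ≤ w) :
    cf q T m p u t ≤ w := by
  unfold cf
  refine csSup_le (b1_nonempty _) ?_
  rintro _ ⟨s, hs, rfl⟩
  exact max_le hw (h (s * u) (mul_nonneg hs.1 hu) (by nlinarith only [hu, hs.2]))

theorem cf_nonneg {q : ℕ} {T : ℝ} {m : ℝ → ℝ} {p u t : ℝ} (hu : 0 ≤ u) : 0 ≤ cf q T m p u t := by
  unfold cf
  refine le_csSup_of_le (b1_c_bdd hu) ⟨0, by simp only [Set.mem_Icc, Std.le_refl, zero_le_one, and_self], rfl⟩ (le_max_left _ _)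

theorem cf_le {q : ℕ} {T : ℝ} {m : ℝ → ℝ} {p u t : ℝ} (hu : 0 ≤ u) : cf q T m p u t ≤ u := by
  unfold cf
  refine csSup_le (b1_nonempty _) ?_
  rintro _ ⟨s, hs, rfl⟩
  exact b1_c_term_le hu hs

theorem cf_anti {q : ℕ} {T : ℝ} {m m' : ℝ → ℝ} {p p' u t : ℝ} (hT : 0 ≤ T) (hu : 0 ≤ u)
    (hm : ∀ t, 0 ≤ t → t ≤ T → m t ≤ m' t) (hp : p' ≤ p) :
    cf q T m' p' u t ≤ cf q T m p u t := by
  refine b1_cf_le_of hu (cf_nonneg hu) fun y hy hyu => ?_
  refine le_trans ?_ (b1_le_cf hy hyu)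
  have h1 := Wf_anti (q := q) (x := y) hT hm hp
  have h2 : max 0 (t - u - Wf q T m p y + y) ≤ max 0 (t - u - Wf q T m' p' y + y) :=
    max_le_max_left 0 (by linarith)
  linarith

/-- `cf` is nonincreasing and 2-Lipschitz in `t` -/
theorem cf_antitone {q : ℕ} {T : ℝ} {m : ℝ → ℝ} {p u t t' : ℝ} (hu : 0 ≤ u) (h : t ≤ t') :
    cf q T m p u t' ≤ cf q T m p u t := by
  refine b1_cf_le_of hu (cf_nonneg hu) fun y hy hyu => ?_
  refine le_trans ?_ (b1_le_cf hy hyu)
  have h2 : max 0 (t - u - Wf q T m p y + y) ≤ max 0 (t' - u - Wf q T m p y + y) :=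
    max_le_max_left 0 (by linarith)
  linarith

theorem cf_lip {q : ℕ} {T : ℝ} {m : ℝ → ℝ} {p u t t' : ℝ} (hu : 0 ≤ u) (h : t ≤ t') :
    cf q T m p u t ≤ cf q T m p u t' + 2 * (t' - t) := by
  have h0 := cf_nonneg (q := q) (T := T) (m := m) (p := p) (t := t') hu
  refine b1_cf_le_of hu (by linarith) fun y hy hyu => ?_
  have h1 := b1_le_cf (q := q) (T := T) (m := m) (p := p) (t := t') hy hyu
  have h2 : max 0 (t' - u - Wf q T m p y + y) ≤
      max 0 (t - u - Wf q T m p y + y) + (t' - t) := by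
    refine max_le ?_ ?_
    · have := le_max_left (0 : ℝ) (t - u - Wf q T m p y + y)
      linarith
    · have := le_max_right (0 : ℝ) (t - u - Wf q T m p y + y)
      linarith
  linarith

/-- Characterization of `cf`. -/
theorem le_cf_iff {q : ℕ} (hq : 1 ≤ q) {T : ℝ} {m : ℝ → ℝ} {p u t x : ℝ} (hT : 0 ≤ T)
    (hu : u ≤ 1) (hx : 0 < x) (hxu : x ≤ u) :
    x ≤ cf q T m p u t ↔ t ≤ Wf q T m p x + (u - x) := by
  constructor
  · intro h
    by_contra hlt
    rw [not_le] at hlt
    set d := t - (Wf q T m p x + (u - x)) with hd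
    have hd0 : 0 < d := by linarith only [hlt]
    have h1 : cf q T m p u t ≤ max 0 (x - d) := by
      refine b1_cf_le_of (by linarith only [hx, hxu]) (le_max_left _ _) fun y hy hyu => ?_
      refine le_trans ?_ (le_max_right _ _)
      have m0 := le_max_left (0 : ℝ) (t - u - Wf q T m p y + y)
      have m1 := le_max_right (0 : ℝ) (t - u - Wf q T m p y + y)
      rcases le_total x y with hxy | hxy
      · have h2 := Wf_lip hq (m := m) (p := p) hT hx.le hxy (hyu.trans hu)
        linarith only [hlt, m1, h2]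
      · have h2 := Wf_mono (q := q) (m := m) (p := p) hT hy hxy
        linarith only [m0, m1, h2]
    have h2 : max 0 (x - d) < x := max_lt hx (by linarith only [hlt])
    linarith only [h, h1, h2]
  · intro h
    have h1 := b1_le_cf (q := q) (T := T) (m := m) (p := p) (t := t) hx.le hxu
    rw [max_eq_left (by linarith only [h])] at h1
    linarith only [h1]

/-- Before the peak time `W u` the ball has not started to fall. -/
theorem cf_eq_self {q : ℕ} {T : ℝ} {m : ℝ → ℝ} {p u t : ℝ} (hu : 0 ≤ u)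
    (ht : t ≤ Wf q T m p u) : cf q T m p u t = u := by
  refine le_antisymm (cf_le hu) ?_
  have h1 := b1_le_cf (q := q) (T := T) (m := m) (p := p) (t := t) hu le_rfl
  rw [max_eq_left (by linarith)] at h1
  linarith

/-- After time `W 0 + u` the ball is dead. -/
theorem cf_eq_zero {q : ℕ} (hq : 1 ≤ q) {T : ℝ} {m : ℝ → ℝ} {p u t : ℝ} (hT : 0 ≤ T) (hu : 0 ≤ u)
    (hu1 : u ≤ 1) (ht : Wf q T m p 0 + u ≤ t) : cf q T m p u t = 0 := by
  refine le_antisymm (b1_cf_le_of hu le_rfl fun y hy hyu => ?_) (cf_nonneg hu)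
  have h1 := Wf_lip hq (m := m) (p := p) hT le_rfl hy (hyu.trans hu1)
  have m1 := le_max_right (0 : ℝ) (t - u - Wf q T m p y + y)
  linarith only [ht, h1, m1]

/-- Speed of falling is at least one. -/
theorem cf_fall {q : ℕ} (hq : 1 ≤ q) {T : ℝ} {m : ℝ → ℝ} {p u t t' : ℝ} (hT : 0 ≤ T) (hu : 0 ≤ u)
    (hu1 : u ≤ 1) (ht : Wf q T m p u ≤ t) (h : t ≤ t') :
    cf q T m p u t' ≤ max 0 (cf q T m p u t - (t' - t)) := by
  rcases le_or_gt (cf q T m p u t') 0 with h0 | h0
  · exact h0.trans (le_max_left _ _)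
  · set x' := cf q T m p u t' with hx'
    have hx'u : x' ≤ u := cf_le hu
    have h1 : t' ≤ Wf q T m p x' + (u - x') :=
      (le_cf_iff hq hT hu1 h0 hx'u).1 le_rfl
    have h2 := Wf_mono (q := q) (m := m) (p := p) hT h0.le hx'u
    have hx0 : 0 < x' + (t' - t) := by linarith only [h, h0]
    have hxu : x' + (t' - t) ≤ u := by linarith only [ht, h1, h2]
    have h3 := Wf_mono (q := q) (m := m) (p := p) (x := x') (x' := x' + (t' - t)) hT h0.le
      (by linarith only [h])
    have h4 : x' + (t' - t) ≤ cf q T m p u t :=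
      (le_cf_iff hq hT hu1 hx0 hxu).2 (by linarith only [h1, h3])
    exact le_trans (by linarith only [h4]) (le_max_right _ _)

end Vale.Agent.P209.Strong
end
end
end
end

section

section

section

section

namespace Vale.Agent.P209.Strong

/-! B2. Placing one ball: characterization of `Wf` and preservation of the invariant. -/

theorem Inv.init {q : ℕ} {T : ℝ} {a : ℝ → ℝ} (h : Target q T a) : Inv q T a a 0 := by
  refine ⟨h.cont, le_refl _, ?_, ?_, ?_, ?_, ?_⟩
  · intro t ht htT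
    have h1 := h.lo t ht htT
    have hq : (0 : ℝ) ≤ q := Nat.cast_nonneg q
    linarith
  · intro t _ _
    exact le_refl _
  · intro t ht ht0
    exact absurd ht (not_le.mpr ht0)
  · intro t t' _ _ _ _
    simp
  · intro t _ _
    rfl

/-- lower bound for the residual in a window of length one -/
private theorem Inv.aux {q : ℕ} {T : ℝ} {a m : ℝ → ℝ} {p : ℝ} (ha : Target q T a)
    (h : Inv q T a m p) {t t' : ℝ} (ht : p ≤ t) (htt : t ≤ t') (hT : t' ≤ T) (h1 : t' ≤ t + 1) :
    min (m t) 1 + (t' - t) * (1 + 2 * q) ≤ m t' + (t' - t) * min (m t) 1 := by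
  have hq : (0 : ℝ) ≤ q := Nat.cast_nonneg q
  have hp0 := h.p0
  have ht0 : 0 ≤ t := le_trans hp0 ht
  have hK := h.K t t' ht htt hT h1
  have hs := ha.slow t t' ht0 htt hT h1
  have hlo := ha.lo t ht0 (le_trans htt hT)
  have hd0 : 0 ≤ t' - t := sub_nonneg.mpr htt
  have hd1 : 0 ≤ 1 - (t' - t) := by linarith only [h1]
  have hmin : min (m t) 1 ≤ m t := min_le_left _ _
  have e1 : 0 ≤ (1 - (t' - t)) * (m t - min (m t) 1) :=
    mul_nonneg hd1 (sub_nonneg.mpr hmin)
  have e2 : 0 ≤ (t' - t) * (a t - (3 + 5 * q)) := mul_nonneg hd0 (sub_nonneg.mpr hlo)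
  have e3 : 0 ≤ (t' - t) * (q : ℝ) := mul_nonneg hd0 hq
  linarith only [e3, e2, e1, hd0, hs, hK]

/-- growth of the residual -/
theorem Inv.growth {q : ℕ} {T : ℝ} {a m : ℝ → ℝ} {p : ℝ} (ha : Target q T a)
    (h : Inv q T a m p) {t t' : ℝ} (ht : p ≤ t) (htt : t ≤ t') (hT : t' ≤ T) :
    min (m t) 1 + 2 * q * (t' - t) ≤ m t' + 2 * q * max 0 (t' - p - 1) := by
  have hq : (0 : ℝ) ≤ q := Nat.cast_nonneg q
  have hmin1 : min (m t) 1 ≤ 1 := min_le_right _ _
  have hd0 : 0 ≤ t' - t := sub_nonneg.mpr htt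
  rcases le_or_gt t' (t + 1) with h1 | h1
  · have h2 := Inv.aux ha h ht htt hT h1
    have h3 : 0 ≤ 2 * (q : ℝ) * max 0 (t' - p - 1) :=
      mul_nonneg (by positivity) (le_max_left _ _)
    have h4 : 0 ≤ (t' - t) * (1 - min (m t) 1) := mul_nonneg hd0 (sub_nonneg.mpr hmin1)
    linarith
  · have ht'0 : 0 ≤ t' := le_trans h.p0 (le_trans ht htt)
    have h2 : m t' = a t' := h.eq t' (by linarith) hT
    have h3 := ha.lo t' ht'0 hT
    have h4 : t' - t - 1 ≤ max 0 (t' - p - 1) := le_trans (by linarith) (le_max_right _ _)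
    have h5 : 2 * (q : ℝ) * (t' - t - 1) ≤ 2 * (q : ℝ) * max 0 (t' - p - 1) :=
      mul_le_mul_of_nonneg_left h4 (by positivity)
    rw [h2]
    linarith

theorem Inv.Wf_le_iff {q : ℕ} (hq : 1 ≤ q) {T : ℝ} {a m : ℝ → ℝ} {p : ℝ} (ha : Target q T a)
    (h : Inv q T a m p) (hp : p ≤ T - 1) {x t : ℝ} (hx : 0 ≤ x) (hx1 : x ≤ 1) (ht : p ≤ t)
    (htT : t ≤ T) : Wf q T m p x ≤ t ↔ x ^ q ≤ m t := by
  have hp0 := h.p0
  have hT0 : 0 ≤ T := by linarith only [hp, hp0]
  have ht0 : 0 ≤ t := le_trans hp0 ht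
  have hqr : (1 : ℝ) ≤ q := by exact_mod_cast hq
  have hq2 : (0 : ℝ) < 2 * q := by linarith only [hqr]
  have hxq1 : x ^ q ≤ 1 := pow_le_one₀ hx hx1
  constructor
  · intro hW
    rcases le_or_gt (p + 1) t with h1 | h1
    · rw [h.eq t h1 htT]
      have := ha.lo t ht0 htT
      linarith only [hxq1, this]
    · -- continuity from the right
      have htlt : t < T := by linarith only [hp, h1]
      have key : ∀ s, t < s → s ≤ T → x ^ q ≤ m s + 2 * q * max 0 (s - p - 1) := by
        intro s hs hsT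
        have h2 := Vale.Agent.P209.Strong.le_Wf (q := q) (T := T) (m := m) (p := p) (x := x)
          (t := s) (by linarith only [ht, hp0, hs]) hsT
        by_contra hcon
        rw [not_le] at hcon
        rw [max_eq_left (by linarith only [hcon] : m s + 2 * q * max 0 (s - p - 1) - x ^ q ≤ 0)] at h2
        simp only [zero_div, sub_zero] at h2
        linarith only [hW, hs, h2]
      have hc : Continuous (fun s => m s + 2 * q * max 0 (s - p - 1)) := by
        have := h.cont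
        fun_prop
      have h3 : Filter.Tendsto (fun s => m s + 2 * q * max 0 (s - p - 1))
          (nhdsWithin t (Set.Ioi t)) (nhds (m t + 2 * q * max 0 (t - p - 1))) :=
        (hc.tendsto t).mono_left nhdsWithin_le_nhds
      have h4 : x ^ q ≤ m t + 2 * q * max 0 (t - p - 1) := by
        refine ge_of_tendsto h3 ?_
        filter_upwards [Ioc_mem_nhdsGT htlt] with s hs
        exact key s hs.1 hs.2
      rw [max_eq_left (by linarith only [h1] : t - p - 1 ≤ 0)] at h4
      simpa using h4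
  · intro hm
    refine Wf_le_of hT0 ht0 ?_
    intro s hs0 hsT
    rcases le_or_gt s t with hst | hst
    · have : 0 ≤ max 0 (m s + 2 * q * max 0 (s - p - 1) - x ^ q) / (2 * q) :=
        div_nonneg (le_max_left _ _) hq2.le
      linarith only [hst, this]
    · have hg := Inv.growth ha h ht hst.le hsT
      have hmin : x ^ q ≤ min (m t) 1 := le_min hm hxq1
      have h5 : (s - t) * (2 * q) ≤ max 0 (m s + 2 * q * max 0 (s - p - 1) - x ^ q) := by
        refine le_trans ?_ (le_max_right _ _)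
        linarith only [hg, hmin]
      have h6 : s - t ≤ max 0 (m s + 2 * q * max 0 (s - p - 1) - x ^ q) / (2 * q) := by
        rw [le_div_iff₀ hq2]
        exact h5
      linarith only [h6]

theorem Inv.le_Wf {q : ℕ} (hq : 1 ≤ q) {T : ℝ} {a m : ℝ → ℝ} {p : ℝ} (ha : Target q T a)
    (h : Inv q T a m p) (hp : p ≤ T - 1) {x : ℝ} (hx : 0 ≤ x) : p ≤ Wf q T m p x := by
  have hp0 := h.p0
  have hT0 : 0 ≤ T := by linarith only [hp, hp0]
  rcases hp0.eq_or_lt with h0 | h0
  · rw [← h0]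
    exact Wf_nonneg hT0
  · have hmp : m p = 0 := by
      have h3 : Filter.Tendsto m (nhdsWithin p (Set.Iio p)) (nhds (m p)) :=
        (h.cont.tendsto p).mono_left nhdsWithin_le_nhds
      have h4 : Filter.Tendsto m (nhdsWithin p (Set.Iio p)) (nhds 0) := by
        refine tendsto_const_nhds.congr' ?_
        filter_upwards [Ico_mem_nhdsLT h0] with s hs
        exact (h.zero s hs.1 hs.2 (by linarith only [hp, hs.2])).symm
      exact tendsto_nhds_unique h3 h4
    have h2 := Vale.Agent.P209.Strong.le_Wf (q := q) (T := T) (m := m) (p := p) (x := x)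
      (t := p) hp0 (by linarith only [hp])
    have hxq : 0 ≤ x ^ q := pow_nonneg hx q
    have e1 : max 0 (p - p - 1) = (0 : ℝ) := max_eq_left (by linarith only [])
    rw [hmp, e1, max_eq_left (by simpa only [mul_zero, add_zero, zero_sub, Left.neg_nonpos_iff] using hxq : (0 : ℝ) + 2 * q * 0 - x ^ q ≤ 0)] at h2
    simpa using h2

theorem Inv.Wf_le_add {q : ℕ} (hq : 1 ≤ q) {T : ℝ} {a m : ℝ → ℝ} {p : ℝ} (ha : Target q T a)
    (h : Inv q T a m p) (hp : p ≤ T - 1) {x : ℝ} (hx : 0 ≤ x) (hx1 : x ≤ 1) :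
    Wf q T m p x ≤ p + 1 := by
  have hp0 := h.p0
  have hqr : (0 : ℝ) ≤ q := Nat.cast_nonneg q
  rw [Inv.Wf_le_iff hq ha h hp hx hx1 (by linarith only []) (by linarith only [hp]),
    h.eq (p + 1) le_rfl (by linarith only [hp])]
  have h1 := ha.lo (p + 1) (by linarith only [hp0]) (by linarith only [hp])
  have h2 : x ^ q ≤ 1 := pow_le_one₀ hx hx1
  linarith only [h1, h2]

/-- The invariant is preserved. -/
theorem Inv.step {q : ℕ} (hq : 1 ≤ q) {T : ℝ} {a m : ℝ → ℝ} {p : ℝ} (ha : Target q T a)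
    (h : Inv q T a m p) (hp : p ≤ T - 1) {u : ℝ} (hu : 0 ≤ u) (hu1 : u ≤ 1) :
    Inv q T a (stepm q T m p u) (Wf q T m p u) := by
  have hp0 := h.p0
  have hT0 : 0 ≤ T := by linarith only [hp, hp0]
  have hqr : (0 : ℝ) ≤ q := Nat.cast_nonneg q
  have hq0 : q ≠ 0 := by omega
  have hpW : p ≤ Wf q T m p u := Inv.le_Wf hq ha h hp hu
  have hcn : ∀ t, 0 ≤ cf q T m p u t := fun t => cf_nonneg hu
  have hcu : ∀ t, cf q T m p u t ≤ u := fun t => cf_le hu
  have hcq : ∀ t, 0 ≤ cf q T m p u t ^ q := fun t => pow_nonneg (hcn t) q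
  -- after the peak time the residual is large
  have hbig : ∀ t, Wf q T m p u ≤ t → t ≤ T →
      stepm q T m p u t = m t - cf q T m p u t ^ q := by
    intro t ht htT
    have h1 : u ^ q ≤ m t := (Inv.Wf_le_iff hq ha h hp hu hu1 (le_trans hpW ht) htT).1 ht
    have h2 : cf q T m p u t ^ q ≤ u ^ q := pow_le_pow_left₀ (hcn t) (hcu t) q
    exact max_eq_right (by linarith only [h1, h2])
  refine ⟨?_, Wf_nonneg hT0, ?_, ?_, ?_, ?_, ?_⟩
  · -- continuity
    have hc : Continuous (cf q T m p u) := by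
      have hL : LipschitzWith 2 (cf q T m p u) := by
        refine LipschitzWith.of_dist_le_mul ?_
        intro s t
        rw [Real.dist_eq, Real.dist_eq]
        rcases le_total s t with hst | hst
        · have h1 := cf_antitone (q := q) (T := T) (m := m) (p := p) hu hst
          have h2 := cf_lip (q := q) (T := T) (m := m) (p := p) hu hst
          rw [abs_of_nonneg (by linarith only [h1]), abs_of_nonpos (by linarith only [hst])]
          simp only [NNReal.coe_ofNat]
          linarith only [h2]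
        · have h1 := cf_antitone (q := q) (T := T) (m := m) (p := p) hu hst
          have h2 := cf_lip (q := q) (T := T) (m := m) (p := p) hu hst
          rw [abs_of_nonpos (by linarith only [h1]), abs_of_nonneg (by linarith only [hst])]
          simp only [NNReal.coe_ofNat]
          linarith only [h2]
      exact hL.continuous
    have hm := h.cont
    unfold stepm
    fun_prop
  · intro t _ _
    exact le_max_left _ _
  · intro t ht htT
    refine max_le ?_ ?_
    · have := ha.lo t ht htT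
      linarith only [this]
    · have h1 := h.le t ht htT
      have h2 := hcq t
      linarith only [h1, h2]
  · intro t ht htW htT
    have h1 : cf q T m p u t = u := cf_eq_self hu htW.le
    have h2 : m t ≤ u ^ q := by
      rcases lt_or_ge t p with h3 | h3
      · rw [h.zero t ht h3 htT]
        exact pow_nonneg hu q
      · by_contra hcon
        rw [not_le] at hcon
        exact absurd ((Inv.Wf_le_iff hq ha h hp hu hu1 h3 htT).2 hcon.le) (not_le.mpr htW)
    change max 0 (m t - cf q T m p u t ^ q) = 0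
    rw [h1]
    exact max_eq_left (by linarith only [h2])
  · intro t t' ht htt htT h1
    rw [hbig t ht (le_trans htt htT), hbig t' (le_trans ht htt) htT]
    have hK := h.K t t' (le_trans hpW ht) htt htT h1
    have hf := cf_fall (q := q) hq (T := T) (m := m) (p := p) hT0 hu hu1 ht htt
    have hd0 : 0 ≤ t' - t := sub_nonneg.mpr htt
    have hd1 : 0 ≤ 1 - (t' - t) := by linarith only [h1]
    have hc0 := hcn t
    have hc1 : cf q T m p u t ≤ 1 := le_trans (hcu t) hu1
    have e1 : cf q T m p u t' ≤ cf q T m p u t * (1 - (t' - t)) := by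
      refine le_trans hf (max_le (mul_nonneg hc0 hd1) ?_)
      linarith only [mul_nonneg (sub_nonneg.2 htt) (sub_nonneg.2 hc1)]
    have e2 : cf q T m p u t' ^ q ≤ cf q T m p u t ^ q * (1 - (t' - t)) ^ q := by
      rw [← mul_pow]
      exact pow_le_pow_left₀ (hcn t') e1 q
    have e3 : (1 - (t' - t)) ^ q ≤ 1 - (t' - t) := pow_le_of_le_one hd1 (by linarith only [htt]) hq0
    have e4 : cf q T m p u t ^ q * (1 - (t' - t)) ^ q ≤
        cf q T m p u t ^ q * (1 - (t' - t)) := mul_le_mul_of_nonneg_left e3 (hcq t)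
    linarith
  · intro t ht htT
    have h0 : Wf q T m p 0 ≤ Wf q T m p u := Wf_mono hT0 le_rfl hu
    have h1 : cf q T m p u t = 0 := cf_eq_zero hq hT0 hu hu1 (by linarith)
    have h2 : m t = a t := h.eq t (by linarith) htT
    have h3 : 0 ≤ Wf q T m p u := Wf_nonneg hT0
    have h4 := ha.lo t (by linarith) htT
    change max 0 (m t - cf q T m p u t ^ q) = a t
    rw [h1, h2, zero_pow hq0, sub_zero]
    exact max_eq_right (by linarith only [h4])

end Vale.Agent.P209.Strong
end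
end
end
end

section

section

section

section

namespace Vale.Agent.P209.Strong

/-! B3. Properties of the slice size `vf` of one ball. -/

set_option linter.unusedSectionVars false

open MeasureTheory in
/-- Layer cake for slices. -/
private theorem layer_cake {k : ℕ} {T u : ℝ} (hT : 0 ≤ T) (hu : 0 ≤ u) {v W : ℝ → ℝ}
    (hv : Continuous v) (hv0 : ∀ t, 0 ≤ v t) (hvu : ∀ t, v t ≤ u)
    (hW : ∀ x, 0 < x → x ≤ u → 0 ≤ W x ∧ W x + (u - x) ≤ T)
    (hiff : ∀ x t, 0 < x → x ≤ u → 0 ≤ t → t ≤ T → (x ≤ v t ↔ W x ≤ t ∧ t ≤ W x + (u - x))) :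
    ∫ t in (0 : ℝ)..T, v t ^ (k + 1) = u ^ (k + 2) / (k + 2) := by
  have hg : Continuous fun x : ℝ => (k + 1 : ℝ) * x ^ k := by fun_prop
  have hlc := lintegral_comp_eq_lintegral_meas_le_mul (volume.restrict (Set.Ioc 0 T))
    (f := v) (g := fun x : ℝ => (k + 1 : ℝ) * x ^ k) (Filter.Eventually.of_forall hv0)
    hv.measurable.aemeasurable (fun t _ => hg.intervalIntegrable _ _)
    (by
      filter_upwards [ae_restrict_mem measurableSet_Ioi] with x hx
      have : (0 : ℝ) < x := hx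
      (clear * - this; positivity))
  have hL : ∀ t, ∫ x in (0 : ℝ)..v t, (k + 1 : ℝ) * x ^ k = v t ^ (k + 1) := by
    intro t
    rw [intervalIntegral.integral_const_mul, integral_pow]
    field_simp
    simp
  simp only [hL] at hlc
  have hint : IntegrableOn (fun t => v t ^ (k + 1)) (Set.Ioc 0 T) volume :=
    ((hv.pow _).integrableOn_Icc (a := 0) (b := T)).mono_set Set.Ioc_subset_Icc_self
  rw [← ofReal_integral_eq_lintegral_ofReal hint
    (Filter.Eventually.of_forall fun t => pow_nonneg (hv0 t) _),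
    ← intervalIntegral.integral_of_le hT] at hlc
  -- the right hand side
  have hmeas : ∀ x, 0 < x → x ≤ u → (volume.restrict (Set.Ioc 0 T)) {t | x ≤ v t} =
      ENNReal.ofReal (u - x) := by
    intro x hx hxu
    obtain ⟨h1, h2⟩ := hW x hx hxu
    have hms : MeasurableSet {t | x ≤ v t} := measurableSet_le measurable_const hv.measurable
    rw [Measure.restrict_apply hms]
    refine le_antisymm ?_ ?_
    · calc volume ({t | x ≤ v t} ∩ Set.Ioc 0 T) ≤ volume (Set.Icc (W x) (W x + (u - x))) := by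
            refine measure_mono ?_
            rintro t ⟨ht1, ht2⟩
            exact (hiff x t hx hxu ht2.1.le ht2.2).1 ht1
        _ = ENNReal.ofReal (u - x) := by
            rw [Real.volume_Icc]
            congr 1
            ring
    · calc ENNReal.ofReal (u - x) = volume (Set.Ioc (W x) (W x + (u - x))) := by
            rw [Real.volume_Ioc]
            congr 1
            ring
        _ ≤ volume ({t | x ≤ v t} ∩ Set.Ioc 0 T) := by
            refine measure_mono ?_
            rintro t ⟨ht1, ht2⟩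
            have h3 : 0 < t := lt_of_le_of_lt h1 ht1
            have h4 : t ≤ T := ht2.trans h2
            exact ⟨(hiff x t hx hxu h3.le h4).2 ⟨ht1.le, ht2⟩, h3, h4⟩
  have hR : ∫⁻ x in Set.Ioi (0 : ℝ), (volume.restrict (Set.Ioc 0 T)) {t | x ≤ v t} *
      ENNReal.ofReal ((k + 1 : ℝ) * x ^ k) =
      ∫⁻ x in Set.Ioc (0 : ℝ) u, ENNReal.ofReal ((u - x) * ((k + 1 : ℝ) * x ^ k)) := by
    rw [← lintegral_indicator measurableSet_Ioi, ← lintegral_indicator measurableSet_Ioc]
    congr 1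
    funext x
    by_cases hx : 0 < x
    · by_cases hxu : x ≤ u
      · rw [Set.indicator_of_mem (show x ∈ Set.Ioi 0 from hx),
          Set.indicator_of_mem (show x ∈ Set.Ioc 0 u from ⟨hx, hxu⟩), hmeas x hx hxu,
          ← ENNReal.ofReal_mul (by linarith)]
      · rw [Set.indicator_of_mem (show x ∈ Set.Ioi 0 from hx),
          Set.indicator_of_notMem (fun h' : x ∈ Set.Ioc 0 u => hxu h'.2)]
        have : {t | x ≤ v t} = ∅ := by
          ext t
          simp only [Set.mem_ofPred_eq, Set.mem_empty_iff_false, iff_false, not_le]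
          exact lt_of_le_of_lt (hvu t) (not_le.1 hxu)
        rw [this, measure_empty, zero_mul]
    · rw [Set.indicator_of_notMem (show x ∉ Set.Ioi 0 from hx),
          Set.indicator_of_notMem (fun h' : x ∈ Set.Ioc 0 u => hx h'.1)]
  rw [hR] at hlc
  have hint2 : IntegrableOn (fun x : ℝ => (u - x) * ((k + 1 : ℝ) * x ^ k)) (Set.Ioc 0 u) volume :=
    ((by fun_prop : Continuous fun x : ℝ => (u - x) * ((k + 1 : ℝ) * x ^ k)).integrableOn_Icc
      (a := 0) (b := u)).mono_set Set.Ioc_subset_Icc_self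
  rw [← ofReal_integral_eq_lintegral_ofReal hint2
    (by
      filter_upwards [ae_restrict_mem measurableSet_Ioc] with x hx
      have h1 : 0 < x := hx.1
      have h2 : 0 ≤ u - x := by linarith [hx.2]
      (clear * - h2 h1; positivity)), ← intervalIntegral.integral_of_le hu] at hlc
  have hval : ∫ x in (0 : ℝ)..u, (u - x) * ((k + 1 : ℝ) * x ^ k) = u ^ (k + 2) / (k + 2) := by
    have h1 : ∀ x : ℝ, (u - x) * ((k + 1 : ℝ) * x ^ k) =
        ((k + 1 : ℝ) * u) * x ^ k - (k + 1 : ℝ) * x ^ (k + 1) := by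
      intro x
      ring
    simp only [h1]
    have hc1 : Continuous fun x : ℝ => (k + 1 : ℝ) * u * x ^ k := by fun_prop
    have hc2 : Continuous fun x : ℝ => (k + 1 : ℝ) * x ^ (k + 1) := by fun_prop
    rw [intervalIntegral.integral_sub (hc1.intervalIntegrable _ _) (hc2.intervalIntegrable _ _),
      intervalIntegral.integral_const_mul, intervalIntegral.integral_const_mul, integral_pow,
      integral_pow]
    have h2 : (k : ℝ) + 1 ≠ 0 := by positivity
    have h3 : (k : ℝ) + 2 ≠ 0 := by (clear * -; positivity)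
    push_cast
    have h4 : (k : ℝ) + 1 + 1 ≠ 0 := by (clear * -; positivity)
    rw [zero_pow (by omega), zero_pow (by omega)]
    field_simp
    ring
  rw [hval] at hlc
  rw [ENNReal.ofReal_eq_ofReal_iff ?_ (by (clear * - hu; positivity))] at hlc
  · exact hlc
  · refine intervalIntegral.integral_nonneg hT fun t _ => pow_nonneg (hv0 t) _

section
variable {q : ℕ} (hq : 1 ≤ q) {T : ℝ} {a m : ℝ → ℝ} {p u : ℝ} (ha : Target q T a)
  (h : Inv q T a m p) (hp : p ≤ T - 1) (hu : 0 ≤ u) (hu1 : u ≤ 1)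
include hq ha h hp hu hu1

theorem vf_nonneg (t : ℝ) : 0 ≤ vf q T m p u t :=
  le_min (Real.rpow_nonneg (le_max_left _ _) _) (cf_nonneg hu)

theorem vf_le (t : ℝ) : vf q T m p u t ≤ u := (min_le_right _ _).trans (cf_le hu)

theorem le_vf_iff {x t : ℝ} (hx : 0 < x) (hxu : x ≤ u) (ht : 0 ≤ t) (htT : t ≤ T) :
    x ≤ vf q T m p u t ↔ Wf q T m p x ≤ t ∧ t ≤ Wf q T m p x + (u - x) := by
  have hT : 0 ≤ T := by linarith only [ht, htT]
  have hq0 : (0 : ℝ) < q := by exact_mod_cast (lt_of_lt_of_le one_pos hq)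
  have hxq : 0 < x ^ q := pow_pos hx q
  rw [vf, le_min_iff, le_cf_iff hq hT hu1 hx hxu,
    Real.le_rpow_inv_iff_of_pos hx.le (le_max_left _ _) hq0, Real.rpow_natCast]
  have hmax : x ^ q ≤ max 0 (m t) ↔ x ^ q ≤ m t := by
    rw [le_max_iff]
    constructor
    · rintro (h1 | h1)
      · exact absurd h1 (not_le.2 hxq)
      · exact h1
    · exact Or.inr
  rw [hmax]
  refine and_congr_left fun _ => ?_
  by_cases htp : p ≤ t
  · exact (h.Wf_le_iff hq ha hp hx.le (hxu.trans hu1) htp htT).symm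
  · rw [not_le] at htp
    constructor
    · intro h1
      rw [h.zero t ht htp htT] at h1
      exact absurd h1 (not_le.2 hxq)
    · intro h1
      have := h.le_Wf hq ha hp hx.le
      linarith only [htp, h1, this]

theorem stepm_eq {t : ℝ} (ht : 0 ≤ t) (htT : t ≤ T) :
    stepm q T m p u t = m t - vf q T m p u t ^ q := by
  have hm := h.nn t ht htT
  have hq0 : q ≠ 0 := by omega
  rw [stepm, vf, max_eq_right hm]
  have hr : (m t ^ ((q : ℝ)⁻¹)) ^ q = m t := Real.rpow_inv_natCast_pow hm hq0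
  have hr0 : 0 ≤ m t ^ ((q : ℝ)⁻¹) := Real.rpow_nonneg hm _
  have hc0 : 0 ≤ cf q T m p u t := cf_nonneg hu
  rcases le_total (m t ^ ((q : ℝ)⁻¹)) (cf q T m p u t) with h1 | h1
  · rw [min_eq_left h1, hr, sub_self]
    have h2 := pow_le_pow_left₀ hr0 h1 q
    rw [hr] at h2
    exact max_eq_left (by linarith only [h2])
  · rw [min_eq_right h1]
    have h2 := pow_le_pow_left₀ hc0 h1 q
    rw [hr] at h2
    exact max_eq_right (by linarith only [h2])

theorem vf_eq_cf {t : ℝ} (ht : Wf q T m p u ≤ t) (htT : t ≤ T) :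
    vf q T m p u t = cf q T m p u t := by
  have hq0 : (0 : ℝ) < q := by exact_mod_cast (lt_of_lt_of_le one_pos hq)
  have hpW := h.le_Wf hq ha hp hu
  have h1 : u ^ q ≤ m t := (h.Wf_le_iff hq ha hp hu hu1 (hpW.trans ht) htT).1 ht
  have hc0 : 0 ≤ cf q T m p u t := cf_nonneg hu
  rw [vf]
  refine min_eq_right ?_
  rw [Real.le_rpow_inv_iff_of_pos hc0 (le_max_left _ _) hq0, Real.rpow_natCast]
  exact ((pow_le_pow_left₀ hc0 (cf_le hu) q).trans h1).trans (le_max_right _ _)

theorem vf_support {t : ℝ} (ht : 0 ≤ t) (htT : t ≤ T) (hv : 0 < vf q T m p u t) :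
    Wf q T m p u - 1 / 2 ≤ t ∧ t ≤ Wf q T m p u + 1 := by
  have hT : 0 ≤ T := by linarith only [ht, htT]
  have hle := vf_le hq ha h hp hu hu1 t
  obtain ⟨h1, h2⟩ := (le_vf_iff hq ha h hp hu hu1 hv hle ht htT).1 le_rfl
  have h3 := Wf_lip (m := m) (p := p) hq hT hv.le hle hu1
  have h4 := Wf_mono (q := q) (m := m) (p := p) hT hv.le hle
  constructor
  · linarith only [hu1, hv, h1, h3]
  · linarith only [hu1, hv, h2, h4]

theorem vf_lower {t : ℝ} (ht : Wf q T m p u ≤ t) (htT : t ≤ T) :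
    u - 2 * (t - Wf q T m p u) ≤ vf q T m p u t := by
  rw [vf_eq_cf hq ha h hp hu hu1 ht htT]
  have h1 := cf_lip (q := q) (T := T) (m := m) (p := p) hu ht
  rw [cf_eq_self (q := q) (T := T) (m := m) (p := p) hu (le_refl _)] at h1
  linarith only [h1]

theorem vf_integral (hW : Wf q T m p u ≤ T - 1) :
    ∫ t in (0 : ℝ)..T, vf q T m p u t ^ q = u ^ (q + 1) / (q + 1) := by
  have hT : 0 ≤ T := by linarith only [hp, h.p0]
  obtain ⟨k, rfl⟩ : ∃ k, q = k + 1 := ⟨q - 1, by omega⟩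
  have hc : Continuous fun t : ℝ => vf (k + 1) T m p u t :=
    vf_continuous (Θ := ℝ) (k + 1) (T := fun _ => T) (m := fun _ => m) (p := fun _ => p)
      (u := fun _ => u) (t := fun t => t) continuous_const (h.cont.comp continuous_snd)
      continuous_const continuous_const continuous_id
  have := layer_cake (k := k) hT hu hc (vf_nonneg hq ha h hp hu hu1) (vf_le hq ha h hp hu hu1)
    (W := Wf (k + 1) T m p) (fun x hx hxu => ⟨Wf_nonneg hT, by
      have h4 := Wf_mono (q := k + 1) (m := m) (p := p) hT hx.le hxu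
      linarith only [hu1, hW, hx, h4]⟩)
    (fun x t hx hxu ht htT => le_vf_iff hq ha h hp hu hu1 hx hxu ht htT)
  rw [this]
  push_cast
  congr 1
  ring

end

end Vale.Agent.P209.Strong
end
end
end
end

section

section

section

section

namespace Vale.Agent.P209.Strong

/-! B4a. Continuity and monotonicity of the evolution of a sequence of balls. -/

theorem eM_continuous {Θ : Type} [TopologicalSpace Θ] (q : ℕ) {T : Θ → ℝ} {a : Θ → ℝ → ℝ}
    {u : ℕ → Θ → ℝ} (hT : Continuous T) (ha : Continuous fun z : Θ × ℝ => a z.1 z.2)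
    (hu : ∀ i, Continuous (u i)) (i : ℕ) :
    (Continuous fun z : Θ × ℝ => eM q (T z.1) (a z.1) (fun j => u j z.1) i z.2) ∧
    Continuous fun θ => eP q (T θ) (a θ) (fun j => u j θ) i := by
  induction i with
  | zero => exact ⟨ha, continuous_const⟩
  | succ i ih =>
    obtain ⟨h1, h2⟩ := ih
    have hm : Continuous fun z : (Θ × ℝ) × ℝ =>
        (fun z : Θ × ℝ => eM q (T z.1) (a z.1) (fun j => u j z.1) i) z.1 z.2 :=
      h1.comp ((continuous_fst.comp continuous_fst).prodMk continuous_snd)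
    refine ⟨?_, ?_⟩
    · have h3 : Continuous fun z : Θ × ℝ => cf q (T z.1)
          (eM q (T z.1) (a z.1) (fun j => u j z.1) i)
          (eP q (T z.1) (a z.1) (fun j => u j z.1) i) (u i z.1) z.2 :=
        cf_continuous (Θ := Θ × ℝ) q (hT.comp continuous_fst) hm (h2.comp continuous_fst)
          ((hu i).comp continuous_fst) continuous_snd
      exact continuous_const.max (h1.sub (h3.pow q))
    · exact Wf_continuous q hT h1 h2 (hu i)

theorem ev_continuous {Θ : Type} [TopologicalSpace Θ] (q : ℕ) {T : Θ → ℝ} {a : Θ → ℝ → ℝ}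
    {u : ℕ → Θ → ℝ} (hT : Continuous T) (ha : Continuous fun z : Θ × ℝ => a z.1 z.2)
    (hu : ∀ i, Continuous (u i)) (i : ℕ) :
    Continuous fun z : Θ × ℝ => ev q (T z.1) (a z.1) (fun j => u j z.1) i z.2 := by
  obtain ⟨h1, h2⟩ := eM_continuous q hT ha hu i
  have hm : Continuous fun z : (Θ × ℝ) × ℝ =>
      (fun z : Θ × ℝ => eM q (T z.1) (a z.1) (fun j => u j z.1) i) z.1 z.2 :=
    h1.comp ((continuous_fst.comp continuous_fst).prodMk continuous_snd)
  exact vf_continuous (Θ := Θ × ℝ) q (hT.comp continuous_fst) hm (h2.comp continuous_fst)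
    ((hu i).comp continuous_fst) continuous_snd

theorem eW_continuous {Θ : Type} [TopologicalSpace Θ] (q : ℕ) {T : Θ → ℝ} {a : Θ → ℝ → ℝ}
    {u : ℕ → Θ → ℝ} (hT : Continuous T) (ha : Continuous fun z : Θ × ℝ => a z.1 z.2)
    (hu : ∀ i, Continuous (u i)) (i : ℕ) :
    Continuous fun z : Θ × ℝ => eW q (T z.1) (a z.1) (fun j => u j z.1) i z.2 := by
  obtain ⟨h1, h2⟩ := eM_continuous q hT ha hu i
  have hm : Continuous fun z : (Θ × ℝ) × ℝ =>
      (fun z : Θ × ℝ => eM q (T z.1) (a z.1) (fun j => u j z.1) i) z.1 z.2 :=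
    h1.comp ((continuous_fst.comp continuous_fst).prodMk continuous_snd)
  exact Wf_continuous (Θ := Θ × ℝ) q (hT.comp continuous_fst) hm (h2.comp continuous_fst)
    continuous_snd

/-- The evolution is order preserving (unconditionally). -/
theorem evo_mono {q : ℕ} {T : ℝ} (hT : 0 ≤ T) {a a' : ℝ → ℝ} {u : ℕ → ℝ}
    (hu : ∀ i, 0 ≤ u i) (h : ∀ t, 0 ≤ t → t ≤ T → a t ≤ a' t) (i : ℕ) :
    (∀ t, 0 ≤ t → t ≤ T → eM q T a u i t ≤ eM q T a' u i t) ∧
      eP q T a' u i ≤ eP q T a u i := by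
  induction i with
  | zero => exact ⟨h, le_rfl⟩
  | succ i ih =>
    obtain ⟨h1, h2⟩ := ih
    refine ⟨fun t ht htT => ?_, Wf_anti hT h1 h2⟩
    refine max_le_max le_rfl (sub_le_sub (h1 t ht htT) ?_)
    exact pow_le_pow_left₀ (cf_nonneg (hu i)) (cf_anti hT (hu i) h1 h2) q

end Vale.Agent.P209.Strong
end
end
end
end

section

section

section

section

namespace Vale.Agent.P209.Strong

/-! B4. The evolution of a sequence of balls. -/

section B4aux

lemma b4_eM_zero (q : ℕ) (T : ℝ) (a : ℝ → ℝ) (u : ℕ → ℝ) : eM q T a u 0 = a := rfl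

lemma b4_eP_zero (q : ℕ) (T : ℝ) (a : ℝ → ℝ) (u : ℕ → ℝ) : eP q T a u 0 = 0 := rfl

lemma b4_eM_succ (q : ℕ) (T : ℝ) (a : ℝ → ℝ) (u : ℕ → ℝ) (i : ℕ) :
    eM q T a u (i + 1) = stepm q T (eM q T a u i) (eP q T a u i) (u i) := rfl

lemma b4_eP_succ (q : ℕ) (T : ℝ) (a : ℝ → ℝ) (u : ℕ → ℝ) (i : ℕ) :
    eP q T a u (i + 1) = Wf q T (eM q T a u i) (eP q T a u i) (u i) := rfl

lemma b4_pow_sub (q : ℕ) {x y : ℝ} (hy : 0 ≤ y) (hyx : y ≤ x) (hx : x ≤ 1) :
    x ^ q - y ^ q ≤ q * (x - y) := by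
  induction q with
  | zero => simp
  | succ q ih =>
    have h1 : 0 ≤ x ^ q - y ^ q := sub_nonneg.2 (pow_le_pow_left₀ hy hyx q)
    have h2 : y ^ q ≤ 1 := pow_le_one₀ hy (hyx.trans hx)
    have h3 : 0 ≤ y ^ q := pow_nonneg hy q
    have h4 : x ^ (q + 1) - y ^ (q + 1) = x * (x ^ q - y ^ q) + y ^ q * (x - y) := by ring
    rw [h4]
    have h5 : x * (x ^ q - y ^ q) ≤ 1 * (x ^ q - y ^ q) := mul_le_mul_of_nonneg_right hx h1
    have h6 : y ^ q * (x - y) ≤ 1 * (x - y) :=
      mul_le_mul_of_nonneg_right h2 (sub_nonneg.2 hyx)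
    push_cast
    linarith only [ih, h5, h6]

lemma b4_pow_fall {q : ℕ} (hq : 1 ≤ q) {x y d : ℝ} (hx : 0 ≤ x) (hx1 : x ≤ 1) (hd : 0 ≤ d)
    (hd1 : d ≤ 1) (hy : 0 ≤ y) (h : y ≤ max 0 (x - d)) : y ^ q ≤ (1 - d) * x ^ q := by
  obtain ⟨r, rfl⟩ : ∃ r, q = r + 1 := ⟨q - 1, by omega⟩
  rcases le_total x d with hxd | hxd
  · have : y = 0 := le_antisymm (h.trans (by rw [max_eq_left (by linarith only [hxd])])) hy
    rw [this, zero_pow (by omega)]
    exact mul_nonneg (by linarith only [hd1]) (pow_nonneg hx _)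
  · rw [max_eq_right (by linarith only [hxd])] at h
    have h1 : y ^ r ≤ x ^ r := pow_le_pow_left₀ hy (by linarith only [hd, h]) r
    have h2 : 0 ≤ x ^ r := pow_nonneg hx r
    calc y ^ (r + 1) = y ^ r * y := pow_succ _ _
      _ ≤ x ^ r * (x - d) := mul_le_mul h1 h hy h2
      _ ≤ x ^ r * (x - d * x) := by
          apply mul_le_mul_of_nonneg_left _ h2
          linarith only [mul_nonneg (sub_nonneg.2 hx1) (sub_nonneg.2 hd)]
      _ = (1 - d) * x ^ (r + 1) := by ring

end B4aux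

section
variable {q : ℕ} (hq : 1 ≤ q) {T : ℝ} {a : ℝ → ℝ} {u : ℕ → ℝ} (ha : Target q T a)
  (hu : ∀ i, 0 ≤ u i ∧ u i ≤ 1)
include hq ha hu

theorem evo_inv {n : ℕ} (hP : ∀ i, i < n → eP q T a u i ≤ T - 1) :
    Inv q T a (eM q T a u n) (eP q T a u n) := by
  induction n with
  | zero => exact Inv.init ha
  | succ n ih =>
    exact Inv.step hq ha (ih fun i hi => hP i (by omega)) (hP n (by omega)) (hu n).1 (hu n).2

theorem eP_mono {n : ℕ} (hP : ∀ i, i < n → eP q T a u i ≤ T - 1) {i j : ℕ} (hij : i ≤ j)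
    (hj : j ≤ n) : eP q T a u i ≤ eP q T a u j := by
  induction j, hij using Nat.le_induction with
  | base => exact le_rfl
  | succ j hij ih =>
    refine (ih (by omega)).trans ?_
    rw [b4_eP_succ]
    exact Inv.le_Wf hq ha (evo_inv hq ha hu fun i hi => hP i (by omega)) (hP j (by omega)) (hu j).1

theorem eM_eq {n : ℕ} (hP : ∀ i, i < n → eP q T a u i ≤ T - 1) {t : ℝ} (ht : 0 ≤ t)
    (htT : t ≤ T) : eM q T a u n t = a t - ∑ j ∈ Finset.range n, ev q T a u j t ^ q := by
  induction n with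
  | zero => simp [b4_eM_zero]
  | succ n ih =>
    have hinv := evo_inv hq ha hu (n := n) fun i hi => hP i (by omega)
    rw [b4_eM_succ, stepm_eq hq ha hinv (hP n (by omega)) (hu n).1 (hu n).2 ht htT,
      ih fun i hi => hP i (by omega), Finset.sum_range_succ]
    simp only [ev]
    ring

/-- Tail balls at the beginning all have their peak at time `0`. -/
theorem eP_eq_zero {k : ℕ} (hT : 1 ≤ T) (h : ∑ j ∈ Finset.range k, u j ^ q + 1 ≤ a 0) {i : ℕ}
    (hi : i ≤ k) : eP q T a u i = 0 := by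
  have key : ∀ i, i ≤ k → (∀ j, j ≤ i → eP q T a u j = 0) ∧
      eM q T a u i 0 = a 0 - ∑ j ∈ Finset.range i, u j ^ q := by
    intro i
    induction i with
    | zero =>
      intro _
      refine ⟨fun j hj => ?_, by simp [b4_eM_zero]⟩
      obtain rfl : j = 0 := by omega
      exact b4_eP_zero _ _ _ _
    | succ i ih =>
      intro hik
      obtain ⟨h1, h2⟩ := ih (by omega)
      have hP : ∀ j, j < i → eP q T a u j ≤ T - 1 := by
        intro j hj
        rw [h1 j (by omega)]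
        linarith only [hT]
      have hPi : eP q T a u i ≤ T - 1 := by rw [h1 i le_rfl]; linarith only [hT]
      have hinv := evo_inv hq ha hu hP
      have hM : u i ^ q ≤ eM q T a u i 0 := by
        rw [h2]
        have e1 : ∑ j ∈ Finset.range i, u j ^ q ≤ ∑ j ∈ Finset.range k, u j ^ q :=
          Finset.sum_le_sum_of_subset_of_nonneg (Finset.range_mono (by omega))
            fun j _ _ => pow_nonneg (hu j).1 q
        have e2 : u i ^ q ≤ 1 := pow_le_one₀ (hu i).1 (hu i).2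
        linarith only [h, e1, e2]
      have hW0 : Wf q T (eM q T a u i) (eP q T a u i) (u i) ≤ 0 :=
        (Inv.Wf_le_iff hq ha hinv hPi (hu i).1 (hu i).2 (le_of_eq (h1 i le_rfl))
          (by linarith only [hT])).2 hM
      have hW1 : 0 ≤ Wf q T (eM q T a u i) (eP q T a u i) (u i) := Wf_nonneg (by linarith only [hT])
      refine ⟨fun j hj => ?_, ?_⟩
      · rcases Nat.lt_or_ge j (i + 1) with hj' | hj'
        · exact h1 j (by omega)
        · obtain rfl : j = i + 1 := by omega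
          rw [b4_eP_succ]
          exact le_antisymm hW0 hW1
      · rw [b4_eM_succ, stepm_eq hq ha hinv hPi (hu i).1 (hu i).2 le_rfl (by linarith only [hT]),
          vf_eq_cf hq ha hinv hPi (hu i).1 (hu i).2 hW0 (by linarith only [hT]),
          cf_eq_self (hu i).1 hW1, h2, Finset.sum_range_succ]
        ring
  exact (key i hi).1 i le_rfl

omit hq ha in
lemma b4_ev_nonneg (hq : 1 ≤ q) (ha : Target q T a) {n : ℕ}
    (hP : ∀ i, i < n → eP q T a u i ≤ T - 1) {j : ℕ} (hj : j < n) (t : ℝ) :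
    0 ≤ ev q T a u j t :=
  vf_nonneg hq ha (evo_inv hq ha hu fun i hi => hP i (by omega)) (hP j hj) (hu j).1 (hu j).2 t

omit hq ha in
lemma b4_ev_le (hq : 1 ≤ q) (ha : Target q T a) {n : ℕ}
    (hP : ∀ i, i < n → eP q T a u i ≤ T - 1) {j : ℕ} (hj : j < n) (t : ℝ) :
    ev q T a u j t ≤ u j :=
  vf_le hq ha (evo_inv hq ha hu fun i hi => hP i (by omega)) (hP j hj) (hu j).1 (hu j).2 t

omit hq ha in
lemma b4_ev_eq_cf (hq : 1 ≤ q) (ha : Target q T a) {n : ℕ}
    (hP : ∀ i, i < n → eP q T a u i ≤ T - 1) {j : ℕ} (hj : j < n) {t : ℝ}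
    (ht : eP q T a u (j + 1) ≤ t) (htT : t ≤ T) :
    ev q T a u j t = cf q T (eM q T a u j) (eP q T a u j) (u j) t :=
  vf_eq_cf hq ha (evo_inv hq ha hu fun i hi => hP i (by omega)) (hP j hj) (hu j).1 (hu j).2
    (by rwa [b4_eP_succ] at ht) htT

/-- A definite mass of balls has its peak in `[t - d, t]`. -/
theorem mass_window {n : ℕ} (hP : ∀ i, i < n → eP q T a u i ≤ T - 1) {t d : ℝ} (ht : 0 ≤ t)
    (htT : t ≤ T) (htn : t < eP q T a u n) (hd : 0 < d) (hd1 : d ≤ 1) :
    7 / 8 * d * a t - 1 ≤ ∑ j ∈ (Finset.range n).filter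
      (fun j => t - d ≤ eP q T a u (j + 1) ∧ eP q T a u (j + 1) ≤ t), u j ^ q := by
  classical
  -- the index `i2`
  obtain ⟨i2, hi2n, hi2t, hi2s⟩ : ∃ i2, i2 < n ∧ eP q T a u i2 ≤ t ∧ t < eP q T a u (i2 + 1) := by
    have hex : ∃ m, t < eP q T a u m := ⟨n, htn⟩
    have hm := Nat.find_spec hex
    have hmn : Nat.find hex ≤ n := Nat.find_min' hex htn
    have hm0 : Nat.find hex ≠ 0 := by
      intro h0
      rw [h0, b4_eP_zero] at hm
      linarith only [ht, hm]
    obtain ⟨i, hi⟩ : ∃ i, Nat.find hex = i + 1 := ⟨Nat.find hex - 1, by omega⟩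
    refine ⟨i, by omega, ?_, by rwa [hi] at hm⟩
    have := Nat.find_min hex (m := i) (by omega)
    exact not_lt.1 this
  have hT0 : 0 ≤ T := ht.trans htT
  have hP2 : ∀ i, i < i2 → eP q T a u i ≤ T - 1 := fun i hi => hP i (by omega)
  have hinv := evo_inv hq ha hu hP2
  have hat : 0 ≤ a t := by
    have := ha.lo t ht htT
    have h5 : (0 : ℝ) ≤ 5 * q := by positivity
    linarith only [this]
  have hM : eM q T a u i2 t < 1 := by
    have h1 : ¬ (u i2 ^ q ≤ eM q T a u i2 t) := by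
      rw [← Inv.Wf_le_iff hq ha hinv (hP i2 hi2n) (hu i2).1 (hu i2).2 hi2t htT]
      rw [b4_eP_succ] at hi2s
      exact not_le.2 hi2s
    have h2 : u i2 ^ q ≤ 1 := pow_le_one₀ (hu i2).1 (hu i2).2
    linarith only [h1, h2]
  rw [eM_eq hq ha hu hP2 ht htT] at hM
  -- split the sum
  set v : ℕ → ℝ → ℝ := fun j s => ev q T a u j s with hv
  have hvn : ∀ j, j < i2 → ∀ s, 0 ≤ v j s := fun j hj s =>
    b4_ev_nonneg hu hq ha hP2 hj s
  have hvu : ∀ j, j < i2 → ∀ s, v j s ≤ u j := fun j hj s =>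
    b4_ev_le hu hq ha hP2 hj s
  have hPj : ∀ j, j < i2 → eP q T a u (j + 1) ≤ t := fun j hj =>
    (eP_mono hq ha hu (n := i2) hP2 (by omega) le_rfl).trans hi2t
  have hsplit := Finset.sum_filter_add_sum_filter_not (Finset.range i2)
    (fun j => t - d ≤ eP q T a u (j + 1)) (fun j => v j t ^ q)
  -- window part
  have hwin : ∑ j ∈ (Finset.range i2).filter (fun j => t - d ≤ eP q T a u (j + 1)), v j t ^ q ≤
      ∑ j ∈ (Finset.range n).filter
      (fun j => t - d ≤ eP q T a u (j + 1) ∧ eP q T a u (j + 1) ≤ t), u j ^ q := by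
    calc ∑ j ∈ (Finset.range i2).filter (fun j => t - d ≤ eP q T a u (j + 1)), v j t ^ q
        ≤ ∑ j ∈ (Finset.range i2).filter (fun j => t - d ≤ eP q T a u (j + 1)), u j ^ q := by
          refine Finset.sum_le_sum fun j hj => ?_
          rw [Finset.mem_filter, Finset.mem_range] at hj
          exact pow_le_pow_left₀ (hvn j hj.1 t) (hvu j hj.1 t) q
      _ ≤ _ := by
          refine Finset.sum_le_sum_of_subset_of_nonneg ?_ fun j _ _ => pow_nonneg (hu j).1 q
          intro j hj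
          rw [Finset.mem_filter, Finset.mem_range] at hj ⊢
          exact ⟨by omega, hj.2, hPj j hj.1⟩
  -- old part
  have hold : ∑ j ∈ (Finset.range i2).filter (fun j => ¬ (t - d ≤ eP q T a u (j + 1))),
      v j t ^ q ≤ (1 - 7 / 8 * d) * a t := by
    rcases lt_or_ge (t - d) 0 with htd | htd
    · have hempty : (Finset.range i2).filter (fun j => ¬ (t - d ≤ eP q T a u (j + 1))) = ∅ := by
        rw [Finset.filter_eq_empty_iff]
        intro j _
        rw [not_not]
        have : 0 ≤ eP q T a u (j + 1) := by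
          rw [b4_eP_succ]
          exact Wf_nonneg hT0
        linarith only [htd, this]
      rw [hempty, Finset.sum_empty]
      exact mul_nonneg (by linarith only [hd1]) hat
    · have h1 : ∀ j ∈ (Finset.range i2).filter (fun j => ¬ (t - d ≤ eP q T a u (j + 1))),
          v j t ^ q ≤ (1 - d) * v j (t - d) ^ q := by
        intro j hj
        rw [Finset.mem_filter, Finset.mem_range, not_le] at hj
        obtain ⟨hj1, hj2⟩ := hj
        have e1 : v j t = cf q T (eM q T a u j) (eP q T a u j) (u j) t :=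
          b4_ev_eq_cf hu hq ha hP2 hj1 (hPj j hj1) htT
        have e2 : v j (t - d) = cf q T (eM q T a u j) (eP q T a u j) (u j) (t - d) :=
          b4_ev_eq_cf hu hq ha hP2 hj1 hj2.le (by linarith only [htT, hd])
        have e3 := cf_fall (q := q) hq (T := T) (m := eM q T a u j) (p := eP q T a u j)
          (u := u j) (t := t - d) (t' := t) hT0 (hu j).1 (hu j).2
          (by rw [← b4_eP_succ]; exact hj2.le) (by linarith only [hd])
        rw [← e1, ← e2] at e3
        have e4 : t - (t - d) = d := by ring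
        rw [e4] at e3
        exact b4_pow_fall hq (hvn j hj1 _) ((hvu j hj1 _).trans (hu j).2) hd.le hd1
          (hvn j hj1 _) e3
      have h2 : ∑ j ∈ Finset.range i2, v j (t - d) ^ q ≤ a (t - d) := by
        have h3 := hinv.nn (t - d) htd (by linarith only [htT, hd])
        rw [eM_eq hq ha hu hP2 htd (by linarith only [htT, hd])] at h3
        linarith only [h3]
      have h3 : ∑ j ∈ (Finset.range i2).filter (fun j => ¬ (t - d ≤ eP q T a u (j + 1))),
          v j (t - d) ^ q ≤ ∑ j ∈ Finset.range i2, v j (t - d) ^ q :=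
        Finset.sum_le_sum_of_subset_of_nonneg (Finset.filter_subset _ _)
          fun j hj _ => pow_nonneg (hvn j (Finset.mem_range.1 hj) _) q
      have h4 := ha.slow (t - d) t htd (by linarith only [hd]) htT (by linarith only [hd1])
      have h5 : 0 ≤ a (t - d) := by
        have := ha.lo (t - d) htd (by linarith only [htT, hd])
        have h5 : (0 : ℝ) ≤ 5 * q := by positivity
        linarith only [this]
      have h6 : a (t - d) * (1 - d / 8) ≤ a t := by
        have e4 : t - (t - d) = d := by ring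
        rw [e4] at h4
        linarith only [h4]
      calc ∑ j ∈ (Finset.range i2).filter (fun j => ¬ (t - d ≤ eP q T a u (j + 1))), v j t ^ q
          ≤ ∑ j ∈ (Finset.range i2).filter (fun j => ¬ (t - d ≤ eP q T a u (j + 1))),
            (1 - d) * v j (t - d) ^ q := Finset.sum_le_sum h1
        _ = (1 - d) * ∑ j ∈ (Finset.range i2).filter
            (fun j => ¬ (t - d ≤ eP q T a u (j + 1))), v j (t - d) ^ q := by
            rw [Finset.mul_sum]
        _ ≤ (1 - d) * a (t - d) := mul_le_mul_of_nonneg_left (h3.trans h2) (by linarith only [hd1])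
        _ ≤ (1 - 7 / 8 * d) * (a (t - d) * (1 - d / 8)) := by
            linarith only [mul_nonneg h5 (sq_nonneg d)]
        _ ≤ (1 - 7 / 8 * d) * a t := mul_le_mul_of_nonneg_left h6 (by linarith only [hd1])
  have h7 : ∑ j ∈ Finset.range i2, ev q T a u j t ^ q = ∑ j ∈ Finset.range i2, v j t ^ q := rfl
  rw [h7, ← hsplit] at hM
  linarith only [hold, hwin, hM]

/-- Slope of the final residual after the last peak. -/
theorem eM_slope {n : ℕ} (hP : ∀ i, i < n → eP q T a u i ≤ T - 1) {t t' : ℝ}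
    (ht : eP q T a u n ≤ t) (htt : t ≤ t') (htT : t' ≤ T) :
    a t' - a t ≤ eM q T a u n t' - eM q T a u n t ∧
    eM q T a u n t' - eM q T a u n t ≤ a t' - a t + 2 * q * (t' - t) *
      (((Finset.range n).filter (fun j => 0 < u j ∧ eP q T a u n - 1 ≤ eP q T a u (j + 1))).card : ℝ) := by
  classical
  have hinv := evo_inv hq ha hu hP
  have ht0 : 0 ≤ t := hinv.p0.trans ht
  have hT0 : 0 ≤ T := ht0.trans (htt.trans htT)
  rw [eM_eq hq ha hu hP ht0 (htt.trans htT), eM_eq hq ha hu hP (ht0.trans htt) htT]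
  have hPj : ∀ j, j < n → eP q T a u (j + 1) ≤ t := fun j hj =>
    (eP_mono hq ha hu (n := n) hP (by omega) le_rfl).trans ht
  have hvn : ∀ j, j < n → ∀ s, 0 ≤ ev q T a u j s := fun j hj s => b4_ev_nonneg hu hq ha hP hj s
  have hvu : ∀ j, j < n → ∀ s, ev q T a u j s ≤ u j := fun j hj s => b4_ev_le hu hq ha hP hj s
  have e1 : ∀ j, j < n → ev q T a u j t = cf q T (eM q T a u j) (eP q T a u j) (u j) t :=
    fun j hj => b4_ev_eq_cf hu hq ha hP hj (hPj j hj) (htt.trans htT)
  have e2 : ∀ j, j < n → ev q T a u j t' = cf q T (eM q T a u j) (eP q T a u j) (u j) t' :=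
    fun j hj => b4_ev_eq_cf hu hq ha hP hj ((hPj j hj).trans htt) htT
  have hanti : ∀ j, j < n → ev q T a u j t' ≤ ev q T a u j t := by
    intro j hj
    rw [e1 j hj, e2 j hj]
    exact cf_antitone (hu j).1 htt
  have hlip : ∀ j, j < n → ev q T a u j t ≤ ev q T a u j t' + 2 * (t' - t) := by
    intro j hj
    rw [e1 j hj, e2 j hj]
    exact cf_lip (hu j).1 htt
  have hpow : ∑ j ∈ Finset.range n, ev q T a u j t' ^ q ≤
      ∑ j ∈ Finset.range n, ev q T a u j t ^ q :=
    Finset.sum_le_sum fun j hj =>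
      pow_le_pow_left₀ (hvn j (Finset.mem_range.1 hj) _) (hanti j (Finset.mem_range.1 hj)) q
  refine ⟨by linarith only [hpow], ?_⟩
  have hterm : ∀ j ∈ Finset.range n, ev q T a u j t ^ q - ev q T a u j t' ^ q ≤
      if (0 < u j ∧ eP q T a u n - 1 ≤ eP q T a u (j + 1)) then 2 * q * (t' - t) else 0 := by
    intro j hj
    have hj := Finset.mem_range.1 hj
    rcases (hvn j hj t).eq_or_lt with h0 | h0
    · have h1 : ev q T a u j t' = 0 := le_antisymm (by rw [h0]; exact hanti j hj) (hvn j hj t')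
      rw [← h0, h1, sub_self]
      split_ifs
      · have : (0 : ℝ) ≤ q := by positivity
        have h3 : 0 ≤ t' - t := sub_nonneg.2 htt
        (clear * - hq htt; positivity)
      · exact le_rfl
    · have h1 : 0 < u j := h0.trans_le (hvu j hj t)
      have h2 := vf_support hq ha (evo_inv hq ha hu fun i hi => hP i (by omega)) (hP j hj)
        (hu j).1 (hu j).2 ht0 (htt.trans htT) h0
      have h3 : eP q T a u n - 1 ≤ eP q T a u (j + 1) := by
        rw [b4_eP_succ]
        linarith only [ht, h2]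
      rw [if_pos ⟨h1, h3⟩]
      have h4 := b4_pow_sub q (hvn j hj t') (hanti j hj) ((hvu j hj t).trans (hu j).2)
      have h5 : (q : ℝ) * (ev q T a u j t - ev q T a u j t') ≤ q * (2 * (t' - t)) :=
        mul_le_mul_of_nonneg_left (by linarith only [hlip j hj]) (by positivity)
      linarith only [h4, h5]
  have hsum := Finset.sum_le_sum hterm
  rw [Finset.sum_sub_distrib, ← Finset.sum_filter, Finset.sum_const, nsmul_eq_mul] at hsum
  linarith only [hsum]

end

end Vale.Agent.P209.Strong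
end
end
end
end

section

section

section

section

set_option linter.all false

namespace Vale.Agent.P209.Strong

open MeasureTheory

/-! B5a. Half of the loop (definitions and the target): L-balls against the target `χ A + e`. -/

/-- cutoff in the mass coordinate -/
noncomputable def hh (η C A0 y : ℝ) : ℝ := max η (min (1 - η) (1 / 2 - η / (32 * C ^ 2) * y / A0))

/-- beyond `yr` the cutoff is constant -/
noncomputable def yr (η C A0 : ℝ) : ℝ := 16 * C ^ 2 / η * A0

/-- data for the half problem -/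
structure HD (q : ℕ) (δ ρ C η A0 T : ℝ) (A : ℝ → ℝ) (V1 V2 : ℝ) (u : ℕ → ℝ) (N NJ : ℕ) : Prop where
  hq : 1 ≤ q
  hδ : 0 < δ
  hδ1 : δ ≤ 1
  hρ : 1 ≤ ρ
  hC : 1 ≤ C
  hη : 0 < η
  hη1 : η * (128 * C) ≤ 1
  hη2 : η * (1200 * q * (q + 1) * ρ * C) ≤ δ ^ (q + 1)
  hA0 : 3 + 5 * q ≤ η * A0
  hT : 0 < T
  cA : Continuous A
  loA : ∀ t, A0 ≤ A t
  hiA : ∀ t, A t ≤ C * A0
  lipA : ∀ t t', |A t - A t'| ≤ A0 / 256 * |t - t'|
  hV1 : yr η C A0 + 7 * C * A0 ≤ V1
  hV2 : yr η C A0 + 7 * C * A0 ≤ V2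
  int : ∫ t in (0 : ℝ)..T, A t = V1 + V2
  hu : ∀ i, 0 ≤ u i ∧ u i ≤ 1
  vol : ∑ i ∈ Finset.range N, u i ^ (q + 1) / (q + 1) = V1
  hNJ : NJ ≤ N
  tail : ∑ i ∈ Finset.range NJ, u i ≤ A0 / 8
  suf : ∀ s, NJ ≤ s → (((Finset.range N).filter (fun i => s ≤ i ∧ 0 < u i)).card : ℝ) ≤
    ρ * (((Finset.range N).filter (fun i => s ≤ i ∧ δ ≤ u i)).card : ℝ) + A0 / (400 * q)

/-- the cutoff as a function of time -/
noncomputable def chi (η C A0 : ℝ) (A : ℝ → ℝ) (V1 t : ℝ) : ℝ :=
  hh η C A0 ((∫ s in (0 : ℝ)..t, A s) - V1)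

/-- the target of the L-balls -/
noncomputable def tgt (η C A0 : ℝ) (A : ℝ → ℝ) (V1 : ℝ) (e : ℝ → ℝ) (t : ℝ) : ℝ :=
  chi η C A0 A V1 t * A t + e t

/-- admissible perturbations, concentrated on the left -/
structure Dom (η C A0 T : ℝ) (A : ℝ → ℝ) (V1 : ℝ) (e : ℝ → ℝ) : Prop where
  cont : Continuous e
  nn : ∀ t, 0 ≤ t → t ≤ T → 0 ≤ e t
  le : ∀ t, 0 ≤ t → t ≤ T → e t ≤ (1 - chi η C A0 A V1 t) * A t
  lip : ∀ t t', 0 ≤ t → t ≤ T → 0 ≤ t' → t' ≤ T → |e t - e t'| ≤ A0 / 64 * |t - t'|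
  supp : ∀ t, 0 ≤ t → t ≤ T → V1 - (yr η C A0 + 2 * C * A0) ≤ (∫ s in (0 : ℝ)..t, A s) → e t = 0
  massLo : η * (V1 - (yr η C A0 + 4 * C * A0)) ≤ ∫ t in (0 : ℝ)..T, e t
  massHi : ∫ t in (0 : ℝ)..T, e t ≤ η * (V1 - (yr η C A0 + 3 * C * A0))

section
variable {q : ℕ} {δ ρ C η A0 T : ℝ} {A : ℝ → ℝ} {V1 V2 : ℝ} {u : ℕ → ℝ} {N NJ : ℕ}
  (H : HD q δ ρ C η A0 T A V1 V2 u N NJ)
include H

theorem b5a_A0pos : 0 < A0 := by
  have h1 := H.hA0
  have h2 := H.hη
  have h3 : (0 : ℝ) < 3 + 5 * q := by positivity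
  by_contra h
  push Not at h
  have : η * A0 ≤ 0 := mul_nonpos_of_nonneg_of_nonpos h2.le h
  linarith

theorem b5a_eta : η ≤ 1 / 128 := by
  have h1 := H.hη1
  have h2 := H.hη
  have h3 := H.hC
  (by_contra nlg; linarith [mul_nonneg (le_of_lt (sub_pos.2 (not_le.1 nlg))) (sub_nonneg.2 h3), mul_nonneg (mul_self_nonneg (1 : ℝ)) (sub_nonneg.2 h3), mul_nonneg (mul_self_nonneg (1 : ℝ)) (sub_nonneg.2 h1)])

theorem hh_add_neg (y : ℝ) : hh η C A0 y + hh η C A0 (-y) = 1 := by
  have hη := b5a_eta H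
  have hη0 := H.hη
  unfold hh
  set z := η / (32 * C ^ 2) * y / A0 with hz
  have e : η / (32 * C ^ 2) * (-y) / A0 = - z := by rw [hz]; ring
  rw [e]
  simp only [max_def, min_def]
  split_ifs <;> linarith

theorem b5a_slope : 0 < η / (32 * C ^ 2) / A0 := by
  have := b5a_A0pos H
  have := H.hη
  have := H.hC
  positivity

theorem hh_flat {y : ℝ} (hy : yr η C A0 ≤ y) : hh η C A0 y = η := by
  have hA := b5a_A0pos H
  have hη0 := H.hη
  have hC := H.hC
  have hC0 : 0 < C := by linarith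
  unfold hh
  apply max_eq_left
  refine (min_le_right _ _).trans ?_
  have h1 : η / (32 * C ^ 2) * yr η C A0 / A0 = 1 / 2 := by
    unfold yr
    field_simp
    ring
  have h2 : η / (32 * C ^ 2) * yr η C A0 / A0 ≤ η / (32 * C ^ 2) * y / A0 := by
    (clear * - hy hη0 hC hA; gcongr)
  linarith only [h2, h1, hη0]

theorem b5a_hh_ge (y : ℝ) : η ≤ hh η C A0 y := le_max_left _ _

theorem b5a_hh_cont : Continuous (hh η C A0) := by
  unfold hh
  fun_prop

theorem b5a_hh_anti {y y' : ℝ} (h : y ≤ y') : hh η C A0 y' ≤ hh η C A0 y := by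
  have hs := b5a_slope H
  unfold hh
  have : η / (32 * C ^ 2) * y / A0 ≤ η / (32 * C ^ 2) * y' / A0 := by
    have := mul_le_mul_of_nonneg_left h hs.le
    have e1 : η / (32 * C ^ 2) * y / A0 = η / (32 * C ^ 2) / A0 * y := by ring
    have e2 : η / (32 * C ^ 2) * y' / A0 = η / (32 * C ^ 2) / A0 * y' := by ring
    rw [e1, e2]
    exact this
  (clear * - this; gcongr)

theorem b5a_hh_lip {y y' : ℝ} (h : y ≤ y') :
    hh η C A0 y - hh η C A0 y' ≤ η / (32 * C ^ 2) / A0 * (y' - y) := by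
  have hs := b5a_slope H
  unfold hh
  have e1 : η / (32 * C ^ 2) * y / A0 = η / (32 * C ^ 2) / A0 * y := by ring
  have e2 : η / (32 * C ^ 2) * y' / A0 = η / (32 * C ^ 2) / A0 * y' := by ring
  rw [e1, e2]
  have h3 : η / (32 * C ^ 2) / A0 * y ≤ η / (32 * C ^ 2) / A0 * y' :=
    mul_le_mul_of_nonneg_left h hs.le
  set a := η / (32 * C ^ 2) / A0 * y with ha
  set b := η / (32 * C ^ 2) / A0 * y' with hb
  have h4 : η / (32 * C ^ 2) / A0 * (y' - y) = b - a := by rw [ha, hb]; ring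
  rw [h4]
  simp only [max_def, min_def]
  split_ifs <;> linarith

/-- derivative of the mass -/
theorem b5a_deriv (t : ℝ) : HasDerivAt (fun t => (∫ s in (0 : ℝ)..t, A s) - V1) (A t) t := by
  have := intervalIntegral.integral_hasDerivAt_right (H.cA.intervalIntegrable 0 t)
    (H.cA.stronglyMeasurableAtFilter _ _) H.cA.continuousAt
  exact this.sub_const V1

theorem b5a_mass_cont : Continuous fun t => (∫ s in (0 : ℝ)..t, A s) - V1 :=
  continuous_iff_continuousAt.2 fun t => (b5a_deriv H t).continuousAt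

theorem b5a_chi_cont : Continuous (chi η C A0 A V1) :=
  (b5a_hh_cont H).comp (b5a_mass_cont H)

theorem b5a_mass_diff {t t' : ℝ} (h : t ≤ t') :
    A0 * (t' - t) ≤ (∫ s in (0 : ℝ)..t', A s) - (∫ s in (0 : ℝ)..t, A s) ∧
      (∫ s in (0 : ℝ)..t', A s) - (∫ s in (0 : ℝ)..t, A s) ≤ C * A0 * (t' - t) := by
  rw [intervalIntegral.integral_interval_sub_left (H.cA.intervalIntegrable _ _)
    (H.cA.intervalIntegrable _ _)]
  constructor
  · have h1 : ∫ _s in t..t', A0 = A0 * (t' - t) := by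
      rw [intervalIntegral.integral_const, smul_eq_mul]; ring
    rw [← h1]
    exact intervalIntegral.integral_mono_on h (by simp) (H.cA.intervalIntegrable _ _)
      fun x _ => H.loA x
  · have h1 : ∫ _s in t..t', C * A0 = C * A0 * (t' - t) := by
      rw [intervalIntegral.integral_const, smul_eq_mul]; ring
    rw [← h1]
    exact intervalIntegral.integral_mono_on h (H.cA.intervalIntegrable _ _) (by simp)
      fun x _ => H.hiA x

/-- substitution in the mass coordinate -/
theorem integral_chi : ∫ t in (0 : ℝ)..T, chi η C A0 A V1 t * A t = V1 + η * (V2 - V1) := by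
  have h1 : ∫ t in (0 : ℝ)..T, chi η C A0 A V1 t * A t = ∫ y in (-V1)..V2, hh η C A0 y := by
    have h2 := intervalIntegral.integral_comp_mul_deriv (a := 0) (b := T)
      (f := fun t => (∫ s in (0 : ℝ)..t, A s) - V1) (f' := A) (g := hh η C A0)
      (fun x _ => b5a_deriv H x) H.cA.continuousOn (b5a_hh_cont H)
    have e0 : (∫ s in (0 : ℝ)..0, A s) - V1 = - V1 := by simp
    have e1 : (∫ s in (0 : ℝ)..T, A s) - V1 = V2 := by rw [H.int]; ring
    simp only [e0, e1] at h2
    exact h2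
  have hc := b5a_hh_cont H
  have hii : ∀ a b : ℝ, IntervalIntegrable (hh η C A0) volume a b := fun a b =>
    hc.intervalIntegrable a b
  rw [h1, ← intervalIntegral.integral_add_adjacent_intervals (hii (-V1) V1) (hii V1 V2)]
  have h3 : ∫ y in (-V1)..V1, hh η C A0 y = V1 := by
    have h4 : ∫ y in (-V1)..V1, hh η C A0 (-y) = ∫ y in (-V1)..V1, hh η C A0 y := by
      rw [intervalIntegral.integral_comp_neg]
      simp
    have h5 : ∫ y in (-V1)..V1, (hh η C A0 y + hh η C A0 (-y)) = 2 * V1 := by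
      simp only [hh_add_neg H]
      rw [intervalIntegral.integral_const, smul_eq_mul]
      ring
    have h6 : IntervalIntegrable (fun y => hh η C A0 (-y)) volume (-V1) V1 :=
      (hc.comp continuous_neg).intervalIntegrable _ _
    rw [intervalIntegral.integral_add (hii _ _) h6, h4] at h5
    linarith only [h5]
  have hA := b5a_A0pos H
  have hC := H.hC
  have hCA : 0 ≤ 7 * C * A0 := by positivity
  have h6 : ∫ y in V1..V2, hh η C A0 y = η * (V2 - V1) := by
    have : ∫ y in V1..V2, hh η C A0 y = ∫ _y in V1..V2, η := by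
      refine intervalIntegral.integral_congr fun y hy => ?_
      have h7 : min V1 V2 ≤ y := hy.1
      have h8 : yr η C A0 ≤ min V1 V2 := le_min (by linarith [H.hV1]) (by linarith [H.hV2])
      exact hh_flat H (h8.trans h7)
    rw [this, intervalIntegral.integral_const, smul_eq_mul]
    ring
  rw [h3, h6]

theorem Dom.target {e : ℝ → ℝ} (he : Dom η C A0 T A V1 e) : Target q T (tgt η C A0 A V1 e) := by
  have hA := b5a_A0pos H
  have hη0 := H.hη
  have hη := b5a_eta H
  have hC := H.hC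
  have hC0 : 0 < C := by linarith only [hC]
  refine ⟨((b5a_chi_cont H).mul H.cA).add he.cont, ?_, ?_⟩
  · intro t h0 hT
    have h1 : η ≤ chi η C A0 A V1 t := b5a_hh_ge H _
    have h2 := H.loA t
    have h3 := he.nn t h0 hT
    have h4 : η * A0 ≤ chi η C A0 A V1 t * A t := mul_le_mul h1 h2 hA.le (hη0.le.trans h1)
    have := H.hA0
    unfold tgt
    linarith only [h3, h4, this]
  · intro t t' h0 htt' hT _
    have htT : t ≤ T := htt'.trans hT
    have h0' : 0 ≤ t' := h0.trans htt'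
    set x := chi η C A0 A V1 t with hx
    set x' := chi η C A0 A V1 t' with hx'
    have hxη : η ≤ x := b5a_hh_ge H _
    have hx0 : 0 < x := lt_of_lt_of_le hη0 hxη
    have hd : 0 ≤ t' - t := by linarith only [htt']
    have hAt := H.loA t
    have hAt0 : 0 < A t := lt_of_lt_of_le hA hAt
    obtain ⟨m1, m2⟩ := b5a_mass_diff H htt'
    have hm0 : 0 ≤ A0 * (t' - t) := mul_nonneg hA.le hd
    have hanti : x' ≤ x := b5a_hh_anti H (by linarith only [m1, hm0])
    have hlip : x - x' ≤ η / (32 * C ^ 2) / A0 * (C * A0 * (t' - t)) := by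
      have h1 := b5a_hh_lip H (y := (∫ s in (0 : ℝ)..t, A s) - V1)
        (y' := (∫ s in (0 : ℝ)..t', A s) - V1) (by linarith only [m1, hm0])
      refine h1.trans ?_
      have hs := b5a_slope H
      exact mul_le_mul_of_nonneg_left (by linarith only [m2]) hs.le
    have hlip2 : x - x' ≤ x / 32 * (t' - t) := by
      refine hlip.trans ?_
      have e1 : η / (32 * C ^ 2) / A0 * (C * A0 * (t' - t)) = η / (32 * C) * (t' - t) := by
        (clear * - hA hC hη0; field_simp)
      rw [e1]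
      refine mul_le_mul_of_nonneg_right ?_ hd
      rw [div_le_div_iff₀ (by positivity) (by norm_num)]
      linarith only [mul_nonneg (sub_nonneg.2 hC) (le_of_lt (sub_pos.2 hx0)), hxη]
    have p1 : (x - x') * A t ≤ 1 / 32 * (x * A t) * (t' - t) := by
      have := mul_le_mul_of_nonneg_right hlip2 hAt0.le
      calc (x - x') * A t ≤ x / 32 * (t' - t) * A t := this
        _ = _ := by ring
    have p2 : x' * (A t - A t') ≤ 1 / 256 * (x * A t) * (t' - t) := by
      have h1 : A t - A t' ≤ A0 / 256 * (t' - t) := by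
        have := H.lipA t t'
        rw [abs_sub_comm t t', abs_of_nonneg hd] at this
        exact (le_abs_self _).trans this
      have hx'0 : 0 ≤ x' := hη0.le.trans (b5a_hh_ge H _)
      calc x' * (A t - A t') ≤ x' * (A0 / 256 * (t' - t)) := mul_le_mul_of_nonneg_left h1 hx'0
        _ ≤ x * (A t / 256 * (t' - t)) := by (clear * - hanti hAt htt' hA hx0; gcongr)
        _ = _ := by ring
    have p3 : e t - e t' ≤ 1 / 32 * (x * A t) * (t' - t) := by
      have hr : 0 ≤ 1 / 32 * (x * A t) * (t' - t) := by (clear * - hx0 hAt0 htt'; positivity)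
      by_cases het : e t = 0
      · have := he.nn t' h0' hT
        linarith only [hr, het, this]
      · have hM : (∫ s in (0 : ℝ)..t, A s) < V1 - (yr η C A0 + 2 * C * A0) := by
          by_contra hcon
          exact het (he.supp t h0 htT (not_lt.1 hcon))
        have hxe : x = 1 - η := by
          have h1 := hh_add_neg H ((∫ s in (0 : ℝ)..t, A s) - V1)
          have hCA : 0 < 2 * C * A0 := by positivity
          have h2 := hh_flat H (y := -((∫ s in (0 : ℝ)..t, A s) - V1)) (by linarith only [hM, hCA])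
          rw [h2] at h1
          have : x = hh η C A0 ((∫ s in (0 : ℝ)..t, A s) - V1) := rfl
          rw [this]
          linarith only [h1]
        have hx2 : 1 / 2 ≤ x := by rw [hxe]; linarith only [hη]
        have h3 := he.lip t t' h0 htT h0' hT
        rw [abs_sub_comm t t', abs_of_nonneg hd] at h3
        have h4 : e t - e t' ≤ A0 / 64 * (t' - t) := (le_abs_self _).trans h3
        refine h4.trans ?_
        refine mul_le_mul_of_nonneg_right ?_ hd
        have h5 : 1 / 2 * A0 ≤ x * A t := mul_le_mul hx2 hAt hA.le hx0.le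
        linarith only [h5]
    have p4 : 0 ≤ e t := he.nn t h0 htT
    have p5 : 0 ≤ (x * A t) * (t' - t) := by (clear * - hx0 hAt0 htt'; positivity)
    have p6 : 0 ≤ e t * (t' - t) := mul_nonneg p4 hd
    show x * A t + e t - 1 / 8 * (x * A t + e t) * (t' - t) ≤ x' * A t' + e t'
    linarith

end

end Vale.Agent.P209.Strong
end
end
end
end

section

section

section

section

namespace Vale.Agent.P209.Strong

open MeasureTheory

/-! B5b. Location of the last peak, mass and support of the final residual. -/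

section
variable {q : ℕ} {δ ρ C η A0 T : ℝ} {A : ℝ → ℝ} {V1 V2 : ℝ} {u : ℕ → ℝ} {N NJ : ℕ}
  (H : HD q δ ρ C η A0 T A V1 V2 u N NJ)
include H

lemma b5b_A0 : 0 < A0 := by
  by_contra h
  have h1 := H.hA0
  have h2 := H.hη
  have h3 : (0 : ℝ) ≤ q := Nat.cast_nonneg q
  nlinarith

lemma b5b_M_sub (s t : ℝ) : (∫ x in (0 : ℝ)..t, A x) - (∫ x in (0 : ℝ)..s, A x) =
    ∫ x in s..t, A x :=
  intervalIntegral.integral_interval_sub_left (H.cA.intervalIntegrable _ _)
    (H.cA.intervalIntegrable _ _)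

lemma b5b_M_le {s t : ℝ} (h : s ≤ t) :
    (∫ x in (0 : ℝ)..t, A x) - (∫ x in (0 : ℝ)..s, A x) ≤ C * A0 * (t - s) := by
  rw [b5b_M_sub H]
  have h1 : ∫ x in s..t, A x ≤ ∫ _ in s..t, C * A0 :=
    intervalIntegral.integral_mono_on h (H.cA.intervalIntegrable _ _)
      intervalIntegrable_const fun x _ => H.hiA x
  rw [intervalIntegral.integral_const, smul_eq_mul] at h1
  linarith

lemma b5b_M_ge {s t : ℝ} (h : s ≤ t) :
    A0 * (t - s) ≤ (∫ x in (0 : ℝ)..t, A x) - (∫ x in (0 : ℝ)..s, A x) := by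
  rw [b5b_M_sub H]
  have h1 : ∫ _ in s..t, A0 ≤ ∫ x in s..t, A x :=
    intervalIntegral.integral_mono_on h intervalIntegrable_const
      (H.cA.intervalIntegrable _ _) fun x _ => H.loA x
  rw [intervalIntegral.integral_const, smul_eq_mul] at h1
  linarith

lemma b5b_M_zero : ∫ x in (0 : ℝ)..0, A x = 0 := by
  have _ := H
  simp

lemma b5b_CA0 : 0 < C * A0 := mul_pos (by linarith [H.hC]) (b5b_A0 H)

lemma b5b_yr : 0 < yr η C A0 := by
  have h1 := b5b_A0 H
  have h2 := H.hC
  have h3 := H.hη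
  unfold yr
  positivity

/-- monotonicity of the mass, contrapositive form -/
lemma b5b_lt_of_M {s t : ℝ} (h : (∫ x in (0 : ℝ)..s, A x) < ∫ x in (0 : ℝ)..t, A x) : s < t := by
  by_contra hc
  have h1 := b5b_M_ge H (not_lt.1 hc)
  have h2 := b5b_A0 H
  have h3 : 0 ≤ A0 * (s - t) := mul_nonneg h2.le (by linarith [not_lt.1 hc])
  linarith

lemma b5b_T : 2 ≤ T := by
  have h1 := b5b_M_le H H.hT.le
  rw [b5b_M_zero H, H.int] at h1
  have h2 := H.hV1
  have h3 := H.hV2
  have h4 := b5b_yr H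
  have h5 := b5b_CA0 H
  have h6 : C * A0 * 2 ≤ C * A0 * T := by linarith
  exact le_of_mul_le_mul_left h6 h5

lemma b5b_chi_cont : Continuous (chi η C A0 A V1) := by
  unfold chi hh
  have h1 : Continuous fun t => ∫ s in (0 : ℝ)..t, A s :=
    intervalIntegral.continuous_primitive (fun a b => H.cA.intervalIntegrable a b) 0
  (clear * - h1; fun_prop)

lemma b5b_chi_ge (t : ℝ) : η ≤ chi η C A0 A V1 t := by
  have _ := H
  exact le_max_left _ _

lemma b5b_tgt_ge {e : ℝ → ℝ} (he : Dom η C A0 T A V1 e) {t : ℝ} (ht : 0 ≤ t) (htT : t ≤ T) :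
    η * A t ≤ tgt η C A0 A V1 e t := by
  unfold tgt
  have h1 := b5b_chi_ge H t
  have h2 := he.nn t ht htT
  have h3 : 0 ≤ A t := (b5b_A0 H).le.trans (H.loA t)
  have h4 := mul_le_mul_of_nonneg_right h1 h3
  linarith

/-- Far to the right the target is `η A`. -/
lemma b5b_tgt_eq {e : ℝ → ℝ} (he : Dom η C A0 T A V1 e) {t : ℝ} (ht : 0 ≤ t) (htT : t ≤ T)
    (hM : V1 + yr η C A0 ≤ ∫ s in (0 : ℝ)..t, A s) : tgt η C A0 A V1 e t = η * A t := by
  unfold tgt chi
  rw [hh_flat H (by linarith), he.supp t ht htT (by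
    have := b5b_yr H
    have := b5b_CA0 H
    (clear e he ht htT; linarith)), add_zero]

lemma b5b_int_tgt {e : ℝ → ℝ} (he : Dom η C A0 T A V1 e) :
    ∫ t in (0 : ℝ)..T, tgt η C A0 A V1 e t =
      (∫ t in (0 : ℝ)..T, e t) + (V1 + η * (V2 - V1)) := by
  unfold tgt
  have h1 : IntervalIntegrable (fun t => chi η C A0 A V1 t * A t) volume 0 T :=
    ((b5b_chi_cont H).mul H.cA).intervalIntegrable _ _
  rw [intervalIntegral.integral_add h1 (he.cont.intervalIntegrable _ _), integral_chi H]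
  ring

/-- The mass of the residual. -/
lemma b5b_mass {e : ℝ → ℝ} (he : Dom η C A0 T A V1 e) {n : ℕ}
    (hP : ∀ i, i ≤ n → eP q T (tgt η C A0 A V1 e) u i ≤ T - 1) :
    ∫ t in (0 : ℝ)..T, eM q T (tgt η C A0 A V1 e) u n t =
      (∫ t in (0 : ℝ)..T, e t) + (V1 + η * (V2 - V1)) -
        ∑ j ∈ Finset.range n, u j ^ (q + 1) / (q + 1) := by
  have ha := Dom.target H he
  set a := tgt η C A0 A V1 e with hadef
  have hP' : ∀ i, i < n → eP q T a u i ≤ T - 1 := fun i hi => hP i hi.le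
  have hc : ∀ j, Continuous fun t : ℝ => ev q T a u j t := fun j => by
    have h := ev_continuous (Θ := Unit) q (T := fun _ => T) (a := fun _ => a)
      (u := fun j _ => u j) continuous_const (ha.cont.comp continuous_snd)
      (fun _ => continuous_const) j
    exact h.comp (Continuous.prodMk continuous_const continuous_id : Continuous fun t : ℝ => ((), t))
  have h1 : ∫ t in (0 : ℝ)..T, eM q T a u n t =
      ∫ t in (0 : ℝ)..T, (a t - ∑ j ∈ Finset.range n, ev q T a u j t ^ q) := by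
    refine intervalIntegral.integral_congr fun t ht => ?_
    rw [Set.uIcc_of_le H.hT.le] at ht
    exact eM_eq H.hq ha H.hu hP' ht.1 ht.2
  have hi : ∀ j, IntervalIntegrable (fun t => ev q T a u j t ^ q) volume 0 T := fun j =>
    ((hc j).pow q).intervalIntegrable _ _
  have hs : IntervalIntegrable (fun t => ∑ j ∈ Finset.range n, ev q T a u j t ^ q) volume 0 T :=
    (continuous_finsetSum _ fun j _ => (hc j).pow q).intervalIntegrable _ _
  rw [h1, intervalIntegral.integral_sub (ha.cont.intervalIntegrable _ _) hs,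
    intervalIntegral.integral_finsetSum fun j _ => hi j, hadef, b5b_int_tgt H he]
  congr 1
  refine Finset.sum_congr rfl fun j hj => ?_
  have hj' := Finset.mem_range.1 hj
  exact vf_integral H.hq ha (evo_inv H.hq ha H.hu fun i hi => hP' i (hi.trans hj'))
    (hP' j hj') (H.hu j).1 (H.hu j).2 (hP (j + 1) hj')

/-- All peaks are located on the left. -/
lemma b5b_peaks {e : ℝ → ℝ} (he : Dom η C A0 T A V1 e) (i : ℕ) (hi : i ≤ N) :
    ∀ j, j ≤ i → eP q T (tgt η C A0 A V1 e) u j ≤ T - 1 ∧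
      (∫ s in (0 : ℝ)..(eP q T (tgt η C A0 A V1 e) u j), A s) ≤
        V1 + (yr η C A0 + 4 * C * A0) := by
  have ha := Dom.target H he
  have hCA := b5b_CA0 H
  have hyr := b5b_yr H
  have hT2 := b5b_T H
  have hV1 := H.hV1
  have hV2 := H.hV2
  induction i with
  | zero =>
    intro j hj
    obtain rfl : j = 0 := by omega
    have h0 : eP q T (tgt η C A0 A V1 e) u 0 = 0 := rfl
    rw [h0, b5b_M_zero H]
    constructor <;> nlinarith
  | succ i ih =>
    have ih' := ih (by omega)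
    intro j hj
    rcases Nat.lt_or_ge j (i + 1) with h | h
    · exact ih' j (by omega)
    obtain rfl : j = i + 1 := by omega
    set a := tgt η C A0 A V1 e with hadef
    have hP' : ∀ j, j < i → eP q T a u j ≤ T - 1 := fun j hj => (ih' j hj.le).1
    have hinv := evo_inv H.hq ha H.hu hP'
    obtain ⟨hPi, hMi⟩ := ih' i le_rfl
    have h1 : eP q T a u (i + 1) ≤ eP q T a u i + 1 :=
      hinv.Wf_le_add H.hq ha hPi (H.hu i).1 (H.hu i).2
    have h2 := b5b_M_le H (s := eP q T a u i) (t := eP q T a u i + 2) (by linarith only [])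
    have h3 : eP q T a u i + 2 < T := by
      apply b5b_lt_of_M H
      rw [H.int]
      linarith only [h2, hMi, hV2, hCA]
    have hPi1 : eP q T a u (i + 1) ≤ T - 1 := by linarith only [h1, h3]
    refine ⟨hPi1, ?_⟩
    have hP1 : ∀ j, j ≤ i + 1 → eP q T a u j ≤ T - 1 := fun j hj => by
      rcases Nat.lt_or_ge j (i + 1) with h | h
      · exact (ih' j (by omega)).1
      · obtain rfl : j = i + 1 := by omega
        exact hPi1
    have hmass := b5b_mass H he hP1
    have hinv1 := evo_inv H.hq ha H.hu (n := i + 1) fun j hj => hP1 j hj.le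
    have hsum : ∑ j ∈ Finset.range (i + 1), u j ^ (q + 1) / ((q : ℝ) + 1) ≤ V1 := by
      rw [← H.vol]
      refine Finset.sum_le_sum_of_subset_of_nonneg (Finset.range_subset_range.2 hi)
        fun j _ _ => ?_
      have := (H.hu j).1
      (clear * - this; positivity)
    have hlow : η * (V2 - (yr η C A0 + 4 * C * A0)) ≤
        ∫ t in (0 : ℝ)..T, eM q T a u (i + 1) t := by
      have h4 := he.massLo
      rw [← hadef] at hmass
      rw [hmass]
      linarith only [h4, hsum]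
    by_contra hcon
    rw [not_le] at hcon
    set p := eP q T a u (i + 1) with hp
    have hp0 : 0 ≤ p := hinv1.p0
    have hpT : p ≤ T := by linarith only [h3, h1]
    have hup : ∫ t in (0 : ℝ)..T, eM q T a u (i + 1) t ≤
        η * (V1 + V2 - ∫ s in (0 : ℝ)..p, A s) := by
      rw [← intervalIntegral.integral_add_adjacent_intervals
        (hinv1.cont.intervalIntegrable 0 p) (hinv1.cont.intervalIntegrable p T)]
      have e1 : ∫ t in (0 : ℝ)..p, eM q T a u (i + 1) t = 0 := by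
        have e2 : ∫ t in (0 : ℝ)..p, eM q T a u (i + 1) t ≤ ∫ _ in (0 : ℝ)..p, (0 : ℝ) := by
          refine intervalIntegral.integral_mono_on_of_le_Ioo hp0
            (hinv1.cont.intervalIntegrable 0 p) intervalIntegrable_const fun t ht => ?_
          exact (hinv1.zero t ht.1.le ht.2 (by linarith only [h3, h1, ht.2])).le
        have e3 : 0 ≤ ∫ t in (0 : ℝ)..p, eM q T a u (i + 1) t :=
          intervalIntegral.integral_nonneg hp0 fun t ht => hinv1.nn t ht.1 (ht.2.trans hpT)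
        rw [intervalIntegral.integral_const, smul_zero] at e2
        exact le_antisymm e2 e3
      rw [e1, zero_add]
      have e4 : ∫ t in p..T, eM q T a u (i + 1) t ≤ ∫ t in p..T, η * A t := by
        refine intervalIntegral.integral_mono_on hpT (hinv1.cont.intervalIntegrable p T)
          ((H.cA.const_mul η).intervalIntegrable p T) fun t ht => ?_
        have e5 : (∫ s in (0 : ℝ)..p, A s) ≤ ∫ s in (0 : ℝ)..t, A s := by
          have := b5b_M_ge H ht.1
          have h8 : 0 ≤ A0 * (t - p) := mul_nonneg (b5b_A0 H).le (by linarith only [ht.1])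
          linarith only [this, h8]
        have e6 := b5b_tgt_eq H he (hp0.trans ht.1) ht.2 (by linarith only [hCA, hcon, e5])
        rw [← e6]
        exact hinv1.le t (hp0.trans ht.1) ht.2
      refine e4.trans (le_of_eq ?_)
      rw [intervalIntegral.integral_const_mul, ← b5b_M_sub H, H.int]
    have h5 := H.hη
    have h6 : η * (V2 - (yr η C A0 + 4 * C * A0)) ≤ η * (V1 + V2 - ∫ s in (0 : ℝ)..p, A s) :=
      hlow.trans hup
    have h7 := le_of_mul_le_mul_left h6 h5
    linarith only [hcon, h7]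

theorem half_mass {e : ℝ → ℝ} (he : Dom η C A0 T A V1 e) :
    ∫ t in (0 : ℝ)..T, eM q T (tgt η C A0 A V1 e) u N t =
      (∫ t in (0 : ℝ)..T, e t) + η * (V2 - V1) := by
  rw [b5b_mass H he fun i hi => (b5b_peaks H he N le_rfl i hi).1, H.vol]
  ring

lemma b5b_lower {e : ℝ → ℝ} (he : Dom η C A0 T A V1 e) :
    η * (V1 + V2 - ((∫ s in (0 : ℝ)..(eP q T (tgt η C A0 A V1 e) u N), A s) + C * A0)) ≤
      (∫ t in (0 : ℝ)..T, e t) + η * (V2 - V1) := by
  have ha := Dom.target H he
  have hP := fun i hi => (b5b_peaks H he N le_rfl i hi).1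
  have hinv := evo_inv H.hq ha H.hu (n := N) fun j hj => hP j hj.le
  rw [← half_mass H he]
  set a := tgt η C A0 A V1 e with hadef
  set p := eP q T a u N with hp
  have hp0 : 0 ≤ p := hinv.p0
  have hpT : p + 1 ≤ T := by
    have : p ≤ T - 1 := hP N le_rfl
    linarith
  have h1 := b5b_M_le H (s := p) (t := p + 1) (by linarith)
  rw [← intervalIntegral.integral_add_adjacent_intervals
    (hinv.cont.intervalIntegrable 0 (p + 1)) (hinv.cont.intervalIntegrable (p + 1) T)]
  have e1 : 0 ≤ ∫ t in (0 : ℝ)..(p + 1), eM q T a u N t :=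
    intervalIntegral.integral_nonneg (by linarith) fun t ht => hinv.nn t ht.1 (ht.2.trans hpT)
  have e2 : ∫ t in (p + 1)..T, η * A t ≤ ∫ t in (p + 1)..T, eM q T a u N t := by
    refine intervalIntegral.integral_mono_on hpT ((H.cA.const_mul η).intervalIntegrable _ _)
      (hinv.cont.intervalIntegrable _ _) fun t ht => ?_
    rw [hinv.eq t ht.1 ht.2]
    exact b5b_tgt_ge H he (by linarith [ht.1]) ht.2
  rw [intervalIntegral.integral_const_mul, ← b5b_M_sub H, H.int] at e2
  have h2 : η * (V1 + V2 - ((∫ s in (0 : ℝ)..p, A s) + C * A0)) ≤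
      η * (V1 + V2 - ∫ x in (0 : ℝ)..(p + 1), A x) := by
    refine mul_le_mul_of_nonneg_left ?_ H.hη.le
    linarith
  linarith

/-- All peaks are before `T - 1`, and the last peak is located in a window. -/
theorem half_peaks {e : ℝ → ℝ} (he : Dom η C A0 T A V1 e) :
    (∀ i, i ≤ N → eP q T (tgt η C A0 A V1 e) u i ≤ T - 1) ∧
    V1 + (yr η C A0 + 2 * C * A0) ≤ ∫ s in (0 : ℝ)..(eP q T (tgt η C A0 A V1 e) u N), A s ∧
    ((∫ t in (0 : ℝ)..T, e t) = η * (V1 - (yr η C A0 + 4 * C * A0)) →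
      V1 + (yr η C A0 + 3 * C * A0) ≤ ∫ s in (0 : ℝ)..(eP q T (tgt η C A0 A V1 e) u N), A s) := by
  have h1 := b5b_lower H he
  have hη := H.hη
  refine ⟨fun i hi => (b5b_peaks H he N le_rfl i hi).1, ?_, fun hm => ?_⟩
  · have h2 := he.massHi
    have h3 : η * (V1 + V2 - ((∫ s in (0 : ℝ)..(eP q T (tgt η C A0 A V1 e) u N), A s) + C * A0)) ≤
        η * (V2 - (yr η C A0 + 3 * C * A0)) := by linarith
    have h4 := le_of_mul_le_mul_left h3 hη
    linarith
  · have h3 : η * (V1 + V2 - ((∫ s in (0 : ℝ)..(eP q T (tgt η C A0 A V1 e) u N), A s) + C * A0)) ≤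
        η * (V2 - (yr η C A0 + 4 * C * A0)) := by
      rw [hm] at h1
      linarith
    have h4 := le_of_mul_le_mul_left h3 hη
    linarith

theorem half_supp {e : ℝ → ℝ} (he : Dom η C A0 T A V1 e)
    (hm : (∫ t in (0 : ℝ)..T, e t) = η * (V1 - (yr η C A0 + 4 * C * A0)))
    {t : ℝ} (ht : 0 ≤ t) (htT : t ≤ T)
    (hM : (∫ s in (0 : ℝ)..t, A s) ≤ V1 + (yr η C A0 + 3 * C * A0)) :
    eM q T (tgt η C A0 A V1 e) u N t = 0 := by
  have ha := Dom.target H he
  have hP := fun i hi => (b5b_peaks H he N le_rfl i hi).1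
  have hinv := evo_inv H.hq ha H.hu (n := N) fun j hj => hP j hj.le
  have h1 := (half_peaks H he).2.2 hm
  set a := tgt η C A0 A V1 e with hadef
  set p := eP q T a u N with hp
  have hpT : p ≤ T := by
    have : p ≤ T - 1 := hP N le_rfl
    linarith only [this]
  have htp : t ≤ p := by
    by_contra hc
    rw [not_le] at hc
    have h2 := b5b_M_ge H hc.le
    have h3 : 0 < A0 * (t - p) := mul_pos (b5b_A0 H) (by linarith)
    linarith
  rcases htp.lt_or_eq with h | h
  · exact hinv.zero t ht h htT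
  · have hp0 : 0 < p := by
      apply b5b_lt_of_M H
      rw [b5b_M_zero H]
      have := b5b_yr H
      have := b5b_CA0 H
      have := H.hV1
      (clear he hm t ht htT hM ha hP hadef hinv hp hpT htp h; linarith)
    rw [h]
    have hcl : IsClosed {s : ℝ | eM q T a u N s = 0} :=
      isClosed_eq hinv.cont continuous_const
    have hsub : Set.Ioo 0 p ⊆ {s : ℝ | eM q T a u N s = 0} := fun s hs =>
      hinv.zero s hs.1.le hs.2 (hs.2.le.trans hpT)
    have h2 := hcl.closure_subset_iff.2 hsub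
    rw [closure_Ioo hp0.ne] at h2
    exact h2 ⟨hp0.le, le_rfl⟩

end

end Vale.Agent.P209.Strong
end
end
end
end

section

section

section

section

namespace Vale.Agent.P209.Strong

open MeasureTheory

/-! B5. The final residual is an admissible perturbation. -/

section
variable {q : ℕ} {δ ρ C η A0 T : ℝ} {A : ℝ → ℝ} {V1 V2 : ℝ} {u : ℕ → ℝ} {N NJ : ℕ}
  (H : HD q δ ρ C η A0 T A V1 V2 u N NJ)
include H

theorem b5_A0 : 8 ≤ η * A0 ∧ 0 < A0 := by
  have h1 := H.hA0
  have h2 : (1 : ℝ) ≤ q := by exact_mod_cast H.hq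
  have h3 : 8 ≤ η * A0 := by linarith
  refine ⟨h3, ?_⟩
  by_contra h
  have := mul_nonpos_of_nonneg_of_nonpos H.hη.le (not_lt.1 h)
  linarith

theorem b5_yr : 0 ≤ yr η C A0 := by
  have h1 := (b5_A0 H).2
  have h2 := H.hη
  unfold yr
  positivity

theorem b5_eta : η ≤ 1 / 128 := by
  have h1 := H.hη1
  have h2 := H.hC
  have h3 := H.hη
  nlinarith only [h1, h2]

theorem b5_M {t t' : ℝ} (h : t ≤ t') :
    (∫ s in (0 : ℝ)..t, A s) + A0 * (t' - t) ≤ ∫ s in (0 : ℝ)..t', A s ∧
    (∫ s in (0 : ℝ)..t', A s) ≤ (∫ s in (0 : ℝ)..t, A s) + C * A0 * (t' - t) := by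
  have hi : ∀ x y : ℝ, IntervalIntegrable A volume x y := fun x y => H.cA.intervalIntegrable x y
  have h1 := intervalIntegral.integral_add_adjacent_intervals (hi 0 t) (hi t t')
  have h2 : (∫ s in t..t', A0) ≤ ∫ s in t..t', A s :=
    intervalIntegral.integral_mono_on h (by simp) (hi t t') fun x _ => H.loA x
  have h3 : (∫ s in t..t', A s) ≤ ∫ s in t..t', C * A0 :=
    intervalIntegral.integral_mono_on h (hi t t') (by simp) fun x _ => H.hiA x
  rw [intervalIntegral.integral_const, smul_eq_mul] at h2 h3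
  constructor <;> linarith

theorem b5_rev (s : ℝ) : ∫ x in (0 : ℝ)..s, A (T - x) = V1 + V2 - ∫ x in (0 : ℝ)..(T - s), A x := by
  have hi : ∀ x y : ℝ, IntervalIntegrable A volume x y := fun x y => H.cA.intervalIntegrable x y
  rw [intervalIntegral.integral_comp_sub_left (fun x => A x) T, sub_zero, ← H.int,
    ← intervalIntegral.integral_add_adjacent_intervals (hi 0 (T - s)) (hi (T - s) T)]
  ring

theorem b5_chi (s : ℝ) :
    chi η C A0 (fun s => A (T - s)) V2 s = 1 - chi η C A0 A V1 (T - s) := by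
  unfold chi
  rw [b5_rev H s]
  have h1 := hh_add_neg H ((∫ x in (0 : ℝ)..(T - s), A x) - V1)
  have h2 : V1 + V2 - (∫ x in (0 : ℝ)..(T - s), A x) - V2 =
    -((∫ x in (0 : ℝ)..(T - s), A x) - V1) := by ring
  rw [h2]
  linarith

theorem b5_flat {e : ℝ → ℝ} (he : Dom η C A0 T A V1 e) {t : ℝ} (ht : 0 ≤ t) (htT : t ≤ T)
    (hM : V1 + yr η C A0 ≤ ∫ s in (0 : ℝ)..t, A s) :
    tgt η C A0 A V1 e t = η * A t := by
  have h1 := (b5_A0 H).2
  have h2 := b5_yr H
  have h3 := H.hC
  have h4 : e t = 0 := by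
    refine he.supp t ht htT ?_
    linarith [mul_nonneg (le_of_lt (sub_pos.2 h1)) (sub_nonneg.2 h3), h2, h1, hM]
  unfold tgt chi
  rw [hh_flat H (by linarith), h4, add_zero]

theorem b5_zero {e : ℝ → ℝ} (he : Dom η C A0 T A V1 e) {t : ℝ} (ht : 0 ≤ t) (htT : t ≤ T)
    (htb : t ≤ eP q T (tgt η C A0 A V1 e) u N) : eM q T (tgt η C A0 A V1 e) u N t = 0 := by
  obtain ⟨hP, hb, -⟩ := half_peaks H he
  have hI := evo_inv H.hq (he.target H) H.hu (n := N) fun i hi => hP i hi.le
  set b := eP q T (tgt η C A0 A V1 e) u N with hbdef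
  rcases lt_or_eq_of_le htb with h | h
  · exact hI.zero t ht h htT
  · -- continuity at `b`
    have hb0 : 0 < t := by
      by_contra hc
      have h0 : t = 0 := le_antisymm (not_lt.1 hc) ht
      rw [← h, h0, intervalIntegral.integral_same] at hb
      have h1 := (b5_A0 H).2
      have h2 := b5_yr H
      have h3 := H.hC
      have h4 := H.hV1
      nlinarith only [hb, h2, h4, h3, h1]
    have hc : Filter.Tendsto (eM q T (tgt η C A0 A V1 e) u N) (nhdsWithin t (Set.Iio t))
        (nhds (eM q T (tgt η C A0 A V1 e) u N t)) := hI.cont.continuousAt.tendsto.mono_left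
      nhdsWithin_le_nhds
    have hz : Filter.Tendsto (eM q T (tgt η C A0 A V1 e) u N) (nhdsWithin t (Set.Iio t))
        (nhds 0) := by
      refine tendsto_const_nhds.congr' ?_
      have : Set.Ioo 0 t ∈ nhdsWithin t (Set.Iio t) := Ioo_mem_nhdsLT hb0
      filter_upwards [this] with x hx
      exact (hI.zero x hx.1.le (hx.2.trans_le htb) (hx.2.le.trans htT)).symm
    exact tendsto_nhds_unique hc hz

theorem b5_b {e : ℝ → ℝ} (he : Dom η C A0 T A V1 e) :
    3 / 2 ≤ eP q T (tgt η C A0 A V1 e) u N ∧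
      eP q T (tgt η C A0 A V1 e) u N + 1 ≤ T ∧
      ∀ t, eP q T (tgt η C A0 A V1 e) u N - 3 / 2 ≤ t → t ≤ T →
        tgt η C A0 A V1 e t = η * A t := by
  obtain ⟨hP, hb, -⟩ := half_peaks H he
  set b := eP q T (tgt η C A0 A V1 e) u N with hbdef
  have h1 := (b5_A0 H).2
  have h2 := b5_yr H
  have h3 := H.hC
  have h4 := H.hV1
  have h5 : 0 < C * A0 := mul_pos (lt_of_lt_of_le one_pos h3) h1
  have hb32 : 3 / 2 ≤ b := by
    by_contra hc
    rw [not_le] at hc
    rcases le_total 0 b with h0 | h0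
    · have h6 := (b5_M H h0).2
      rw [intervalIntegral.integral_same] at h6
      nlinarith only [hb, h2, h4, h5, h6, hc]
    · have h6 := (b5_M H h0).1
      rw [intervalIntegral.integral_same] at h6
      linarith [mul_pos (sub_pos.2 h1) (sub_pos.2 hc), mul_nonneg (le_of_lt (sub_pos.2 h1)) (sub_nonneg.2 h3), h1, h6, h4, h2, hb]
  have hbT := hP N le_rfl
  refine ⟨hb32, by linarith only [hbT], fun t ht htT => ?_⟩
  refine b5_flat H he (by linarith only [hb32, ht]) htT ?_
  rcases le_total t b with h0 | h0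
  · have h6 := (b5_M H h0).2
    linarith only [mul_nonneg (le_of_lt (sub_pos.2 h5)) (sub_nonneg.2 ht), h6, h5, hb]
  · have h6 := (b5_M H h0).1
    linarith only [mul_nonneg (le_of_lt (sub_pos.2 h1)) (sub_nonneg.2 ht), mul_nonneg (le_of_lt (sub_pos.2 h1)) (sub_nonneg.2 h3), h1, h6, hb]

/-- volume of the balls whose peak is in the last unit of time -/
theorem b5_vol {e : ℝ → ℝ} (he : Dom η C A0 T A V1 e) {F : Finset ℕ} (hF : F ⊆ Finset.range N)
    (hFb : ∀ j ∈ F, eP q T (tgt η C A0 A V1 e) u N - 1 ≤ eP q T (tgt η C A0 A V1 e) u (j + 1))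
    (hFδ : ∀ j ∈ F, δ ≤ u j) :
    (F.card : ℝ) * (δ ^ (q + 1) / (q + 1)) ≤ 5 / 2 * (η * (C * A0)) := by
  classical
  obtain ⟨hP, -, -⟩ := half_peaks H he
  obtain ⟨hb1, hb2, hflat⟩ := b5_b H he
  have hT := he.target H
  have hA0 := (b5_A0 H).2
  have hmono := fun (j : ℕ) (hj : j < N) =>
    eP_mono H.hq hT H.hu (n := N) (fun i hi => hP i hi.le) (i := j + 1) (j := N) hj le_rfl
  have hI := evo_inv H.hq hT H.hu (n := N) fun i hi => hP i hi.le
  have heq := fun (t : ℝ) (h0 : 0 ≤ t) (h1 : t ≤ T) =>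
    eM_eq H.hq hT H.hu (n := N) (fun i hi => hP i hi.le) h0 h1
  have hinv : ∀ j, j < N → Inv q T (tgt η C A0 A V1 e) (eM q T (tgt η C A0 A V1 e) u j)
      (eP q T (tgt η C A0 A V1 e) u j) :=
    fun j hj => evo_inv H.hq hT H.hu (n := j) fun i hi => hP i (by omega)
  have hvnn : ∀ j, j < N → ∀ t, 0 ≤ ev q T (tgt η C A0 A V1 e) u j t := fun j hj t =>
    vf_nonneg H.hq hT (hinv j hj) (hP j hj.le) (H.hu j).1 (H.hu j).2 t
  have hcont : ∀ j, Continuous (ev q T (tgt η C A0 A V1 e) u j) := by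
    intro j
    have h1 := ev_continuous (Θ := Unit) q (T := fun _ => T) (a := fun _ => tgt η C A0 A V1 e)
      (u := fun i _ => u i) continuous_const (hT.cont.comp continuous_snd)
      (fun _ => continuous_const) j
    exact h1.comp (Continuous.prodMk continuous_const continuous_id : Continuous fun t : ℝ => ((), t))
  set b := eP q T (tgt η C A0 A V1 e) u N with hbdef
  set a := tgt η C A0 A V1 e with hadef
  have hq0 : q ≠ 0 := by have := H.hq; omega
  -- supports
  have hsupp : ∀ j ∈ F, ∀ t, 0 ≤ t → t ≤ T → (t < b - 3 / 2 ∨ b + 1 < t) →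
      ev q T a u j t ^ q = 0 := by
    intro j hj t h0 h1 h2
    have hjN := Finset.mem_range.1 (hF hj)
    have h3 : ev q T a u j t = 0 := by
      by_contra hne
      have hpos : 0 < vf q T (eM q T a u j) (eP q T a u j) (u j) t :=
        lt_of_le_of_ne (hvnn j hjN t) (Ne.symm hne)
      obtain ⟨h4, h5⟩ := vf_support H.hq hT (hinv j hjN) (hP j hjN.le) (H.hu j).1 (H.hu j).2 h0 h1
        hpos
      have h6 : Wf q T (eM q T a u j) (eP q T a u j) (u j) = eP q T a u (j + 1) := rfl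
      rw [h6] at h4 h5
      have h7 := hFb j hj
      have h8 := hmono j hjN
      rcases h2 with h2 | h2 <;> linarith only [h4, h7, h2, h5, h8]
    rw [h3, zero_pow hq0]
  -- integrals
  have hint : ∀ j ∈ F, ∫ t in (0 : ℝ)..T, ev q T a u j t ^ q = u j ^ (q + 1) / (q + 1) := by
    intro j hj
    have hjN := Finset.mem_range.1 (hF hj)
    exact vf_integral H.hq hT (hinv j hjN) (hP j hjN.le) (H.hu j).1 (H.hu j).2 (hP (j + 1) hjN)
  have hSc : Continuous fun t => ∑ j ∈ F, ev q T a u j t ^ q :=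
    continuous_finsetSum _ fun j _ => (hcont j).pow q
  have hSi : ∀ x y : ℝ, IntervalIntegrable (fun t => ∑ j ∈ F, ev q T a u j t ^ q) volume x y :=
    fun x y => hSc.intervalIntegrable x y
  have hsum : ∫ t in (0 : ℝ)..T, ∑ j ∈ F, ev q T a u j t ^ q =
      ∑ j ∈ F, u j ^ (q + 1) / (q + 1) := by
    have hii : ∀ j ∈ F, IntervalIntegrable (fun t => ev q T a u j t ^ q) volume 0 T :=
      fun j _ => ((hcont j).pow q).intervalIntegrable _ _
    rw [intervalIntegral.integral_finset_sum hii]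
    exact Finset.sum_congr rfl hint
  have hp1 : ∫ t in (0 : ℝ)..(b - 3 / 2), ∑ j ∈ F, ev q T a u j t ^ q ≤
      ∫ t in (0 : ℝ)..(b - 3 / 2), (0 : ℝ) := by
    refine intervalIntegral.integral_mono_on_of_le_Ioo (by linarith only [hb1]) (hSi _ _) (by simp) ?_
    intro t ht
    exact (Finset.sum_eq_zero fun j hj => hsupp j hj t ht.1.le (by linarith only [hb2, ht.2])
      (Or.inl ht.2)).le
  have hp3 : ∫ t in (b + 1)..T, ∑ j ∈ F, ev q T a u j t ^ q ≤ ∫ t in (b + 1)..T, (0 : ℝ) := by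
    refine intervalIntegral.integral_mono_on_of_le_Ioo (by linarith only [hb2]) (hSi _ _) (by simp) ?_
    intro t ht
    exact (Finset.sum_eq_zero fun j hj => hsupp j hj t (by linarith only [hb1, ht.1]) ht.2.le
      (Or.inr ht.1)).le
  have hp2 : ∫ t in (b - 3 / 2)..(b + 1), ∑ j ∈ F, ev q T a u j t ^ q ≤
      ∫ t in (b - 3 / 2)..(b + 1), η * (C * A0) := by
    refine intervalIntegral.integral_mono_on (by linarith only []) (hSi _ _) (by simp) ?_
    intro t ht
    have h0 : 0 ≤ t := by linarith only [hb1, ht.1]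
    have h1 : t ≤ T := by linarith only [hb2, ht.2]
    have h2 := heq t h0 h1
    have h3 := hI.nn t h0 h1
    have h4 : ∑ j ∈ F, ev q T a u j t ^ q ≤ ∑ j ∈ Finset.range N, ev q T a u j t ^ q :=
      Finset.sum_le_sum_of_subset_of_nonneg hF fun j hj _ =>
        pow_nonneg (hvnn j (Finset.mem_range.1 hj) t) q
    have h5 := hflat t ht.1 h1
    have h6 := mul_le_mul_of_nonneg_left (H.hiA t) H.hη.le
    linarith only [h2, h3, h4, h5, h6]
  have hsplit : ∫ t in (0 : ℝ)..T, ∑ j ∈ F, ev q T a u j t ^ q =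
      (∫ t in (0 : ℝ)..(b - 3 / 2), ∑ j ∈ F, ev q T a u j t ^ q) +
      (∫ t in (b - 3 / 2)..(b + 1), ∑ j ∈ F, ev q T a u j t ^ q) +
      ∫ t in (b + 1)..T, ∑ j ∈ F, ev q T a u j t ^ q := by
    rw [intervalIntegral.integral_add_adjacent_intervals (hSi _ _) (hSi _ _),
      intervalIntegral.integral_add_adjacent_intervals (hSi _ _) (hSi _ _)]
  rw [intervalIntegral.integral_const, smul_eq_mul] at hp2
  rw [intervalIntegral.integral_zero] at hp1 hp3
  have hlow : (F.card : ℝ) * (δ ^ (q + 1) / (q + 1)) ≤ ∑ j ∈ F, u j ^ (q + 1) / (q + 1) := by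
    rw [← nsmul_eq_mul]
    refine Finset.card_nsmul_le_sum _ _ _ fun j hj => ?_
    exact div_le_div_of_nonneg_right (pow_le_pow_left₀ H.hδ.le (hFδ j hj) _) (by positivity)
  have h7 : b + 1 - (b - 3 / 2) = 5 / 2 := by ring
  rw [h7] at hp2
  linarith only [hsum, hp1, hp3, hp2, hsplit, hlow]

theorem b5_count {e : ℝ → ℝ} (he : Dom η C A0 T A V1 e) :
    2 * q * (((Finset.range N).filter (fun j => 0 < u j ∧
      eP q T (tgt η C A0 A V1 e) u N - 1 ≤ eP q T (tgt η C A0 A V1 e) u (j + 1))).card : ℝ) ≤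
        A0 / 109 := by
  classical
  obtain ⟨hP, -, -⟩ := half_peaks H he
  obtain ⟨hb1, hb2, hflat⟩ := b5_b H he
  have hT := he.target H
  have hA0 := (b5_A0 H).2
  have hA8 := (b5_A0 H).1
  have hη := b5_eta H
  have hq1 : (1 : ℝ) ≤ q := by exact_mod_cast H.hq
  set F := (Finset.range N).filter (fun j => 0 < u j ∧
      eP q T (tgt η C A0 A V1 e) u N - 1 ≤ eP q T (tgt η C A0 A V1 e) u (j + 1)) with hFdef
  by_cases hne : F = ∅
  · rw [hne]; simp only [Finset.card_empty, CharP.cast_eq_zero, mul_zero, ge_iff_le]; positivity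
  obtain ⟨j0, hj0⟩ := Finset.nonempty_iff_ne_empty.2 hne
  have hex : ∃ j, j < N ∧
      eP q T (tgt η C A0 A V1 e) u N - 1 ≤ eP q T (tgt η C A0 A V1 e) u (j + 1) := by
    have h := Finset.mem_filter.1 hj0
    exact ⟨j0, Finset.mem_range.1 h.1, h.2.2⟩
  obtain ⟨hs1, hs2⟩ := Nat.find_spec hex
  have hs3 : ∀ j, j < N →
      eP q T (tgt η C A0 A V1 e) u N - 1 ≤ eP q T (tgt η C A0 A V1 e) u (j + 1) →
      Nat.find hex ≤ j := fun j h1 h2 => Nat.find_min' hex ⟨h1, h2⟩
  set s := Nat.find hex with hsdef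
  have hNJ : NJ ≤ s := by
    by_contra hc
    rw [not_le] at hc
    have h0 : eP q T (tgt η C A0 A V1 e) u (s + 1) = 0 := by
      refine eP_eq_zero H.hq hT H.hu (k := NJ) (by (clear * - hb1 hb2; linarith)) ?_ hc
      have h1 : ∑ j ∈ Finset.range NJ, u j ^ q ≤ ∑ j ∈ Finset.range NJ, u j := by
        refine Finset.sum_le_sum fun j _ => ?_
        calc u j ^ q ≤ u j ^ 1 := pow_le_pow_of_le_one (H.hu j).1 (H.hu j).2 H.hq
          _ = u j := pow_one _
      have h2 := H.tail
      have h3 : (1 - η) * A 0 ≤ tgt η C A0 A V1 e 0 := by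
        unfold tgt chi
        rw [intervalIntegral.integral_same, zero_sub]
        have h4 := hh_add_neg H V1
        have h5 : hh η C A0 V1 = η := by
          refine hh_flat H ?_
          have := H.hV1
          have := H.hC
          (clear e he hP hb1 hb2 hflat hT hq1 F hFdef hne j0 hj0 hex s hs1 hs2 hs3 hsdef hc h1 h2 h4; nlinarith)
        have h6 : hh η C A0 (-V1) = 1 - η := by linarith only [h4, h5]
        rw [h6]
        have h7 : 0 ≤ T := by linarith only [hb1, hb2]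
        linarith only [he.nn 0 le_rfl h7]
      have h4 : (1 - η) * A0 ≤ (1 - η) * A 0 :=
        mul_le_mul_of_nonneg_left (H.loA 0) (by linarith only [hη])
      nlinarith only [hA8, h1, h2, h3, h4, hA0, hη]
    rw [h0] at hs2
    linarith only [hb1, hs2]
  have hcard : (F.card : ℝ) ≤
      (((Finset.range N).filter (fun i => s ≤ i ∧ 0 < u i)).card : ℝ) := by
    refine Nat.cast_le.2 (Finset.card_le_card ?_)
    intro j hj
    have h := Finset.mem_filter.1 hj
    exact Finset.mem_filter.2 ⟨h.1, hs3 j (Finset.mem_range.1 h.1) h.2.2, h.2.1⟩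
  have hsuf := H.suf s hNJ
  have hvol := b5_vol H he (F := (Finset.range N).filter (fun i => s ≤ i ∧ δ ≤ u i))
    (Finset.filter_subset _ _) (by
      intro j hj
      have h := Finset.mem_filter.1 hj
      refine hs2.trans ?_
      exact eP_mono H.hq hT H.hu (n := N) (fun i hi => hP i hi.le) (i := s + 1) (j := j + 1)
        (by omega) (Finset.mem_range.1 h.1)) (fun j hj => (Finset.mem_filter.1 hj).2.2)
  set n2 := (((Finset.range N).filter (fun i => s ≤ i ∧ δ ≤ u i)).card : ℝ) with hn2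
  have hn20 : 0 ≤ n2 := Nat.cast_nonneg _
  have hC := H.hC
  have hρ := H.hρ
  have hη0 := H.hη
  -- ρ n2 ≤ A0 / (480 q)
  have h1 : n2 * δ ^ (q + 1) ≤ 5 / 2 * (η * (C * A0)) * (q + 1) := by
    have h2 : n2 * (δ ^ (q + 1) / (q + 1)) * (q + 1) = n2 * δ ^ (q + 1) := by
      (clear * - hq1; field_simp)
    rw [← h2]
    exact mul_le_mul_of_nonneg_right hvol (by (clear * - hq1; positivity))
  have h2 : n2 * (η * (1200 * q * (q + 1) * ρ * C)) ≤ n2 * δ ^ (q + 1) :=
    mul_le_mul_of_nonneg_left H.hη2 hn20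
  have h3 : (η * C * (q + 1)) * (480 * q * (ρ * n2)) ≤ (η * C * (q + 1)) * A0 := by
    have e1 : (η * C * (q + 1)) * (480 * q * (ρ * n2)) =
      2 / 5 * (n2 * (η * (1200 * q * (q + 1) * ρ * C))) := by ring
    have e2 : (η * C * (q + 1)) * A0 = 2 / 5 * (5 / 2 * (η * (C * A0)) * (q + 1)) := by ring
    rw [e1, e2]
    linarith only [h2, h1]
  have h4 : 480 * q * (ρ * n2) ≤ A0 := le_of_mul_le_mul_left h3 (by (clear * - hη0 hC hq1; positivity))
  have h5 : (q : ℝ) * (A0 / (400 * q)) = A0 / 400 := by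
    (clear * - hq1 hA0; field_simp)
  have h6 : (q : ℝ) * F.card ≤ q * (ρ * n2 + A0 / (400 * q)) :=
    mul_le_mul_of_nonneg_left (hcard.trans hsuf) (by linarith only [])
  rw [mul_add, h5] at h6
  linarith only [hA0, h4, h6]

theorem b5_slope {e : ℝ → ℝ} (he : Dom η C A0 T A V1 e) {t t' : ℝ}
    (ht : eP q T (tgt η C A0 A V1 e) u N ≤ t) (htt : t ≤ t') (htT : t' ≤ T) :
    |eM q T (tgt η C A0 A V1 e) u N t' - eM q T (tgt η C A0 A V1 e) u N t| ≤
      A0 / 64 * (t' - t) := by
  obtain ⟨hP, -, -⟩ := half_peaks H he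
  obtain ⟨hb1, hb2, hflat⟩ := b5_b H he
  have hT := he.target H
  have hA0 := (b5_A0 H).2
  have hη := b5_eta H
  obtain ⟨h1, h2⟩ := eM_slope H.hq hT H.hu (n := N) (fun i hi => hP i hi.le) ht htt htT
  have h3 := b5_count H he
  rw [hflat t (by linarith only [ht]) (by linarith only [htt, htT]), hflat t' (by linarith only [ht, htt]) htT] at h1 h2
  have h4 := H.lipA t' t
  rw [abs_of_nonneg (by linarith only [htt] : (0 : ℝ) ≤ t' - t)] at h4
  have h5 : |η * A t' - η * A t| ≤ A0 / 256 * (t' - t) := by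
    rw [← mul_sub, abs_mul, abs_of_pos H.hη]
    have h6 := mul_le_mul_of_nonneg_left h4 H.hη.le
    have h7 : 0 ≤ A0 / 256 * (t' - t) := mul_nonneg (by positivity) (by linarith only [htt])
    linarith only [mul_nonneg (sub_nonneg.2 h7) (sub_nonneg.2 hη), mul_nonneg (mul_self_nonneg (1 : ℝ)) (sub_nonneg.2 h7), mul_nonneg (mul_self_nonneg (1 : ℝ)) (sub_nonneg.2 h6)]
  have h6 : 2 * q * (t' - t) * (((Finset.range N).filter (fun j => 0 < u j ∧
      eP q T (tgt η C A0 A V1 e) u N - 1 ≤ eP q T (tgt η C A0 A V1 e) u (j + 1))).card : ℝ) ≤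
        A0 / 109 * (t' - t) := by
    have h7 := mul_le_mul_of_nonneg_right h3 (by linarith only [htt] : (0 : ℝ) ≤ t' - t)
    linarith only [h7]
  have h7 : 0 ≤ A0 * (t' - t) := mul_nonneg hA0.le (by linarith only [htt])
  rw [abs_le] at h5 ⊢
  constructor <;> linarith only [h1, h5, h2, h6]

/-- The final residual, as a function of reversed time, is an admissible perturbation for the
R-balls. -/
theorem half_dom {e : ℝ → ℝ} (he : Dom η C A0 T A V1 e) :
    Dom η C A0 T (fun s => A (T - s)) V2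
      (fun s => eM q T (tgt η C A0 A V1 e) u N (T - s)) := by
  obtain ⟨hP, hb, -⟩ := half_peaks H he
  obtain ⟨hb1, hb2, hflat⟩ := b5_b H he
  have hT := he.target H
  have hA0 := (b5_A0 H).2
  have hη := b5_eta H
  have hI := evo_inv H.hq hT H.hu (n := N) fun i hi => hP i hi.le
  have hbz : eM q T (tgt η C A0 A V1 e) u N (eP q T (tgt η C A0 A V1 e) u N) = 0 :=
    b5_zero H he (by linarith only [hb1]) (by linarith only [hb2]) le_rfl
  have hlip : ∀ t t', 0 ≤ t → t ≤ t' → t' ≤ T →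
      |eM q T (tgt η C A0 A V1 e) u N t' - eM q T (tgt η C A0 A V1 e) u N t| ≤
        A0 / 64 * (t' - t) := by
    intro t t' h0 h1 h2
    rcases le_total t' (eP q T (tgt η C A0 A V1 e) u N) with h3 | h3
    · rw [b5_zero H he h0 (h1.trans h2) (h1.trans h3), b5_zero H he (h0.trans h1) h2 h3, sub_zero,
        abs_zero]
      exact mul_nonneg (by positivity) (by linarith only [h1])
    · rcases le_total t (eP q T (tgt η C A0 A V1 e) u N) with h4 | h4
      · rw [b5_zero H he h0 (h1.trans h2) h4, ← hbz]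
        refine (b5_slope H he le_rfl h3 h2).trans ?_
        exact mul_le_mul_of_nonneg_left (by linarith only [h4]) (by positivity)
      · exact b5_slope H he h4 h1 h2
  have hrev : ∫ s in (0 : ℝ)..T, eM q T (tgt η C A0 A V1 e) u N (T - s) =
      (∫ t in (0 : ℝ)..T, e t) + η * (V2 - V1) := by
    rw [intervalIntegral.integral_comp_sub_left (fun x => eM q T (tgt η C A0 A V1 e) u N x) T,
      sub_self, sub_zero]
    exact half_mass H he
  refine ⟨?_, ?_, ?_, ?_, ?_, ?_, ?_⟩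
  · exact hI.cont.comp (by fun_prop)
  · intro t h0 h1
    exact hI.nn (T - t) (by linarith only [h1]) (by linarith only [h0])
  · intro s h0 h1
    rw [b5_chi H s, sub_sub_cancel]
    have hchi : 0 ≤ chi η C A0 A V1 (T - s) := H.hη.le.trans (le_max_left _ _)
    have hA : 0 ≤ A (T - s) := hA0.le.trans (H.loA _)
    rcases le_total (T - s) (eP q T (tgt η C A0 A V1 e) u N) with h3 | h3
    · rw [b5_zero H he (by linarith only [h1]) (by linarith only [hb2, h3]) h3]
      exact mul_nonneg hchi hA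
    · have h4 := hI.le (T - s) (by linarith only [h1]) (by linarith only [h0])
      have h5 : e (T - s) = 0 := by
        refine he.supp _ (by linarith only [h1]) (by linarith only [h0]) ?_
        have h6 := (b5_M H h3).1
        have h7 := b5_yr H
        have h8 := H.hC
        have h9 : 0 ≤ A0 * (T - s - eP q T (tgt η C A0 A V1 e) u N) :=
          mul_nonneg hA0.le (by linarith only [h3])
        linarith only [mul_nonneg (le_of_lt (sub_pos.2 hA0)) (sub_nonneg.2 h8), h9, h7, h6, hA0, hb]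
      unfold tgt at h4 ⊢
      rw [h5, add_zero] at h4
      exact h4
  · intro s s' h0 h1 h0' h1'
    rcases le_total s s' with h | h
    · have := hlip (T - s') (T - s) (by linarith only [h1']) (by linarith only [h]) (by linarith only [h0])
      rw [abs_of_nonpos (by linarith only [h] : s - s' ≤ 0)]
      refine this.trans (le_of_eq ?_)
      ring
    · have := hlip (T - s) (T - s') (by linarith only [h1]) (by linarith only [h]) (by linarith only [h0'])
      rw [abs_sub_comm, abs_of_nonneg (by linarith only [h] : 0 ≤ s - s')]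
      refine this.trans (le_of_eq ?_)
      ring
  · intro s h0 h1 hs
    rw [b5_rev H s] at hs
    refine b5_zero H he (by linarith only [h1]) (by linarith only [h0]) ?_
    by_contra hc
    rw [not_le] at hc
    have h6 := (b5_M H hc.le).1
    have h7 : 0 < A0 * (T - s - eP q T (tgt η C A0 A V1 e) u N) :=
      mul_pos hA0 (by linarith only [hc])
    linarith only [hb, hs, h6, h7]
  · rw [hrev]
    have := he.massLo
    linarith only [this]
  · rw [hrev]
    have := he.massHi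
    linarith only [this]

end

end Vale.Agent.P209.Strong
end
end
end
end

section

section

section

section

namespace Vale.Agent.P209.Strong

open MeasureTheory

/-! B6. The loop map and its approximate fixed points. -/

/-- half of the loop, followed by time reversal -/
noncomputable def halfMap (q : ℕ) (C η A0 T : ℝ) (A : ℝ → ℝ) (V1 : ℝ) (u : ℕ → ℝ) (N : ℕ)
    (e : ℝ → ℝ) : ℝ → ℝ := fun s => eM q T (tgt η C A0 A V1 e) u N (T - s)

/-- the loop map -/
noncomputable def loopMap (q : ℕ) (C η A0 T : ℝ) (A : ℝ → ℝ) (V1 V2 : ℝ) (uL uR : ℕ → ℝ)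
    (NL NR : ℕ) (e : ℝ → ℝ) : ℝ → ℝ :=
  halfMap q C η A0 T (fun s => A (T - s)) V2 uR NR (halfMap q C η A0 T A V1 uL NL e)

/-- the initial perturbation -/
noncomputable def e0 (C η A0 : ℝ) (A : ℝ → ℝ) (V1 : ℝ) (t : ℝ) : ℝ :=
  η * A t * max 0 (min 1 (1 / 2 +
    (V1 - (∫ s in (0 : ℝ)..t, A s) - (yr η C A0 + 4 * C * A0)) / (C * A0)))

/-- the iteration -/
noncomputable def itr (q : ℕ) (C η A0 T : ℝ) (A : ℝ → ℝ) (V1 V2 : ℝ) (uL uR : ℕ → ℝ)
    (NL NR : ℕ) (κ : ℝ) : ℕ → ℝ → ℝ
  | 0 => e0 C η A0 A V1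
  | k + 1 => fun t =>
    (1 - κ) * loopMap q C η A0 T A V1 V2 uL uR NL NR (itr q C η A0 T A V1 V2 uL uR NL NR κ k) t +
      κ * e0 C η A0 A V1 t

/-- The exact class: mass exactly `η (V1 - yz)` and support in `M t ≤ V1 - y0`. -/
def DomE (C η A0 T : ℝ) (A : ℝ → ℝ) (V1 : ℝ) (e : ℝ → ℝ) : Prop :=
  Dom η C A0 T A V1 e ∧
  (∫ t in (0 : ℝ)..T, e t) = η * (V1 - (yr η C A0 + 4 * C * A0)) ∧
  ∀ t, 0 ≤ t → t ≤ T → V1 - (yr η C A0 + 3 * C * A0) ≤ (∫ s in (0 : ℝ)..t, A s) → e t = 0

/-- a ramp -/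
noncomputable def rmp (a h m : ℝ) : ℝ := max 0 (min 1 (1 / 2 + (a - m) / h))

theorem rmp_nonneg (a h m : ℝ) : 0 ≤ rmp a h m := le_max_left _ _

theorem rmp_le_one (a h m : ℝ) : rmp a h m ≤ 1 := max_le zero_le_one (min_le_left _ _)

theorem rmp_cont (a h : ℝ) : Continuous (rmp a h) := by
  unfold rmp
  fun_prop

theorem rmp_lip {a h : ℝ} (hh : 0 < h) (m m' : ℝ) :
    |rmp a h m - rmp a h m'| ≤ |m - m'| / h := by
  unfold rmp
  refine (abs_max_sub_max_le_max _ _ _ _).trans ?_
  rw [sub_self, abs_zero]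
  refine max_le (by positivity) ?_
  refine (abs_min_sub_min_le_max _ _ _ _).trans ?_
  rw [sub_self, abs_zero]
  refine max_le (by positivity) ?_
  have h1 : 1 / 2 + (a - m) / h - (1 / 2 + (a - m') / h) = -(m - m') / h := by
    field_simp
    ring
  rw [h1, abs_div, abs_neg, abs_of_pos hh]

theorem rmp_one {a h m : ℝ} (hh : 0 < h) (hm : m ≤ a - h / 2) : rmp a h m = 1 := by
  unfold rmp
  have h1 : 1 / 2 ≤ (a - m) / h := by
    rw [le_div_iff₀ hh]
    linarith
  rw [min_eq_left (by linarith only [h1]), max_eq_right zero_le_one]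

theorem rmp_zero {a h m : ℝ} (hh : 0 < h) (hm : a + h / 2 ≤ m) : rmp a h m = 0 := by
  unfold rmp
  have h1 : (a - m) / h ≤ -(1 / 2) := by
    rw [div_le_iff₀ hh]
    linarith
  rw [max_eq_left]
  exact (min_le_right _ _).trans (by linarith only [h1])

theorem rmp_mid {a h m : ℝ} (hh : 0 < h) (h1 : a - h / 2 ≤ m) (h2 : m ≤ a + h / 2) :
    rmp a h m = 1 / 2 + (a - m) / h := by
  unfold rmp
  have h3 : (a - m) / h ≤ 1 / 2 := by
    rw [div_le_iff₀ hh]
    linarith
  have h4 : -(1 / 2) ≤ (a - m) / h := by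
    rw [le_div_iff₀ hh]
    linarith only [h2]
  rw [min_eq_right (by linarith only [h3]), max_eq_right (by linarith only [h4])]

theorem rmp_integral {a h V : ℝ} (hh : 0 < h) (ha : h / 2 ≤ a) (hV : a + h / 2 ≤ V) :
    ∫ m in (0 : ℝ)..V, rmp a h m = a := by
  have hii : ∀ x y : ℝ, IntervalIntegrable (rmp a h) volume x y := fun x y =>
    (rmp_cont a h).intervalIntegrable x y
  rw [← intervalIntegral.integral_add_adjacent_intervals (hii 0 (a - h / 2)) (hii (a - h / 2) V),
    ← intervalIntegral.integral_add_adjacent_intervals (hii (a - h / 2) (a + h / 2))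
      (hii (a + h / 2) V)]
  have e1 : ∫ m in (0 : ℝ)..(a - h / 2), rmp a h m = a - h / 2 := by
    have : ∫ m in (0 : ℝ)..(a - h / 2), rmp a h m = ∫ _m in (0 : ℝ)..(a - h / 2), (1 : ℝ) := by
      refine intervalIntegral.integral_congr fun y hy => ?_
      rw [Set.uIcc_of_le (by linarith only [ha])] at hy
      exact rmp_one hh hy.2
    rw [this, intervalIntegral.integral_const, smul_eq_mul]
    ring
  have e2 : ∫ m in (a - h / 2)..(a + h / 2), rmp a h m = h / 2 := by
    have : ∫ m in (a - h / 2)..(a + h / 2), rmp a h m =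
        ∫ m in (a - h / 2)..(a + h / 2), ((1 / 2 + a / h) - m * (1 / h)) := by
      refine intervalIntegral.integral_congr fun y hy => ?_
      rw [Set.uIcc_of_le (by linarith only [hh])] at hy
      show rmp a h y = _
      rw [rmp_mid hh hy.1 hy.2]
      field_simp
      ring
    have hc : Continuous fun m : ℝ => m * (1 / h) := by fun_prop
    rw [this, intervalIntegral.integral_sub intervalIntegrable_const
      (hc.intervalIntegrable _ _),
      intervalIntegral.integral_const, intervalIntegral.integral_mul_const, integral_id,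
      smul_eq_mul]
    field_simp
    ring
  have e3 : ∫ m in (a + h / 2)..V, rmp a h m = 0 := by
    have : ∫ m in (a + h / 2)..V, rmp a h m = ∫ _m in (a + h / 2)..V, (0 : ℝ) := by
      refine intervalIntegral.integral_congr fun y hy => ?_
      rw [Set.uIcc_of_le hV] at hy
      exact rmp_zero hh hy.1
    rw [this]
    simp
  rw [e1, e2, e3]
  ring

theorem e0_eq (C η A0 : ℝ) (A : ℝ → ℝ) (V1 t : ℝ) : e0 C η A0 A V1 t =
    η * A t * rmp (V1 - (yr η C A0 + 4 * C * A0)) (C * A0) (∫ s in (0 : ℝ)..t, A s) := by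
  unfold e0 rmp
  congr 5
  ring

section
variable {q : ℕ} {δ ρ C η A0 T : ℝ} {A : ℝ → ℝ} {V1 V2 : ℝ} {uL uR : ℕ → ℝ} {NL NR NJ : ℕ}
  (HL : HD q δ ρ C η A0 T A V1 V2 uL NL NJ)
  (HR : HD q δ ρ C η A0 T (fun s => A (T - s)) V2 V1 uR NR 0)
include HL

theorem b6_cont_M : Continuous fun t => ∫ s in (0 : ℝ)..t, A s := by
  have h := (b5a_mass_cont HL).add (continuous_const (y := V1))
  refine h.congr fun t => ?_
  exact sub_add_cancel _ _

theorem b6_lip_M (t t' : ℝ) :
    |(∫ s in (0 : ℝ)..t, A s) - ∫ s in (0 : ℝ)..t', A s| ≤ C * A0 * |t - t'| := by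
  have hA := b5a_A0pos HL
  rcases le_total t t' with h | h
  · have h1 := b5a_mass_diff HL h
    rw [abs_sub_comm, abs_of_nonneg, abs_sub_comm, abs_of_nonneg (by linarith : 0 ≤ t' - t)]
    · exact h1.2
    · have : 0 ≤ A0 * (t' - t) := mul_nonneg hA.le (by linarith)
      linarith [h1.1]
  · have h1 := b5a_mass_diff HL h
    rw [abs_of_nonneg, abs_of_nonneg (by linarith : 0 ≤ t - t')]
    · exact h1.2
    · have : 0 ≤ A0 * (t - t') := mul_nonneg hA.le (by linarith)
      linarith [h1.1]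

include HR

theorem e0_domE : DomE C η A0 T A V1 (e0 C η A0 A V1) := by
  have hA := b5a_A0pos HL
  have hC := HL.hC
  have hη := HL.hη
  have hη1 := b5a_eta HL
  have hCA : 0 < C * A0 := mul_pos (by linarith only [hC]) hA
  have hyr : 0 ≤ yr η C A0 := b5_yr HL
  have hV1 := HL.hV1
  have hV2 := HL.hV2
  set a := V1 - (yr η C A0 + 4 * C * A0) with ha
  have heq : e0 C η A0 A V1 = fun t => η * A t * rmp a (C * A0) (∫ s in (0 : ℝ)..t, A s) :=
    funext fun t => e0_eq C η A0 A V1 t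
  have hAt : ∀ t, 0 < A t := fun t => lt_of_lt_of_le hA (HL.loA t)
  have hmass : (∫ t in (0 : ℝ)..T, e0 C η A0 A V1 t) = η * (V1 - (yr η C A0 + 4 * C * A0)) := by
    rw [heq]
    have h1 : ∫ t in (0 : ℝ)..T, η * A t * rmp a (C * A0) (∫ s in (0 : ℝ)..t, A s) =
        η * ∫ t in (0 : ℝ)..T, rmp a (C * A0) (∫ s in (0 : ℝ)..t, A s) * A t := by
      rw [← intervalIntegral.integral_const_mul]
      refine intervalIntegral.integral_congr fun t _ => ?_
      show η * A t * rmp a (C * A0) (∫ s in (0 : ℝ)..t, A s) =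
        η * (rmp a (C * A0) (∫ s in (0 : ℝ)..t, A s) * A t)
      ring
    have hd : ∀ t, HasDerivAt (fun t => ∫ s in (0 : ℝ)..t, A s) (A t) t := by
      intro t
      exact intervalIntegral.integral_hasDerivAt_right (HL.cA.intervalIntegrable 0 t)
        (HL.cA.stronglyMeasurableAtFilter _ _) HL.cA.continuousAt
    have h2 := intervalIntegral.integral_comp_mul_deriv (a := 0) (b := T)
      (f := fun t => ∫ s in (0 : ℝ)..t, A s) (f' := A) (g := rmp a (C * A0))
      (fun x _ => hd x) HL.cA.continuousOn (rmp_cont a (C * A0))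
    have h3 : ∫ t in (0 : ℝ)..T, rmp a (C * A0) (∫ s in (0 : ℝ)..t, A s) * A t =
        ∫ m in (0 : ℝ)..(V1 + V2), rmp a (C * A0) m := by
      have e0' : (∫ s in (0 : ℝ)..0, A s) = 0 := by simp
      simp only [e0', HL.int] at h2
      exact h2
    rw [h1, h3, rmp_integral hCA (by linarith) (by linarith only [hV2, hyr, hCA])]
  have hzero : ∀ t, V1 - (yr η C A0 + 3 * C * A0) ≤ (∫ s in (0 : ℝ)..t, A s) →
      e0 C η A0 A V1 t = 0 := by
    intro t ht
    rw [e0_eq, rmp_zero hCA (by linarith only [ht, hCA]), mul_zero]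
  refine ⟨⟨?_, ?_, ?_, ?_, ?_, hmass.ge, ?_⟩, hmass, fun t _ _ h => hzero t h⟩
  · rw [heq]
    have h1 := (rmp_cont a (C * A0)).comp (b6_cont_M HL)
    exact (continuous_const.mul HL.cA).mul h1
  · intro t _ _
    rw [e0_eq]
    exact mul_nonneg (mul_nonneg hη.le (hAt t).le) (rmp_nonneg _ _ _)
  · intro t _ _
    rw [e0_eq]
    have h1 : η ≤ 1 - chi η C A0 A V1 t := by
      have h2 := hh_add_neg HL ((∫ s in (0 : ℝ)..t, A s) - V1)
      have h3 := b5a_hh_ge HL (-((∫ s in (0 : ℝ)..t, A s) - V1))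
      unfold chi
      linarith only [h2, h3]
    calc η * A t * rmp a (C * A0) (∫ s in (0 : ℝ)..t, A s) ≤ η * A t * 1 :=
          mul_le_mul_of_nonneg_left (rmp_le_one _ _ _) (mul_nonneg hη.le (hAt t).le)
      _ = η * A t := mul_one _
      _ ≤ (1 - chi η C A0 A V1 t) * A t := mul_le_mul_of_nonneg_right h1 (hAt t).le
  · intro t t' _ _ _ _
    rw [e0_eq, e0_eq]
    set ν := rmp a (C * A0) (∫ s in (0 : ℝ)..t, A s) with hν
    set ν' := rmp a (C * A0) (∫ s in (0 : ℝ)..t', A s) with hν'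
    have hνd : |ν - ν'| ≤ |t - t'| := by
      refine (rmp_lip hCA _ _).trans ?_
      rw [div_le_iff₀ hCA]
      refine (b6_lip_M HL t t').trans (le_of_eq ?_)
      ring
    have hν1 : |ν| ≤ 1 := by
      rw [abs_of_nonneg (rmp_nonneg _ _ _)]
      exact rmp_le_one _ _ _
    have hA1 : |A t'| ≤ C * A0 := by
      rw [abs_of_pos (hAt t')]
      exact HL.hiA t'
    have h1 : η * A t * ν - η * A t' * ν' = η * ((A t - A t') * ν + A t' * (ν - ν')) := by ring
    rw [h1, abs_mul, abs_of_pos hη]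
    have h2 : |(A t - A t') * ν + A t' * (ν - ν')| ≤ A0 / 256 * |t - t'| + C * A0 * |t - t'| := by
      refine (abs_add_le _ _).trans (add_le_add ?_ ?_)
      · rw [abs_mul]
        calc |A t - A t'| * |ν| ≤ |A t - A t'| * 1 := mul_le_mul_of_nonneg_left hν1 (abs_nonneg _)
          _ = |A t - A t'| := mul_one _
          _ ≤ _ := HL.lipA t t'
      · rw [abs_mul]
        exact mul_le_mul hA1 hνd (abs_nonneg _) hCA.le
    have h3 := mul_le_mul_of_nonneg_left h2 hη.le
    refine h3.trans ?_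
    have h4 : η * (C * A0) ≤ A0 / 128 := by
      have := HL.hη1
      linarith only [mul_nonneg (le_of_lt (sub_pos.2 hA)) (sub_nonneg.2 this)]
    have h5 : η * (A0 / 256) ≤ A0 / 256 := by
      have : 0 < A0 / 256 := by positivity
      nlinarith only [hA, hη1]
    have h6 := mul_le_mul_of_nonneg_right h4 (abs_nonneg (t - t'))
    have h7 := mul_le_mul_of_nonneg_right h5 (abs_nonneg (t - t'))
    have h8 : 0 ≤ A0 * |t - t'| := mul_nonneg hA.le (abs_nonneg _)
    linarith only [h8, h7, h6]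
  · intro t _ _ ht
    refine hzero t ?_
    nlinarith only [hCA, ht]
  · rw [hmass]
    refine mul_le_mul_of_nonneg_left ?_ hη.le
    nlinarith only [hCA]

theorem loopMap_mass {e : ℝ → ℝ} (he : Dom η C A0 T A V1 e) :
    Dom η C A0 T A V1 (loopMap q C η A0 T A V1 V2 uL uR NL NR e) ∧
    ∫ t in (0 : ℝ)..T, loopMap q C η A0 T A V1 V2 uL uR NL NR e t = ∫ t in (0 : ℝ)..T, e t := by
  have h1 : Dom η C A0 T (fun s => A (T - s)) V2 (halfMap q C η A0 T A V1 uL NL e) :=
    half_dom HL he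
  have hAA : (fun s => (fun s => A (T - s)) (T - s)) = A := by
    funext s
    show A (T - (T - s)) = A s
    rw [sub_sub_cancel]
  have h2 := half_dom HR h1
  rw [hAA] at h2
  refine ⟨h2, ?_⟩
  have h3 := half_mass HL he
  have h4 := half_mass HR h1
  have h5 : ∫ t in (0 : ℝ)..T, halfMap q C η A0 T A V1 uL NL e t =
      ∫ t in (0 : ℝ)..T, eM q T (tgt η C A0 A V1 e) uL NL t := by
    unfold halfMap
    rw [intervalIntegral.integral_comp_sub_left
      (fun x => eM q T (tgt η C A0 A V1 e) uL NL x) T, sub_self, sub_zero]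
  have h6 : ∫ t in (0 : ℝ)..T, loopMap q C η A0 T A V1 V2 uL uR NL NR e t =
      ∫ t in (0 : ℝ)..T, eM q T (tgt η C A0 (fun s => A (T - s)) V2
        (halfMap q C η A0 T A V1 uL NL e)) uR NR t := by
    unfold loopMap
    rw [show halfMap q C η A0 T (fun s => A (T - s)) V2 uR NR
        (halfMap q C η A0 T A V1 uL NL e) = fun s => eM q T (tgt η C A0 (fun s => A (T - s)) V2
        (halfMap q C η A0 T A V1 uL NL e)) uR NR (T - s) from rfl]
    rw [intervalIntegral.integral_comp_sub_left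
      (fun x => eM q T (tgt η C A0 (fun s => A (T - s)) V2
        (halfMap q C η A0 T A V1 uL NL e)) uR NR x) T, sub_self, sub_zero]
  rw [h6, h4, h5, h3]
  ring

theorem loopMap_domE {e : ℝ → ℝ} (he : DomE C η A0 T A V1 e) :
    DomE C η A0 T A V1 (loopMap q C η A0 T A V1 V2 uL uR NL NR e) := by
  obtain ⟨he1, he2, he3⟩ := he
  have h1 : Dom η C A0 T (fun s => A (T - s)) V2 (halfMap q C η A0 T A V1 uL NL e) :=
    half_dom HL he1
  obtain ⟨h2, h3⟩ := loopMap_mass HL HR he1
  have h5 : ∫ t in (0 : ℝ)..T, halfMap q C η A0 T A V1 uL NL e t =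
      ∫ t in (0 : ℝ)..T, eM q T (tgt η C A0 A V1 e) uL NL t := by
    unfold halfMap
    rw [intervalIntegral.integral_comp_sub_left
      (fun x => eM q T (tgt η C A0 A V1 e) uL NL x) T, sub_self, sub_zero]
  have h6 : ∫ t in (0 : ℝ)..T, halfMap q C η A0 T A V1 uL NL e t =
      η * (V2 - (yr η C A0 + 4 * C * A0)) := by
    rw [h5, half_mass HL he1, he2]
    ring
  refine ⟨h2, h3.trans he2, fun t ht htT hM => ?_⟩
  have h7 := half_supp HR h1 h6 (t := T - t) (by linarith) (by linarith) (by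
    rw [b5_rev HL (T - t), sub_sub_cancel]
    linarith)
  exact h7

theorem loopMap_mono {e e' : ℝ → ℝ} (h : ∀ t, 0 ≤ t → t ≤ T → e t ≤ e' t) {t : ℝ} (ht : 0 ≤ t)
    (htT : t ≤ T) : loopMap q C η A0 T A V1 V2 uL uR NL NR e t ≤
      loopMap q C η A0 T A V1 V2 uL uR NL NR e' t := by
  have hT : 0 ≤ T := HL.hT.le
  have h1 : ∀ s, 0 ≤ s → s ≤ T → halfMap q C η A0 T A V1 uL NL e s ≤
      halfMap q C η A0 T A V1 uL NL e' s := by
    intro s hs hsT
    unfold halfMap
    refine (evo_mono hT (fun i => (HL.hu i).1) (fun t ht htT => ?_) NL).1 (T - s) (by linarith)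
      (by linarith)
    unfold tgt
    have := h t ht htT
    linarith
  show eM q T (tgt η C A0 (fun s => A (T - s)) V2 (halfMap q C η A0 T A V1 uL NL e)) uR NR (T - t) ≤
    eM q T (tgt η C A0 (fun s => A (T - s)) V2 (halfMap q C η A0 T A V1 uL NL e')) uR NR (T - t)
  refine (evo_mono hT (fun i => (HR.hu i).1) (fun s hs hsT => ?_) NR).1 (T - t) (by linarith)
    (by linarith)
  unfold tgt
  have := h1 s hs hsT
  linarith

theorem domE_max {e e' : ℝ → ℝ} (he : DomE C η A0 T A V1 e) (he' : DomE C η A0 T A V1 e') :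
    Dom η C A0 T A V1 (fun t => max (e t) (e' t)) := by
  obtain ⟨d, dm, ds⟩ := he
  obtain ⟨d', dm', ds'⟩ := he'
  have hA := b5a_A0pos HL
  have hC := HL.hC
  have hη := HL.hη
  have hCA : 0 < C * A0 := mul_pos (by linarith) hA
  have hyr : 0 ≤ yr η C A0 := b5_yr HL
  have hV1 := HL.hV1
  have hV2 := HL.hV2
  have hT := HL.hT
  have hcm : Continuous fun t => max (e t) (e' t) := d.cont.max d'.cont
  refine ⟨hcm, ?_, ?_, ?_, ?_, ?_, ?_⟩
  · intro t ht htT
    exact (d.nn t ht htT).trans (le_max_left _ _)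
  · intro t ht htT
    exact max_le (d.le t ht htT) (d'.le t ht htT)
  · intro t t' h1 h2 h3 h4
    exact (abs_max_sub_max_le_max _ _ _ _).trans
      (max_le (d.lip t t' h1 h2 h3 h4) (d'.lip t t' h1 h2 h3 h4))
  · intro t ht htT hM
    show max (e t) (e' t) = 0
    rw [d.supp t ht htT hM, d'.supp t ht htT hM, max_self]
  · rw [← dm]
    exact intervalIntegral.integral_mono_on hT.le (d.cont.intervalIntegrable _ _)
      (hcm.intervalIntegrable _ _) fun t _ => le_max_left _ _
  · -- the point `t0` with mass `V1 - y0`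
    set y0 := yr η C A0 + 3 * C * A0 with hy0
    have hM0 : (∫ s in (0 : ℝ)..0, A s) = 0 := by simp
    have hy0V : 0 ≤ V1 - y0 := by
      rw [hy0]
      linarith
    have hivt := intermediate_value_Icc hT.le (b6_cont_M HL).continuousOn
    have hmem : V1 - y0 ∈ Set.Icc (∫ s in (0 : ℝ)..0, A s) (∫ s in (0 : ℝ)..T, A s) := by
      rw [hM0, HL.int]
      refine ⟨hy0V, ?_⟩
      rw [hy0]
      linarith
    obtain ⟨t0, ⟨ht0, ht0T⟩, hMt0⟩ := hivt hmem
    simp only at hMt0
    have hii : ∀ x y : ℝ, IntervalIntegrable (fun t => max (e t) (e' t)) volume x y :=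
      fun x y => hcm.intervalIntegrable x y
    rw [← intervalIntegral.integral_add_adjacent_intervals (hii 0 t0) (hii t0 T)]
    have e2 : ∫ t in t0..T, max (e t) (e' t) = 0 := by
      have : ∫ t in t0..T, max (e t) (e' t) = ∫ _t in t0..T, (0 : ℝ) := by
        refine intervalIntegral.integral_congr fun t ht => ?_
        rw [Set.uIcc_of_le ht0T] at ht
        have h1 := (b5a_mass_diff HL ht.1).1
        have h2 : 0 ≤ A0 * (t - t0) := mul_nonneg hA.le (by linarith [ht.1])
        have h3 : V1 - y0 ≤ ∫ s in (0 : ℝ)..t, A s := by linarith only [hMt0, h1, h2]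
        show max (e t) (e' t) = 0
        rw [ds t (ht0.trans ht.1) ht.2 h3, ds' t (ht0.trans ht.1) ht.2 h3, max_self]
      rw [this]
      simp
    have e1 : ∫ t in (0 : ℝ)..t0, max (e t) (e' t) ≤ ∫ t in (0 : ℝ)..t0, η * A t := by
      refine intervalIntegral.integral_mono_on ht0 (hii _ _)
        ((HL.cA.const_mul η).intervalIntegrable _ _) fun t ht => ?_
      have htT : t ≤ T := ht.2.trans ht0T
      have h1 := (b5a_mass_diff HL ht.2).1
      have h2 : 0 ≤ A0 * (t0 - t) := mul_nonneg hA.le (by linarith only [ht.2])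
      have h3 : (∫ s in (0 : ℝ)..t, A s) ≤ V1 - y0 := by linarith only [hMt0, h1, h2]
      have h4 : 1 - chi η C A0 A V1 t = η := by
        have h5 := hh_add_neg HL ((∫ s in (0 : ℝ)..t, A s) - V1)
        have h6 := hh_flat HL (y := -((∫ s in (0 : ℝ)..t, A s) - V1)) (by
          rw [hy0] at h3
          linarith)
        unfold chi
        linarith only [h5, h6]
      have h5 := d.le t ht.1 htT
      have h6 := d'.le t ht.1 htT
      rw [h4] at h5 h6
      exact max_le h5 h6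
    rw [intervalIntegral.integral_const_mul, hMt0] at e1
    rw [e2, add_zero]
    exact e1

theorem domE_convex {e e' : ℝ → ℝ} (he : DomE C η A0 T A V1 e) (he' : DomE C η A0 T A V1 e')
    {κ : ℝ} (hκ : 0 ≤ κ) (hκ1 : κ ≤ 1) :
    DomE C η A0 T A V1 (fun t => (1 - κ) * e t + κ * e' t) := by
  obtain ⟨d, dm, ds⟩ := he
  obtain ⟨d', dm', ds'⟩ := he'
  have hκ' : 0 ≤ 1 - κ := by linarith
  have hC := HL.hC
  have hA := b5a_A0pos HL
  have hη := HL.hη
  have hCA : 0 < C * A0 := mul_pos (by linarith) hA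
  have hmass : (∫ t in (0 : ℝ)..T, ((1 - κ) * e t + κ * e' t)) =
      η * (V1 - (yr η C A0 + 4 * C * A0)) := by
    rw [intervalIntegral.integral_add ((d.cont.const_mul _).intervalIntegrable _ _)
      ((d'.cont.const_mul _).intervalIntegrable _ _), intervalIntegral.integral_const_mul,
      intervalIntegral.integral_const_mul, dm, dm']
    ring
  refine ⟨⟨?_, ?_, ?_, ?_, ?_, hmass.ge, ?_⟩, hmass, ?_⟩
  · exact (d.cont.const_mul _).add (d'.cont.const_mul _)
  · intro t ht htT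
    have h1 := mul_nonneg hκ' (d.nn t ht htT)
    have h2 := mul_nonneg hκ (d'.nn t ht htT)
    show 0 ≤ (1 - κ) * e t + κ * e' t
    linarith
  · intro t ht htT
    have h1 := mul_le_mul_of_nonneg_left (d.le t ht htT) hκ'
    have h2 := mul_le_mul_of_nonneg_left (d'.le t ht htT) hκ
    show (1 - κ) * e t + κ * e' t ≤ _
    linarith only [h1, h2]
  · intro t t' h1 h2 h3 h4
    have h5 := d.lip t t' h1 h2 h3 h4
    have h6 := d'.lip t t' h1 h2 h3 h4
    have h7 : (1 - κ) * e t + κ * e' t - ((1 - κ) * e t' + κ * e' t') =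
      (1 - κ) * (e t - e t') + κ * (e' t - e' t') := by ring
    show |(1 - κ) * e t + κ * e' t - ((1 - κ) * e t' + κ * e' t')| ≤ _
    rw [h7]
    refine (abs_add_le _ _).trans ?_
    rw [abs_mul, abs_mul, abs_of_nonneg hκ', abs_of_nonneg hκ]
    have h8 := mul_le_mul_of_nonneg_left h5 hκ'
    have h9 := mul_le_mul_of_nonneg_left h6 hκ
    linarith only [h8, h9]
  · intro t ht htT hM
    show (1 - κ) * e t + κ * e' t = 0
    rw [d.supp t ht htT hM, d'.supp t ht htT hM]
    ring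
  · rw [hmass]
    refine mul_le_mul_of_nonneg_left ?_ hη.le
    nlinarith only [hCA]
  · intro t ht htT hM
    show (1 - κ) * e t + κ * e' t = 0
    rw [ds t ht htT hM, ds' t ht htT hM]
    ring

end

end Vale.Agent.P209.Strong
end
end
end
end

section

section

section

section

namespace Vale.Agent.P209.Strong

open MeasureTheory

/-! B6b. Nonexpansiveness and the iteration. -/

theorem B6b_lin {F G H : ℝ → ℝ} (hF : Continuous F) (hG : Continuous G) (hH : Continuous H)
    (T : ℝ) : ∫ t in (0 : ℝ)..T, (2 * G t - F t - H t) =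
      2 * (∫ t in (0 : ℝ)..T, G t) - (∫ t in (0 : ℝ)..T, F t) - ∫ t in (0 : ℝ)..T, H t := by
  have i1 : IntervalIntegrable F volume 0 T := hF.intervalIntegrable _ _
  have i2 : IntervalIntegrable H volume 0 T := hH.intervalIntegrable _ _
  have i3 : IntervalIntegrable (fun t => 2 * G t) volume 0 T :=
    (continuous_const.mul hG).intervalIntegrable _ _
  have i4 : IntervalIntegrable (fun t => 2 * G t - F t) volume 0 T := i3.sub i1
  rw [intervalIntegral.integral_sub i4 i2, intervalIntegral.integral_sub i3 i1,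
    intervalIntegral.integral_const_mul]

section
variable {q : ℕ} {δ ρ C η A0 T : ℝ} {A : ℝ → ℝ} {V1 V2 : ℝ} {uL uR : ℕ → ℝ} {NL NR NJ : ℕ}
  (HL : HD q δ ρ C η A0 T A V1 V2 uL NL NJ)
  (HR : HD q δ ρ C η A0 T (fun s => A (T - s)) V2 V1 uR NR 0)
include HL HR

/-- Crandall-Tartar: order preserving and mass preserving implies nonexpansive in `L¹`. -/
theorem loopMap_nonexp {e e' : ℝ → ℝ} (he : DomE C η A0 T A V1 e) (he' : DomE C η A0 T A V1 e') :
    ∫ t in (0 : ℝ)..T, |loopMap q C η A0 T A V1 V2 uL uR NL NR e t -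
      loopMap q C η A0 T A V1 V2 uL uR NL NR e' t| ≤ ∫ t in (0 : ℝ)..T, |e t - e' t| := by
  set Λ := loopMap q C η A0 T A V1 V2 uL uR NL NR with hΛ
  set g : ℝ → ℝ := fun t => max (e t) (e' t) with hg
  have hgD : Dom η C A0 T A V1 g := domE_max HL HR he he'
  obtain ⟨hΛg, hmg⟩ := loopMap_mass HL HR hgD
  obtain ⟨hΛe, hme⟩ := loopMap_mass HL HR he.1
  obtain ⟨hΛe', hme'⟩ := loopMap_mass HL HR he'.1
  have hT : (0 : ℝ) ≤ T := HL.hT.le
  have c1 : Continuous (Λ e) := hΛe.cont
  have c2 : Continuous (Λ e') := hΛe'.cont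
  have c3 : Continuous (Λ g) := hΛg.cont
  have c4 : Continuous e := he.1.cont
  have c5 : Continuous e' := he'.1.cont
  have c6 : Continuous g := hgD.cont
  have h1 : ∫ t in (0 : ℝ)..T, |Λ e t - Λ e' t| ≤
      ∫ t in (0 : ℝ)..T, (2 * Λ g t - Λ e t - Λ e' t) := by
    refine intervalIntegral.integral_mono_on hT ((c1.sub c2).abs.intervalIntegrable _ _)
      ((((continuous_const.mul c3).sub c1).sub c2).intervalIntegrable _ _) fun t ht => ?_
    have m1 : Λ e t ≤ Λ g t := loopMap_mono HL HR (fun s _ _ => le_max_left _ _) ht.1 ht.2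
    have m2 : Λ e' t ≤ Λ g t := loopMap_mono HL HR (fun s _ _ => le_max_right _ _) ht.1 ht.2
    rw [abs_le]
    constructor <;> linarith
  have h2 : ∫ t in (0 : ℝ)..T, (2 * Λ g t - Λ e t - Λ e' t) =
      ∫ t in (0 : ℝ)..T, (2 * g t - e t - e' t) := by
    rw [B6b_lin c1 c3 c2, B6b_lin c4 c6 c5, ← hme, ← hme', ← hmg]
  refine h1.trans (h2.le.trans (le_of_eq ?_))
  congr 1
  ext t
  simp only [hg]
  rcases le_total (e t) (e' t) with h | h
  · rw [max_eq_right h, abs_of_nonpos (by linarith)]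
    ring
  · rw [max_eq_left h, abs_of_nonneg (by linarith)]
    ring

theorem itr_domE {κ : ℝ} (hκ : 0 ≤ κ) (hκ1 : κ ≤ 1) (k : ℕ) :
    DomE C η A0 T A V1 (itr q C η A0 T A V1 V2 uL uR NL NR κ k) := by
  induction k with
  | zero => exact e0_domE HL HR
  | succ k ih => exact domE_convex HL HR (loopMap_domE HL HR ih) (e0_domE HL HR) hκ hκ1

omit HR in
theorem B6b_consts : 0 < A0 ∧ 0 ≤ yr η C A0 ∧ 0 ≤ V1 ∧ η ≤ 1 ∧ 14 ≤ T := by
  have hC := HL.hC
  have hη := HL.hη
  have hA0 : 0 < A0 := by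
    have h1 := HL.hA0
    have h3 : (0 : ℝ) ≤ 5 * (q : ℝ) := by positivity
    have h4 : 0 < η * A0 := by linarith
    by_contra hn
    have := mul_nonpos_of_nonneg_of_nonpos hη.le (not_lt.1 hn)
    linarith
  have hC0 : 0 < C := by linarith
  have hyr : 0 ≤ yr η C A0 := by
    unfold yr
    positivity
  have hCA : 0 < C * A0 := by positivity
  have hV1 := HL.hV1
  have hV2 := HL.hV2
  refine ⟨hA0, hyr, by linarith, ?_, ?_⟩
  · have := HL.hη1
    nlinarith only [this, hC]
  · have h1 : ∫ t in (0 : ℝ)..T, A t ≤ ∫ t in (0 : ℝ)..T, C * A0 :=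
      intervalIntegral.integral_mono_on HL.hT.le (HL.cA.intervalIntegrable _ _)
        (continuous_const.intervalIntegrable _ _) fun t _ => HL.hiA t
    rw [HL.int, intervalIntegral.integral_const, smul_eq_mul, sub_zero] at h1
    have h2 : 14 * (C * A0) ≤ T * (C * A0) := by linarith
    exact le_of_mul_le_mul_right h2 hCA

/-- two members of `DomE` have distance at most `2 V1` -/
theorem B6b_dist {e e' : ℝ → ℝ} (he : DomE C η A0 T A V1 e) (he' : DomE C η A0 T A V1 e') :
    ∫ t in (0 : ℝ)..T, |e t - e' t| ≤ 2 * V1 := by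
  obtain ⟨hA0, hyr, hV1, hη1, hT14⟩ := B6b_consts HL
  have hC0 : 0 < C := by linarith [HL.hC]
  have hT : (0 : ℝ) ≤ T := HL.hT.le
  have c4 : Continuous e := he.1.cont
  have c5 : Continuous e' := he'.1.cont
  have h1 : ∫ t in (0 : ℝ)..T, |e t - e' t| ≤ ∫ t in (0 : ℝ)..T, (e t + e' t) := by
    refine intervalIntegral.integral_mono_on hT ((c4.sub c5).abs.intervalIntegrable _ _)
      ((c4.add c5).intervalIntegrable _ _) fun t ht => ?_
    have h2 := he.1.nn t ht.1 ht.2
    have h3 := he'.1.nn t ht.1 ht.2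
    rw [abs_le]
    constructor <;> linarith
  rw [intervalIntegral.integral_add (c4.intervalIntegrable _ _) (c5.intervalIntegrable _ _),
    he.2.1, he'.2.1] at h1
  have hCA : 0 < C * A0 := by positivity
  have h2 : η * (V1 - (yr η C A0 + 4 * C * A0)) ≤ V1 := by
    have h3 : V1 - (yr η C A0 + 4 * C * A0) ≤ V1 := by linarith
    calc η * (V1 - (yr η C A0 + 4 * C * A0)) ≤ η * V1 :=
          mul_le_mul_of_nonneg_left h3 HL.hη.le
      _ ≤ 1 * V1 := mul_le_mul_of_nonneg_right hη1 hV1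
      _ = V1 := one_mul _
  linarith only [h1, h2]

theorem B6b_step {κ : ℝ} (hκ : 0 < κ) (hκ1 : κ < 1) (k : ℕ) :
    ∫ t in (0 : ℝ)..T, |itr q C η A0 T A V1 V2 uL uR NL NR κ (k + 1) t -
      itr q C η A0 T A V1 V2 uL uR NL NR κ k t| ≤ (1 - κ) ^ k * (2 * V1) := by
  induction k with
  | zero =>
    rw [pow_zero, one_mul]
    exact B6b_dist HL HR (itr_domE HL HR hκ.le hκ1.le 1) (itr_domE HL HR hκ.le hκ1.le 0)
  | succ k ih =>
    have h1 : ∀ t, |itr q C η A0 T A V1 V2 uL uR NL NR κ (k + 1 + 1) t -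
        itr q C η A0 T A V1 V2 uL uR NL NR κ (k + 1) t| = (1 - κ) *
        |loopMap q C η A0 T A V1 V2 uL uR NL NR
          (itr q C η A0 T A V1 V2 uL uR NL NR κ (k + 1)) t -
        loopMap q C η A0 T A V1 V2 uL uR NL NR (itr q C η A0 T A V1 V2 uL uR NL NR κ k) t| := by
      intro t
      have h0 : 1 - κ = |1 - κ| := (abs_of_pos (by linarith)).symm
      conv_rhs => rw [h0]
      rw [← abs_mul]
      congr 1
      change ((1 - κ) * _ + κ * _) - ((1 - κ) * _ + κ * _) = _
      ring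
    simp_rw [h1]
    rw [intervalIntegral.integral_const_mul, pow_succ']
    have h2 := loopMap_nonexp HL HR (itr_domE HL HR hκ.le hκ1.le (k + 1))
      (itr_domE HL HR hκ.le hκ1.le k)
    rw [mul_assoc]
    exact mul_le_mul_of_nonneg_left (h2.trans ih) (by linarith)

/-- `L¹` error of the iteration; `S = η (V1 - yz)` is the mass. -/
theorem itr_error {κ : ℝ} (hκ : 0 < κ) (hκ1 : κ < 1) (k : ℕ) :
    ∫ t in (0 : ℝ)..T, |loopMap q C η A0 T A V1 V2 uL uR NL NR
        (itr q C η A0 T A V1 V2 uL uR NL NR κ k) t -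
      itr q C η A0 T A V1 V2 uL uR NL NR κ k t| ≤ 4 * V1 * ((1 - κ) ^ k + κ) := by
  obtain ⟨hA0, hyr, hV1, hη1, hT14⟩ := B6b_consts HL
  have hT : (0 : ℝ) ≤ T := HL.hT.le
  have hk := itr_domE HL HR hκ.le hκ1.le k
  have hk1 := itr_domE HL HR hκ.le hκ1.le (k + 1)
  have h0 : DomE C η A0 T A V1 (e0 C η A0 A V1) := e0_domE HL HR
  have hΛ := loopMap_domE HL HR hk
  set x := itr q C η A0 T A V1 V2 uL uR NL NR κ k with hx
  set x' := itr q C η A0 T A V1 V2 uL uR NL NR κ (k + 1) with hx'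
  set y := loopMap q C η A0 T A V1 V2 uL uR NL NR x with hy
  have hstep : ∀ t, x' t = (1 - κ) * y t + κ * e0 C η A0 A V1 t := fun t => rfl
  have c1 : Continuous x := hk.1.cont
  have c2 : Continuous x' := hk1.1.cont
  have c3 : Continuous y := hΛ.1.cont
  have c4 : Continuous (e0 C η A0 A V1) := h0.1.cont
  have h1 : ∫ t in (0 : ℝ)..T, |y t - x t| ≤
      ∫ t in (0 : ℝ)..T, (|x' t - x t| + κ * |y t - e0 C η A0 A V1 t|) := by
    refine intervalIntegral.integral_mono_on hT ((c3.sub c1).abs.intervalIntegrable _ _)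
      (((c2.sub c1).abs.add (continuous_const.mul (c3.sub c4).abs)).intervalIntegrable _ _)
      fun t _ => ?_
    have e1 : y t - x t = (x' t - x t) + κ * (y t - e0 C η A0 A V1 t) := by
      rw [hstep]; ring
    rw [e1]
    refine (abs_add_le _ _).trans (le_of_eq ?_)
    rw [abs_mul, abs_of_pos hκ]
  have i1 : IntervalIntegrable (fun t => |x' t - x t|) volume 0 T :=
    (c2.sub c1).abs.intervalIntegrable _ _
  have i2 : IntervalIntegrable (fun t => κ * |y t - e0 C η A0 A V1 t|) volume 0 T :=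
    (continuous_const.mul (c3.sub c4).abs).intervalIntegrable _ _
  rw [intervalIntegral.integral_add i1 i2, intervalIntegral.integral_const_mul] at h1
  have h2 := B6b_step HL HR hκ hκ1 k
  have h3 := B6b_dist HL HR hΛ h0
  have h4 : κ * ∫ t in (0 : ℝ)..T, |y t - e0 C η A0 A V1 t| ≤ κ * (2 * V1) :=
    mul_le_mul_of_nonneg_left h3 hκ.le
  have h5 : 0 ≤ (1 - κ) ^ k * (2 * V1) := by
    have : 0 ≤ 1 - κ := by linarith
    (clear * - hκ1 hV1; positivity)
  have h6 : 0 ≤ κ * (2 * V1) := by (clear * - hκ hV1; positivity)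
  have h7 : 4 * V1 * ((1 - κ) ^ k + κ) = 2 * ((1 - κ) ^ k * (2 * V1)) + 2 * (κ * (2 * V1)) := by
    ring
  rw [h7]
  linarith only [h1, h2, h4, h5, h6]

/-- Pointwise error. -/
theorem itr_pointwise {κ ε : ℝ} (hκ : 0 < κ) (hκ1 : κ < 1) (hε : 0 < ε) (hεA : ε ≤ A0) {k : ℕ}
    (h : 4 * V1 * ((1 - κ) ^ k + κ) < ε ^ 2 / A0) {t : ℝ} (ht : 0 ≤ t) (htT : t ≤ T) :
    |loopMap q C η A0 T A V1 V2 uL uR NL NR (itr q C η A0 T A V1 V2 uL uR NL NR κ k) t -
      itr q C η A0 T A V1 V2 uL uR NL NR κ k t| ≤ ε := by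
  obtain ⟨hA0, hyr, hV1, hη1, hT14⟩ := B6b_consts HL
  have hT : (0 : ℝ) ≤ T := HL.hT.le
  have hk := itr_domE HL HR hκ.le hκ1.le k
  have hΛ := loopMap_domE HL HR hk
  have herr := itr_error HL HR hκ hκ1 k
  set x := itr q C η A0 T A V1 V2 uL uR NL NR κ k with hx
  set y := loopMap q C η A0 T A V1 V2 uL uR NL NR x with hy
  have c1 : Continuous x := hk.1.cont
  have c3 : Continuous y := hΛ.1.cont
  by_contra hcon
  push Not at hcon
  have hlip : ∀ s, 0 ≤ s → s ≤ T → |y t - x t| - A0 / 32 * |t - s| ≤ |y s - x s| := by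
    intro s hs hsT
    have l1 := hΛ.1.lip t s ht htT hs hsT
    have l2 := hk.1.lip t s ht htT hs hsT
    have l3 : |(y t - x t) - (y s - x s)| ≤ A0 / 32 * |t - s| := by
      calc |(y t - x t) - (y s - x s)| = |(y t - y s) - (x t - x s)| := by ring_nf
        _ ≤ |y t - y s| + |x t - x s| := abs_sub _ _
        _ ≤ A0 / 64 * |t - s| + A0 / 64 * |t - s| := add_le_add l1 l2
        _ = A0 / 32 * |t - s| := by ring
    have l4 := abs_sub_abs_le_abs_sub (y t - x t) (y s - x s)
    linarith only [l3, l4]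
  set ℓ := 7 * ε / A0 with hℓ
  have hℓ0 : 0 < ℓ := by positivity
  have hℓ7 : ℓ ≤ 7 := by
    rw [hℓ, div_le_iff₀ hA0]
    linarith only [hεA]
  have hAℓ : A0 / 32 * ℓ = 7 / 32 * ε := by
    rw [hℓ]; (clear * - hA0 hε; field_simp)
  -- a subinterval
  obtain ⟨a, ha0, haT, had⟩ : ∃ a, 0 ≤ a ∧ a + ℓ ≤ T ∧ ∀ s, a ≤ s → s ≤ a + ℓ → |t - s| ≤ ℓ := by
    rcases le_total t (T / 2) with h1 | h1
    · refine ⟨t, ht, by linarith only [hT14, hℓ7, h1], fun s h2 h3 => ?_⟩
      rw [abs_le]; constructor <;> linarith only [h3, hℓ0, h2]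
    · refine ⟨t - ℓ, by linarith only [hT14, hℓ7, h1], by linarith only [htT], fun s h2 h3 => ?_⟩
      rw [abs_le]; constructor <;> linarith only [h2, hℓ0, h3]
  have hsub : ∫ s in a..(a + ℓ), |y s - x s| ≤ ∫ s in (0 : ℝ)..T, |y s - x s| := by
    refine intervalIntegral.integral_mono_interval ha0 (by linarith only [hℓ0]) haT
      (Filter.Eventually.of_forall fun s => abs_nonneg _)
      ((c3.sub c1).abs.intervalIntegrable _ _)
  have hlow : ∫ s in a..(a + ℓ), ε / 2 ≤ ∫ s in a..(a + ℓ), |y s - x s| := by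
    refine intervalIntegral.integral_mono_on (by linarith only [hℓ0])
      (continuous_const.intervalIntegrable _ _)
      ((c3.sub c1).abs.intervalIntegrable _ _) fun s hs => ?_
    have h1 := hlip s (by linarith only [ha0, hs.1]) (by linarith only [haT, hs.2])
    have h2 := had s hs.1 hs.2
    have h3 : A0 / 32 * |t - s| ≤ A0 / 32 * ℓ := mul_le_mul_of_nonneg_left h2 (by positivity)
    linarith only [h3, h1, hAℓ, hcon, hε]
  rw [intervalIntegral.integral_const, smul_eq_mul, add_sub_cancel_left] at hlow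
  have h8 : ℓ * (ε / 2) = 7 / 2 * (ε ^ 2 / A0) := by
    rw [hℓ]; (clear * - hA0 hε; field_simp)
  have h9 : 0 < ε ^ 2 / A0 := by positivity
  rw [h8] at hlow
  linarith only [h, herr, hsub, hlow, h9]

end

end Vale.Agent.P209.Strong
end
end
end
end

section

section

section

section

namespace Vale.Agent.P209.Strong

open MeasureTheory

/-! B6c. Continuity of the iteration in parameters. -/

theorem b6c_prim {Θ : Type} [TopologicalSpace Θ] {A : Θ → ℝ → ℝ}
    (hA : Continuous fun z : Θ × ℝ => A z.1 z.2) :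
    Continuous fun z : Θ × ℝ => ∫ s in (0 : ℝ)..z.2, A z.1 s :=
  intervalIntegral.continuous_parametric_primitive_of_continuous (f := A) hA

theorem b6c_tgt {Θ : Type} [TopologicalSpace Θ] (η C A0 : ℝ) {A e : Θ → ℝ → ℝ} {V1 : Θ → ℝ}
    (hA : Continuous fun z : Θ × ℝ => A z.1 z.2) (hV1 : Continuous V1)
    (he : Continuous fun z : Θ × ℝ => e z.1 z.2) :
    Continuous fun z : Θ × ℝ => tgt η C A0 (A z.1) (V1 z.1) (e z.1) z.2 := by
  have h1 := b6c_prim hA
  have h2 : Continuous fun z : Θ × ℝ => V1 z.1 := hV1.comp continuous_fst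
  unfold tgt chi hh
  exact ((continuous_const.max (continuous_const.min (continuous_const.sub
    ((continuous_const.mul (h1.sub h2)).div_const _)))).mul hA).add he

theorem b6c_half {Θ : Type} [TopologicalSpace Θ] (q : ℕ) (η C A0 : ℝ) {T : Θ → ℝ}
    {A e : Θ → ℝ → ℝ} {V1 : Θ → ℝ} {u : ℕ → Θ → ℝ} (N : ℕ) (hT : Continuous T)
    (hA : Continuous fun z : Θ × ℝ => A z.1 z.2) (hV1 : Continuous V1)
    (hu : ∀ i, Continuous (u i)) (he : Continuous fun z : Θ × ℝ => e z.1 z.2) :
    Continuous fun z : Θ × ℝ => halfMap q C η A0 (T z.1) (A z.1) (V1 z.1)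
      (fun j => u j z.1) N (e z.1) z.2 := by
  have h1 := (eM_continuous (a := fun θ => tgt η C A0 (A θ) (V1 θ) (e θ)) q hT
    (b6c_tgt η C A0 hA hV1 he) hu N).1
  have h2 : Continuous fun z : Θ × ℝ => (z.1, T z.1 - z.2) :=
    continuous_fst.prodMk ((hT.comp continuous_fst).sub continuous_snd)
  exact h1.comp h2

theorem itr_continuous {Θ : Type} [TopologicalSpace Θ] (q : ℕ) (C η A0 κ : ℝ) {T : Θ → ℝ}
    {A : Θ → ℝ → ℝ} {V1 V2 : Θ → ℝ} {uL uR : ℕ → Θ → ℝ} (NL NR : ℕ) (hT : Continuous T)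
    (hA : Continuous fun z : Θ × ℝ => A z.1 z.2) (hV1 : Continuous V1) (hV2 : Continuous V2)
    (huL : ∀ i, Continuous (uL i)) (huR : ∀ i, Continuous (uR i)) (k : ℕ) :
    Continuous fun z : Θ × ℝ => itr q C η A0 (T z.1) (A z.1) (V1 z.1) (V2 z.1)
      (fun j => uL j z.1) (fun j => uR j z.1) NL NR κ k z.2 := by
  have h0 : Continuous fun z : Θ × ℝ => e0 C η A0 (A z.1) (V1 z.1) z.2 := by
    have h1 := b6c_prim hA
    have h2 : Continuous fun z : Θ × ℝ => V1 z.1 := hV1.comp continuous_fst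
    unfold e0
    exact (continuous_const.mul hA).mul (continuous_const.max (continuous_const.min
      (continuous_const.add ((((h2.sub h1)).sub continuous_const).div_const _))))
  induction k with
  | zero => exact h0
  | succ k ih =>
    have hA' : Continuous fun z : Θ × ℝ => (fun θ s => A θ (T θ - s)) z.1 z.2 :=
      hA.comp (continuous_fst.prodMk ((hT.comp continuous_fst).sub continuous_snd))
    have h3 := b6c_half (e := fun θ s => itr q C η A0 (T θ) (A θ) (V1 θ) (V2 θ) (fun j => uL j θ)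
      (fun j => uR j θ) NL NR κ k s) q η C A0 NL hT hA hV1 huL ih
    have h4 := b6c_half q η C A0 (A := fun θ s => A θ (T θ - s))
      (e := fun θ s => halfMap q C η A0 (T θ) (A θ) (V1 θ) (fun j => uL j θ) NL
        (itr q C η A0 (T θ) (A θ) (V1 θ) (V2 θ) (fun j => uL j θ) (fun j => uR j θ) NL NR κ k) s)
      NR hT hA' hV2 huR h3
    exact (continuous_const.mul h4).add (continuous_const.mul h0)

end Vale.Agent.P209.Strong
end
end
end
end

section

section

section

section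

namespace Vale.Agent.P209.Strong

open MeasureTheory

/-! B7. The chain lemma. -/

/-- Output of the chain lemma: start times `W`, slice sizes `v`, peaks `p` of the L-balls and the
R-balls. -/
structure ChainOut {Θ : Type} [TopologicalSpace Θ] (q : ℕ) (δ A0 ε : ℝ) (NL NR : ℕ)
    (uL uR : ℕ → Θ → ℝ) (T : Θ → ℝ) (A : Θ → ℝ → ℝ) (WL WR vL vR : ℕ → Θ → ℝ → ℝ)
    (pL pR : ℕ → Θ → ℝ) : Prop where
  cWL : ∀ i, Continuous fun z : Θ × ℝ => WL i z.1 z.2
  cWR : ∀ i, Continuous fun z : Θ × ℝ => WR i z.1 z.2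
  cvL : ∀ i, Continuous fun z : Θ × ℝ => vL i z.1 z.2
  cvR : ∀ i, Continuous fun z : Θ × ℝ => vR i z.1 z.2
  vL_nn : ∀ i θ t, 0 ≤ vL i θ t
  vR_nn : ∀ i θ t, 0 ≤ vR i θ t
  vL_le : ∀ i θ t, vL i θ t ≤ uL i θ
  vR_le : ∀ i θ t, vR i θ t ≤ uR i θ
  secL : ∀ i, i < NL → ∀ θ x t, 0 ≤ x → x ≤ uL i θ → WL i θ x ≤ t → t ≤ WL i θ x + (uL i θ - x) →
    0 ≤ t ∧ t ≤ T θ ∧ x ≤ vL i θ t
  secR : ∀ i, i < NR → ∀ θ x t, 0 ≤ x → x ≤ uR i θ → WR i θ x ≤ t → t ≤ WR i θ x + (uR i θ - x) →
    0 ≤ t ∧ t ≤ T θ ∧ x ≤ vR i θ t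
  suppL : ∀ i, i < NL → ∀ θ t, 0 ≤ t → t ≤ T θ → 0 < vL i θ t → |t - pL i θ| ≤ 1
  suppR : ∀ i, i < NR → ∀ θ t, 0 ≤ t → t ≤ T θ → 0 < vR i θ t → |t - pR i θ| ≤ 1
  lowL : ∀ i, i < NL → ∀ θ t, 0 ≤ t → t ≤ T θ → pL i θ ≤ t → uL i θ - 2 * (t - pL i θ) ≤ vL i θ t
  lowR : ∀ i, i < NR → ∀ θ t, 0 ≤ t → t ≤ T θ → t ≤ pR i θ → uR i θ - 2 * (pR i θ - t) ≤ vR i θ t
  intL : ∀ i, i < NL → ∀ θ, ∫ t in (0 : ℝ)..T θ, vL i θ t ^ q = uL i θ ^ (q + 1) / (q + 1)
  intR : ∀ i, i < NR → ∀ θ, ∫ t in (0 : ℝ)..T θ, vR i θ t ^ q = uR i θ ^ (q + 1) / (q + 1)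
  monoL : ∀ i j θ, i ≤ j → j < NL → pL i θ ≤ pL j θ
  monoR : ∀ i j θ, i ≤ j → j < NR → pR j θ ≤ pR i θ
  mass : ∀ θ t, 0 ≤ t → t ≤ T θ →
    (δ / 64 * A0 ≤ ∑ i ∈ (Finset.range NL).filter
      (fun i => t - δ / 16 ≤ pL i θ ∧ pL i θ ≤ t), uL i θ ^ q) ∨
    (δ / 64 * A0 ≤ ∑ i ∈ (Finset.range NR).filter
      (fun i => t ≤ pR i θ ∧ pR i θ ≤ t + δ / 16), uR i θ ^ q)
  sum : ∀ θ t, 0 ≤ t → t ≤ T θ →
    |∑ i ∈ Finset.range NL, vL i θ t ^ q + ∑ i ∈ Finset.range NR, vR i θ t ^ q - A θ t| ≤ ε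


/-! ### Half of the chain lemma -/

section half
variable {q : ℕ} {δ ρ C η A0 T : ℝ} {A : ℝ → ℝ} {V1 V2 : ℝ} {u : ℕ → ℝ} {N NJ : ℕ}

theorem HD.inv_at (H : HD q δ ρ C η A0 T A V1 V2 u N NJ) {e : ℝ → ℝ} (he : Dom η C A0 T A V1 e)
    {i : ℕ} (hi : i ≤ N) :
    Inv q T (tgt η C A0 A V1 e) (eM q T (tgt η C A0 A V1 e) u i)
      (eP q T (tgt η C A0 A V1 e) u i) :=
  evo_inv H.hq (Dom.target H he) H.hu
    (fun j hj => (half_peaks H he).1 j (hj.le.trans hi))

theorem half_sec (H : HD q δ ρ C η A0 T A V1 V2 u N NJ) {e : ℝ → ℝ} (he : Dom η C A0 T A V1 e)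
    {i : ℕ} (hi : i < N) {x t : ℝ} (hx : 0 ≤ x) (hxu : x ≤ u i)
    (h1 : eW q T (tgt η C A0 A V1 e) u i x ≤ t)
    (h2 : t ≤ eW q T (tgt η C A0 A V1 e) u i x + (u i - x)) :
    0 ≤ t ∧ t ≤ T ∧ x ≤ ev q T (tgt η C A0 A V1 e) u i t := by
  have hT := H.hT.le
  have hP := (half_peaks H he).1
  have hW0 : 0 ≤ eW q T (tgt η C A0 A V1 e) u i x := Wf_nonneg hT
  have hWu : eW q T (tgt η C A0 A V1 e) u i x ≤ T - 1 :=
    (Wf_mono hT hx hxu).trans (hP (i + 1) hi)
  have ht0 : 0 ≤ t := hW0.trans h1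
  have htT : t ≤ T := by
    have := (H.hu i).2
    linarith only [hx, h2, hWu, this]
  refine ⟨ht0, htT, ?_⟩
  rcases hx.eq_or_lt with rfl | hx'
  · exact vf_nonneg H.hq (Dom.target H he) (H.inv_at he hi.le) (hP i hi.le) (H.hu i).1 (H.hu i).2 t
  · exact (le_vf_iff H.hq (Dom.target H he) (H.inv_at he hi.le) (hP i hi.le) (H.hu i).1 (H.hu i).2
      hx' hxu ht0 htT).2 ⟨h1, h2⟩

theorem half_supp_abs (H : HD q δ ρ C η A0 T A V1 V2 u N NJ) {e : ℝ → ℝ}
    (he : Dom η C A0 T A V1 e) {i : ℕ} (hi : i < N) {t : ℝ} (ht : 0 ≤ t) (htT : t ≤ T)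
    (hv : 0 < ev q T (tgt η C A0 A V1 e) u i t) :
    |t - eP q T (tgt η C A0 A V1 e) u (i + 1)| ≤ 1 := by
  have hP := (half_peaks H he).1
  have h := vf_support H.hq (Dom.target H he) (H.inv_at he hi.le) (hP i hi.le) (H.hu i).1
    (H.hu i).2 ht htT hv
  have e1 : eP q T (tgt η C A0 A V1 e) u (i + 1) =
    Wf q T (eM q T (tgt η C A0 A V1 e) u i) (eP q T (tgt η C A0 A V1 e) u i) (u i) := rfl
  rw [e1, abs_le]
  constructor <;> linarith only [h]

theorem half_low (H : HD q δ ρ C η A0 T A V1 V2 u N NJ) {e : ℝ → ℝ}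
    (he : Dom η C A0 T A V1 e) {i : ℕ} (hi : i < N) {t : ℝ} (htT : t ≤ T)
    (hv : eP q T (tgt η C A0 A V1 e) u (i + 1) ≤ t) :
    u i - 2 * (t - eP q T (tgt η C A0 A V1 e) u (i + 1)) ≤
      ev q T (tgt η C A0 A V1 e) u i t := by
  have hP := (half_peaks H he).1
  exact vf_lower H.hq (Dom.target H he) (H.inv_at he hi.le) (hP i hi.le) (H.hu i).1
    (H.hu i).2 hv htT

theorem half_int (H : HD q δ ρ C η A0 T A V1 V2 u N NJ) {e : ℝ → ℝ}
    (he : Dom η C A0 T A V1 e) {i : ℕ} (hi : i < N) :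
    ∫ t in (0 : ℝ)..T, ev q T (tgt η C A0 A V1 e) u i t ^ q = u i ^ (q + 1) / (q + 1) := by
  have hP := (half_peaks H he).1
  exact vf_integral H.hq (Dom.target H he) (H.inv_at he hi.le) (hP i hi.le) (H.hu i).1
    (H.hu i).2 (hP (i + 1) hi)

theorem half_mono (H : HD q δ ρ C η A0 T A V1 V2 u N NJ) {e : ℝ → ℝ}
    (he : Dom η C A0 T A V1 e) {i j : ℕ} (hij : i ≤ j) (hj : j < N) :
    eP q T (tgt η C A0 A V1 e) u (i + 1) ≤ eP q T (tgt η C A0 A V1 e) u (j + 1) :=
  eP_mono H.hq (Dom.target H he) H.hu (n := N) (fun k hk => (half_peaks H he).1 k hk.le)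
    (Nat.succ_le_succ hij) hj

theorem half_sum (H : HD q δ ρ C η A0 T A V1 V2 u N NJ) {e : ℝ → ℝ}
    (he : Dom η C A0 T A V1 e) {t : ℝ} (ht : 0 ≤ t) (htT : t ≤ T) :
    ∑ i ∈ Finset.range N, ev q T (tgt η C A0 A V1 e) u i t ^ q =
      tgt η C A0 A V1 e t - eM q T (tgt η C A0 A V1 e) u N t := by
  have h := eM_eq H.hq (Dom.target H he) H.hu (n := N)
    (fun k hk => (half_peaks H he).1 k hk.le) ht htT
  linarith only [h]

theorem HD.hA0' (H : HD q δ ρ C η A0 T A V1 V2 u N NJ) : 0 < A0 := by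
  have h1 := H.hA0
  have h2 := H.hη
  by_contra h
  push Not at h
  have h3 : η * A0 ≤ 0 := mul_nonpos_of_nonneg_of_nonpos h2.le h
  have h4 : (0 : ℝ) ≤ q := Nat.cast_nonneg q
  linarith

theorem HD.eta_le_half (H : HD q δ ρ C η A0 T A V1 V2 u N NJ) : η ≤ 1 / 2 := by
  have h1 := H.hη1
  have h2 := H.hη
  have h3 := H.hC
  (by_contra nlg; linarith only [nlg, mul_nonneg (le_of_lt (sub_pos.2 (not_le.1 nlg))) (sub_nonneg.2 h3), mul_nonneg (mul_self_nonneg (1 : ℝ)) (sub_nonneg.2 h3), mul_nonneg (mul_self_nonneg (1 : ℝ)) (sub_nonneg.2 h1), mul_nonneg (mul_self_nonneg (1 : ℝ)) (le_of_lt (sub_pos.2 (not_le.1 nlg)))])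

theorem half_le_hh (H : HD q δ ρ C η A0 T A V1 V2 u N NJ) {y : ℝ} (hy : y ≤ 0) :
    1 / 2 ≤ hh η C A0 y := by
  have h1 := H.eta_le_half
  have h2 := H.hη
  have h3 := H.hC
  have h4 := H.hA0'
  unfold hh
  refine le_max_of_le_right (le_min (by linarith) ?_)
  have h5 : η / (32 * C ^ 2) * y / A0 ≤ 0 := by
    apply div_nonpos_of_nonpos_of_nonneg _ h4.le
    apply mul_nonpos_of_nonneg_of_nonpos _ hy
    positivity
  linarith only [h5]

theorem half_window (H : HD q δ ρ C η A0 T A V1 V2 u N NJ) (hA : 256 / (3 * δ) ≤ A0)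
    {e : ℝ → ℝ} (he : Dom η C A0 T A V1 e) {t : ℝ} (ht : 0 ≤ t) (htT : t ≤ T)
    (hM : ∫ s in (0 : ℝ)..t, A s ≤ V1) :
    δ / 64 * A0 ≤ ∑ i ∈ (Finset.range N).filter
      (fun i => t - δ / 16 ≤ eP q T (tgt η C A0 A V1 e) u (i + 1) ∧
        eP q T (tgt η C A0 A V1 e) u (i + 1) ≤ t), u i ^ q := by
  have hA0 := H.hA0'
  have hδ := H.hδ
  have hP := half_peaks H he
  have hint : ∀ x y : ℝ, IntervalIntegrable A volume x y := fun x y => H.cA.intervalIntegrable x y
  -- the last peak is after `t`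
  have htn : t < eP q T (tgt η C A0 A V1 e) u N := by
    by_contra hcon
    push Not at hcon
    have h1 := intervalIntegral.integral_add_adjacent_intervals
      (hint 0 (eP q T (tgt η C A0 A V1 e) u N)) (hint (eP q T (tgt η C A0 A V1 e) u N) t)
    have h2 : 0 ≤ ∫ s in (eP q T (tgt η C A0 A V1 e) u N)..t, A s :=
      intervalIntegral.integral_nonneg hcon (fun s _ => hA0.le.trans (H.loA s))
    have h3 : 0 < yr η C A0 + 2 * C * A0 := by
      have := H.hC
      have := H.hη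
      unfold yr
      (clear hA e he t ht htT hM hδ hP hint hcon h1 h2; positivity)
    linarith only [hM, hP, h1, h2, h3]
  have ha : A0 / 2 ≤ tgt η C A0 A V1 e t := by
    have h1 : 1 / 2 ≤ chi η C A0 A V1 t := half_le_hh H (by linarith only [hM])
    have h2 := H.loA t
    have h3 := he.nn t ht htT
    unfold tgt
    nlinarith only [h2, h3, hA0, h1]
  have h := mass_window H.hq (Dom.target H he) H.hu (n := N) (fun k hk => hP.1 k hk.le)
    ht htT htn (d := δ / 16) (by positivity) (by linarith only [H.hδ1])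
  refine le_trans ?_ h
  have h4 : 256 ≤ 3 * δ * A0 := by
    rw [div_le_iff₀ (by positivity)] at hA
    linarith only [hA]
  linarith only [mul_nonneg (le_of_lt (sub_pos.2 hδ)) (sub_nonneg.2 ha), h4]

end half


/-! ### Continuity in parameters -/

theorem hh_continuous (η C A0 : ℝ) : Continuous fun y : ℝ => hh η C A0 y := by
  unfold hh
  fun_prop

theorem tgt_continuous {Θ : Type} [TopologicalSpace Θ] (η C A0 : ℝ) {A : Θ → ℝ → ℝ}
    {V1 : Θ → ℝ} {e : Θ → ℝ → ℝ} (hA : Continuous fun z : Θ × ℝ => A z.1 z.2)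
    (hV1 : Continuous V1) (he : Continuous fun z : Θ × ℝ => e z.1 z.2) :
    Continuous fun z : Θ × ℝ => tgt η C A0 (A z.1) (V1 z.1) (e z.1) z.2 := by
  have h1 : Continuous fun p : Θ × ℝ => ∫ s in (0 : ℝ)..p.2, A p.1 s :=
    intervalIntegral.continuous_parametric_primitive_of_continuous (f := A) hA
  unfold tgt chi
  exact (((hh_continuous η C A0).comp (h1.sub (hV1.comp continuous_fst))).mul hA).add he

/-! ### Assembly at one parameter -/

/-- The reversed cutoff. -/
theorem chi_rev {q : ℕ} {δ ρ C η A0 T : ℝ} {A : ℝ → ℝ} {V1 V2 : ℝ} {u : ℕ → ℝ} {N NJ : ℕ}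
    (H : HD q δ ρ C η A0 T A V1 V2 u N NJ) (t : ℝ) :
    chi η C A0 (fun s => A (T - s)) V2 (T - t) = 1 - chi η C A0 A V1 t := by
  have hint : ∀ x y : ℝ, IntervalIntegrable A volume x y := fun x y => H.cA.intervalIntegrable x y
  have h1 : ∫ s in (0 : ℝ)..(T - t), A (T - s) = ∫ s in t..T, A s := by
    rw [intervalIntegral.integral_comp_sub_left (fun x => A x) T]
    congr 1
    · ring
    · ring
  have h2 := intervalIntegral.integral_add_adjacent_intervals (hint 0 t) (hint t T)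
  have h3 := H.int
  unfold chi
  rw [h1]
  have h4 : (∫ s in t..T, A s) - V2 = -((∫ s in (0 : ℝ)..t, A s) - V1) := by linarith
  rw [h4]
  have h5 := hh_add_neg H ((∫ s in (0 : ℝ)..t, A s) - V1)
  linarith


theorem HD_build {q : ℕ} {δ ρ C η A0 T Y : ℝ} {A : ℝ → ℝ} {V1 V2 : ℝ} {u : ℕ → ℝ} {N NJ : ℕ}
    (hq : 1 ≤ q) (hδ : 0 < δ) (hδ1 : δ ≤ 1) (hρ : 1 ≤ ρ) (hC : 1 ≤ C) (hη : 0 < η)
    (hη1 : η * (128 * C) ≤ 1) (hη2 : η * (1200 * q * (q + 1) * ρ * C) ≤ δ ^ (q + 1))
    (hY : 1 ≤ Y) (hY1 : 400 * (q : ℝ) ≤ Y) (hY2 : 16 * C ^ 2 / η + 7 * C ≤ Y)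
    (hY3 : (3 + 5 * (q : ℝ)) / η ≤ Y) (hYA : Y ≤ A0) (hT : 0 < T) (cA : Continuous A)
    (loA : ∀ t, A0 ≤ A t) (hiA : ∀ t, A t ≤ C * A0)
    (lipA : ∀ t t', |A t - A t'| ≤ A0 / 256 * |t - t'|) (hV1 : Y * A0 ≤ V1) (hV2 : Y * A0 ≤ V2)
    (int : ∫ t in (0 : ℝ)..T, A t = V1 + V2) (hu : ∀ i, 0 ≤ u i ∧ u i ≤ 1)
    (vol : ∑ i ∈ Finset.range N, u i ^ (q + 1) / (q + 1) = V1) (hNJ : NJ ≤ N)
    (tail : ∑ i ∈ Finset.range NJ, u i ≤ A0 / 8)
    (suf : ∀ s, NJ ≤ s → (((Finset.range N).filter (fun i => s ≤ i ∧ 0 < u i)).card : ℝ) ≤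
      ρ * (((Finset.range N).filter (fun i => s ≤ i ∧ δ ≤ u i)).card : ℝ) + A0 / Y) :
    HD q δ ρ C η A0 T A V1 V2 u N NJ := by
  have hA0 : 0 < A0 := by linarith only [hY, hYA]
  have hq0 : (1 : ℝ) ≤ q := by exact_mod_cast hq
  have h1 : yr η C A0 + 7 * C * A0 ≤ Y * A0 := by
    have : yr η C A0 + 7 * C * A0 = (16 * C ^ 2 / η + 7 * C) * A0 := by
      unfold yr
      ring
    rw [this]
    exact mul_le_mul_of_nonneg_right hY2 hA0.le
  refine ⟨hq, hδ, hδ1, hρ, hC, hη, hη1, hη2, ?_, hT, cA, loA, hiA, lipA, h1.trans hV1,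
    h1.trans hV2, int, hu, vol, hNJ, tail, ?_⟩
  · rw [div_le_iff₀ hη] at hY3
    linarith only [mul_nonneg (le_of_lt (sub_pos.2 hη)) (sub_nonneg.2 hYA), hY3]
  · intro s hs
    refine (suf s hs).trans ?_
    have : A0 / Y ≤ A0 / (400 * q) :=
      div_le_div_of_nonneg_left hA0.le (by positivity) hY1
    linarith only [this]

theorem exists_kappa {B e : ℝ} (hB : 0 ≤ B) (he : 0 < e) :
    ∃ (κ : ℝ) (k : ℕ), 0 < κ ∧ κ < 1 ∧ ∀ V : ℝ, 0 ≤ V → V ≤ B →
      4 * V * ((1 - κ) ^ k + κ) < e := by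
  have hpos : 0 < e / (16 * (B + 1)) := by positivity
  set κ : ℝ := min (1 / 2) (e / (16 * (B + 1))) with hκ
  have hκ0 : 0 < κ := lt_min (by norm_num) hpos
  have hκ1 : κ < 1 := (min_le_left _ _).trans_lt (by norm_num)
  obtain ⟨k, hk⟩ := exists_pow_lt_of_lt_one hκ0 (show 1 - κ < 1 by linarith only [hκ0])
  refine ⟨κ, k, hκ0, hκ1, fun V hV hVB => ?_⟩
  have h1 : κ * (16 * (B + 1)) ≤ e := by
    have : κ ≤ e / (16 * (B + 1)) := min_le_right _ _
    rwa [le_div_iff₀ (by positivity)] at this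
  have h2 : (1 - κ) ^ k + κ ≤ 2 * κ := by linarith only [hk]
  calc 4 * V * ((1 - κ) ^ k + κ) ≤ 4 * V * (2 * κ) :=
        mul_le_mul_of_nonneg_left h2 (by linarith only [hV])
    _ ≤ 4 * B * (2 * κ) := by
        apply mul_le_mul_of_nonneg_right _ (by linarith only [hκ0])
        linarith
    _ < κ * (16 * (B + 1)) := by linarith only [mul_nonneg (le_of_lt (sub_pos.2 hκ0)) (sub_nonneg.2 hB), hκ0]
    _ ≤ e := h1

theorem chain_lemma (q : ℕ) (hq : 1 ≤ q) (δ ρ C : ℝ) (hδ : 0 < δ) (hδ1 : δ ≤ 1) (hρ : 1 ≤ ρ)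
    (hC : 1 ≤ C) : ∃ Y : ℝ, 1 ≤ Y ∧
    ∀ (Θ : Type) [TopologicalSpace Θ] (NL NR NJ : ℕ) (uL uR : ℕ → Θ → ℝ) (T : Θ → ℝ)
      (A : Θ → ℝ → ℝ) (A0 : ℝ), Y ≤ A0 → NJ ≤ NL → Continuous T →
      (Continuous fun z : Θ × ℝ => A z.1 z.2) → (∀ i, Continuous (uL i)) →
      (∀ i, Continuous (uR i)) →
      (∀ i θ, 0 ≤ uL i θ ∧ uL i θ ≤ 1) → (∀ i θ, 0 ≤ uR i θ ∧ uR i θ ≤ 1) →
      (∀ θ, 0 < T θ) → (∀ θ t, A0 ≤ A θ t ∧ A θ t ≤ C * A0) →
      (∀ θ t t', |A θ t - A θ t'| ≤ A0 / 256 * |t - t'|) →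
      (∀ θ, ∑ i ∈ Finset.range NJ, uL i θ ≤ A0 / 8) →
      (∀ θ s, NJ ≤ s → (((Finset.range NL).filter (fun i => s ≤ i ∧ 0 < uL i θ)).card : ℝ) ≤
        ρ * (((Finset.range NL).filter (fun i => s ≤ i ∧ δ ≤ uL i θ)).card : ℝ) + A0 / Y) →
      (∀ θ s, (((Finset.range NR).filter (fun i => s ≤ i ∧ 0 < uR i θ)).card : ℝ) ≤
        ρ * (((Finset.range NR).filter (fun i => s ≤ i ∧ δ ≤ uR i θ)).card : ℝ) + A0 / Y) →
      (∀ θ, Y * A0 ≤ ∑ i ∈ Finset.range NL, uL i θ ^ (q + 1) / (q + 1)) →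
      (∀ θ, Y * A0 ≤ ∑ i ∈ Finset.range NR, uR i θ ^ (q + 1) / (q + 1)) →
      (∀ θ, ∫ t in (0 : ℝ)..T θ, A θ t = ∑ i ∈ Finset.range NL, uL i θ ^ (q + 1) / (q + 1) +
        ∑ i ∈ Finset.range NR, uR i θ ^ (q + 1) / (q + 1)) →
      ∀ ε : ℝ, 0 < ε → ∃ (WL WR vL vR : ℕ → Θ → ℝ → ℝ) (pL pR : ℕ → Θ → ℝ),
        ChainOut q δ A0 ε NL NR uL uR T A WL WR vL vR pL pR := by
  set η : ℝ := min (1 / (128 * C)) (δ ^ (q + 1) / (1200 * q * (q + 1) * ρ * C)) with hηdef
  have hq0 : (1 : ℝ) ≤ q := by exact_mod_cast hq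
  have hden : 0 < 1200 * (q : ℝ) * (q + 1) * ρ * C := by (clear * - hq hρ hC; positivity)
  have hη : 0 < η := by
    apply lt_min
    · positivity
    · positivity
  have hη1 : η * (128 * C) ≤ 1 := by
    have : η ≤ 1 / (128 * C) := min_le_left _ _
    rwa [le_div_iff₀ (by positivity)] at this
  have hη2 : η * (1200 * q * (q + 1) * ρ * C) ≤ δ ^ (q + 1) := by
    have : η ≤ δ ^ (q + 1) / (1200 * q * (q + 1) * ρ * C) := min_le_right _ _
    rwa [le_div_iff₀ hden] at this
  clear_value η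
  refine ⟨max 1 (max (400 * (q : ℝ)) (max (16 * C ^ 2 / η + 7 * C)
    (max ((3 + 5 * (q : ℝ)) / η) (256 / (3 * δ))))), le_max_left _ _, ?_⟩
  set Y : ℝ := max 1 (max (400 * (q : ℝ)) (max (16 * C ^ 2 / η + 7 * C)
    (max ((3 + 5 * (q : ℝ)) / η) (256 / (3 * δ))))) with hYdef
  have hY : 1 ≤ Y := le_max_left _ _
  have hY1 : 400 * (q : ℝ) ≤ Y := (le_max_left _ _).trans (le_max_right _ _)
  have hY2 : 16 * C ^ 2 / η + 7 * C ≤ Y :=
    (le_max_left _ _).trans ((le_max_right _ _).trans (le_max_right _ _))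
  have hY3 : (3 + 5 * (q : ℝ)) / η ≤ Y :=
    (le_max_left _ _).trans ((le_max_right _ _).trans ((le_max_right _ _).trans (le_max_right _ _)))
  have hY4 : 256 / (3 * δ) ≤ Y :=
    (le_max_right _ _).trans ((le_max_right _ _).trans ((le_max_right _ _).trans (le_max_right _ _)))
  clear_value Y
  intro Θ _ NL NR NJ uL uR T A A0 hYA hNJ cT cA cuL cuR huL huR hT hA lipA tail sufL sufR volL volR
    int ε hε
  have hA0 : 0 < A0 := by linarith only [hq0, hY1, hYA]
  set V1 : Θ → ℝ := fun θ => ∑ i ∈ Finset.range NL, uL i θ ^ (q + 1) / (q + 1) with hV1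
  set V2 : Θ → ℝ := fun θ => ∑ i ∈ Finset.range NR, uR i θ ^ (q + 1) / (q + 1) with hV2
  have cV1 : Continuous V1 := by
    rw [hV1]
    fun_prop
  have cV2 : Continuous V2 := by
    rw [hV2]
    fun_prop
  have cAθ : ∀ θ, Continuous (A θ) := fun θ => cA.comp (Continuous.prodMk_right θ)
  have HL : ∀ θ, HD q δ ρ C η A0 (T θ) (A θ) (V1 θ) (V2 θ) (fun i => uL i θ) NL NJ := fun θ =>
    HD_build hq hδ hδ1 hρ hC hη hη1 hη2 hY hY1 hY2 hY3 hYA (hT θ) (cAθ θ) (fun t => (hA θ t).1)
      (fun t => (hA θ t).2) (lipA θ) (volL θ) (volR θ) (int θ) (fun i => huL i θ) rfl hNJ (tail θ)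
      (sufL θ)
  have HR : ∀ θ, HD q δ ρ C η A0 (T θ) (fun s => A θ (T θ - s)) (V2 θ) (V1 θ) (fun i => uR i θ)
      NR 0 := fun θ =>
    HD_build hq hδ hδ1 hρ hC hη hη1 hη2 hY hY1 hY2 hY3 hYA (hT θ)
      ((cAθ θ).comp (continuous_const.sub continuous_id)) (fun t => (hA θ _).1)
      (fun t => (hA θ _).2)
      (fun t t' => by
        have := lipA θ (T θ - t) (T θ - t')
        rwa [show T θ - t - (T θ - t') = -(t - t') by ring, abs_neg] at this)
      (volR θ) (volL θ)
      (by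
        rw [intervalIntegral.integral_comp_sub_left (fun x => A θ x) (T θ)]
        simp only [sub_self, sub_zero]
        rw [int θ]
        ring)
      (fun i => huR i θ) rfl (Nat.zero_le _) (by simp only [Finset.range_zero, Finset.sum_empty]; (clear * - hA0; positivity)) (fun s _ => sufR θ s)
  -- choice of the iteration
  have hε' : 0 < min ε A0 := lt_min hε hA0
  obtain ⟨κ, k, hκ, hκ1, hk⟩ := exists_kappa (B := (NL : ℝ)) (e := (min ε A0) ^ 2 / A0)
    (Nat.cast_nonneg _) (by (clear * - hε hA0; positivity))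
  have hV1nn : ∀ θ, 0 ≤ V1 θ := fun θ => Finset.sum_nonneg fun i _ => by
    have := (huL i θ).1
    (clear * - this hq; positivity)
  have hV1le : ∀ θ, V1 θ ≤ NL := fun θ => by
    have : V1 θ ≤ ∑ i ∈ Finset.range NL, (1 : ℝ) := by
      refine Finset.sum_le_sum fun i _ => ?_
      have h1 : uL i θ ^ (q + 1) ≤ 1 := pow_le_one₀ (huL i θ).1 (huL i θ).2
      rw [div_le_one (by positivity)]
      linarith only [h1]
    simpa only [ge_iff_le, Finset.sum_const, Finset.card_range, nsmul_eq_mul, mul_one] using this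
  set x : Θ → ℝ → ℝ := fun θ => itr q C η A0 (T θ) (A θ) (V1 θ) (V2 θ) (fun j => uL j θ)
    (fun j => uR j θ) NL NR κ k with hx
  have cx : Continuous fun z : Θ × ℝ => x z.1 z.2 :=
    itr_continuous q C η A0 κ NL NR cT cA cV1 cV2 cuL cuR k
  have hxD : ∀ θ, DomE C η A0 (T θ) (A θ) (V1 θ) (x θ) := fun θ =>
    itr_domE (HL θ) (HR θ) hκ.le hκ1.le k
  -- the two evolutions
  set aL : Θ → ℝ → ℝ := fun θ => tgt η C A0 (A θ) (V1 θ) (x θ) with haL
  have caL : Continuous fun z : Θ × ℝ => aL z.1 z.2 := tgt_continuous η C A0 cA cV1 cx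
  set y : Θ → ℝ → ℝ := fun θ s => eM q (T θ) (aL θ) (fun j => uL j θ) NL (T θ - s) with hy
  have cTsub : Continuous fun z : Θ × ℝ => (z.1, T z.1 - z.2) :=
    continuous_fst.prodMk ((cT.comp continuous_fst).sub continuous_snd)
  have cy : Continuous fun z : Θ × ℝ => y z.1 z.2 :=
    (eM_continuous q cT caL cuL NL).1.comp cTsub
  have hyD : ∀ θ, Dom η C A0 (T θ) (fun s => A θ (T θ - s)) (V2 θ) (y θ) := fun θ =>
    half_dom (HL θ) (hxD θ).1
  have cAR : Continuous fun z : Θ × ℝ => A z.1 (T z.1 - z.2) := cA.comp cTsub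
  set aR : Θ → ℝ → ℝ := fun θ => tgt η C A0 (fun s => A θ (T θ - s)) (V2 θ) (y θ) with haR
  have caR : Continuous fun z : Θ × ℝ => aR z.1 z.2 :=
    tgt_continuous (A := fun θ s => A θ (T θ - s)) η C A0 cAR cV2 cy
  refine ⟨fun i θ s => eW q (T θ) (aL θ) (fun j => uL j θ) i s,
    fun i θ s => T θ - eW q (T θ) (aR θ) (fun j => uR j θ) i s - (uR i θ - s),
    fun i θ t => ev q (T θ) (aL θ) (fun j => uL j θ) i t,
    fun i θ t => ev q (T θ) (aR θ) (fun j => uR j θ) i (T θ - t),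
    fun i θ => eP q (T θ) (aL θ) (fun j => uL j θ) (i + 1),
    fun i θ => T θ - eP q (T θ) (aR θ) (fun j => uR j θ) (i + 1), ?_⟩
  refine
    { cWL := fun i => eW_continuous q cT caL cuL i
      cWR := fun i => ?_
      cvL := fun i => ev_continuous q cT caL cuL i
      cvR := fun i => ?_
      vL_nn := fun i θ t => ?_
      vR_nn := fun i θ t => ?_
      vL_le := fun i θ t => ?_
      vR_le := fun i θ t => ?_
      secL := fun i hi θ s t hs hsu h1 h2 => half_sec (HL θ) (hxD θ).1 hi hs hsu h1 h2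
      secR := fun i hi θ s t hs hsu h1 h2 => ?_
      suppL := fun i hi θ t ht htT hv => half_supp_abs (HL θ) (hxD θ).1 hi ht htT hv
      suppR := fun i hi θ t ht htT hv => ?_
      lowL := fun i hi θ t ht htT hv => half_low (HL θ) (hxD θ).1 hi htT hv
      lowR := fun i hi θ t ht htT hv => ?_
      intL := fun i hi θ => half_int (HL θ) (hxD θ).1 hi
      intR := fun i hi θ => ?_
      monoL := fun i j θ hij hj => half_mono (HL θ) (hxD θ).1 hij hj
      monoR := fun i j θ hij hj => ?_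
      mass := fun θ t ht htT => ?_
      sum := fun θ t ht htT => ?_ }
  · exact ((cT.comp continuous_fst).sub (eW_continuous q cT caR cuR i)).sub
      (((cuR i).comp continuous_fst).sub continuous_snd)
  · exact (ev_continuous q cT caR cuR i).comp cTsub
  · exact le_min (Real.rpow_nonneg (le_max_left _ _) _) (cf_nonneg (huL i θ).1)
  · exact le_min (Real.rpow_nonneg (le_max_left _ _) _) (cf_nonneg (huR i θ).1)
  · exact (min_le_right _ _).trans (cf_le (huL i θ).1)
  · exact (min_le_right _ _).trans (cf_le (huR i θ).1)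
  · have h := half_sec (HR θ) (hyD θ) hi hs hsu (t := T θ - t) (by linarith only [h2]) (by linarith only [h1])
    exact ⟨by linarith only [h], by linarith only [h], h.2.2⟩
  · have h := half_supp_abs (HR θ) (hyD θ) hi (t := T θ - t) (by linarith only [htT]) (by linarith only [ht]) hv
    rw [abs_sub_comm] at h
    convert h using 2
    ring
  · have h := half_low (HR θ) (hyD θ) hi (t := T θ - t) (by linarith only [ht]) (by linarith only [hv])
    refine le_trans (le_of_eq ?_) h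
    ring
  · rw [← half_int (HR θ) (hyD θ) hi]
    rw [intervalIntegral.integral_comp_sub_left
      (fun t => ev q (T θ) (aR θ) (fun j => uR j θ) i t ^ q) (T θ)]
    simp only [sub_self, sub_zero]
    rfl
  · have h := half_mono (HR θ) (hyD θ) hij hj
    linarith only [h]
  · rcases le_total (∫ s in (0 : ℝ)..t, A θ s) (V1 θ) with hM | hM
    · exact Or.inl (half_window (HL θ) (hY4.trans hYA) (hxD θ).1 ht htT hM)
    · right
      have hint : ∀ x y : ℝ, IntervalIntegrable (A θ) volume x y :=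
        fun x y => (cAθ θ).intervalIntegrable x y
      have h1 : ∫ s in (0 : ℝ)..(T θ - t), A θ (T θ - s) = ∫ s in t..T θ, A θ s := by
        rw [intervalIntegral.integral_comp_sub_left (fun x => A θ x) (T θ)]
        congr 1
        · ring
        · ring
      have h2 := intervalIntegral.integral_add_adjacent_intervals (hint 0 t) (hint t (T θ))
      have h3 := (HL θ).int
      have h := half_window (HR θ) (hY4.trans hYA) (hyD θ) (t := T θ - t) (by linarith only [htT])
        (by linarith only [ht]) (by rw [h1]; linarith only [hM, h2, h3])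
      refine h.trans (le_of_eq ?_)
      refine Finset.sum_congr ?_ fun _ _ => rfl
      ext i
      simp only [Finset.mem_filter]
      constructor
      · rintro ⟨hi, h5, h6⟩
        exact ⟨hi, by linarith only [h6], by linarith only [h5]⟩
      · rintro ⟨hi, h5, h6⟩
        exact ⟨hi, by linarith only [h6], by linarith only [h5]⟩
  · have h1 := half_sum (HL θ) (hxD θ).1 ht htT
    have h2 := half_sum (HR θ) (hyD θ) (t := T θ - t) (by linarith only [htT]) (by linarith only [ht])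
    have h3 := chi_rev (HL θ) t
    have h4 : tgt η C A0 (A θ) (V1 θ) (x θ) t = chi η C A0 (A θ) (V1 θ) t * A θ t + x θ t := rfl
    have h5 : tgt η C A0 (fun s => A θ (T θ - s)) (V2 θ) (y θ) (T θ - t) =
        chi η C A0 (fun s => A θ (T θ - s)) (V2 θ) (T θ - t) * A θ (T θ - (T θ - t)) +
          eM q (T θ) (aL θ) (fun j => uL j θ) NL (T θ - (T θ - t)) := rfl
    rw [h3, sub_sub_cancel] at h5
    have h6 : loopMap q C η A0 (T θ) (A θ) (V1 θ) (V2 θ) (fun j => uL j θ) (fun j => uR j θ) NL NR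
        (x θ) t = eM q (T θ) (tgt η C A0 (fun s => A θ (T θ - s)) (V2 θ) (y θ))
          (fun j => uR j θ) NR (T θ - t) := rfl
    have h7 := itr_pointwise (HL θ) (HR θ) hκ hκ1 hε' (min_le_right _ _)
      (hk (V1 θ) (hV1nn θ) (hV1le θ)) ht htT
    have h8 : |loopMap q C η A0 (T θ) (A θ) (V1 θ) (V2 θ) (fun j => uL j θ) (fun j => uR j θ) NL NR
        (x θ) t - x θ t| ≤ min ε A0 := h7
    rw [h6, abs_sub_comm] at h8
    refine le_trans (le_of_eq ?_) (h8.trans (min_le_left _ _))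
    congr 1
    have h1' : ∑ i ∈ Finset.range NL, ev q (T θ) (aL θ) (fun j => uL j θ) i t ^ q =
      tgt η C A0 (A θ) (V1 θ) (x θ) t - eM q (T θ) (aL θ) (fun j => uL j θ) NL t := h1
    have h2' : ∑ i ∈ Finset.range NR, ev q (T θ) (aR θ) (fun j => uR j θ) i (T θ - t) ^ q =
      tgt η C A0 (fun s => A θ (T θ - s)) (V2 θ) (y θ) (T θ - t) -
        eM q (T θ) (tgt η C A0 (fun s => A θ (T θ - s)) (V2 θ) (y θ))
          (fun j => uR j θ) NR (T θ - t) := h2
    rw [h1', h2', h4, h5]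
    ring

end Vale.Agent.P209.Strong
end
end
end
end

section

section

section

section

namespace Vale.Agent.P209.Strong

/-! C4. The chain lemma in terms of classes. The balls are indexed by a finite type `ι`; the balls in
`J` are the tail balls, the other balls have a class `cls i < 2 * K`; classes `< K` are L-balls (as
are the tail balls), classes `≥ K` are R-balls. -/

/-- input -/
structure ClsIn {Θ : Type} [TopologicalSpace Θ] (q : ℕ) (δ ρ C Y : ℝ) {ι : Type} [Fintype ι]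
    [DecidableEq ι] (J : Finset ι) (cls : ι → ℕ) (K : ℕ) (r : ι → Θ → ℝ) (T : Θ → ℝ)
    (A : Θ → ℝ → ℝ) (A0 : ℝ) : Prop where
  hA0 : Y ≤ A0
  cT : Continuous T
  cA : Continuous fun z : Θ × ℝ => A z.1 z.2
  cr : ∀ i, Continuous (r i)
  r01 : ∀ i θ, 0 ≤ r i θ ∧ r i θ ≤ 1
  hT : ∀ θ, 0 < T θ
  bdA : ∀ θ t, A0 ≤ A θ t ∧ A θ t ≤ C * A0
  lipA : ∀ θ t t', |A θ t - A θ t'| ≤ A0 / 256 * |t - t'|
  tail : ∀ θ, ∑ i ∈ J, r i θ ≤ A0 / 8
  clt : ∀ i, i ∉ J → cls i < 2 * K
  cnt : ∀ θ k, k < 2 * K →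
    ((Finset.univ.filter (fun i => i ∉ J ∧ cls i = k ∧ 0 < r i θ)).card : ℝ) ≤
      ρ * ((Finset.univ.filter (fun i => i ∉ J ∧ cls i = k ∧ δ ≤ r i θ)).card : ℝ)
  cnt2 : ∀ θ k, k < 2 * K →
    ((Finset.univ.filter (fun i => i ∉ J ∧ cls i = k ∧ 0 < r i θ)).card : ℝ) ≤ A0 / Y
  volL : ∀ θ, Y * A0 ≤ ∑ i ∈ Finset.univ.filter (fun i => i ∉ J ∧ cls i < K), r i θ ^ (q + 1) / (q + 1)
  volR : ∀ θ, Y * A0 ≤ ∑ i ∈ Finset.univ.filter (fun i => i ∉ J ∧ K ≤ cls i), r i θ ^ (q + 1) / (q + 1)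
  bal : ∀ θ, ∫ t in (0 : ℝ)..T θ, A θ t = ∑ i, r i θ ^ (q + 1) / (q + 1)

/-- output -/
structure ClsOut {Θ : Type} [TopologicalSpace Θ] (q : ℕ) (δ ε : ℝ) {ι : Type} [Fintype ι]
    [DecidableEq ι] (J : Finset ι) (cls : ι → ℕ) (K : ℕ) (r : ι → Θ → ℝ) (T : Θ → ℝ)
    (A : Θ → ℝ → ℝ) (A0 : ℝ) (W v : ι → Θ → ℝ → ℝ) (p : ι → Θ → ℝ) : Prop where
  cW : ∀ i, Continuous fun z : Θ × ℝ => W i z.1 z.2
  cv : ∀ i, Continuous fun z : Θ × ℝ => v i z.1 z.2
  v_nn : ∀ i θ t, 0 ≤ v i θ t
  v_le : ∀ i θ t, v i θ t ≤ r i θ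
  sec : ∀ i θ x t, 0 ≤ x → x ≤ r i θ → W i θ x ≤ t → t ≤ W i θ x + (r i θ - x) →
    0 ≤ t ∧ t ≤ T θ ∧ x ≤ v i θ t
  supp : ∀ i θ t, 0 ≤ t → t ≤ T θ → 0 < v i θ t → |t - p i θ| ≤ 1
  lowL : ∀ i, i ∉ J → cls i < K → ∀ θ t, 0 ≤ t → t ≤ T θ → p i θ ≤ t →
    r i θ - 2 * (t - p i θ) ≤ v i θ t
  lowR : ∀ i, i ∉ J → K ≤ cls i → ∀ θ t, 0 ≤ t → t ≤ T θ → t ≤ p i θ →
    r i θ - 2 * (p i θ - t) ≤ v i θ t
  int : ∀ i θ, ∫ t in (0 : ℝ)..T θ, v i θ t ^ q = r i θ ^ (q + 1) / (q + 1)
  monoL : ∀ i j θ, i ∉ J → j ∉ J → cls i < cls j → cls j < K → p i θ ≤ p j θ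
  monoR : ∀ i j θ, i ∉ J → j ∉ J → K ≤ cls i → cls i < cls j → p i θ ≤ p j θ
  mass : ∀ θ t, 0 ≤ t → t ≤ T θ →
    (δ / 64 * A0 ≤ ∑ i ∈ Finset.univ.filter
      (fun i => (i ∈ J ∨ cls i < K) ∧ t - δ / 16 ≤ p i θ ∧ p i θ ≤ t), r i θ ^ q) ∨
    (δ / 64 * A0 ≤ ∑ i ∈ Finset.univ.filter
      (fun i => i ∉ J ∧ K ≤ cls i ∧ t ≤ p i θ ∧ p i θ ≤ t + δ / 16), r i θ ^ q)
  sum : ∀ θ t, 0 ≤ t → t ≤ T θ → |∑ i, v i θ t ^ q - A θ t| ≤ ε

/-! ### enumerations -/

section Enum

variable {ι : Type} [DecidableEq ι] {S : Finset ι} (e : Fin S.card ≃ S)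

/-- index of an element of `S` -/
noncomputable def idx (i : ι) : ℕ := if h : i ∈ S then (e.symm ⟨i, h⟩ : ℕ) else 0

/-- pull back a function on `ι` to the indices -/
noncomputable def pull {β : Type} (d : β) (g : ι → β) (n : ℕ) : β :=
  if h : n < S.card then g (e ⟨n, h⟩) else d

theorem idx_lt {i : ι} (hi : i ∈ S) : idx e i < S.card := by
  unfold idx
  rw [dif_pos hi]
  exact (e.symm _).2

theorem idx_e (n : ℕ) (h : n < S.card) : idx e (e ⟨n, h⟩) = n := by
  simp [idx]

theorem e_idx {i : ι} (hi : i ∈ S) (h : idx e i < S.card) : (e ⟨idx e i, h⟩ : ι) = i := by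
  have : (⟨idx e i, h⟩ : Fin S.card) = e.symm ⟨i, hi⟩ := by
    apply Fin.ext
    simp [idx, hi]
  rw [this]
  simp

theorem pull_idx {β : Type} (d : β) (g : ι → β) {i : ι} (hi : i ∈ S) :
    pull e d g (idx e i) = g i := by
  unfold pull
  rw [dif_pos (idx_lt e hi), e_idx e hi]

theorem sum_range_idx (F : ℕ → ℝ) : ∑ n ∈ Finset.range S.card, F n = ∑ i ∈ S, F (idx e i) := by
  rw [Finset.sum_range, ← Finset.sum_coe_sort S, ← Equiv.sum_comp e]
  refine Finset.sum_congr rfl fun n _ => ?_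
  rw [idx_e e n.1 n.2]

theorem sum_filter_idx (P : ℕ → Prop) [DecidablePred P] (F : ℕ → ℝ) :
    ∑ n ∈ (Finset.range S.card).filter P, F n = ∑ i ∈ S.filter (fun i => P (idx e i)), F (idx e i) := by
  rw [Finset.sum_filter, Finset.sum_filter, sum_range_idx e]

theorem card_filter_idx (P : ℕ → Prop) [DecidablePred P] :
    (((Finset.range S.card).filter P).card : ℝ) = ((S.filter (fun i => P (idx e i))).card : ℝ) := by
  have := sum_filter_idx e P (fun _ => 1)
  simpa only [Nat.cast_inj, Finset.sum_const, nsmul_eq_mul, mul_one] using this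

theorem idx_lt_idx {key : ι → ℤ} (he : ∀ i j, i ≤ j → key (e i) ≤ key (e j)) {i j : ι} (hi : i ∈ S)
    (hj : j ∈ S) (h : key i < key j) : idx e i < idx e j := by
  by_contra hc
  push Not at hc
  have := he ⟨idx e j, idx_lt e hj⟩ ⟨idx e i, idx_lt e hi⟩ hc
  rw [e_idx e hj, e_idx e hi] at this
  exact absurd h (not_lt.2 this)

theorem mem_iff_idx {key : ι → ℤ} (he : ∀ i j, i ≤ j → key (e i) ≤ key (e j)) {J : Finset ι}
    (hJ : J ⊆ S) (hkey : ∀ i ∈ J, ∀ j ∈ S, j ∉ J → key i < key j) {i : ι} (hi : i ∈ S) :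
    i ∈ J ↔ idx e i < J.card := by
  have inj : ∀ a ∈ J, ∀ b ∈ J, idx e a = idx e b → a = b := by
    intro a ha b hb hab
    have h1 := e_idx e (hJ ha) (idx_lt e (hJ ha))
    have h2 := e_idx e (hJ hb) (idx_lt e (hJ hb))
    rw [← h1, ← h2]
    congr 2
    exact Fin.ext hab
  have hcard : (J.image (idx e)).card = J.card :=
    Finset.card_image_of_injOn fun a ha b hb hab => inj a ha b hb hab
  constructor
  · intro hiJ
    have hsub : Finset.range (idx e i + 1) ⊆ J.image (idx e) := by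
      intro m hm
      rw [Finset.mem_range] at hm
      have hmS : m < S.card := lt_of_lt_of_le hm (idx_lt e hi)
      have hmem : (e ⟨m, hmS⟩ : ι) ∈ J := by
        by_contra hc
        have := idx_lt_idx e he (hJ hiJ) (e ⟨m, hmS⟩).2 (hkey i hiJ _ (e ⟨m, hmS⟩).2 hc)
        rw [idx_e] at this
        omega
      exact Finset.mem_image.2 ⟨_, hmem, idx_e e m hmS⟩
    have := Finset.card_le_card hsub
    rw [hcard, Finset.card_range] at this
    omega
  · intro hlt
    by_contra hc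
    have hsub : J.image (idx e) ⊆ Finset.range (idx e i) := by
      intro m hm
      obtain ⟨a, ha, rfl⟩ := Finset.mem_image.1 hm
      rw [Finset.mem_range]
      exact idx_lt_idx e he (hJ ha) hi (hkey a ha i hi hc)
    have := Finset.card_le_card hsub
    rw [hcard, Finset.card_range] at this
    omega

end Enum

/-- one side of the suffix condition -/
theorem suffix_of_classes {ι : Type} [Fintype ι] [DecidableEq ι] {S J : Finset ι} (hJS : J ⊆ S)
    (e : Fin S.card ≃ S)
    (key : ι → ℤ) (he : ∀ i j, i ≤ j → key (e i) ≤ key (e j))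
    (hkey : ∀ i ∈ J, ∀ j ∈ S, j ∉ J → key i < key j)
    (a b : ℕ → Prop) [DecidablePred a] [DecidablePred b] {ρ X : ℝ} (hρ : 0 ≤ ρ) (hX : 0 ≤ X)
    (h1 : ∀ j ∈ S, j ∉ J → ((S.filter (fun i => key i = key j ∧ a (idx e i))).card : ℝ) ≤
      ρ * ((S.filter (fun i => key i = key j ∧ b (idx e i))).card : ℝ))
    (h2 : ∀ j ∈ S, j ∉ J → ((S.filter (fun i => key i = key j ∧ a (idx e i))).card : ℝ) ≤ X)
    (s : ℕ) (hs : J.card ≤ s) :
    (((Finset.range S.card).filter (fun i => s ≤ i ∧ a i)).card : ℝ) ≤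
      ρ * (((Finset.range S.card).filter (fun i => s ≤ i ∧ b i)).card : ℝ) + X := by
  have hpull : ∀ i ∈ S, pull e 0 key (idx e i) = key i := fun i hi => pull_idx e 0 key hi
  have hrep : ∀ n, J.card ≤ n → n < S.card → ∃ j ∈ S, j ∉ J ∧ idx e j = n := by
    intro n h1 h2
    refine ⟨e ⟨n, h2⟩, (e ⟨n, h2⟩).2, ?_, idx_e e n h2⟩
    intro hc
    have := (mem_iff_idx e he hJS hkey (e ⟨n, h2⟩).2).1 hc
    rw [idx_e] at this
    omega
  have hfil : ∀ (κ : ℤ) (P : ℕ → Prop) [DecidablePred P],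
      (((Finset.range S.card).filter (fun i => pull e 0 key i = κ ∧ P i)).card : ℝ) =
      ((S.filter (fun i => key i = κ ∧ P (idx e i))).card : ℝ) := by
    intro κ P _
    rw [card_filter_idx e]
    congr 2
    apply Finset.filter_congr
    intro i hi
    rw [hpull i hi]
  refine class_suffix (N := S.card) (NJ := J.card) (pull e 0 key) ?_ a b hρ hX ?_ ?_ ?_ s hs
  · intro i j hij hj
    have hi : i < S.card := lt_of_le_of_lt hij hj
    unfold pull
    rw [dif_pos hi, dif_pos hj]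
    exact he _ _ hij
  · rintro κ ⟨n, hn1, hn2, rfl⟩
    obtain ⟨j, hj, hjJ, rfl⟩ := hrep n hn1 hn2
    rw [hfil, hfil, hpull j hj]
    exact h1 j hj hjJ
  · rintro κ ⟨n, hn1, hn2, rfl⟩
    obtain ⟨j, hj, hjJ, rfl⟩ := hrep n hn1 hn2
    rw [hfil, hpull j hj]
    exact h2 j hj hjJ
  · intro i hi n hn1 hn2
    obtain ⟨j, hj, hjJ, rfl⟩ := hrep n hn1 hn2
    have hi' : i < S.card := lt_of_lt_of_le hi (Finset.card_le_card hJS)
    have hiJ : (e ⟨i, hi'⟩ : ι) ∈ J := by
      rw [mem_iff_idx e he hJS hkey (e ⟨i, hi'⟩).2, idx_e]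
      exact hi
    rw [hpull j hj]
    have : pull e 0 key i = key (e ⟨i, hi'⟩) := by
      unfold pull
      rw [dif_pos hi']
    rw [this]
    exact hkey _ hiJ j hj hjJ

/-- C4a. -/
theorem chain_classes (q : ℕ) (hq : 1 ≤ q) (δ ρ C : ℝ) (hδ : 0 < δ) (hδ1 : δ ≤ 1) (hρ : 1 ≤ ρ)
    (hC : 1 ≤ C) : ∃ Y : ℝ, 1 ≤ Y ∧
    ∀ (Θ : Type) [TopologicalSpace Θ] (ι : Type) [Fintype ι] [DecidableEq ι] (J : Finset ι)
      (cls : ι → ℕ) (K : ℕ) (r : ι → Θ → ℝ) (T : Θ → ℝ) (A : Θ → ℝ → ℝ) (A0 : ℝ),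
      ClsIn q δ ρ C Y J cls K r T A A0 → ∀ ε : ℝ, 0 < ε →
        ∃ (W v : ι → Θ → ℝ → ℝ) (p : ι → Θ → ℝ), ClsOut q δ ε J cls K r T A A0 W v p := by
  obtain ⟨Y, hY, H⟩ := chain_lemma q hq δ ρ C hδ hδ1 hρ hC
  refine ⟨Y, hY, ?_⟩
  intro Θ _ ι _ _ J cls K r T A A0 h ε hε
  have hY0 : (0 : ℝ) < Y := by linarith only [hY]
  have hA0 : (0 : ℝ) < A0 := by linarith only [hY, h.hA0]
  have hX : 0 ≤ A0 / Y := by positivity
  have hρ0 : 0 ≤ ρ := by linarith only [hρ]
  -- the two sides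
  set SL : Finset ι := Finset.univ.filter (fun i => i ∈ J ∨ cls i < K) with hSL
  set SR : Finset ι := Finset.univ.filter (fun i => i ∉ J ∧ K ≤ cls i) with hSR
  have memL : ∀ i, i ∈ SL ↔ (i ∈ J ∨ cls i < K) := fun i => by simp only [hSL, Finset.mem_filter, Finset.mem_univ, true_and]
  have memR : ∀ i, i ∈ SR ↔ (i ∉ J ∧ K ≤ cls i) := fun i => by simp only [hSR, Finset.mem_filter, Finset.mem_univ, true_and]
  have memR' : ∀ i, i ∈ SR ↔ i ∉ SL := fun i => by
    rw [memR, memL]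
    push Not
    rfl
  have hJL : J ⊆ SL := fun i hi => (memL i).2 (Or.inl hi)
  have hsplit : ∀ f : ι → ℝ, ∑ i, f i = ∑ i ∈ SL, f i + ∑ i ∈ SR, f i := by
    intro f
    have hSR' : SR = Finset.univ.filter (fun i => ¬ (i ∈ J ∨ cls i < K)) := by
      ext i
      simp only [hSR, Finset.mem_filter, Finset.mem_univ, true_and]
      push Not
      rfl
    rw [hSR', hSL]
    exact (Finset.sum_filter_add_sum_filter_not _ _ _).symm
  set keyL : ι → ℤ := fun i => if i ∈ J then -1 else (cls i : ℤ) with hkeyL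
  set keyR : ι → ℤ := fun i => -(cls i : ℤ) with hkeyR
  obtain ⟨eL, heL⟩ := exists_enum SL keyL
  obtain ⟨eR, heR⟩ := exists_enum SR keyR
  have kL_J : ∀ i ∈ J, keyL i = -1 := fun i hi => by simp [hkeyL, hi]
  have kL_nJ : ∀ i, i ∉ J → keyL i = (cls i : ℤ) := fun i hi => by simp [hkeyL, hi]
  have hkL : ∀ i ∈ J, ∀ j ∈ SL, j ∉ J → keyL i < keyL j := by
    intro i hi j _ hj
    rw [kL_J i hi, kL_nJ j hj]
    have : (0 : ℤ) ≤ (cls j : ℤ) := Int.natCast_nonneg _
    linarith only []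
  -- class filters
  have filL : ∀ j ∈ SL, j ∉ J → ∀ (P : ι → Prop) [DecidablePred P],
      SL.filter (fun i => keyL i = keyL j ∧ P i) =
        Finset.univ.filter (fun i => i ∉ J ∧ cls i = cls j ∧ P i) := by
    intro j hj hjJ P _
    have hjK : cls j < K := by
      rcases (memL j).1 hj with h' | h'
      · exact absurd h' hjJ
      · exact h'
    ext i
    simp only [Finset.mem_filter, Finset.mem_univ, true_and, memL]
    rw [kL_nJ j hjJ]
    constructor
    · rintro ⟨_, h1, h2⟩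
      have hiJ : i ∉ J := by
        intro hc
        rw [kL_J i hc] at h1
        have : (0 : ℤ) ≤ (cls j : ℤ) := Int.natCast_nonneg _
        linarith only [h1]
      rw [kL_nJ i hiJ] at h1
      exact ⟨hiJ, by exact_mod_cast h1, h2⟩
    · rintro ⟨h0, h1, h2⟩
      refine ⟨Or.inr (by rw [h1]; exact hjK), ?_, h2⟩
      rw [kL_nJ i h0, h1]
  have filR : ∀ j ∈ SR, ∀ (P : ι → Prop) [DecidablePred P],
      SR.filter (fun i => keyR i = keyR j ∧ P i) =
        Finset.univ.filter (fun i => i ∉ J ∧ cls i = cls j ∧ P i) := by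
    intro j hj P _
    have hjK : K ≤ cls j := ((memR j).1 hj).2
    ext i
    simp only [Finset.mem_filter, Finset.mem_univ, true_and, memR, hkeyR]
    constructor
    · rintro ⟨⟨h0, _⟩, h1, h2⟩
      exact ⟨h0, by have := neg_inj.1 h1; exact_mod_cast this, h2⟩
    · rintro ⟨h0, h1, h2⟩
      exact ⟨⟨h0, by rw [h1]; exact hjK⟩, by rw [h1], h2⟩
  -- sizes
  set uL : ℕ → Θ → ℝ := fun n θ => pull eL 0 (fun i => r i θ) n with huL
  set uR : ℕ → Θ → ℝ := fun n θ => pull eR 0 (fun i => r i θ) n with huR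
  have uL_idx : ∀ i ∈ SL, ∀ θ, uL (idx eL i) θ = r i θ := fun i hi θ => pull_idx eL 0 _ hi
  have uR_idx : ∀ i ∈ SR, ∀ θ, uR (idx eR i) θ = r i θ := fun i hi θ => pull_idx eR 0 _ hi
  have uL_cont : ∀ n, Continuous (uL n) := by
    intro n
    by_cases hn : n < SL.card
    · have : uL n = r (eL ⟨n, hn⟩) := by
        funext θ
        simp only [huL, pull, dif_pos hn]
      rw [this]
      exact h.cr _
    · have : uL n = fun _ => 0 := by
        funext θ
        simp only [huL, pull, dif_neg hn]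
      rw [this]
      exact continuous_const
  have uR_cont : ∀ n, Continuous (uR n) := by
    intro n
    by_cases hn : n < SR.card
    · have : uR n = r (eR ⟨n, hn⟩) := by
        funext θ
        simp only [huR, pull, dif_pos hn]
      rw [this]
      exact h.cr _
    · have : uR n = fun _ => 0 := by
        funext θ
        simp only [huR, pull, dif_neg hn]
      rw [this]
      exact continuous_const
  have uL_01 : ∀ n θ, 0 ≤ uL n θ ∧ uL n θ ≤ 1 := by
    intro n θ
    by_cases hn : n < SL.card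
    · simp only [huL, pull, dif_pos hn]
      exact h.r01 _ θ
    · simp only [huL, pull, dif_neg hn]
      exact ⟨le_rfl, zero_le_one⟩
  have uR_01 : ∀ n θ, 0 ≤ uR n θ ∧ uR n θ ≤ 1 := by
    intro n θ
    by_cases hn : n < SR.card
    · simp only [huR, pull, dif_pos hn]
      exact h.r01 _ θ
    · simp only [huR, pull, dif_neg hn]
      exact ⟨le_rfl, zero_le_one⟩
  -- power sums
  have sumL : ∀ θ, ∑ i ∈ Finset.range SL.card, uL i θ ^ (q + 1) / ((q : ℝ) + 1) =
      ∑ i ∈ SL, r i θ ^ (q + 1) / ((q : ℝ) + 1) := by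
    intro θ
    rw [sum_range_idx eL (fun n => uL n θ ^ (q + 1) / ((q : ℝ) + 1))]
    refine Finset.sum_congr rfl fun i hi => ?_
    rw [uL_idx i hi]
  have sumR : ∀ θ, ∑ i ∈ Finset.range SR.card, uR i θ ^ (q + 1) / ((q : ℝ) + 1) =
      ∑ i ∈ SR, r i θ ^ (q + 1) / ((q : ℝ) + 1) := by
    intro θ
    rw [sum_range_idx eR (fun n => uR n θ ^ (q + 1) / ((q : ℝ) + 1))]
    refine Finset.sum_congr rfl fun i hi => ?_
    rw [uR_idx i hi]
  have hpos : ∀ i θ, 0 ≤ r i θ ^ (q + 1) / ((q : ℝ) + 1) := fun i θ => by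
    have := (h.r01 i θ).1
    (clear * - this hq; positivity)
  -- tail
  have htail : ∀ θ, ∑ i ∈ Finset.range J.card, uL i θ ≤ A0 / 8 := by
    intro θ
    have h1 : Finset.range J.card = (Finset.range SL.card).filter (fun n => n < J.card) := by
      ext n
      simp only [Finset.mem_range, Finset.mem_filter]
      constructor
      · intro hn
        exact ⟨lt_of_lt_of_le hn (Finset.card_le_card hJL), hn⟩
      · exact fun hn => hn.2
    rw [h1, sum_filter_idx eL (fun n => n < J.card) (fun n => uL n θ)]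
    have h2 : SL.filter (fun i => idx eL i < J.card) = J := by
      ext i
      simp only [Finset.mem_filter]
      constructor
      · rintro ⟨hi, hlt⟩
        exact (mem_iff_idx eL heL hJL hkL hi).2 hlt
      · intro hi
        exact ⟨hJL hi, (mem_iff_idx eL heL hJL hkL (hJL hi)).1 hi⟩
    rw [h2]
    have h3 : ∑ i ∈ J, uL (idx eL i) θ = ∑ i ∈ J, r i θ :=
      Finset.sum_congr rfl fun i hi => uL_idx i (hJL hi) θ
    rw [h3]
    exact h.tail θ
  -- suffix conditions
  have hsufL : ∀ θ s, J.card ≤ s →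
      (((Finset.range SL.card).filter (fun i => s ≤ i ∧ 0 < uL i θ)).card : ℝ) ≤
        ρ * (((Finset.range SL.card).filter (fun i => s ≤ i ∧ δ ≤ uL i θ)).card : ℝ) +
          A0 / Y := by
    intro θ s hs
    refine suffix_of_classes hJL eL keyL heL hkL (fun n => 0 < uL n θ) (fun n => δ ≤ uL n θ) hρ0 hX
      ?_ ?_ s hs
    · intro j hj hjJ
      have e1 : SL.filter (fun i => keyL i = keyL j ∧ 0 < uL (idx eL i) θ) =
          SL.filter (fun i => keyL i = keyL j ∧ 0 < r i θ) :=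
        Finset.filter_congr fun i hi => by rw [uL_idx i hi]
      have e2 : SL.filter (fun i => keyL i = keyL j ∧ δ ≤ uL (idx eL i) θ) =
          SL.filter (fun i => keyL i = keyL j ∧ δ ≤ r i θ) :=
        Finset.filter_congr fun i hi => by rw [uL_idx i hi]
      rw [e1, e2, filL j hj hjJ (fun i => 0 < r i θ), filL j hj hjJ (fun i => δ ≤ r i θ)]
      exact h.cnt θ (cls j) (h.clt j hjJ)
    · intro j hj hjJ
      have e1 : SL.filter (fun i => keyL i = keyL j ∧ 0 < uL (idx eL i) θ) =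
          SL.filter (fun i => keyL i = keyL j ∧ 0 < r i θ) :=
        Finset.filter_congr fun i hi => by rw [uL_idx i hi]
      rw [e1, filL j hj hjJ (fun i => 0 < r i θ)]
      exact h.cnt2 θ (cls j) (h.clt j hjJ)
  have hsufR : ∀ θ s,
      (((Finset.range SR.card).filter (fun i => s ≤ i ∧ 0 < uR i θ)).card : ℝ) ≤
        ρ * (((Finset.range SR.card).filter (fun i => s ≤ i ∧ δ ≤ uR i θ)).card : ℝ) +
          A0 / Y := by
    intro θ s
    refine suffix_of_classes (J := ∅) (Finset.empty_subset _) eR keyR heR ?_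
      (fun n => 0 < uR n θ) (fun n => δ ≤ uR n θ) hρ0 hX ?_ ?_ s (by simp)
    · intro i hi
      exact absurd hi (Finset.notMem_empty i)
    · intro j hj _
      have e1 : SR.filter (fun i => keyR i = keyR j ∧ 0 < uR (idx eR i) θ) =
          SR.filter (fun i => keyR i = keyR j ∧ 0 < r i θ) :=
        Finset.filter_congr fun i hi => by rw [uR_idx i hi]
      have e2 : SR.filter (fun i => keyR i = keyR j ∧ δ ≤ uR (idx eR i) θ) =
          SR.filter (fun i => keyR i = keyR j ∧ δ ≤ r i θ) :=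
        Finset.filter_congr fun i hi => by rw [uR_idx i hi]
      rw [e1, e2, filR j hj (fun i => 0 < r i θ), filR j hj (fun i => δ ≤ r i θ)]
      exact h.cnt θ (cls j) (h.clt j ((memR j).1 hj).1)
    · intro j hj _
      have e1 : SR.filter (fun i => keyR i = keyR j ∧ 0 < uR (idx eR i) θ) =
          SR.filter (fun i => keyR i = keyR j ∧ 0 < r i θ) :=
        Finset.filter_congr fun i hi => by rw [uR_idx i hi]
      rw [e1, filR j hj (fun i => 0 < r i θ)]
      exact h.cnt2 θ (cls j) (h.clt j ((memR j).1 hj).1)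
  -- volumes
  have hvolL : ∀ θ, Y * A0 ≤ ∑ i ∈ Finset.range SL.card, uL i θ ^ (q + 1) / ((q : ℝ) + 1) := by
    intro θ
    rw [sumL θ]
    refine (h.volL θ).trans ?_
    refine Finset.sum_le_sum_of_subset_of_nonneg ?_ fun i _ _ => hpos i θ
    intro i hi
    simp only [Finset.mem_filter, Finset.mem_univ, true_and] at hi
    exact (memL i).2 (Or.inr hi.2)
  have hvolR : ∀ θ, Y * A0 ≤ ∑ i ∈ Finset.range SR.card, uR i θ ^ (q + 1) / ((q : ℝ) + 1) := by
    intro θ
    rw [sumR θ]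
    exact h.volR θ
  have hbal : ∀ θ, ∫ t in (0 : ℝ)..T θ, A θ t =
      ∑ i ∈ Finset.range SL.card, uL i θ ^ (q + 1) / ((q : ℝ) + 1) +
        ∑ i ∈ Finset.range SR.card, uR i θ ^ (q + 1) / ((q : ℝ) + 1) := by
    intro θ
    rw [sumL θ, sumR θ, ← hsplit]
    exact h.bal θ
  obtain ⟨WL, WR, vL, vR, pL, pR, O⟩ := H Θ SL.card SR.card J.card uL uR T A A0 h.hA0
    (Finset.card_le_card hJL) h.cT h.cA uL_cont uR_cont uL_01 uR_01 h.hT h.bdA h.lipA htail
    hsufL hsufR hvolL hvolR hbal ε hε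
  -- the output
  set W : ι → Θ → ℝ → ℝ := fun i => if i ∈ SL then WL (idx eL i) else WR (idx eR i) with hW
  set v : ι → Θ → ℝ → ℝ := fun i => if i ∈ SL then vL (idx eL i) else vR (idx eR i) with hv
  set p : ι → Θ → ℝ := fun i => if i ∈ SL then pL (idx eL i) else pR (idx eR i) with hp
  have WL' : ∀ i ∈ SL, W i = WL (idx eL i) := fun i hi => by simp only [hW, if_pos hi]
  have vL' : ∀ i ∈ SL, v i = vL (idx eL i) := fun i hi => by simp only [hv, if_pos hi]
  have pL' : ∀ i ∈ SL, p i = pL (idx eL i) := fun i hi => by simp only [hp, if_pos hi]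
  have WR' : ∀ i ∈ SR, W i = WR (idx eR i) := fun i hi => by
    simp only [hW, if_neg ((memR' i).1 hi)]
  have vR' : ∀ i ∈ SR, v i = vR (idx eR i) := fun i hi => by
    simp only [hv, if_neg ((memR' i).1 hi)]
  have pR' : ∀ i ∈ SR, p i = pR (idx eR i) := fun i hi => by
    simp only [hp, if_neg ((memR' i).1 hi)]
  have hor : ∀ i, i ∈ SL ∨ i ∈ SR := fun i => by
    by_cases hi : i ∈ SL
    · exact Or.inl hi
    · exact Or.inr ((memR' i).2 hi)
  refine ⟨W, v, p, ?_⟩
  constructor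
  · intro i
    rcases hor i with hi | hi
    · rw [WL' i hi]
      exact O.cWL _
    · rw [WR' i hi]
      exact O.cWR _
  · intro i
    rcases hor i with hi | hi
    · rw [vL' i hi]
      exact O.cvL _
    · rw [vR' i hi]
      exact O.cvR _
  · intro i θ t
    rcases hor i with hi | hi
    · rw [vL' i hi]
      exact O.vL_nn _ θ t
    · rw [vR' i hi]
      exact O.vR_nn _ θ t
  · intro i θ t
    rcases hor i with hi | hi
    · rw [vL' i hi, ← uL_idx i hi]
      exact O.vL_le _ θ t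
    · rw [vR' i hi, ← uR_idx i hi]
      exact O.vR_le _ θ t
  · intro i θ x t hx0 hx1 ht1 ht2
    rcases hor i with hi | hi
    · rw [← uL_idx i hi] at hx1 ht2
      rw [WL' i hi] at ht1 ht2
      rw [vL' i hi]
      exact O.secL _ (idx_lt eL hi) θ x t hx0 hx1 ht1 ht2
    · rw [← uR_idx i hi] at hx1 ht2
      rw [WR' i hi] at ht1 ht2
      rw [vR' i hi]
      exact O.secR _ (idx_lt eR hi) θ x t hx0 hx1 ht1 ht2
  · intro i θ t ht0 ht1 hvt
    rcases hor i with hi | hi
    · rw [vL' i hi] at hvt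
      rw [pL' i hi]
      exact O.suppL _ (idx_lt eL hi) θ t ht0 ht1 hvt
    · rw [vR' i hi] at hvt
      rw [pR' i hi]
      exact O.suppR _ (idx_lt eR hi) θ t ht0 ht1 hvt
  · intro i hiJ hiK θ t ht0 ht1 hpt
    have hi : i ∈ SL := (memL i).2 (Or.inr hiK)
    rw [pL' i hi] at hpt ⊢
    rw [vL' i hi, ← uL_idx i hi]
    exact O.lowL _ (idx_lt eL hi) θ t ht0 ht1 hpt
  · intro i hiJ hiK θ t ht0 ht1 hpt
    have hi : i ∈ SR := (memR i).2 ⟨hiJ, hiK⟩
    rw [pR' i hi] at hpt ⊢
    rw [vR' i hi, ← uR_idx i hi]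
    exact O.lowR _ (idx_lt eR hi) θ t ht0 ht1 hpt
  · intro i θ
    rcases hor i with hi | hi
    · rw [vL' i hi, ← uL_idx i hi]
      exact O.intL _ (idx_lt eL hi) θ
    · rw [vR' i hi, ← uR_idx i hi]
      exact O.intR _ (idx_lt eR hi) θ
  · intro i j θ hiJ hjJ hij hjK
    have hi : i ∈ SL := (memL i).2 (Or.inr (hij.trans hjK))
    have hj : j ∈ SL := (memL j).2 (Or.inr hjK)
    rw [pL' i hi, pL' j hj]
    refine O.monoL _ _ θ (le_of_lt ?_) (idx_lt eL hj)
    refine idx_lt_idx eL heL hi hj ?_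
    rw [kL_nJ i hiJ, kL_nJ j hjJ]
    exact_mod_cast hij
  · intro i j θ hiJ hjJ hiK hij
    have hi : i ∈ SR := (memR i).2 ⟨hiJ, hiK⟩
    have hj : j ∈ SR := (memR j).2 ⟨hjJ, hiK.trans hij.le⟩
    rw [pR' i hi, pR' j hj]
    refine O.monoR _ _ θ (le_of_lt ?_) (idx_lt eR hi)
    refine idx_lt_idx eR heR hj hi ?_
    simp only [hkeyR]
    have : (cls i : ℤ) < (cls j : ℤ) := by exact_mod_cast hij
    linarith only [hij]
  · intro θ t ht0 ht1
    rcases O.mass θ t ht0 ht1 with hm | hm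
    · left
      refine hm.trans (le_of_eq ?_)
      rw [sum_filter_idx eL (fun n => t - δ / 16 ≤ pL n θ ∧ pL n θ ≤ t) (fun n => uL n θ ^ q)]
      have hf : Finset.univ.filter
          (fun i => (i ∈ J ∨ cls i < K) ∧ t - δ / 16 ≤ p i θ ∧ p i θ ≤ t) =
          SL.filter (fun i => t - δ / 16 ≤ pL (idx eL i) θ ∧ pL (idx eL i) θ ≤ t) := by
        ext i
        simp only [Finset.mem_filter, Finset.mem_univ, true_and]
        rw [← memL i]
        refine and_congr_right fun hi => ?_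
        rw [pL' i hi]
      rw [hf]
      refine Finset.sum_congr rfl fun i hi => ?_
      rw [uL_idx i (Finset.mem_filter.1 hi).1]
    · right
      refine hm.trans (le_of_eq ?_)
      rw [sum_filter_idx eR (fun n => t ≤ pR n θ ∧ pR n θ ≤ t + δ / 16) (fun n => uR n θ ^ q)]
      have hf : Finset.univ.filter
          (fun i => i ∉ J ∧ K ≤ cls i ∧ t ≤ p i θ ∧ p i θ ≤ t + δ / 16) =
          SR.filter (fun i => t ≤ pR (idx eR i) θ ∧ pR (idx eR i) θ ≤ t + δ / 16) := by
        ext i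
        simp only [Finset.mem_filter, Finset.mem_univ, true_and]
        rw [← and_assoc, ← memR i]
        refine and_congr_right fun hi => ?_
        rw [pR' i hi]
      rw [hf]
      refine Finset.sum_congr rfl fun i hi => ?_
      rw [uR_idx i (Finset.mem_filter.1 hi).1]
  · intro θ t ht0 ht1
    have h1 := O.sum θ t ht0 ht1
    rw [sum_range_idx eL (fun n => vL n θ t ^ q), sum_range_idx eR (fun n => vR n θ t ^ q)] at h1
    rw [hsplit (fun i => v i θ t ^ q)]
    have h2 : ∑ i ∈ SL, v i θ t ^ q = ∑ i ∈ SL, vL (idx eL i) θ t ^ q :=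
      Finset.sum_congr rfl fun i hi => by rw [vL' i hi]
    have h3 : ∑ i ∈ SR, v i θ t ^ q = ∑ i ∈ SR, vR (idx eR i) θ t ^ q :=
      Finset.sum_congr rfl fun i hi => by rw [vR' i hi]
    rw [h2, h3]
    exact h1

end Vale.Agent.P209.Strong
end
end
end
end

section

section

section

section

namespace Vale.Agent.P209.Strong

/-- common part of the two cases of `next_big` -/
theorem C4b_core {q D : ℕ} {δ : ℝ} {ι : Type} [Fintype ι] [DecidableEq ι] {J : Finset ι}
    {dig : ι → Fin (D + 1) → ℕ} {K : ℕ} {r v p : ι → ℝ} {A0 : ℝ} (hq : 1 ≤ q)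
    (hr : ∀ i, 0 ≤ r i ∧ r i ≤ 1) (hlt : ∀ i k, dig i k < 2 * K)
    {X b : ℝ} (hX : 0 < X) (hb : 0 ≤ b) (hXA : 512 * X ≤ δ * A0)
    (hact : ∀ k, ((Finset.univ.filter (fun i => i ∉ J ∧ dig i 0 = k ∧ 0 < r i)).card : ℝ) ≤ X)
    (hbig : ∀ κ : Fin (D + 1) → ℕ, (∀ k, κ k < 2 * K) →
      b ≤ ((Finset.univ.filter (fun i => i ∉ J ∧ dig i = κ ∧ δ ≤ r i)).card : ℝ))
    (κ' : Fin D → ℕ) (hκ : ∀ k, κ' k < 2 * K) (P : ℕ → Prop) [DecidablePred P] (I : Set ℝ)
    [DecidablePred (· ∈ I)] (hI : I.OrdConnected)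
    (hp : ∀ i j, i ∉ J → j ∉ J → P (dig i 0) → P (dig j 0) → dig i 0 < dig j 0 → p i ≤ p j)
    (hm : δ * A0 / 128 ≤ ∑ i ∈ Finset.univ.filter (fun i => (i ∉ J ∧ P (dig i 0)) ∧ p i ∈ I),
      r i ^ q)
    (hv : ∀ i, i ∉ J → P (dig i 0) → p i ∈ I → δ ≤ r i → δ / 2 ≤ v i) :
    b * (δ * A0 / (256 * X)) ≤
      ((Finset.univ.filter (fun i => i ∉ J ∧ Fin.tail (dig i) = κ' ∧ δ / 2 ≤ v i)).card : ℝ) := by
  set S : Finset ι := Finset.univ.filter (fun i => i ∉ J ∧ P (dig i 0)) with hS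
  have hSm : ∀ i, i ∈ S ↔ i ∉ J ∧ P (dig i 0) := fun i => by simp only [hS, Finset.mem_filter, Finset.mem_univ, true_and]
  have hS2 : S.filter (fun i => p i ∈ I) =
      Finset.univ.filter (fun i => (i ∉ J ∧ P (dig i 0)) ∧ p i ∈ I) := by
    rw [hS, Finset.filter_filter]
  have hXκ : ∀ κ, ∑ i ∈ S.filter (fun i => dig i 0 = κ), r i ^ q ≤ X := by
    intro κ
    have h1 : ∑ i ∈ S.filter (fun i => dig i 0 = κ), r i ^ q ≤
        ∑ i ∈ S.filter (fun i => dig i 0 = κ), (if 0 < r i then (1 : ℝ) else 0) := by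
      refine Finset.sum_le_sum fun i _ => ?_
      by_cases h2 : 0 < r i
      · rw [if_pos h2]
        exact pow_le_one₀ (hr i).1 (hr i).2
      · rw [if_neg h2]
        have h3 : r i = 0 := le_antisymm (not_lt.1 h2) (hr i).1
        rw [h3, zero_pow (by omega)]
    refine h1.trans (le_trans ?_ (hact κ))
    rw [← Finset.sum_filter, Finset.sum_const, nsmul_eq_mul, mul_one]
    have h2 : ((S.filter (fun i => dig i 0 = κ)).filter (fun i => 0 < r i)) ⊆
        Finset.univ.filter (fun i => i ∉ J ∧ dig i 0 = κ ∧ 0 < r i) := by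
      intro i hi
      simp only [Finset.mem_filter, hS, Finset.mem_univ, true_and] at hi ⊢
      exact ⟨hi.1.1.1, hi.1.2, hi.2⟩
    exact_mod_cast Finset.card_le_card h2
  obtain ⟨F, hF1, hF2, hF3⟩ := class_inner S (fun i => dig i 0) p (fun i => r i ^ q) I hI
    (fun i hi j hj hij => hp i j ((hSm i).1 hi).1 ((hSm j).1 hj).1 ((hSm i).1 hi).2
      ((hSm j).1 hj).2 hij) hX.le hXκ (m := δ * A0 / 128) (by rw [hS2]; exact hm)
    (fun i _ => pow_nonneg (hr i).1 q)
  · have hF4 : δ * A0 / (256 * X) ≤ F.card := by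
      rw [div_le_iff₀ (by positivity)]
      linarith only [hXA, hF3]
    let cell : ℕ → Finset ι := fun κ =>
      Finset.univ.filter (fun i => i ∉ J ∧ dig i = (Fin.cons κ κ' : Fin (D + 1) → ℕ) ∧ δ ≤ r i)
    have hsub : F.biUnion cell ⊆
        Finset.univ.filter (fun i => i ∉ J ∧ Fin.tail (dig i) = κ' ∧ δ / 2 ≤ v i) := by
      intro i hi
      obtain ⟨κ, hκF, hi2⟩ := Finset.mem_biUnion.1 hi
      obtain ⟨-, hiJ, hid, hir⟩ := Finset.mem_filter.1 hi2
      have hi0 : dig i 0 = κ := by rw [hid, Fin.cons_zero]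
      obtain ⟨j, hjS, hj0⟩ := hF2 κ hκF
      have hPκ : P κ := by
        have := ((hSm j).1 hjS).2
        rwa [hj0] at this
      have hiS : i ∈ S := (hSm i).2 ⟨hiJ, by rwa [hi0]⟩
      have hpI := hF1 κ hκF i hiS hi0
      refine Finset.mem_filter.2 ⟨Finset.mem_univ _, hiJ, ?_, hv i hiJ (by rwa [hi0]) hpI hir⟩
      rw [hid, Fin.tail_cons]
    have hdisj : (F : Set ℕ).PairwiseDisjoint cell := by
      intro κ _ κ₂ _ hne
      rw [Function.onFun, Finset.disjoint_left]
      intro i hi hi2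
      obtain ⟨-, -, h1, -⟩ := Finset.mem_filter.1 hi
      obtain ⟨-, -, h2, -⟩ := Finset.mem_filter.1 hi2
      apply hne
      have h3 : (Fin.cons κ κ' : Fin (D + 1) → ℕ) 0 = (Fin.cons κ₂ κ' : Fin (D + 1) → ℕ) 0 := by
        rw [← h1, ← h2]
      simpa using h3
    have hcard : ((F.biUnion cell).card : ℝ) = ∑ κ ∈ F, ((cell κ).card : ℝ) := by
      rw [Finset.card_biUnion hdisj]
      push_cast
      rfl
    calc b * (δ * A0 / (256 * X)) ≤ b * F.card := mul_le_mul_of_nonneg_left hF4 hb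
      _ = ∑ κ ∈ F, b := by rw [Finset.sum_const, nsmul_eq_mul, mul_comm]
      _ ≤ ∑ κ ∈ F, ((cell κ).card : ℝ) := by
          refine Finset.sum_le_sum fun κ hκF => hbig _ fun k => ?_
          obtain ⟨j, hjS, hj0⟩ := hF2 κ hκF
          refine Fin.cases ?_ (fun k => ?_) k
          · rw [Fin.cons_zero, ← hj0]
            exact hlt j 0
          · rw [Fin.cons_succ]
            exact hκ k
      _ = ((F.biUnion cell).card : ℝ) := hcard.symm
      _ ≤ _ := by exact_mod_cast Finset.card_le_card hsub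

/-- C4b. Lower bound for the number of big balls of the next stage. Here `X` bounds the number of
active balls of a class, `b` is a lower bound for the number of big balls of a cell. -/
theorem next_big {Θ : Type} [TopologicalSpace Θ] {q D : ℕ} {δ ε : ℝ} (hδ : 0 < δ) {ι : Type}
    [Fintype ι] [DecidableEq ι] {J : Finset ι} {dig : ι → Fin (D + 1) → ℕ} {K : ℕ} {r : ι → Θ → ℝ}
    {T : Θ → ℝ} {A : Θ → ℝ → ℝ} {A0 : ℝ} {W v : ι → Θ → ℝ → ℝ} {p : ι → Θ → ℝ} (hq : 1 ≤ q)
    (hr : ∀ i θ, 0 ≤ r i θ ∧ r i θ ≤ 1)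
    (h : ClsOut q δ ε J (fun i => dig i 0) K r T A A0 W v p) (hlt : ∀ i k, dig i k < 2 * K)
    {N X b : ℝ} (hX : 0 < X) (hb : 0 ≤ b) {θ : Θ} {t : ℝ} (ht : 0 ≤ t) (htT : t ≤ T θ)
    (hN : ∑ i ∈ J, r i θ ≤ N) (hNA : N ≤ δ * A0 / 128) (hXA : 512 * X ≤ δ * A0)
    (hact : ∀ k, ((Finset.univ.filter (fun i => i ∉ J ∧ dig i 0 = k ∧ 0 < r i θ)).card : ℝ) ≤ X)
    (hbig : ∀ κ : Fin (D + 1) → ℕ, (∀ k, κ k < 2 * K) →
      b ≤ ((Finset.univ.filter (fun i => i ∉ J ∧ dig i = κ ∧ δ ≤ r i θ)).card : ℝ))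
    (κ' : Fin D → ℕ) (hκ : ∀ k, κ' k < 2 * K) :
    b * (δ * A0 / (256 * X)) ≤
      ((Finset.univ.filter (fun i => i ∉ J ∧ Fin.tail (dig i) = κ' ∧ δ / 2 ≤ v i θ t)).card : ℝ) := by
  classical
  rcases h.mass θ t ht htT with hm | hm
  · refine C4b_core (p := fun i => p i θ) hq (fun i => hr i θ) hlt hX hb hXA hact hbig κ' hκ
      (fun k => k < K) (Set.Icc (t - δ / 16) t) Set.ordConnected_Icc ?_ ?_ ?_
    · intro i j hi hj _ hj2 hij
      exact h.monoL i j θ hi hj hij hj2
    · have hsplit : ∑ i ∈ Finset.univ.filter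
          (fun i => (i ∈ J ∨ dig i 0 < K) ∧ t - δ / 16 ≤ p i θ ∧ p i θ ≤ t), r i θ ^ q ≤
          ∑ i ∈ J, r i θ ^ q + ∑ i ∈ Finset.univ.filter
            (fun i => (i ∉ J ∧ dig i 0 < K) ∧ p i θ ∈ Set.Icc (t - δ / 16) t), r i θ ^ q := by
        have hsub : Finset.univ.filter
            (fun i => (i ∈ J ∨ dig i 0 < K) ∧ t - δ / 16 ≤ p i θ ∧ p i θ ≤ t) ⊆
            J ∪ Finset.univ.filter
            (fun i => (i ∉ J ∧ dig i 0 < K) ∧ p i θ ∈ Set.Icc (t - δ / 16) t) := by
          intro i hi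
          simp only [Finset.mem_filter, Finset.mem_univ, true_and, Finset.mem_union,
            Set.mem_Icc] at hi ⊢
          (clear * - hi; tauto)
        refine (Finset.sum_le_sum_of_subset_of_nonneg hsub
          fun i _ _ => pow_nonneg (hr i θ).1 q).trans ?_
        have hnn : 0 ≤ ∑ i ∈ J ∩ Finset.univ.filter
            (fun i => (i ∉ J ∧ dig i 0 < K) ∧ p i θ ∈ Set.Icc (t - δ / 16) t), r i θ ^ q :=
          Finset.sum_nonneg fun i _ => pow_nonneg (hr i θ).1 q
        have := Finset.sum_union_inter (s₁ := J) (s₂ := Finset.univ.filter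
            (fun i => (i ∉ J ∧ dig i 0 < K) ∧ p i θ ∈ Set.Icc (t - δ / 16) t))
            (f := fun i => r i θ ^ q)
        linarith only [hnn, this]
      have hJ : ∑ i ∈ J, r i θ ^ q ≤ N := by
        refine le_trans (Finset.sum_le_sum fun i _ => ?_) hN
        calc r i θ ^ q ≤ r i θ ^ 1 := pow_le_pow_of_le_one (hr i θ).1 (hr i θ).2 hq
          _ = r i θ := pow_one _
      have hm' : δ / 64 * A0 ≤ ∑ i ∈ Finset.univ.filter
          (fun i => (i ∈ J ∨ dig i 0 < K) ∧ t - δ / 16 ≤ p i θ ∧ p i θ ≤ t), r i θ ^ q := hm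
      linarith only [hNA, hm, hsplit, hJ]
    · intro i hi hi2 hpi hir
      have h1 := h.lowL i hi hi2 θ t ht htT hpi.2
      linarith only [hpi.1, h1, hir, hδ]
  · refine C4b_core (p := fun i => p i θ) hq (fun i => hr i θ) hlt hX hb hXA hact hbig κ' hκ
      (fun k => K ≤ k) (Set.Icc t (t + δ / 16)) Set.ordConnected_Icc ?_ ?_ ?_
    · intro i j hi hj hi2 _ hij
      exact h.monoR i j θ hi hj hi2 hij
    · have he : Finset.univ.filter
          (fun i => i ∉ J ∧ K ≤ dig i 0 ∧ t ≤ p i θ ∧ p i θ ≤ t + δ / 16) =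
          Finset.univ.filter
            (fun i => (i ∉ J ∧ K ≤ dig i 0) ∧ p i θ ∈ Set.Icc t (t + δ / 16)) := by
        ext i
        simp only [Finset.mem_filter, Finset.mem_univ, true_and, Set.mem_Icc]
        (clear * -; tauto)
      have hm' : δ / 64 * A0 ≤ ∑ i ∈ Finset.univ.filter
            (fun i => (i ∉ J ∧ K ≤ dig i 0) ∧ p i θ ∈ Set.Icc t (t + δ / 16)), r i θ ^ q := by
        rw [← he]; exact hm
      have h0 : 0 ≤ δ * A0 := by linarith only [hX, hXA]
      linarith only [hm', hXA, hX]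
    · intro i hi hi2 hpi hir
      have h1 := h.lowR i hi hi2 θ t ht htT hpi.1
      linarith only [hpi.2, h1, hir, hδ]

end Vale.Agent.P209.Strong
end
end
end
end

section

section

section

section

namespace Vale.Agent.P209.Strong

/-- C4c. Upper bound for the number of active balls of the next stage. `X` is a lower bound for the
number of big balls of a class, `B` an upper bound for the number of active balls of a cell. -/
theorem next_act {Θ : Type} [TopologicalSpace Θ] {q D : ℕ} {δ ε C : ℝ} (hδ : 0 < δ) {ι : Type}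
    [Fintype ι] [DecidableEq ι] {J : Finset ι} {dig : ι → Fin (D + 1) → ℕ} {K : ℕ} {r : ι → Θ → ℝ}
    {T : Θ → ℝ} {A : Θ → ℝ → ℝ} {A0 : ℝ} {W v : ι → Θ → ℝ → ℝ} {p : ι → Θ → ℝ} (hq : 1 ≤ q)
    (hr : ∀ i θ, 0 ≤ r i θ ∧ r i θ ≤ 1) (hC : 1 ≤ C) (hA0 : 0 < A0)
    (h : ClsOut q δ ε J (fun i => dig i 0) K r T A A0 W v p) (hlt : ∀ i k, dig i k < 2 * K)
    (hε : ε ≤ A0 / 8) (hcA : ∀ θ, Continuous (A θ)) (hA : ∀ θ t, A θ t ≤ C * A0)
    (hcv : ∀ i θ, Continuous (v i θ))
    {X B : ℝ} (hX : 0 < X) (hXA : X ≤ A0) (hB : 0 ≤ B) {θ : Θ} {t : ℝ} (ht : 0 ≤ t) (htT : t ≤ T θ)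
    (hbig : ∀ k, k < 2 * K →
      X ≤ ((Finset.univ.filter (fun i => i ∉ J ∧ dig i 0 = k ∧ δ ≤ r i θ)).card : ℝ))
    (hact : ∀ κ : Fin (D + 1) → ℕ, (∀ k, κ k < 2 * K) →
      ((Finset.univ.filter (fun i => i ∉ J ∧ dig i = κ ∧ 0 < r i θ)).card : ℝ) ≤ B)
    (hδ1 : δ ≤ 1) (κ' : Fin D → ℕ) (hκ : ∀ k, κ' k < 2 * K) :
    ((Finset.univ.filter (fun i => i ∉ J ∧ Fin.tail (dig i) = κ' ∧ 0 < v i θ t)).card : ℝ) ≤
      B * (14 * C * (q + 1) * A0 / (δ ^ (q + 1) * X)) := by
  classical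
  set I : Set ℝ := Set.Icc (t - 1) (t + 1) with hI
  set w : ι → ℝ := fun i => r i θ ^ (q + 1) / (q + 1) with hw
  have hw0 : ∀ i, 0 ≤ w i := by
    intro i
    have := (hr i θ).1
    simp only [hw]
    (clear * - this hq; positivity)
  set X' : ℝ := X * (δ ^ (q + 1) / (q + 1)) with hX'
  have hX'0 : 0 < X' := by positivity
  set M : ℝ := C * A0 + A0 / 8 with hM
  have hM0 : 0 < M := by positivity
  have hvA : ∀ s, 0 ≤ s → s ≤ T θ → ∑ i, v i θ s ^ q ≤ M := by
    intro s h0 h1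
    have h2 := (abs_le.1 (h.sum θ s h0 h1)).2
    have h3 := hA θ s
    linarith only [hε, hM, h2, h3]
  -- mass near `t`
  have hmass : ∀ S : Finset ι, ∑ i ∈ S.filter (fun i => p i θ ∈ I), w i ≤ 4 * M := by
    intro S
    have e1 : ∑ i ∈ S.filter (fun i => p i θ ∈ I), w i =
        ∫ s in (0 : ℝ)..T θ, ∑ i ∈ S.filter (fun i => p i θ ∈ I), v i θ s ^ q := by
      rw [intervalIntegral.integral_finsetSum]
      · exact Finset.sum_congr rfl fun i _ => (h.int i θ).symm
      · intro i _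
        exact ((hcv i θ).pow q).intervalIntegrable _ _
    have hc : Continuous fun s => ∑ i ∈ S.filter (fun i => p i θ ∈ I), v i θ s ^ q :=
      continuous_finsetSum _ fun i _ => (hcv i θ).pow q
    rw [e1, intervalIntegral.integral_of_le (ht.trans htT)]
    calc ∫ s in Set.Ioc 0 (T θ), ∑ i ∈ S.filter (fun i => p i θ ∈ I), v i θ s ^ q
        ≤ ∫ s in Set.Ioc 0 (T θ), (Set.Icc (t - 2) (t + 2)).indicator (fun _ => M) s := by
          refine MeasureTheory.setIntegral_mono_on ?_ ?_ measurableSet_Ioc ?_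
          · exact (hc.integrableOn_Icc (a := 0) (b := T θ)).mono_set Set.Ioc_subset_Icc_self
          · refine MeasureTheory.IntegrableOn.indicator ?_ measurableSet_Icc
            exact MeasureTheory.integrableOn_const (by simp only [Real.volume_Ioc, sub_zero, ne_eq, ENNReal.ofReal_ne_top, not_false_eq_true])
          · intro s hs
            by_cases hs2 : s ∈ Set.Icc (t - 2) (t + 2)
            · rw [Set.indicator_of_mem hs2]
              refine le_trans ?_ (hvA s hs.1.le hs.2)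
              exact Finset.sum_le_sum_of_subset_of_nonneg (Finset.subset_univ _)
                fun i _ _ => pow_nonneg (h.v_nn i θ s) q
            · rw [Set.indicator_of_notMem hs2]
              refine le_of_eq (Finset.sum_eq_zero fun i hi => ?_)
              have hi2 : p i θ ∈ I := (Finset.mem_filter.1 hi).2
              have hv0 : v i θ s = 0 := by
                by_contra hne
                have hpos : 0 < v i θ s := lt_of_le_of_ne (h.v_nn i θ s) (Ne.symm hne)
                have h1 := abs_le.1 (h.supp i θ s hs.1.le hs.2 hpos)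
                apply hs2
                rw [hI, Set.mem_Icc] at hi2
                constructor <;> linarith only [hi2, h1]
              rw [hv0, zero_pow (by omega)]
      _ ≤ 4 * M := by
          rw [MeasureTheory.setIntegral_indicator measurableSet_Icc,
            MeasureTheory.setIntegral_const, smul_eq_mul]
          refine mul_le_mul_of_nonneg_right ?_ hM0.le
          have h2 : MeasureTheory.volume.real (Set.Ioc 0 (T θ) ∩ Set.Icc (t - 2) (t + 2)) ≤
              MeasureTheory.volume.real (Set.Icc (t - 2) (t + 2)) :=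
            MeasureTheory.measureReal_mono Set.inter_subset_right (by simp only [Real.volume_Icc, add_sub_sub_cancel, ne_eq, ENNReal.ofReal_ne_top, not_false_eq_true])
          rw [Real.volume_real_Icc_of_le (by linarith only [])] at h2
          linarith only [h2]
  -- number of touched classes
  have hnear : ∀ S : Finset ι, (∀ i ∈ S, i ∉ J) →
      (∀ i ∈ S, ∀ j ∈ S, dig i 0 < dig j 0 → p i θ ≤ p j θ) →
      (∀ i ∈ S, ∀ j, j ∉ J → dig j 0 = dig i 0 → j ∈ S) →
      (((S.filter (fun i => p i θ ∈ I)).image fun i => dig i 0).card : ℝ) ≤ 4 * M / X' + 2 := by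
    intro S hS1 hS2 hS3
    have key := class_near S (fun i => dig i 0) (fun i => p i θ) w I Set.ordConnected_Icc hS2
      (X := X') (m := 4 * M) hX'0.le (by
        rintro κ ⟨i, hi, rfl⟩
        have h1 := hbig (dig i 0) (hlt i 0)
        have h2 : (((Finset.univ.filter
            (fun j => j ∉ J ∧ dig j 0 = dig i 0 ∧ δ ≤ r j θ)).card : ℝ)) * (δ ^ (q + 1) / (q + 1)) ≤
            ∑ j ∈ S.filter (fun j => dig j 0 = dig i 0), w j := by
          rw [← nsmul_eq_mul, ← Finset.sum_const]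
          refine le_trans (Finset.sum_le_sum (g := w) ?_)
            (Finset.sum_le_sum_of_subset_of_nonneg ?_ fun j _ _ => hw0 j)
          · intro j hj
            have h3 := (Finset.mem_filter.1 hj).2.2.2
            simp only [hw]
            (clear * - hδ h3 hq; gcongr)
          · intro j hj
            obtain ⟨-, h3, h4, -⟩ := Finset.mem_filter.1 hj
            exact Finset.mem_filter.2 ⟨hS3 i hi j h3 h4, h4⟩
        refine le_trans ?_ h2
        rw [hX']
        exact mul_le_mul_of_nonneg_right h1 (by positivity))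
      (hmass S) (fun i _ => hw0 i)
    rw [div_add' _ _ _ hX'0.ne', le_div_iff₀ hX'0]
    exact key
  set SL : Finset ι := Finset.univ.filter (fun i => i ∉ J ∧ dig i 0 < K) with hSL
  set SR : Finset ι := Finset.univ.filter (fun i => i ∉ J ∧ K ≤ dig i 0) with hSR
  have nL := hnear SL (fun i hi => (Finset.mem_filter.1 hi).2.1)
    (fun i hi j hj hlt' => h.monoL i j θ (Finset.mem_filter.1 hi).2.1 (Finset.mem_filter.1 hj).2.1
      hlt' (Finset.mem_filter.1 hj).2.2)
    (fun i hi j hj e => Finset.mem_filter.2 ⟨Finset.mem_univ _, hj, by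
      rw [e]; exact (Finset.mem_filter.1 hi).2.2⟩)
  have nR := hnear SR (fun i hi => (Finset.mem_filter.1 hi).2.1)
    (fun i hi j hj hlt' => h.monoR i j θ (Finset.mem_filter.1 hi).2.1 (Finset.mem_filter.1 hj).2.1
      (Finset.mem_filter.1 hi).2.2 hlt')
    (fun i hi j hj e => Finset.mem_filter.2 ⟨Finset.mem_univ _, hj, by
      rw [e]; exact (Finset.mem_filter.1 hi).2.2⟩)
  set FL := (SL.filter (fun i => p i θ ∈ I)).image fun i => dig i 0 with hFL
  set FR := (SR.filter (fun i => p i θ ∈ I)).image fun i => dig i 0 with hFR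
  -- covering
  have hcov : Finset.univ.filter (fun i => i ∉ J ∧ Fin.tail (dig i) = κ' ∧ 0 < v i θ t) ⊆
      ((FL ∪ FR).filter (fun k => k < 2 * K)).biUnion fun k => Finset.univ.filter
        (fun i => i ∉ J ∧ dig i = Fin.cons k κ' ∧ 0 < r i θ) := by
    intro i hi
    obtain ⟨-, hiJ, htail, hv⟩ := Finset.mem_filter.1 hi
    have hpI : p i θ ∈ I := by
      have h1 := abs_le.1 (h.supp i θ t ht htT hv)
      rw [hI, Set.mem_Icc]
      constructor <;> linarith only [h1]
    refine Finset.mem_biUnion.2 ⟨dig i 0, Finset.mem_filter.2 ⟨?_, hlt i 0⟩,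
      Finset.mem_filter.2 ⟨Finset.mem_univ _, hiJ, ?_, lt_of_lt_of_le hv (h.v_le i θ t)⟩⟩
    · rw [Finset.mem_union]
      by_cases hK : dig i 0 < K
      · left
        exact Finset.mem_image.2 ⟨i, Finset.mem_filter.2
          ⟨Finset.mem_filter.2 ⟨Finset.mem_univ _, hiJ, hK⟩, hpI⟩, rfl⟩
      · right
        exact Finset.mem_image.2 ⟨i, Finset.mem_filter.2
          ⟨Finset.mem_filter.2 ⟨Finset.mem_univ _, hiJ, not_lt.1 hK⟩, hpI⟩, rfl⟩
    · rw [← htail]
      exact (Fin.cons_self_tail (dig i)).symm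
  have hcard : ((Finset.univ.filter
      (fun i => i ∉ J ∧ Fin.tail (dig i) = κ' ∧ 0 < v i θ t)).card : ℝ) ≤
      ((FL.card : ℝ) + FR.card) * B := by
    have h1 := (Finset.card_le_card hcov).trans Finset.card_biUnion_le
    have h2 : ((Finset.univ.filter
        (fun i => i ∉ J ∧ Fin.tail (dig i) = κ' ∧ 0 < v i θ t)).card : ℝ) ≤
        ∑ k ∈ (FL ∪ FR).filter (fun k => k < 2 * K), ((Finset.univ.filter
          (fun i => i ∉ J ∧ dig i = Fin.cons k κ' ∧ 0 < r i θ)).card : ℝ) := by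
      exact_mod_cast h1
    have h3 : ∑ k ∈ (FL ∪ FR).filter (fun k => k < 2 * K), ((Finset.univ.filter
          (fun i => i ∉ J ∧ dig i = Fin.cons k κ' ∧ 0 < r i θ)).card : ℝ) ≤
          ∑ k ∈ (FL ∪ FR).filter (fun k => k < 2 * K), B := by
      refine Finset.sum_le_sum fun k hk => hact _ fun l => ?_
      refine Fin.cases ?_ (fun l => ?_) l
      · exact (Finset.mem_filter.1 hk).2
      · exact hκ l
    rw [Finset.sum_const, nsmul_eq_mul] at h3
    refine h2.trans (h3.trans (mul_le_mul_of_nonneg_right ?_ hB))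
    have h4 : ((FL ∪ FR).filter (fun k => k < 2 * K)).card ≤ FL.card + FR.card :=
      (Finset.card_filter_le _ _).trans (Finset.card_union_le _ _)
    exact_mod_cast h4
  refine hcard.trans ?_
  rw [mul_comm]
  refine mul_le_mul_of_nonneg_left ?_ hB
  have e2 : 4 * M / X' = 4 * M * (q + 1) / (δ ^ (q + 1) * X) := by
    rw [hX']
    (clear * - hq hδ hX hM0; field_simp)
  have hden : 0 < δ ^ (q + 1) * X := by positivity
  have h5 : (FL.card : ℝ) + FR.card ≤ (8 * M * (q + 1) + 4 * (δ ^ (q + 1) * X)) /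
      (δ ^ (q + 1) * X) := by
    rw [e2] at nL nR
    have : (8 * M * (q + 1) + 4 * (δ ^ (q + 1) * X)) / (δ ^ (q + 1) * X) =
        (4 * M * (q + 1) / (δ ^ (q + 1) * X) + 2) + (4 * M * (q + 1) / (δ ^ (q + 1) * X) + 2) := by
      field_simp
      ring
    rw [this]
    exact add_le_add nL nR
  refine h5.trans ?_
  refine div_le_div_of_nonneg_right ?_ hden.le
  have h6 : δ ^ (q + 1) * X ≤ A0 := by
    have h7 : δ ^ (q + 1) ≤ 1 := pow_le_one₀ hδ.le hδ1
    calc δ ^ (q + 1) * X ≤ 1 * X := mul_le_mul_of_nonneg_right h7 hX.le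
      _ ≤ A0 := by linarith only [hXA]
  have hq' : (1 : ℝ) ≤ q := by exact_mod_cast hq
  have h8 : A0 ≤ C * A0 := by linarith only [mul_nonneg (sub_nonneg.2 hC) (le_of_lt (sub_pos.2 hA0))]
  have h9 : M ≤ 9 / 8 * (C * A0) := by rw [hM]; linarith only [h8]
  have h10 : 0 ≤ C * A0 := by positivity
  nlinarith only [hA0, hM, h6, h9]

end Vale.Agent.P209.Strong
end
end
end
end

section

section

section

section

end
end
end
end

section

section

section

section

namespace Vale.Agent.P209.Strong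

/-! C5a. Shrinking a box. -/

private theorem cts_aux {n : ℕ} {F : Fin n → (Fin n → ℝ) → ℝ} {g : ℝ → ℝ} (hg : Continuous g)
    (h : ∀ j, Continuous fun x : Unit × (Fin n → ℝ) => F j x.2) (j : Fin n) :
    Continuous fun x : ℝ × (Fin n → ℝ) => F j x.2 + g x.1 := by
  have h1 : Continuous fun x : ℝ × (Fin n → ℝ) => F j x.2 :=
    (h j).comp (Continuous.prodMk (continuous_const (y := ())) continuous_snd)
  exact h1.add (hg.comp continuous_fst)

/-- the shrunk family -/
private theorem shrink_isBox {n : ℕ} {c L R : ℝ}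
    {l u : Fin n → (Fin n → ℝ) → ℝ}
    (h : IsBox c L R (Θ := Unit) (fun j _ => l j) (fun j _ => u j))
    {g : ℝ → ℝ} (hg : Continuous g) (hg0 : ∀ e, 0 ≤ g e) (hg1 : ∀ e, g e ≤ c * R / 4) :
    IsBox (c / 2) L R (Θ := ℝ) (fun j e y => l j y + g e) (fun j e y => u j y + (- g e)) where
  dep_l := fun θ j y y' hy => by
    have := h.dep_l () j y y' hy
    simp only at this
    simp only [this]
  dep_u := fun θ j y y' hy => by
    have := h.dep_u () j y y' hy
    simp only at this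
    simp only [this]
  cont_l := fun j => cts_aux hg h.cont_l j
  cont_u := fun j => cts_aux hg.neg h.cont_u j
  lip_l := fun j θ y y' => by
    have := h.lip_l j () y y'
    have e : l j y + g θ - (l j y' + g θ) = l j y - l j y' := by ring
    rw [e]; exact this
  lip_u := fun j θ y y' => by
    have := h.lip_u j () y y'
    have e : u j y + - g θ - (u j y' + - g θ) = u j y - u j y' := by ring
    rw [e]; exact this
  lo := fun j θ y => by
    have h1 := h.lo j () y
    have h2 := hg1 θ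
    show c / 2 * R ≤ (u j y + - g θ) - (l j y + g θ)
    have h3 : c * R ≤ u j y - l j y := h1
    linarith only [h2, h1]
  hi := fun j θ y => by
    have h1 := h.hi j () y
    have h2 := hg0 θ
    show (u j y + - g θ) - (l j y + g θ) ≤ R
    have h3 : u j y - l j y ≤ R := h1
    linarith

theorem shrink_box {n : ℕ} {c L R : ℝ} (hc : 0 < c) (hR : 0 < R) (hL : 0 ≤ L)
    {l u : Fin n → (Fin n → ℝ) → ℝ}
    (h : IsBox c L R (Θ := Unit) (fun j _ => l j) (fun j _ => u j)) {η : ℝ} (hη : 0 < η) :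
    ∃ ε : ℝ, 0 < ε ∧
      IsBox (c / 2) L R (Θ := Unit) (fun j _ y => l j y + ε) (fun j _ y => u j y - ε) ∧
      vol n (Θ := Unit) (fun j _ => l j) (fun j _ => u j) () - η ≤
        vol n (Θ := Unit) (fun j _ y => l j y + ε) (fun j _ y => u j y - ε) () ∧
      cboxSet (fun j y => l j y + ε) (fun j y => u j y - ε) ⊆ boxSet l u := by
  set g : ℝ → ℝ := fun e => min (max e 0) (c * R / 4) with hgdef
  have hcR : 0 < c * R / 4 := by positivity
  have hgc : Continuous g := by fun_prop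
  have hg0 : ∀ e, 0 ≤ g e := fun e => le_min (le_max_right _ _) hcR.le
  have hg1 : ∀ e, g e ≤ c * R / 4 := fun e => min_le_right _ _
  have hbox := shrink_isBox h hgc hg0 hg1
  have hcont := vol_continuous hbox
  have hval : ∀ e : ℝ, vol n (Θ := ℝ) (fun j e y => l j y + g e) (fun j e y => u j y + (- g e)) e =
      vol n (Θ := Unit) (fun j _ y => l j y + g e) (fun j _ y => u j y - g e) () := by
    intro e
    have := vol_comp (Θ := ℝ) (Θ' := Unit) (fun j e y => l j y + g e)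
      (fun j e y => u j y + (- g e)) (fun _ => e) ()
    rw [← this]
    rfl
  have hg00 : g 0 = 0 := by
    simp only [hgdef, max_self]
    exact min_eq_left hcR.le
  have hv0 : vol n (Θ := ℝ) (fun j e y => l j y + g e) (fun j e y => u j y + (- g e)) 0 =
      vol n (Θ := Unit) (fun j _ => l j) (fun j _ => u j) () := by
    rw [hval 0, hg00]
    simp only [add_zero, sub_zero]
  have hnear := (hcont.tendsto 0).eventually
    (lt_mem_nhds (a := vol n (Θ := Unit) (fun j _ => l j) (fun j _ => u j) () - η)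
      (b := vol n (Θ := ℝ) (fun j e y => l j y + g e) (fun j e y => u j y + (- g e)) 0)
      (by rw [hv0]; linarith only [hη]))
  obtain ⟨d, hd, hball⟩ := Metric.eventually_nhds_iff.1 hnear
  refine ⟨min (d / 2) (c * R / 4), lt_min (by positivity) hcR, ?_, ?_, ?_⟩
  · set ε := min (d / 2) (c * R / 4) with hε
    have hε0 : 0 < ε := lt_min (by positivity) hcR
    have hgε : g ε = ε := by
      simp only [hgdef]
      rw [max_eq_left hε0.le, min_eq_left (min_le_right _ _)]
    have hb2 := IsBox.comp hbox (f := fun _ : Unit => ε) continuous_const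
    simp only [hgε] at hb2
    exact hb2
  · set ε := min (d / 2) (c * R / 4) with hε
    have hε0 : 0 < ε := lt_min (by positivity) hcR
    have hgε : g ε = ε := by
      simp only [hgdef]
      rw [max_eq_left hε0.le, min_eq_left (min_le_right _ _)]
    have hdist : dist ε 0 < d := by
      rw [Real.dist_eq, sub_zero, abs_of_pos hε0]
      have : ε ≤ d / 2 := min_le_left _ _
      linarith only [hε0, this]
    have h1 := hball hdist
    rw [hval ε, hgε] at h1
    exact h1.le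
  · set ε := min (d / 2) (c * R / 4) with hε
    have hε0 : 0 < ε := lt_min (by positivity) hcR
    intro y hy j
    have := hy j
    simp only at this
    exact ⟨by linarith only [hε0, this], by linarith only [hε0, this]⟩

end Vale.Agent.P209.Strong
end
end
end
end

section

section

section

section

namespace Vale.Agent.P209.Strong

open Vale.Agent.P209
open scoped ContDiff

/-- duality between the action part and the angle part -/
theorem a10_dual {n : ℕ} (L : (Fin n → ℝ) ≃ₗ[ℝ] (Fin n → ℝ)) (a b : Fin n → ℝ) :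
    ∑ j, L a j * ∑ k, L.symm (Pi.single j 1) k * b k = ∑ k, a k * b k := by
  have h1 : ∀ k, ∑ j, L a j * L.symm (Pi.single j 1) k = a k := by
    intro k
    have h2 : L.symm (∑ j, L a j • (Pi.single j (1 : ℝ) : Fin n → ℝ)) = a := by
      have h3 : ∑ j, L a j • (Pi.single j (1 : ℝ) : Fin n → ℝ) = L a := by
        rw [← pi_eq_sum_univ' (L a)]
      rw [h3, L.symm_apply_apply]
    rw [map_sum] at h2
    have h4 := congrFun h2 k
    rw [Finset.sum_apply] at h4
    rw [← h4]
    refine Finset.sum_congr rfl fun j _ => ?_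
    rw [map_smul, Pi.smul_apply, smul_eq_mul]
  calc ∑ j, L a j * ∑ k, L.symm (Pi.single j 1) k * b k
      = ∑ k, (∑ j, L a j * L.symm (Pi.single j 1) k) * b k := by
        simp_rw [Finset.mul_sum, Finset.sum_mul]
        rw [Finset.sum_comm]
        exact Finset.sum_congr rfl fun _ _ => Finset.sum_congr rfl fun _ _ => by ring
    _ = ∑ k, a k * b k := by simp_rw [h1]

/-- the linear part of the transformation of the toric target -/
noncomputable def a10Lin {n : ℕ} (L : (Fin n → ℝ) ≃ₗ[ℝ] (Fin n → ℝ)) :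
    (Fin n → ℂ) →ₗ[ℝ] (Fin n → ℂ) where
  toFun w j := ⟨L (act w) j, ∑ k, L.symm (Pi.single j 1) k * (w k).im⟩
  map_add' w w' := by
    have h : act (w + w') = act w + act w' := by
      funext j; simp [act]
    funext j
    apply Complex.ext
    · simp [h]
    · simp [mul_add, Finset.sum_add_distrib]
  map_smul' c w := by
    have h : act (c • w) = c • act w := by
      funext j; simp [act]
    funext j
    apply Complex.ext
    · simp [h]
    · simp only [Pi.smul_apply, Complex.real_smul, RingHom.id_apply, Complex.mul_im,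
        Complex.ofReal_re, Complex.ofReal_im, zero_mul, add_zero, Finset.mul_sum]
      exact Finset.sum_congr rfl fun _ _ => by ring

theorem a10Lin_re {n : ℕ} (L : (Fin n → ℝ) ≃ₗ[ℝ] (Fin n → ℝ)) (w : Fin n → ℂ) (j : Fin n) :
    (a10Lin L w j).re = L (act w) j := rfl

theorem a10Lin_im {n : ℕ} (L : (Fin n → ℝ) ≃ₗ[ℝ] (Fin n → ℝ)) (w : Fin n → ℂ) (j : Fin n) :
    (a10Lin L w j).im = ∑ k, L.symm (Pi.single j 1) k * (w k).im := rfl

theorem a10_omega {n : ℕ} (L : (Fin n → ℝ) ≃ₗ[ℝ] (Fin n → ℝ)) (p q : Fin n → ℂ) :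
    omega (a10Lin L p) (a10Lin L q) = omega p q := by
  unfold omega
  simp only [a10Lin_re, a10Lin_im]
  rw [Finset.sum_sub_distrib, Finset.sum_sub_distrib]
  have h1 := a10_dual L (act p) (fun k => (q k).im)
  have h2 := a10_dual L (act q) (fun k => (p k).im)
  rw [h1]
  have h3 : ∑ j, (∑ k, L.symm (Pi.single j 1) k * (p k).im) * L (act q) j =
      ∑ j, L (act q) j * ∑ k, L.symm (Pi.single j 1) k * (p k).im :=
    Finset.sum_congr rfl fun _ _ => mul_comm _ _
  rw [h3, h2]
  simp only [act]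
  congr 1
  exact Finset.sum_congr rfl fun _ _ => mul_comm _ _

/-- A9d. Invariance under integral unimodular affine maps: `L` and its inverse have integer
matrices. (The angles are transformed by the inverse transpose.) -/
theorem TPk.image {n : ℕ} {ι : Type} {Ω : Set (Fin n → ℝ)} {r : ι → ℝ} (h : TPk Ω r)
    (L : (Fin n → ℝ) ≃ₗ[ℝ] (Fin n → ℝ))
    (hL : ∀ i j, ∃ m : ℤ, L (Pi.single i 1) j = m)
    (hL' : ∀ i j, ∃ m : ℤ, L.symm (Pi.single i 1) j = m) (v : Fin n → ℝ) :
    TPk ((fun a => L a + v) '' Ω) r := by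
  have _ := hL'
  obtain ⟨f, hf, hd⟩ := h
  let Φ : (Fin n → ℂ) →L[ℝ] (Fin n → ℂ) := LinearMap.toContinuousLinearMap (a10Lin L)
  have hΦ : ∀ w, Φ w = a10Lin L w := fun w => rfl
  let vc : Fin n → ℂ := fun j => (v j : ℂ)
  have hact : ∀ w, act (Φ w + vc) = L (act w) + v := by
    intro w
    funext j
    change (Φ w j + (v j : ℂ)).re = L (act w) j + v j
    rw [Complex.add_re, Complex.ofReal_re, hΦ, a10Lin_re]
  refine ⟨fun i z => Φ (f i z) + vc, fun i => ?_, ?_⟩
  · obtain ⟨U, hU, hB, hs, hom, hact', hinj⟩ := hf i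
    refine ⟨U, hU, hB, ?_, ?_, ?_, ?_⟩
    · exact (Φ.contDiff.comp_contDiffOn hs).add contDiffOn_const
    · intro z hz p q
      have hdf : DifferentiableAt ℝ (f i) z :=
        ((hs z hz).contDiffAt (hU.mem_nhds hz)).differentiableAt (by simp)
      have h1 : fderiv ℝ (fun z => Φ (f i z) + vc) z = Φ.comp (fderiv ℝ (f i) z) :=
        ((Φ.hasFDerivAt.comp z hdf.hasFDerivAt).add_const vc).fderiv
      rw [h1, ContinuousLinearMap.comp_apply, ContinuousLinearMap.comp_apply, hΦ, hΦ, a10_omega]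
      exact hom z hz p q
    · intro z hz
      rw [hact]
      exact ⟨_, hact' z hz, rfl⟩
    · intro z hz w hw hsame
      refine hinj z hz w hw fun k => ?_
      have hre : act (f i z) = act (f i w) := by
        have h1 : L (act (f i z)) + v = L (act (f i w)) + v := by
          rw [← hact, ← hact]
          funext j
          exact (hsame j).1
        exact L.injective (add_right_cancel h1)
      refine ⟨congrFun hre k, ?_⟩
      have him : ∀ j, ∃ m : ℤ,
          ∑ l, L.symm (Pi.single j 1) l * ((f i z l).im - (f i w l).im) = m := by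
        intro j
        obtain ⟨m, hm⟩ := (hsame j).2
        refine ⟨m, ?_⟩
        rw [← hm]
        change _ = (Φ (f i z) j + (v j : ℂ)).im - (Φ (f i w) j + (v j : ℂ)).im
        rw [Complex.add_im, Complex.add_im, Complex.ofReal_im, hΦ, hΦ, a10Lin_im, a10Lin_im,
          add_zero, add_zero, ← Finset.sum_sub_distrib]
        exact Finset.sum_congr rfl fun _ _ => by ring
      choose M hM using him
      choose A hA using hL
      refine ⟨∑ j, A k j * M j, ?_⟩
      have h2 := a10_dual L (Pi.single k 1) (fun l => (f i z l).im - (f i w l).im)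
      simp only [hM, hA] at h2
      push_cast
      rw [h2]
      simp only [Pi.single_apply, ite_mul, one_mul, zero_mul, Finset.sum_ite_eq', Finset.mem_univ, ↓reduceIte]
  · intro i j hij z hz w hw he
    rw [hact, hact] at he
    exact hd i j hij z hz w hw (L.injective (add_right_cancel he))

end Vale.Agent.P209.Strong
end
end
end
end

section

section

section

section

namespace Vale.Agent.P209.Strong

open MeasureTheory

/-! D1. Formal properties of `Fill`. -/

/-- A linear automorphism of `ℝⁿ` which is integral together with its inverse has determinant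
`±1`. -/
theorem abs_det_of_integral {n : ℕ} (L : (Fin n → ℝ) ≃ₗ[ℝ] (Fin n → ℝ))
    (hL : ∀ i j, ∃ m : ℤ, L (Pi.single i 1) j = m)
    (hL' : ∀ i j, ∃ m : ℤ, L.symm (Pi.single i 1) j = m) :
    |LinearMap.det (L : (Fin n → ℝ) →ₗ[ℝ] (Fin n → ℝ))| = 1 := by
  choose M hM using hL
  choose M' hM' using hL'
  have key : ∀ (K : (Fin n → ℝ) →ₗ[ℝ] (Fin n → ℝ)) (A : Fin n → Fin n → ℤ),
      (∀ i j, K (Pi.single i 1) j = A i j) →
      LinearMap.det K = (((Matrix.of fun j i => A i j : Matrix (Fin n) (Fin n) ℤ).det : ℤ) : ℝ) := by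
    intro K A h
    rw [← LinearMap.det_toMatrix']
    have e0 := RingHom.map_det (Int.castRingHom ℝ)
      (Matrix.of fun j i => A i j : Matrix (Fin n) (Fin n) ℤ)
    rw [eq_intCast] at e0
    rw [e0]
    congr 1
    ext j i
    rw [LinearMap.toMatrix'_apply]
    simp only [h, RingHom.mapMatrix_apply, Matrix.map_apply, Matrix.of_apply,
      Int.coe_castRingHom]
  have h1 := key (L : (Fin n → ℝ) →ₗ[ℝ] (Fin n → ℝ)) M hM
  have h2 := key (L.symm : (Fin n → ℝ) →ₗ[ℝ] (Fin n → ℝ)) M' hM'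
  have h3 : LinearMap.det (L : (Fin n → ℝ) →ₗ[ℝ] (Fin n → ℝ)) *
      LinearMap.det (L.symm : (Fin n → ℝ) →ₗ[ℝ] (Fin n → ℝ)) = 1 := by
    rw [← LinearMap.det_comp, LinearEquiv.comp_coe, LinearEquiv.symm_trans_self]
    simp
  rw [h1, h2] at h3
  have h4 : (Matrix.of fun j i => M i j : Matrix (Fin n) (Fin n) ℤ).det *
      (Matrix.of fun j i => M' i j : Matrix (Fin n) (Fin n) ℤ).det = 1 := by
    exact_mod_cast h3
  have h5 : |(Matrix.of fun j i => M i j : Matrix (Fin n) (Fin n) ℤ).det| = 1 :=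
    Int.isUnit_iff_abs_eq.1 (IsUnit.of_mul_eq_one _ h4)
  rw [h1, ← Int.cast_abs, h5, Int.cast_one]

theorem volume_image_of_integral {n : ℕ} (Ω : Set (Fin n → ℝ))
    (L : (Fin n → ℝ) ≃ₗ[ℝ] (Fin n → ℝ))
    (hL : ∀ i j, ∃ m : ℤ, L (Pi.single i 1) j = m)
    (hL' : ∀ i j, ∃ m : ℤ, L.symm (Pi.single i 1) j = m) (v : Fin n → ℝ) :
    volume ((fun a => L a + v) '' Ω) = volume Ω := by
  have e1 : (fun a => L a + v) '' Ω = (fun b => b + -v) ⁻¹' (L '' Ω) := by
    rw [← Set.image_add_right, Set.image_image]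
  rw [e1, measure_preimage_add_right]
  have h := Measure.addHaar_image_linearMap (volume : Measure (Fin n → ℝ))
    (L : (Fin n → ℝ) →ₗ[ℝ] (Fin n → ℝ)) Ω
  rw [abs_det_of_integral L hL hL', ENNReal.ofReal_one, one_mul] at h
  exact h

/-- Invariance under integral unimodular affine maps. -/
theorem Fill.image {n : ℕ} {δ N : ℝ} {Ω : Set (Fin n → ℝ)}
    (L : (Fin n → ℝ) ≃ₗ[ℝ] (Fin n → ℝ))
    (hL : ∀ i j, ∃ m : ℤ, L (Pi.single i 1) j = m)
    (hL' : ∀ i j, ∃ m : ℤ, L.symm (Pi.single i 1) j = m) (v : Fin n → ℝ)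
    (h : Fill δ N ((fun a => L a + v) '' Ω)) : Fill δ N Ω := by
  intro ι _ r J h1 h2 h3 h4
  rw [← volume_image_of_integral Ω L hL hL' v] at h4
  have h5 := h ι r J h1 h2 h3 h4
  have h6 := h5.image L.symm hL' (by simpa only [LinearEquiv.symm_symm] using hL) (-(L.symm v))
  have e : (fun a => L.symm a + -(L.symm v)) '' ((fun a => L a + v) '' Ω) = Ω := by
    rw [Set.image_image]
    have : (fun a => L.symm (L a + v) + -(L.symm v)) = id := by
      funext a
      simp
    rw [this, Set.image_id]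
  rwa [e] at h6

end Vale.Agent.P209.Strong
end
end
end
end

section

section

section

section

set_option linter.all false

namespace Vale.Agent.P209.Strong

open MeasureTheory

/-! D1. Formal properties of `Fill`. -/

/-- `Fill` for a subset of the balls. -/
theorem Fill.restrict {n : ℕ} {δ N : ℝ} {Ω : Set (Fin n → ℝ)} (h : Fill δ N Ω) {ι : Type}
    [Fintype ι] (r : ι → ℝ) (J : Finset ι) (hr : ∀ i, 0 < r i ∧ r i ≤ 1)
    (hJ : ∀ i, i ∉ J → δ ≤ r i) (hN : ∑ i ∈ J, r i ≤ N) (S : Set ι) [DecidablePred (· ∈ S)]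
    (hv : ∑ i ∈ Finset.univ.filter (· ∈ S), r i ^ n / (n.factorial : ℝ) <
      (volume Ω).toReal) : TPk Ω (fun i : S => r i) := by
  classical
  refine h S (fun i : S => r i) (Finset.univ.filter fun i : S => (i : ι) ∈ J)
    (fun i => hr i) (fun i hi => hJ i (by simpa only [Finset.mem_filter, Finset.mem_univ, true_and] using hi)) ?_ ?_
  · refine le_trans ?_ hN
    have e : ∑ i ∈ Finset.univ.filter (fun i : S => (i : ι) ∈ J), r i =
        ∑ i ∈ (Finset.univ.filter fun i : S => (i : ι) ∈ J).map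
          (Function.Embedding.subtype (· ∈ S)), r i := by
      rw [Finset.sum_map]
      rfl
    rw [e]
    refine Finset.sum_le_sum_of_subset_of_nonneg ?_ fun i _ _ => (hr i).1.le
    intro i hi
    simp only [Finset.mem_map, Finset.mem_filter, Finset.mem_univ, true_and] at hi
    obtain ⟨a, ha, rfl⟩ := hi
    exact ha
  · refine lt_of_eq_of_lt ?_ hv
    exact (Finset.sum_subtype (Finset.univ.filter (· ∈ S)) (fun x => by simp only [Finset.mem_filter, Finset.mem_univ, true_and])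
      (fun i => r i ^ n / (n.factorial : ℝ))).symm

/-- Splitting lemma with a movable wall. -/
theorem Fill.split {n : ℕ} (hn : 1 ≤ n) {δ N : ℝ} (hδ1 : δ ≤ 1) {Ω : Set (Fin n → ℝ)}
    (hfin : volume Ω ≠ ⊤) (U V : ℝ → Set (Fin n → ℝ)) {c₀ c₁ : ℝ} (hc : c₀ ≤ c₁)
    (hU : ∀ c, c₀ ≤ c → c ≤ c₁ → U c ⊆ Ω) (hV : ∀ c, c₀ ≤ c → c ≤ c₁ → V c ⊆ Ω)
    (hd : ∀ c, c₀ ≤ c → c ≤ c₁ → Disjoint (U c) (V c))
    (hvol : ∀ c, c₀ ≤ c → c ≤ c₁ →
      (volume Ω).toReal ≤ (volume (U c)).toReal + (volume (V c)).toReal)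
    (hcont : ContinuousOn (fun c => (volume (U c)).toReal) (Set.Icc c₀ c₁))
    (hbig : (volume (U c₀)).toReal + 1 / (n.factorial : ℝ) < (volume (U c₁)).toReal)
    (hFU : ∀ c, c₀ ≤ c → c ≤ c₁ → Fill δ N (U c)) (hFV : ∀ c, c₀ ≤ c → c ≤ c₁ → Fill δ N (V c)) :
    Fill δ N Ω := by
  classical
  intro ι _ r J hr hJ hN hlt
  set w : ι → ℝ := fun i => r i ^ n / (n.factorial : ℝ) with hw
  have hw0 : ∀ i, 0 ≤ w i := fun i => by
    have := (hr i).1
    (clear * - this; positivity)
  have hw1 : ∀ i, w i ≤ 1 / (n.factorial : ℝ) := fun i =>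
    div_le_div_of_nonneg_right (pow_le_one₀ (hr i).1.le (hr i).2) (by positivity)
  have hfac : (0 : ℝ) < 1 / (n.factorial : ℝ) := by positivity
  have hU0 : 0 ≤ (volume (U c₀)).toReal := ENNReal.toReal_nonneg
  by_cases hA : ∑ i, w i < (volume (U c₁)).toReal
  · exact (hFU c₁ hc le_rfl ι r J hr hJ hN hA).mono (hU c₁ hc le_rfl)
  rw [not_lt] at hA
  obtain ⟨S, hS, hmax⟩ := Finset.exists_max_image
    (Finset.univ.filter fun S : Finset ι => ∑ i ∈ S, w i < (volume (U c₁)).toReal) Finset.card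
    ⟨∅, by
      simp only [Finset.mem_filter, Finset.mem_univ, true_and, Finset.sum_empty]
      linarith only [hbig, hfac, hU0]⟩
  simp only [Finset.mem_filter, Finset.mem_univ, true_and] at hS hmax
  obtain ⟨i, hi⟩ : ∃ i, i ∉ S := by
    by_contra hcon
    push Not at hcon
    rw [Finset.eq_univ_iff_forall.2 hcon] at hS
    linarith only [hA, hS]
  have hi2 : (volume (U c₁)).toReal ≤ w i + ∑ i ∈ S, w i := by
    rw [← Finset.sum_insert hi]
    by_contra hcon
    rw [not_le] at hcon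
    have := hmax _ hcon
    rw [Finset.card_insert_of_notMem hi] at this
    omega
  have hlow : (volume (U c₀)).toReal < ∑ i ∈ S, w i := by
    have := hw1 i
    linarith only [hbig, hi2, this]
  set θ : ℝ := min ((volume Ω).toReal - ∑ i, w i) ((volume (U c₁)).toReal - ∑ i ∈ S, w i) / 2
    with hθ
  have hm : 0 < min ((volume Ω).toReal - ∑ i, w i) ((volume (U c₁)).toReal - ∑ i ∈ S, w i) :=
    lt_min (sub_pos.2 hlt) (sub_pos.2 hS)
  have hθ0 : 0 < θ := by (clear * - hlt hS; positivity)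
  have hθ1 : θ < (volume Ω).toReal - ∑ i, w i := by
    have := min_le_left ((volume Ω).toReal - ∑ i, w i) ((volume (U c₁)).toReal - ∑ i ∈ S, w i)
    rw [hθ]
    linarith only [hθ, hθ0, this]
  have hθ2 : θ < (volume (U c₁)).toReal - ∑ i ∈ S, w i := by
    have := min_le_right ((volume Ω).toReal - ∑ i, w i) ((volume (U c₁)).toReal - ∑ i ∈ S, w i)
    rw [hθ]
    linarith only [hθ, hθ0, this]
  obtain ⟨c, ⟨hc0, hc1⟩, hcv⟩ := intermediate_value_Icc hc hcont
    (show ∑ i ∈ S, w i + θ ∈ Set.Icc (volume (U c₀)).toReal (volume (U c₁)).toReal from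
      ⟨by linarith only [hlow, hθ0], by linarith only [hθ2]⟩)
  simp only at hcv
  have hsplit : ∑ i ∈ S, w i + ∑ i ∈ Sᶜ, w i = ∑ i, w i := Finset.sum_add_sum_compl S w
  have h1 : TPk (U c) (fun i : (S : Set ι) => r i) := by
    refine (hFU c hc0 hc1).restrict r J hr hJ hN (S : Set ι) ?_
    have : Finset.univ.filter (· ∈ (S : Set ι)) = S := by ext; simp only [SetLike.mem_coe, Finset.subset_univ, Finset.filter_mem_eq_of_subset]
    rw [this, hcv]
    show ∑ i ∈ S, w i < _
    linarith only [hθ0]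
  have h2 : TPk (V c) (fun i : ((S : Set ι)ᶜ : Set ι) => r i) := by
    refine (hFV c hc0 hc1).restrict r J hr hJ hN ((S : Set ι)ᶜ) ?_
    have : Finset.univ.filter (· ∈ ((S : Set ι)ᶜ : Set ι)) = Sᶜ := by ext; simp only [Set.mem_compl_iff, SetLike.mem_coe, Finset.mem_filter, Finset.mem_univ, true_and, Finset.mem_compl]
    rw [this]
    show ∑ i ∈ Sᶜ, w i < _
    have := hvol c hc0 hc1
    linarith only [hθ1, hcv, hsplit, this]
  exact TPk.union (S : Set ι) h1 h2 (hd c hc0 hc1) (hU c hc0 hc1) (hV c hc0 hc1)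

end Vale.Agent.P209.Strong
end
end
end
end

section

section

section

section

end
end
end
end

section

section

section

section

namespace Vale.Agent.P209.Strong

open MeasureTheory

/-- The volume of the simplex, with values in `ℝ≥0∞`. -/
theorem volume_simplex_ofReal : ∀ (n : ℕ) (R : ℝ), 0 < R →
    volume (simplex n R) = ENNReal.ofReal (R ^ n / (n.factorial : ℝ))
  | 0, R, hR => by
    have h : simplex 0 R = Set.univ := by
      ext a
      simp [simplex, hR]
    rw [h]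
    simp only [volume_pi, Measure.pi_empty_univ, pow_zero, Nat.factorial_zero, Nat.cast_one, ne_eq, one_ne_zero, not_false_eq_true, div_self, ENNReal.ofReal_one]
  | n + 1, R, hR => by
    have ih := volume_simplex_ofReal n
    have hmp := volume_preserving_piFinSuccAbove (fun _ : Fin (n + 1) => ℝ) 0
    set T : Set (ℝ × (Fin n → ℝ)) := {p | 0 < p.1 ∧ p.2 ∈ simplex n (R - p.1)} with hTdef
    have hpre : simplex (n + 1) R =
        (MeasurableEquiv.piFinSuccAbove (fun _ : Fin (n + 1) => ℝ) 0) ⁻¹' T := by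
      ext a
      simp only [simplex, Set.mem_ofPred_eq, Set.mem_preimage, hTdef, Fin.forall_fin_succ,
        Fin.sum_univ_succ]
      constructor
      · rintro ⟨⟨h0, h1⟩, h2⟩
        exact ⟨h0, h1, by
          change ∑ j : Fin n, a (Fin.succ j) < R - a 0
          linarith⟩
      · rintro ⟨h0, h1, h2⟩
        change ∑ j : Fin n, a (Fin.succ j) < R - a 0 at h2
        exact ⟨⟨h0, h1⟩, by linarith⟩
    have hT : IsOpen T := by
      have h : T = {p | 0 < p.1} ∩ ((⋂ j : Fin n, {p : ℝ × (Fin n → ℝ) | 0 < p.2 j}) ∩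
          {p | ∑ j, p.2 j < R - p.1}) := by
        ext p
        simp only [hTdef, simplex, Set.mem_ofPred_eq, Set.mem_inter_iff, Set.mem_iInter]
      rw [h]
      refine (isOpen_lt continuous_const continuous_fst).inter (IsOpen.inter ?_ ?_)
      · exact isOpen_iInter_of_finite fun j =>
          isOpen_lt continuous_const ((continuous_apply j).comp continuous_snd)
      · exact isOpen_lt (continuous_finsetSum _ fun j _ =>
          (continuous_apply j).comp continuous_snd) (continuous_const.sub continuous_fst)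
    rw [hpre, hmp.measure_preimage hT.measurableSet.nullMeasurableSet,
      Measure.volume_eq_prod, Measure.prod_apply
      hT.measurableSet]
    have hsl : ∀ t : ℝ, volume (Prod.mk t ⁻¹' T) =
        (Set.Ioo 0 R).indicator (fun t => ENNReal.ofReal ((R - t) ^ n / (n.factorial : ℝ))) t := by
      intro t
      by_cases ht : t ∈ Set.Ioo 0 R
      · rw [Set.indicator_of_mem ht]
        have h : Prod.mk t ⁻¹' T = simplex n (R - t) := by
          ext a
          simp [hTdef, ht.1]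
        rw [h, ih (R - t) (sub_pos.mpr ht.2)]
      · rw [Set.indicator_of_notMem ht]
        have h : Prod.mk t ⁻¹' T = ∅ := by
          ext a
          simp only [Set.mem_preimage, hTdef, Set.mem_ofPred_eq, Set.mem_empty_iff_false, iff_false]
          rintro ⟨h0, h1, h2⟩
          refine ht ⟨h0, ?_⟩
          have h3 : 0 ≤ ∑ j, a j := Finset.sum_nonneg fun j _ => (h1 j).le
          linarith only [h2, h3]
        rw [h, measure_empty]
    simp only [hsl]
    rw [lintegral_indicator measurableSet_Ioo, ← ofReal_integral_eq_lintegral_ofReal]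
    · congr 1
      rw [← integral_Ioc_eq_integral_Ioo, ← intervalIntegral.integral_of_le hR.le,
        intervalIntegral.integral_div,
        intervalIntegral.integral_comp_sub_left (fun x => x ^ n) R, integral_pow, sub_self, sub_zero,
        zero_pow (by omega), sub_zero, Nat.factorial_succ]
      push_cast
      (clear * - hR; field_simp)
    · refine Integrable.mono_measure ?_ (Measure.restrict_mono Set.Ioo_subset_Icc_self le_rfl)
      exact (by fun_prop : Continuous fun t : ℝ => (R - t) ^ n / (n.factorial : ℝ)).integrableOn_Icc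
    · refine (ae_restrict_iff' measurableSet_Ioo).mpr (Filter.Eventually.of_forall fun t ht => ?_)
      have : 0 ≤ R - t := sub_nonneg.mpr ht.2.le
      change (0 : ℝ) ≤ _
      (clear * - this; positivity)

theorem volume_simplex (n : ℕ) (R : ℝ) (hR : 0 < R) :
    (volume (simplex n R)).toReal = R ^ n / (n.factorial : ℝ) := by
  rw [volume_simplex_ofReal n R hR, ENNReal.toReal_ofReal (by positivity)]

end Vale.Agent.P209.Strong
end
end
end
end

section

section

section

section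

namespace Vale.Agent.P209.Strong

open Vale.Agent.P209 MeasureTheory

open scoped ContDiff

theorem e1b_smul_sum {n : ℕ} (c : ℝ) (z : Fin n → ℂ) :
    Real.pi * ∑ j, ‖(c • z) j‖ ^ 2 = c ^ 2 * (Real.pi * ∑ j, ‖z j‖ ^ 2) := by
  have h1 : ∀ j, ‖(c • z) j‖ ^ 2 = c ^ 2 * ‖z j‖ ^ 2 := by
    intro j
    rw [Pi.smul_apply, norm_smul, mul_pow, Real.norm_eq_abs, sq_abs]
  rw [Finset.sum_congr rfl fun j _ => h1 j, ← Finset.mul_sum]
  ring

theorem e1b_closed {n : ℕ} {c s ρ : ℝ} (hc : 0 < c) (hcs : c ^ 2 = s) {z : Fin n → ℂ}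
    (hz : z ∈ closedBall n (s * ρ)) : c⁻¹ • z ∈ closedBall n ρ := by
  unfold closedBall at hz ⊢
  simp only [Set.mem_ofPred_eq] at hz ⊢
  rw [e1b_smul_sum, inv_pow, inv_mul_le_iff₀ (by positivity), hcs]
  exact hz

theorem e1b_open {n : ℕ} {c s ρ : ℝ} (hc : 0 < c) (hcs : c ^ 2 = s) {z : Fin n → ℂ}
    (hz : z ∈ openBall n ρ) : c • z ∈ openBall n (s * ρ) := by
  unfold openBall at hz ⊢
  simp only [Set.mem_ofPred_eq] at hz ⊢
  rw [e1b_smul_sum, ← hcs]
  exact mul_lt_mul_of_pos_left hz (by positivity)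

/-- scaling -/
theorem Packs.scale {n : ℕ} {ι : Type} {R : ℝ} {r : ι → ℝ} {s : ℝ} (hs : 0 < s)
    (h : Packs (openBall n R) r) : Packs (openBall n (s * R)) (fun i => s * r i) := by
  obtain ⟨f, hf, hfR, hfd⟩ := h
  have hc : 0 < √s := Real.sqrt_pos.2 hs
  have hcs : √s ^ 2 = s := Real.sq_sqrt hs.le
  have hc0 : √s ≠ 0 := hc.ne'
  refine ⟨fun i z => √s • f i ((√s)⁻¹ • z), ?_, ?_, ?_⟩
  · intro i
    obtain ⟨U, hUo, hU, hfU, hemb, hsy⟩ := hf i
    have hinj : Set.InjOn (f i) U := by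
      intro a ha b hb hab
      have h1 := hemb.injective (a₁ := ⟨a, ha⟩) (a₂ := ⟨b, hb⟩) hab
      exact congrArg Subtype.val h1
    have hlin : ContDiff ℝ ∞ fun z : Fin n → ℂ => (√s)⁻¹ • z := contDiff_id.const_smul _
    have hV : IsOpen ((fun z : Fin n → ℂ => (√s)⁻¹ • z) ⁻¹' U) := hUo.preimage hlin.continuous
    have hcd : ContDiffOn ℝ ∞ (fun z => √s • f i ((√s)⁻¹ • z))
        ((fun z : Fin n → ℂ => (√s)⁻¹ • z) ⁻¹' U) :=
      (hfU.comp hlin.contDiffOn fun z hz => hz).const_smul _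
    have hder : ∀ z ∈ ((fun z : Fin n → ℂ => (√s)⁻¹ • z) ⁻¹' U), ∀ v,
        fderiv ℝ (fun z => √s • f i ((√s)⁻¹ • z)) z v = fderiv ℝ (f i) ((√s)⁻¹ • z) v := by
      intro z hz v
      have h1 : HasFDerivAt (f i) (fderiv ℝ (f i) ((√s)⁻¹ • z)) ((√s)⁻¹ • z) :=
        ((hfU.contDiffAt (hUo.mem_nhds hz)).differentiableAt (by simp)).hasFDerivAt
      have h2 : HasFDerivAt (fun z : Fin n → ℂ => (√s)⁻¹ • z)
          ((√s)⁻¹ • ContinuousLinearMap.id ℝ (Fin n → ℂ)) z :=
        ((√s)⁻¹ • ContinuousLinearMap.id ℝ (Fin n → ℂ)).hasFDerivAt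
      have h3 := (h1.comp z h2).const_smul (√s)
      have h4 : fderiv ℝ (fun z => √s • f i ((√s)⁻¹ • z)) z = _ := h3.fderiv
      rw [h4]
      simp only [_root_.smul_apply, ContinuousLinearMap.comp_apply,
        ContinuousLinearMap.id_apply, map_smul]
      rw [smul_smul, mul_inv_cancel₀ hc0, one_smul]
    have hsy' : ∀ z ∈ ((fun z : Fin n → ℂ => (√s)⁻¹ • z) ⁻¹' U), ∀ v w : Fin n → ℂ,
        omega (fderiv ℝ (fun z => √s • f i ((√s)⁻¹ • z)) z v)
          (fderiv ℝ (fun z => √s • f i ((√s)⁻¹ • z)) z w) = omega v w := by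
      intro z hz v w
      rw [hder z hz v, hder z hz w]
      exact hsy _ hz v w
    refine ⟨_, hV, fun z hz => hU (e1b_closed hc hcs hz), hcd, ?_, hsy'⟩
    refine isOpenEmbedding_of_sympl hV hcd ?_ hsy'
    intro a ha b hb hab
    have h1 : f i ((√s)⁻¹ • a) = f i ((√s)⁻¹ • b) := smul_right_injective _ hc0 hab
    exact smul_right_injective _ (inv_ne_zero hc0) (hinj ha hb h1)
  · rintro i _ ⟨z, hz, rfl⟩
    exact e1b_open hc hcs (hfR i ⟨_, e1b_closed hc hcs hz, rfl⟩)
  · intro i j hij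
    rw [Set.disjoint_left]
    rintro _ ⟨z, hz, rfl⟩ ⟨w, hw, hzw⟩
    have h1 : f j ((√s)⁻¹ • w) = f i ((√s)⁻¹ • z) := smul_right_injective _ hc0 hzw
    exact Set.disjoint_left.1 (hfd hij) ⟨_, e1b_closed hc hcs hz, rfl⟩
      ⟨_, e1b_closed hc hcs hw, h1⟩

theorem Packs.comp_inj {n : ℕ} {ι κ : Type} {S : Set (Fin n → ℂ)} {r : ι → ℝ} (h : Packs S r)
    (e : κ → ι) (he : Function.Injective e) : Packs S (fun k => r (e k)) := by
  obtain ⟨f, hf, hfR, hfd⟩ := h
  exact ⟨fun k => f (e k), fun k => hf (e k), fun k => hfR (e k), fun i j hij =>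
    hfd fun h => hij (he h)⟩

/-- Composition of symplectic embeddings of balls. -/
theorem e1b_comp {n : ℕ} {r ρ : ℝ} {F g : (Fin n → ℂ) → (Fin n → ℂ)}
    (hF : IsSymplecticEmbedding ρ F) (hg : IsSymplecticEmbedding r g)
    (hgr : g '' closedBall n r ⊆ closedBall n ρ) : IsSymplecticEmbedding r fun z => F (g z) := by
  obtain ⟨U, hUo, hU, hFU, hFe, hFs⟩ := hF
  obtain ⟨V, hVo, hV, hgV, hge, hgs⟩ := hg
  have hFi : Set.InjOn F U := by
    intro a ha b hb hab
    have h1 := hFe.injective (a₁ := ⟨a, ha⟩) (a₂ := ⟨b, hb⟩) hab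
    exact congrArg Subtype.val h1
  have hgi : Set.InjOn g V := by
    intro a ha b hb hab
    have h1 := hge.injective (a₁ := ⟨a, ha⟩) (a₂ := ⟨b, hb⟩) hab
    exact congrArg Subtype.val h1
  have hW : IsOpen (V ∩ g ⁻¹' U) := hgV.continuousOn.isOpen_inter_preimage hVo hUo
  have hcd : ContDiffOn ℝ ∞ (fun z => F (g z)) (V ∩ g ⁻¹' U) :=
    hFU.comp (hgV.mono Set.inter_subset_left) fun z hz => hz.2
  have hsy : ∀ z ∈ V ∩ g ⁻¹' U, ∀ v w : Fin n → ℂ, omega (fderiv ℝ (fun z => F (g z)) z v)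
      (fderiv ℝ (fun z => F (g z)) z w) = omega v w := by
    intro z hz v w
    have h1 : DifferentiableAt ℝ F (g z) :=
      (hFU.contDiffAt (hUo.mem_nhds hz.2)).differentiableAt (by simp)
    have h2 : DifferentiableAt ℝ g z :=
      (hgV.contDiffAt (hVo.mem_nhds hz.1)).differentiableAt (by simp)
    have h3 : fderiv ℝ (fun z => F (g z)) z = (fderiv ℝ F (g z)).comp (fderiv ℝ g z) :=
      fderiv_comp z h1 h2
    rw [h3]
    simp only [ContinuousLinearMap.comp_apply]
    rw [hFs _ hz.2, hgs _ hz.1]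
  refine ⟨V ∩ g ⁻¹' U, hW, fun z hz => ⟨hV hz, hU (hgr ⟨z, hz, rfl⟩)⟩, hcd, ?_, hsy⟩
  refine isOpenEmbedding_of_sympl hW hcd ?_ hsy
  intro a ha b hb hab
  exact hgi ha.1 hb.1 (hFi ha.2 hb.2 hab)

theorem e1b_open_sub_closed {n : ℕ} {ρ : ℝ} : openBall n ρ ⊆ closedBall n ρ :=
  fun z hz => le_of_lt (show Real.pi * ∑ j, ‖z j‖ ^ 2 < ρ from hz)

/-- Replacing a group of balls by a virtual ball. -/
theorem Packs.merge {n : ℕ} {ι : Type} {R ρ : ℝ} {r : ι → ℝ} (G : Set ι)
    (h : Packs (openBall n R) (fun o : Option (Gᶜ : Set ι) => o.elim ρ (fun i => r i)))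
    (hG : Packs (openBall n ρ) (fun i : G => r i)) : Packs (openBall n R) r := by
  classical
  obtain ⟨F, hF, hFR, hFd⟩ := h
  obtain ⟨g, hg, hgR, hgd⟩ := hG
  have hsub : ∀ i : G, g i '' closedBall n (r i) ⊆ closedBall n ρ := fun i =>
    (hgR i).trans e1b_open_sub_closed
  have himg : ∀ i : G, (fun z => F none (g i z)) '' closedBall n (r i) ⊆
      F none '' closedBall n ρ := by
    rintro i _ ⟨z, hz, rfl⟩
    exact ⟨_, hsub i ⟨z, hz, rfl⟩, rfl⟩
  obtain ⟨U, hUo, hU, hFU, hFe, hFs⟩ := hF none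
  have hFi : Set.InjOn (F none) U := by
    intro a ha b hb hab
    have h1 := hFe.injective (a₁ := ⟨a, ha⟩) (a₂ := ⟨b, hb⟩) hab
    exact congrArg Subtype.val h1
  refine ⟨fun i => if hi : i ∈ G then fun z => F none (g ⟨i, hi⟩ z) else F (some ⟨i, hi⟩),
    ?_, ?_, ?_⟩
  · intro i
    by_cases hi : i ∈ G
    · simp only [dif_pos hi]
      exact e1b_comp (hF none) (hg ⟨i, hi⟩) (hsub ⟨i, hi⟩)
    · simp only [dif_neg hi]
      exact hF (some ⟨i, hi⟩)
  · intro i
    by_cases hi : i ∈ G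
    · simp only [dif_pos hi]
      exact (himg ⟨i, hi⟩).trans (hFR none)
    · simp only [dif_neg hi]
      exact hFR (some ⟨i, hi⟩)
  · intro i j hij
    by_cases hi : i ∈ G
    · by_cases hj : j ∈ G
      · simp only [dif_pos hi, dif_pos hj]
        rw [Set.disjoint_left]
        rintro _ ⟨z, hz, rfl⟩ ⟨w, hw, hzw⟩
        have h1 : g ⟨j, hj⟩ w = g ⟨i, hi⟩ z :=
          hFi (hU (hsub ⟨j, hj⟩ ⟨w, hw, rfl⟩)) (hU (hsub ⟨i, hi⟩ ⟨z, hz, rfl⟩)) hzw
        have h2 : (⟨i, hi⟩ : G) ≠ ⟨j, hj⟩ := fun h => hij (congrArg Subtype.val h)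
        exact Set.disjoint_left.1 (hgd h2) ⟨z, hz, rfl⟩ ⟨w, hw, h1⟩
      · simp only [dif_pos hi, dif_neg hj]
        exact (hFd (Option.some_ne_none _).symm).mono_left (himg ⟨i, hi⟩)
    · by_cases hj : j ∈ G
      · simp only [dif_neg hi, dif_pos hj]
        exact (hFd (Option.some_ne_none _)).mono_right (himg ⟨j, hj⟩)
      · simp only [dif_neg hi, dif_neg hj]
        exact hFd fun h => hij (congrArg Subtype.val (Option.some_injective _ h))

end Vale.Agent.P209.Strong
end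
end
end
end

section

section

section

section

namespace Vale.Agent.P209.Strong

open MeasureTheory

/-- The graph of a continuous function of the other coordinates is a null set. -/
theorem volume_graph_zero {n : ℕ} (j : Fin n) (φ : (Fin n → ℝ) → ℝ) (hφ : Continuous φ)
    (hdep : ∀ y y' : Fin n → ℝ, (∀ i, i ≠ j → y i = y' i) → φ y = φ y') :
    volume {a : Fin n → ℝ | a j = φ a} = 0 := by
  cases n with
  | zero => exact j.elim0
  | succ m =>
    have hA : MeasurableSet {a : Fin (m + 1) → ℝ | a j = φ a} :=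
      measurableSet_eq_fun (measurable_pi_apply j) hφ.measurable
    have he := (volume_preserving_piFinSuccAbove (fun _ : Fin (m + 1) => ℝ) j).symm
    rw [← he.measure_preimage hA.nullMeasurableSet, Measure.volume_eq_prod,
      Measure.prod_apply_symm (he.measurable hA)]
    rw [lintegral_eq_zero_iff' (measurable_measure_prodMk_right (he.measurable hA)).aemeasurable]
    refine Filter.Eventually.of_forall fun y => ?_
    have h1 : (fun t : ℝ => (t, y)) ⁻¹'
        ((MeasurableEquiv.piFinSuccAbove (fun _ : Fin (m + 1) => ℝ) j).symm ⁻¹'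
          {a : Fin (m + 1) → ℝ | a j = φ a}) ⊆
        {φ (Fin.insertNth (α := fun _ => ℝ) j 0 y)} := by
      intro t ht
      have h2 : Fin.insertNth (α := fun _ => ℝ) j t y j =
          φ (Fin.insertNth (α := fun _ => ℝ) j t y) := ht
      rw [Fin.insertNth_apply_same] at h2
      rw [Set.mem_singleton_iff, h2]
      refine hdep _ _ fun i hi => ?_
      obtain ⟨k, rfl⟩ := Fin.exists_succAbove_eq hi
      rw [Fin.insertNth_apply_succAbove, Fin.insertNth_apply_succAbove]
    exact measure_mono_null h1 (by simp)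

end Vale.Agent.P209.Strong
end
end
end
end

section

section

section

section

namespace Vale.Agent.P209.Strong

open Vale.Agent.P209

theorem h2b_open {n : ℕ} (R : ℝ) : IsOpen (simplex n R) := by
  have h : simplex n R = (⋂ j, {a | 0 < a j}) ∩ {a | ∑ j, a j < R} := by
    ext a
    simp only [simplex, Set.mem_ofPred_eq, Set.mem_inter_iff, Set.mem_iInter]
  rw [h]
  refine (isOpen_iInter_of_finite fun j => ?_).inter ?_
  · exact isOpen_lt continuous_const (continuous_apply j)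
  · exact isOpen_lt (continuous_finsetSum _ fun j _ => continuous_apply j) continuous_const

theorem h2b_mono {n : ℕ} {r : ℝ} {f : (Fin n → ℂ) → (Fin n → ℂ)} {A B : Set (Fin n → ℝ)}
    (h : TEmb r f A) (hAB : A ⊆ B) : TEmb r f B := by
  obtain ⟨U, h1, h2, h3, h4, h5, h6⟩ := h
  exact ⟨U, h1, h2, h3, h4, fun z hz => hAB (h5 z hz), h6⟩

/-- A ball at the corner `v`. -/
theorem h2b_emb {n : ℕ} {r : ℝ} (hr : 0 ≤ r) (v : Fin n → ℝ) {A : Set (Fin n → ℝ)}
    (hA : IsOpen A) (h : ∀ a : Fin n → ℝ, (∀ j, v j ≤ a j) → ∑ j, a j ≤ ∑ j, v j + r → a ∈ A) :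
    ∃ f, TEmb r f A := by
  refine exists_TEmb (fun j _ _ => v j) (fun j => continuous_const) (fun j y y' _ => rfl) r hr hA ?_
  rintro a ⟨x, hx0, hx, hxn, ha⟩
  refine h a (fun j => (ha j).1) ?_
  have h1 : ∑ j, a j ≤ ∑ j : Fin n, (v j + (x j - x (j + 1))) :=
    Finset.sum_le_sum fun j _ => (ha j).2
  have h2 : ∑ j : Fin n, (x (j : ℕ) - x ((j : ℕ) + 1)) = x 0 - x n := by
    rw [Fin.sum_univ_eq_sum_range (fun i => x i - x (i + 1)) n, Finset.sum_range_sub']
  rw [Finset.sum_add_distrib, h2, hxn] at h1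
  linarith

theorem h2b_tau {n : ℕ} {r s : ℝ} (hrs : r < s) :
    0 < (s - r) / (2 * n + 2) ∧ n * ((s - r) / (2 * n + 2)) + r < s := by
  have h0 : 0 < s - r := by linarith
  have hn : (0 : ℝ) ≤ n := Nat.cast_nonneg n
  refine ⟨by positivity, ?_⟩
  have h1 : n * ((s - r) / (2 * n + 2)) = (s - r) * (n / (2 * n + 2)) := by ring
  have h2 : (n : ℝ) / (2 * n + 2) < 1 := by
    rw [div_lt_one (by positivity)]
    linarith only []
  have h3 : (s - r) * (n / (2 * n + 2)) < (s - r) * 1 := mul_lt_mul_of_pos_left h2 h0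
  linarith

/-- A ball in the corner simplex at the origin. -/
theorem corner_emb_zero {n : ℕ} {r s : ℝ} (hr : 0 ≤ r) (hrs : r < s) :
    ∃ f, TEmb r f (simplex n s) := by
  obtain ⟨h1, h2⟩ := h2b_tau (n := n) hrs
  refine h2b_emb hr (fun _ => (s - r) / (2 * n + 2)) (h2b_open s) fun a ha hs => ?_
  refine ⟨fun j => h1.trans_le (ha j), ?_⟩
  rw [Finset.sum_const, Finset.card_univ, Fintype.card_fin, nsmul_eq_mul] at hs
  linarith only [h2, hs]

/-- A ball in the corner simplex at the vertex `R e_j`. -/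
theorem corner_emb {n : ℕ} (j : Fin n) {r s R : ℝ} (hr : 0 ≤ r) (hrs : r < s) (hsR : s ≤ R) :
    ∃ f, TEmb r f {a | a ∈ simplex n R ∧ R - s < a j} := by
  obtain ⟨h1, h2⟩ := h2b_tau (n := n) hrs
  refine h2b_emb hr (fun i => (s - r) / (2 * n + 2) + if i = j then R - s else 0)
    ((h2b_open R).inter (isOpen_lt continuous_const (continuous_apply j))) fun a ha hs => ?_
  refine ⟨⟨fun i => h1.trans_le (le_trans ?_ (ha i)), ?_⟩, ?_⟩
  · have : 0 ≤ if i = j then R - s else 0 := by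
      split_ifs <;> linarith only [hsR]
    linarith only [this]
  · rw [Finset.sum_add_distrib, Finset.sum_const, Finset.card_univ, Fintype.card_fin,
      nsmul_eq_mul, Finset.sum_ite_eq' Finset.univ j, if_pos (Finset.mem_univ j)] at hs
    linarith only [hs, h2]
  · have := ha j
    simp only [if_true] at this
    show R - s < a j
    linarith only [h1, this]

/-- Gluing of a packing and of balls in separate regions. -/
theorem TPk.glue {n : ℕ} {ι κ : Type} (Ω Ω0 : Set (Fin n → ℝ)) (C : κ → Set (Fin n → ℝ))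
    (b : κ → ℝ) (r : ι → ℝ) (hb : ∀ p, ∃ f, TEmb (b p) f (C p)) (hr : TPk Ω0 r)
    (hC : ∀ p, C p ⊆ Ω) (h0 : Ω0 ⊆ Ω) (hCC : ∀ p q, p ≠ q → Disjoint (C p) (C q))
    (hC0 : ∀ p, Disjoint (C p) Ω0) : TPk Ω (Sum.elim b r) := by
  choose g hg using hb
  obtain ⟨f, hf, hd⟩ := hr
  have hact : ∀ {r : ℝ} {f : (Fin n → ℂ) → (Fin n → ℂ)} {A : Set (Fin n → ℝ)}, TEmb r f A →
      ∀ z ∈ closedBall n r, act (f z) ∈ A := by
    rintro r f A ⟨U, -, h2, -, -, h5, -⟩ z hz
    exact h5 z (h2 hz)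
  refine ⟨Sum.elim g f, ?_, ?_⟩
  · rintro (p | i)
    · exact h2b_mono (hg p) (hC p)
    · exact h2b_mono (hf i) h0
  · rintro (p | i) (q | j) hij z hz w hw heq
    · exact Set.disjoint_left.mp (hCC p q fun h => hij (congrArg Sum.inl h))
        (hact (hg p) z hz) (heq ▸ hact (hg q) w hw)
    · exact Set.disjoint_left.mp (hC0 p) (hact (hg p) z hz) (heq ▸ hact (hf j) w hw)
    · exact Set.disjoint_left.mp (hC0 q) (heq ▸ hact (hg q) w hw) (hact (hf i) z hz)
    · exact hd i j (fun h => hij (congrArg Sum.inr h)) z hz w hw heq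

end Vale.Agent.P209.Strong
end
end
end
end

section

section

section

section

namespace Vale.Agent.P209.MM

open Vale.Agent.P209

/-! Q6. The Meir-Moser type packing theorem for simplices. -/

theorem q6_union {n : ℕ} {κ μ : Type} [Finite κ] {c : κ → ℝ} {b : μ → ℝ} {h x0 R : ℝ}
    (hR : h + x0 = R) (h0 : 0 ≤ x0) (hc : OPackIn n c (tri (n + 1) h))
    {Ω : Set (Fin (n + 1) → ℝ)} (hΩ : ∀ y ∈ Ω, y ∈ tri (n + 1) (h + x0) ∧ h < y (Fin.last n))
    (hb : OPackIn n b Ω) : OPackIn n (Sum.elim c b) (tri (n + 1) R) := by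
  refine OPackIn.union hc hb (tri_mono (by linarith)) ?_ ?_
  · intro y hy
    rw [← hR]
    exact (hΩ y hy).1
  · intro y hy y' hy' _
    exact (hy.2.2 (Fin.last n)).trans (hΩ y' hy').2

/-- The packing theorem in dimension `n + 1`, given the theorem in smaller dimensions. -/
theorem mm_step (n : ℕ) (IH : ∀ d, 1 ≤ d → d ≤ n → MMd d) : ∀ (k : ℕ) {κ : Type} [Finite κ]
    (c : κ → ℝ) (L : ℝ) (x : ℕ → ℝ) (R : ℝ), 0 ≤ L → OPackIn n c (tri (n + 1) L) →
      Antitone x → (∀ i, 0 ≤ x i) → L ≤ R →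
      (1 ≤ k → x 0 < R ∧ L ^ (n + 1) + ∑ i ∈ Finset.Ico 1 k, x i ^ (n + 1) <
        (R - x 0) ^ (n + 1)) →
      OPackIn n (Sum.elim c (fun i : Fin k => x i)) (tri (n + 1) R) := by
  intro k
  induction k using Nat.strong_induction_on with
  | _ k ih =>
  intro κ _ c L x R hL hc hx hx0 hLR hk
  rcases Nat.eq_zero_or_pos k with rfl | hkpos
  · have h1 : OPackIn n c (tri (n + 1) R) := hc.mono (fun _ => le_rfl) (tri_mono hLR)
    have h2 : Function.Injective (Sum.elim id (fun i : Fin 0 => i.elim0) : κ ⊕ Fin 0 → κ) := by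
      rintro (a | a) (b | b) hab
      · exact congrArg Sum.inl hab
      · exact b.elim0
      · exact a.elim0
      · exact a.elim0
    refine (h1.comp h2).mono ?_ subset_rfl
    rintro (a | a)
    · exact le_rfl
    · exact a.elim0
  obtain ⟨hxR, hvol⟩ := hk hkpos
  obtain ⟨h, hhd⟩ : ∃ h, h = R - x 0 := ⟨_, rfl⟩
  rw [← hhd] at hvol
  have hh : 0 < h := by linarith only [hxR, hhd]
  have hRh : h + x 0 = R := by linarith only [hhd]
  have hsn : 0 ≤ ∑ i ∈ Finset.Ico 1 k, x i ^ (n + 1) :=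
    Finset.sum_nonneg fun i _ => pow_nonneg (hx0 i) _
  have hLh : L < h := lt_of_pow_lt_pow_left₀ (n + 1) hh.le (by linarith only [hvol, hsn])
  have hc' : OPackIn n c (tri (n + 1) h) := hc.mono (fun _ => le_rfl) (tri_mono hLh.le)
  by_cases hk1 : k = 1
  · subst hk1
    have h1 : OPackIn n (fun _ : Fin 1 => x 0) (Reg n 0 h (x 0)) := OPackIn.single hh.le le_rfl
    refine (q6_union hRh (hx0 0) hc' (fun y hy => ⟨hy.1, hy.2.2 _ (Nat.zero_le _)⟩) h1).mono
      ?_ subset_rfl
    rintro (a | a)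
    · exact le_rfl
    · have : a = 0 := Subsingleton.elim _ _
      subst this
      exact le_rfl
  have hk2 : 2 ≤ k := by omega
  have hx1 : x 1 < h := by
    refine lt_of_pow_lt_pow_left₀ (n + 1) hh.le ?_
    have h1 : x 1 ^ (n + 1) ≤ ∑ i ∈ Finset.Ico 1 k, x i ^ (n + 1) :=
      Finset.single_le_sum (f := fun i => x i ^ (n + 1)) (fun i _ => pow_nonneg (hx0 i) _)
        (Finset.mem_Ico.2 ⟨le_rfl, by omega⟩)
    have h2 : 0 ≤ L ^ (n + 1) := pow_nonneg hL _
    linarith only [hvol, h1, h2]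
  obtain ⟨t, ht1, hfill, hor⟩ := layer_fill n IH k x hx hx0 hx1
  have hΩ : ∀ y ∈ RegLe n n h (x 0), y ∈ tri (n + 1) (h + x 0) ∧ h < y (Fin.last n) :=
    fun y hy => ⟨hy.1, hy.2 (Fin.last n) (by simp)⟩
  by_cases hkt : k ≤ t
  · have h1 : OPackIn n (fun i : Fin k => x i) (RegLe n n h (x 0)) :=
      hfill.comp (Fin.castLE_injective hkt)
    exact q6_union hRh (hx0 0) hc' hΩ h1
  have htk : t < k := by omega
  have hor' := hor.resolve_left hkt
  have hsum : ∑ i ∈ Finset.Ico 1 k, x i ^ (n + 1) = ∑ i ∈ Finset.Ico 1 t, x i ^ (n + 1) +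
      (x t ^ (n + 1) + ∑ i ∈ Finset.Ico 1 (k - t), x (t + i) ^ (n + 1)) := by
    rw [← Finset.sum_Ico_consecutive _ ht1 htk.le, Finset.sum_eq_sum_Ico_succ_bot htk]
    congr 2
    rw [Finset.sum_Ico_eq_sum_range, Finset.sum_Ico_eq_sum_range]
    have e : k - (t + 1) = k - t - 1 := by omega
    rw [e]
    refine Finset.sum_congr rfl fun i _ => ?_
    rw [add_assoc]
  have hxt : x t < h := (hx ht1).trans_lt hx1
  have h1 := ih (k - t) (by omega) c L (fun i => x (t + i)) h hL hc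
    (fun i j hij => hx (Nat.add_le_add_left hij t)) (fun i => hx0 _) hLh.le (fun _ => by
      refine ⟨by simpa using hxt, ?_⟩
      simp only [add_zero]
      linarith only [hvol, hor', hsum])
  have h2 := q6_union hRh (hx0 0) h1 hΩ hfill
  have hf : Function.Injective (Sum.elim (fun a => Sum.inl (Sum.inl a))
      (fun i : Fin k => if hi : (i : ℕ) < t then Sum.inr ⟨i, hi⟩ else
        Sum.inl (Sum.inr ⟨(i : ℕ) - t, by omega⟩)) : κ ⊕ Fin k → (κ ⊕ Fin (k - t)) ⊕ Fin t) := by
    rintro (a | i) (b | j) hab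
    · simp only [Sum.elim_inl, Sum.inl.injEq] at hab
      rw [hab]
    · simp only [Sum.elim_inl, Sum.elim_inr] at hab
      split_ifs at hab with hj
      · simp at hab
    · simp only [Sum.elim_inl, Sum.elim_inr] at hab
      split_ifs at hab with hj
      · simp at hab
    · simp only [Sum.elim_inr] at hab
      congr 1
      split_ifs at hab with hi hj hj
      · simp only [Sum.inr.injEq, Fin.mk.injEq] at hab
        exact Fin.ext hab
      · simp only [Sum.inl.injEq, Sum.inr.injEq, Fin.mk.injEq] at hab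
        exact Fin.ext (by omega)
  refine (h2.comp hf).mono ?_ subset_rfl
  rintro (a | i)
  · exact le_rfl
  · simp only [Sum.elim_inr]
    by_cases hi : (i : ℕ) < t
    · rw [dif_pos hi]
      exact le_rfl
    · rw [dif_neg hi]
      simp only [Sum.elim_inl, Sum.elim_inr]
      rw [Nat.add_sub_cancel' (not_lt.1 hi)]

theorem mm_all (d : ℕ) (hd : 1 ≤ d) : MMd d := by
  induction d using Nat.strong_induction_on with
  | _ d ih =>
  obtain ⟨n, rfl⟩ : ∃ n, d = n + 1 := ⟨d - 1, by omega⟩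
  intro k b h hb hb0 hbh hsum
  have h1 := mm_step n (fun d' h1 h2 => ih d' (by omega) h1) k (κ := Empty)
    (fun e => e.elim) 0 b h le_rfl OPackIn.empty hb hb0 ((hb0 0).trans hbh.le) (fun _ =>
      ⟨hbh, by rw [zero_pow (Nat.succ_ne_zero n), zero_add]; exact hsum⟩)
  exact h1.toTPack.comp Sum.inr_injective

theorem mm_rec (n k : ℕ) {κ : Type} [Finite κ] (c : κ → ℝ) (L : ℝ) (x : ℕ → ℝ) (R : ℝ)
    (hL : 0 ≤ L) (hc : OPackIn n c (tri (n + 1) L)) (hx : Antitone x) (hx0 : ∀ i, 0 ≤ x i)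
    (hLR : L ≤ R)
    (hk : 1 ≤ k → x 0 < R ∧ L ^ (n + 1) + ∑ i ∈ Finset.Ico 1 k, x i ^ (n + 1) <
      (R - x 0) ^ (n + 1)) :
    OPackIn n (Sum.elim c (fun i : Fin k => x i)) (tri (n + 1) R) :=
  mm_step n (fun d hd _ => mm_all d hd) k c L x R hL hc hx hx0 hLR hk

end Vale.Agent.P209.MM
end
end
end
end

section

section

section

section

namespace Vale.Agent.P209.Strong

open Vale.Agent.P209

/-! K9. Words: vertical order of the cells, and enumeration by the largest letter. -/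

/-- the largest letter of a word -/
def mx {n m : ℕ} (w : Fin n → Fin m) : ℕ := Finset.univ.sup fun i => (w i : ℕ)

theorem mx_eq {d m : ℕ} (w : Fin (d + 1) → Fin m) :
    mx w = (w (Tuple.sort w (Fin.last d)) : ℕ) := by
  apply le_antisymm
  · refine Finset.sup_le fun i _ => ?_
    have h := Tuple.monotone_sort w (Fin.le_last ((Tuple.sort w)⁻¹ i))
    simp only [Function.comp_apply] at h
    have h2 : Tuple.sort w ((Tuple.sort w)⁻¹ i) = i := by simp
    rw [h2] at h
    exact h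
  · exact Finset.le_sup (f := fun i => (w i : ℕ)) (Finset.mem_univ _)

theorem k9_card {n : ℕ} (τ : Equiv.Perm (Fin n)) (p : Fin n) :
    (Finset.univ.filter fun k => τ k < p).card = (p : ℕ) := by
  have h : (Finset.univ.filter fun k => τ k < p) = (Finset.Iio p).map (τ⁻¹).toEmbedding := by
    ext k
    simp only [Finset.mem_filter, Finset.mem_univ, true_and, Finset.mem_map, Finset.mem_Iio,
      Equiv.coe_toEmbedding]
    constructor
    · intro hk
      exact ⟨τ k, hk, by simp⟩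
    · rintro ⟨a, ha, rfl⟩
      simpa using ha
  rw [h, Finset.card_map, Fin.card_Iio]

/-- Two cells over the same base point: the one whose last largest letter comes first is
below. -/
theorem wcell_order {d m : ℕ} {w w' : Fin (d + 1) → Fin m} {ℓ : Fin m → ℝ} {s : ℝ}
    (hℓ : ∀ c c', c < c' → ℓ c + s ≤ ℓ c') {y y' : Fin (d + 1) → ℝ} (hy : y ∈ wcell w ℓ s)
    (hy' : y' ∈ wcell w' ℓ s) (hb : ∀ k : Fin (d + 1), (k : ℕ) < d → y k = y' k)
    (hM : mx w = mx w') (hp : Tuple.sort w (Fin.last d) ≤ Tuple.sort w' (Fin.last d))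
    (hne : w ≠ w') : y (Fin.last d) < y' (Fin.last d) := by
  by_contra hcon
  rw [not_lt] at hcon
  set τ := Tuple.sort w with hτ
  set τ' := Tuple.sort w' with hτ'
  have elast : w (τ (Fin.last d)) = w' (τ' (Fin.last d)) := by
    apply Fin.ext
    rw [← mx_eq, ← mx_eq, hM]
  have e1 : ∀ j, w (τ j) = w' (τ' j) := by
    intro j
    by_cases hj : (j : ℕ) < d
    · have a := wcell_mem' hy j
      have a' := wcell_mem' hy' j
      rw [hb j hj] at a
      rcases lt_trichotomy (w (τ j)) (w' (τ' j)) with h | h | h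
      · have := hℓ _ _ h
        linarith only [a, a', this]
      · exact h
      · have := hℓ _ _ h
        linarith only [a, a', this]
    · have : j = Fin.last d := by
        apply Fin.ext
        have := j.2
        simp only [Fin.val_last]
        omega
      rw [this]
      exact elast
  -- the fractional parts
  have hU : StrictMono fun i => y (rnk w i) - ℓ (w i) := hy.2.1
  have hU' : StrictMono fun i => y' (rnk w' i) - ℓ (w' i) := hy'.2.1
  have vU : ∀ j, y (rnk w (τ j)) - ℓ (w (τ j)) = y j - ℓ (w (τ j)) := by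
    intro j
    rw [hτ, rnk_sort]
  have vU' : ∀ j, y' (rnk w' (τ' j)) - ℓ (w' (τ' j)) = y' j - ℓ (w (τ j)) := by
    intro j
    rw [e1 j, hτ', rnk_sort]
  have hlt : ∀ j j', τ j < τ j' ↔ y j - ℓ (w (τ j)) < y j' - ℓ (w (τ j')) := by
    intro j j'
    rw [← vU j, ← vU j']
    exact (hU.lt_iff_lt (a := τ j) (b := τ j')).symm
  have hlt' : ∀ j j', τ' j < τ' j' ↔ y' j - ℓ (w (τ j)) < y' j' - ℓ (w (τ j')) := by
    intro j j'
    rw [← vU' j, ← vU' j']
    exact (hU'.lt_iff_lt (a := τ' j) (b := τ' j')).symm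
  have hne_last : ∀ j : Fin (d + 1), j ≠ Fin.last d → (j : ℕ) < d := by
    intro j hj
    have h1 := j.2
    have h2 : (j : ℕ) ≠ d := fun h => hj (Fin.ext (by simpa using h))
    omega
  have hsub : (Finset.univ.filter fun k => τ' k < τ' (Fin.last d)) ⊆
      (Finset.univ.filter fun k => τ k < τ (Fin.last d)) := by
    intro k hk
    rw [Finset.mem_filter] at hk ⊢
    refine ⟨Finset.mem_univ _, ?_⟩
    have hk2 := hk.2
    have hkl : k ≠ Fin.last d := by
      rintro rfl
      exact lt_irrefl _ hk2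
    rw [hlt'] at hk2
    rw [hlt, hb k (hne_last k hkl)]
    linarith only [hcon, hk2]
  have hcard := k9_card τ (τ (Fin.last d))
  have hcard' := k9_card τ' (τ' (Fin.last d))
  have hset := Finset.eq_of_subset_of_card_le hsub (by
    rw [hcard, hcard']
    exact hp)
  have hpp : τ (Fin.last d) = τ' (Fin.last d) := by
    apply Fin.ext
    rw [← hcard, ← hcard', hset]
  have hiff : ∀ k, τ' k < τ' (Fin.last d) ↔ τ k < τ (Fin.last d) := by
    intro k
    have := Finset.ext_iff.1 hset k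
    simpa using this
  have q : ∀ j j', τ j < τ j' → τ' j < τ' j' := by
    intro j j' hjj
    by_cases hj : j = Fin.last d
    · have hj' : j' ≠ Fin.last d := by
        rintro rfl
        rw [hj] at hjj
        exact lt_irrefl _ hjj
      rcases lt_trichotomy (τ' j) (τ' j') with h | h | h
      · exact h
      · exact absurd (τ'.injective h) (by rw [hj]; exact fun h => hj' h.symm)
      · rw [hj] at h hjj
        have := (hiff j').1 h
        exact absurd hjj (not_lt.2 this.le)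
    · by_cases hj' : j' = Fin.last d
      · rw [hj'] at hjj ⊢
        exact (hiff j).2 hjj
      · rw [hlt] at hjj
        rw [hlt', ← hb j (hne_last j hj), ← hb j' (hne_last j' hj')]
        exact hjj
  have e3 : StrictMono (τ' * τ⁻¹ : Equiv.Perm (Fin (d + 1))) := by
    intro i i' hii
    rw [Equiv.Perm.mul_apply, Equiv.Perm.mul_apply]
    apply q
    simpa using hii
  have e4 : τ' * τ⁻¹ = 1 := (Equiv.Perm.monotone_iff _).1 e3.monotone
  have e5 : τ' = τ := by
    rwa [mul_inv_eq_one] at e4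
  apply hne
  funext i
  have := e1 (τ⁻¹ i)
  rw [e5] at this
  simpa using this

theorem words_enum (n m j : ℕ) (hj : j ≤ m) :
    ∃ e : Fin (m ^ n - j ^ n) → {w : Fin n → Fin m // ∃ i, j ≤ (w i : ℕ)},
      Function.Injective e ∧ ∀ i, (mx (e i).1) ^ n - j ^ n ≤ (i : ℕ) := by
  classical
  have hc := card_words n m j hj
  let e0 : Fin (m ^ n - j ^ n) ≃ {w : Fin n → Fin m // ∃ i, j ≤ (w i : ℕ)} :=
    (finCongr hc.symm).trans (Fintype.equivFin _).symm
  let g : Fin (m ^ n - j ^ n) → ℕ := fun i => mx (e0 i).1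
  let e : Fin (m ^ n - j ^ n) ≃ {w : Fin n → Fin m // ∃ i, j ≤ (w i : ℕ)} :=
    (Tuple.sort g).trans e0
  have hmono : Monotone fun i => mx (e i).1 := Tuple.monotone_sort g
  refine ⟨e, e.injective, fun i => ?_⟩
  obtain ⟨i0, hi0⟩ := (e i).2
  have hqm : mx (e i).1 ≤ m := Finset.sup_le fun t _ => ((e i).1 t).2.le
  have hjq : j ≤ mx (e i).1 :=
    hi0.trans (Finset.le_sup (f := fun t => ((e i).1 t : ℕ)) (Finset.mem_univ i0))
  rw [← card_words n (mx (e i).1) j hjq]
  have key : ∀ w : {w : Fin n → Fin (mx (e i).1) // ∃ t, j ≤ (w t : ℕ)},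
      ∃ t, j ≤ ((fun t => Fin.castLE hqm (w.1 t)) t : ℕ) := by
    intro w
    obtain ⟨t, ht⟩ := w.2
    exact ⟨t, by simpa only [Fin.val_castLE] using ht⟩
  let f : {w : Fin n → Fin (mx (e i).1) // ∃ t, j ≤ (w t : ℕ)} → Fin (i : ℕ) := fun w =>
    ⟨(e.symm ⟨fun t => Fin.castLE hqm (w.1 t), key w⟩ : ℕ), by
      by_contra hcon
      rw [not_lt] at hcon
      have h1 := hmono (show i ≤ e.symm ⟨fun t => Fin.castLE hqm (w.1 t), key w⟩ from hcon)
      simp only [Equiv.apply_symm_apply] at h1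
      obtain ⟨t0, _⟩ := w.2
      have hpos : 0 < mx (e i).1 := Nat.lt_of_le_of_lt (Nat.zero_le _) (w.1 t0).2
      have h2 : mx (fun t => Fin.castLE hqm (w.1 t)) < mx (e i).1 := by
        unfold mx
        rw [Finset.sup_lt_iff (by simpa only [Nat.bot_eq_zero, Finset.lt_sup_iff, Finset.mem_univ, true_and, mx] using hpos)]
        intro t _
        exact (w.1 t).2
      omega⟩
  have hf : Function.Injective f := by
    intro w w' h
    have h1 : (e.symm ⟨fun t => Fin.castLE hqm (w.1 t), key w⟩ : ℕ)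
        = (e.symm ⟨fun t => Fin.castLE hqm (w'.1 t), key w'⟩ : ℕ) :=
      congrArg (fun z : Fin (i : ℕ) => (z : ℕ)) h
    have h2 := e.symm.injective (Fin.ext h1)
    have h3 := congrArg Subtype.val h2
    apply Subtype.ext
    funext t
    have h4 := congrFun h3 t
    simp only at h4
    exact Fin.castLE_injective hqm h4
  have := Fintype.card_le_of_injective f hf
  simpa only [ge_iff_le, Fintype.card_fin] using this

end Vale.Agent.P209.Strong
end
end
end
end

section

section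

section

section

namespace Vale.Agent.P209.MM

/-! U3. Grouping items of small volume. -/

/-- Between `B` and `T` there is a set whose volume just exceeds `c`. -/
private theorem u3_between {ι : Type} [DecidableEq ι] (f : ι → ℝ) (w c : ℝ)
    (hf : ∀ i, 0 < f i ∧ f i ≤ w) (B : Finset ι) (hB : ∑ i ∈ B, f i < c) :
    ∀ T : Finset ι, B ⊆ T → c ≤ ∑ i ∈ T, f i →
      ∃ A, B ⊆ A ∧ A ⊆ T ∧ c ≤ ∑ i ∈ A, f i ∧ ∑ i ∈ A, f i ≤ c + w := by
  intro T
  induction T using Finset.strongInduction with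
  | H T ih =>
    intro hBT hT
    by_cases h : ∃ i ∈ T, i ∉ B ∧ c ≤ ∑ j ∈ T.erase i, f j
    · obtain ⟨i, hi, hiB, hc⟩ := h
      obtain ⟨A, h1, h2, h3, h4⟩ := ih (T.erase i) (Finset.erase_ssubset hi)
        (fun j hj => Finset.mem_erase.2 ⟨fun e => hiB (e ▸ hj), hBT hj⟩) hc
      exact ⟨A, h1, h2.trans (Finset.erase_subset _ _), h3, h4⟩
    · have hne : ∃ i ∈ T, i ∉ B := by
        by_contra hcon
        push Not at hcon
        have : T = B := Finset.Subset.antisymm hcon hBT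
        rw [this] at hT
        exact absurd hT (not_le.2 hB)
      obtain ⟨i, hi, hiB⟩ := hne
      refine ⟨T, hBT, Finset.Subset.refl _, hT, ?_⟩
      have h1 : ¬ c ≤ ∑ j ∈ T.erase i, f j := fun hc => h ⟨i, hi, hiB, hc⟩
      have h2 := Finset.add_sum_erase T f hi
      have h3 := (hf i).2
      push Not at h1
      linarith

private theorem u3_main {ι : Type} [Fintype ι] [DecidableEq ι] (f : ι → ℝ) (w W : ℝ)
    (hw : 0 < w) (hW : 4 * w ≤ W) (hf : ∀ i, 0 < f i ∧ f i ≤ w) (S₀ : Finset ι)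
    (hs : W / 2 ≤ ∑ i ∈ S₀, f i) :
    ∀ Mi : Finset ι, Disjoint Mi S₀ →
    ∃ (N : ℕ) (g : ι → Option (Fin N)), (∀ i, i ∉ Mi ∪ S₀ → g i = none) ∧
      (∀ i ∈ Mi, g i ≠ none) ∧
      (∀ c : Fin N, W / 2 ≤ ∑ i with g i = some c, f i ∧
        ∑ i with g i = some c, f i ≤ W / 2 + w) ∧
      (N : ℝ) * (W / 2) ≤ ∑ i ∈ Mi, f i + W / 2 + w := by
  intro Mi
  induction Mi using Finset.strongInduction with
  | H Mi ih =>
    intro hd
    by_cases hlt : ∑ i ∈ Mi, f i < W / 2
    · by_cases h0 : Mi = ∅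
      · refine ⟨0, fun _ => none, fun _ _ => rfl, ?_, fun c => c.elim0, ?_⟩
        · intro i hi
          simp [h0] at hi
        · simp only [h0, Finset.sum_empty, Nat.cast_zero, zero_mul, zero_add]
          linarith only [hw, hW]
      · obtain ⟨A, h1, h2, h3, h4⟩ := u3_between f w (W / 2) hf Mi hlt (Mi ∪ S₀)
          Finset.subset_union_left
          (hs.trans (Finset.sum_le_sum_of_subset_of_nonneg Finset.subset_union_right
            (fun i _ _ => (hf i).1.le)))
        refine ⟨1, fun i => if i ∈ A then some 0 else none, ?_, ?_, ?_, ?_⟩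
        · intro i hi
          exact if_neg (fun hA => hi (h2 hA))
        · intro i hi
          simp [h1 hi]
        · intro c
          have hc : c = 0 := Subsingleton.elim _ _
          have hF : (Finset.univ.filter fun i => (if i ∈ A then some (0 : Fin 1) else none)
              = some c) = A := by
            ext i
            simp only [Fin.isValue, hc, ite_eq_left_iff, reduceCtorEq, imp_false, Decidable.not_not, Finset.subset_univ, Finset.filter_mem_eq_of_subset]
          rw [hF]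
          exact ⟨h3, h4⟩
        · have : 0 ≤ ∑ i ∈ Mi, f i := Finset.sum_nonneg fun i _ => (hf i).1.le
          simp only [Nat.cast_one, one_mul]
          linarith only [hw, this]
    · push Not at hlt
      obtain ⟨A, -, h2, h3, h4⟩ := u3_between f w (W / 2) hf ∅
        (by simp only [Finset.sum_empty]; linarith only [hw, hW]) Mi (Finset.empty_subset _) hlt
      have hAne : A.Nonempty := by
        rw [Finset.nonempty_iff_ne_empty]
        rintro rfl
        simp only [Finset.sum_empty] at h3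
        linarith only [hw, hW, h3]
      obtain ⟨N, g, g1, g2, g3, g4⟩ := ih (Mi \ A) (Finset.sdiff_ssubset h2 hAne)
        (hd.mono_left Finset.sdiff_subset)
      have hAg : ∀ i ∈ A, g i = none := by
        intro i hi
        refine g1 i ?_
        intro hmem
        rcases Finset.mem_union.1 hmem with h | h
        · exact (Finset.mem_sdiff.1 h).2 hi
        · exact Finset.disjoint_left.1 hd (h2 hi) h
      refine ⟨N + 1, fun i => if i ∈ A then some (Fin.last N) else (g i).map Fin.castSucc,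
        ?_, ?_, ?_, ?_⟩
      · intro i hi
        have hiA : i ∉ A := fun h => hi (Finset.mem_union_left _ (h2 h))
        have : g i = none := g1 i (fun h => hi (by
          rcases Finset.mem_union.1 h with h | h
          · exact Finset.mem_union_left _ (Finset.sdiff_subset h)
          · exact Finset.mem_union_right _ h))
        simp [hiA, this]
      · intro i hi
        by_cases hiA : i ∈ A
        · simp [hiA]
        · have := g2 i (Finset.mem_sdiff.2 ⟨hi, hiA⟩)
          simp [hiA, this]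
      · intro c
        induction c using Fin.lastCases with
        | last =>
          have hF : (Finset.univ.filter fun i => (if i ∈ A then some (Fin.last N)
              else (g i).map Fin.castSucc) = some (Fin.last N)) = A := by
            ext i
            simp only [Finset.mem_filter, Finset.mem_univ, true_and]
            by_cases hiA : i ∈ A
            · simp [hiA]
            · simp only [hiA, if_false, iff_false]
              cases hg : g i with
              | none => simp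
              | some d =>
                simp only [Option.map_some, Option.some.injEq]
                exact (Fin.castSucc_lt_last d).ne
          rw [hF]
          exact ⟨h3, h4⟩
        | cast c =>
          have hF : (Finset.univ.filter fun i => (if i ∈ A then some (Fin.last N)
              else (g i).map Fin.castSucc) = some c.castSucc)
              = Finset.univ.filter fun i => g i = some c := by
            ext i
            simp only [Finset.mem_filter, Finset.mem_univ, true_and]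
            by_cases hiA : i ∈ A
            · simp only [hiA, if_true, hAg i hiA, Option.some.injEq, reduceCtorEq, iff_false]
              exact (Fin.castSucc_lt_last c).ne'
            · simp only [hiA, if_false]
              cases hg : g i with
              | none => simp
              | some d => simp
          rw [hF]
          exact g3 c
      · have h5 := Finset.sum_sdiff (f := f) h2
        push_cast
        linarith only [h5, g4, h3]

/-- The items of `Mi` are distributed into groups of volume about `W / 2`; the last group may be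
completed by other items. -/
theorem grouping {ι : Type} [Fintype ι] [DecidableEq ι] (f : ι → ℝ) (Mi : Finset ι) (w W : ℝ)
    (hw : 0 < w) (hW : 4 * w ≤ W) (hf : ∀ i, 0 < f i ∧ f i ≤ w)
    (hs : W / 2 ≤ ∑ i ∈ Miᶜ, f i) :
    ∃ (N : ℕ) (g : ι → Option (Fin N)), (∀ i ∈ Mi, g i ≠ none) ∧
      (∀ c : Fin N, W / 2 ≤ ∑ i with g i = some c, f i ∧
        ∑ i with g i = some c, f i ≤ W / 2 + w) ∧
      (N : ℝ) * (W / 2) ≤ ∑ i ∈ Mi, f i + W / 2 + w := by
  obtain ⟨N, g, -, h2, h3, h4⟩ := u3_main f w W hw hW hf Miᶜ hs Mi disjoint_compl_right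
  exact ⟨N, g, h2, h3, h4⟩

end Vale.Agent.P209.MM
end
end
end
end

section

section

section

section

namespace Vale.Agent.P209.Strong

open MeasureTheory

/-! K0. Unimodular charts and tilted balls: definitions. -/

/-- An integral unimodular chart which sends the vertical vector to `e_0 - e_d`. -/
structure CH {d : ℕ} (Λ : (Fin (d + 1) → ℝ) ≃ₗ[ℝ] (Fin (d + 1) → ℝ)) : Prop where
  int : ∀ i j, ∃ m : ℤ, Λ (Pi.single i 1) j = m
  int' : ∀ i j, ∃ m : ℤ, Λ.symm (Pi.single i 1) j = m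
  vert : Λ (Pi.single (Fin.last d) 1) = Pi.single 0 1 - Pi.single (Fin.last d) 1

/-- The open cell of size `s` of a chart. -/
def CE {d : ℕ} (Λ : (Fin (d + 1) → ℝ) ≃ₗ[ℝ] (Fin (d + 1) → ℝ)) (v : Fin (d + 1) → ℝ) (s : ℝ) :
    Set (Fin (d + 1) → ℝ) :=
  {a | (∀ j, 0 < (Λ a + v) j) ∧ ∑ j, (Λ a + v) j < s}

/-- The closed tilted body of size `r` of a chart. -/
def BD {d : ℕ} (Λ : (Fin (d + 1) → ℝ) ≃ₗ[ℝ] (Fin (d + 1) → ℝ)) (v : Fin (d + 1) → ℝ) (δ r : ℝ) :
    Set (Fin (d + 1) → ℝ) :=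
  {a | 0 ≤ (Λ a + v) 0 ∧ (∀ j, j ≠ 0 → δ * (Λ a + v) 0 ≤ (Λ a + v) j) ∧
    ∑ j, (Λ a + v) j - δ * d * (Λ a + v) 0 ≤ r}

/-- The open tilted body of size `r` of a chart. -/
def OD {d : ℕ} (Λ : (Fin (d + 1) → ℝ) ≃ₗ[ℝ] (Fin (d + 1) → ℝ)) (v : Fin (d + 1) → ℝ) (δ r : ℝ) :
    Set (Fin (d + 1) → ℝ) :=
  {a | 0 < (Λ a + v) 0 ∧ (∀ j, j ≠ 0 → δ * (Λ a + v) 0 < (Λ a + v) j) ∧
    ∑ j, (Λ a + v) j - δ * d * (Λ a + v) 0 < r}

end Vale.Agent.P209.Strong
end
end
end
end

section

section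

section

section

namespace Vale.Agent.P209.Strong

open MeasureTheory

/-! K2. Elementary properties of the tilted bodies. -/

section
variable {d : ℕ} {Λ : (Fin (d + 1) → ℝ) ≃ₗ[ℝ] (Fin (d + 1) → ℝ)} {v : Fin (d + 1) → ℝ}
  {δ r r' s μ R : ℝ}

/-- The two coordinates bounds in a tilted body. -/
theorem k2_le {z : Fin (d + 1) → ℝ} (h0 : 0 ≤ z 0) (h1 : ∀ j, j ≠ 0 → δ * z 0 ≤ z j)
    (h2 : ∑ j, z j - δ * d * z 0 ≤ r) : z 0 ≤ r ∧ ∀ j, j ≠ 0 → z j ≤ r + δ * z 0 := by
  have e : ∑ j, z j - δ * d * z 0 = z 0 + ∑ i : Fin d, (z i.succ - δ * z 0) := by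
    rw [Fin.sum_univ_succ, Finset.sum_sub_distrib, Finset.sum_const, Finset.card_univ,
      Fintype.card_fin, nsmul_eq_mul]
    ring
  have hn : ∀ i : Fin d, 0 ≤ z i.succ - δ * z 0 := fun i =>
    sub_nonneg.2 (h1 _ (Fin.succ_ne_zero i))
  rw [e] at h2
  constructor
  · have := Finset.sum_nonneg fun i (_ : i ∈ Finset.univ) => hn i
    linarith
  · intro j hj
    obtain ⟨i, rfl⟩ := Fin.exists_succ_eq.2 hj
    have := Finset.single_le_sum (fun i (_ : i ∈ Finset.univ) => hn i) (Finset.mem_univ i)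
    linarith

theorem k2_cont (v : Fin (d + 1) → ℝ) (j : Fin (d + 1)) :
    Continuous fun a : Fin (d + 1) → ℝ => (Λ a + v) j := by
  have h : Continuous (Λ : (Fin (d + 1) → ℝ) → Fin (d + 1) → ℝ) :=
    LinearMap.continuous_of_finiteDimensional Λ.toLinearMap
  exact ((continuous_apply j).comp h).add continuous_const

theorem k2_closed : IsClosed (BD Λ v δ r) := by
  have h0 := k2_cont (Λ := Λ) v
  have hs : Continuous fun a : Fin (d + 1) → ℝ => ∑ j, (Λ a + v) j :=
    continuous_finsetSum _ fun j _ => h0 j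
  have e : BD Λ v δ r = {a | 0 ≤ (Λ a + v) 0} ∩
      ((⋂ (j : Fin (d + 1)) (_ : j ≠ 0), {a | δ * (Λ a + v) 0 ≤ (Λ a + v) j}) ∩
        {a | ∑ j, (Λ a + v) j - δ * d * (Λ a + v) 0 ≤ r}) := by
    ext a
    simp only [BD, Set.mem_setOf_eq, Set.mem_inter_iff, Set.mem_iInter]
  rw [e]
  refine (isClosed_le continuous_const (h0 0)).inter
    ((isClosed_iInter fun j => isClosed_iInter fun _ => ?_).inter ?_)
  · exact isClosed_le (continuous_const.mul (h0 0)) (h0 j)
  · exact isClosed_le (hs.sub (continuous_const.mul (h0 0))) continuous_const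

theorem BD_compact (hδ : 0 < δ) : IsCompact (BD Λ v δ r) := by
  have hc : Continuous fun z : Fin (d + 1) → ℝ => Λ.symm (z - v) :=
    (LinearMap.continuous_of_finiteDimensional Λ.symm.toLinearMap).comp
      (continuous_id.sub continuous_const)
  refine ((isCompact_closedBall (0 : Fin (d + 1) → ℝ) (|r| + δ * |r|)).image hc).of_isClosed_subset
    k2_closed ?_
  rintro a ⟨h0, h1, h2⟩
  obtain ⟨h3, h4⟩ := k2_le h0 h1 h2
  refine ⟨Λ a + v, ?_, by simp only [add_sub_cancel_right, LinearEquiv.symm_apply_apply]⟩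
  have hr : r ≤ |r| := le_abs_self r
  have hr0 : 0 ≤ |r| := abs_nonneg r
  have hd : 0 ≤ δ * |r| := mul_nonneg hδ.le hr0
  rw [mem_closedBall_zero_iff, pi_norm_le_iff_of_nonneg (by positivity)]
  intro j
  rw [Real.norm_eq_abs, abs_le]
  have h5 : δ * (Λ a + v) 0 ≤ δ * |r| := mul_le_mul_of_nonneg_left (h3.trans hr) hδ.le
  by_cases hj : j = 0
  · subst hj
    constructor <;> linarith
  · have h6 := h4 j hj
    have h7 := h1 j hj
    have h8 : 0 ≤ δ * (Λ a + v) 0 := mul_nonneg hδ.le h0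
    constructor <;> linarith

theorem OD_subset : OD Λ v δ r ⊆ BD Λ v δ r := by
  rintro a ⟨h0, h1, h2⟩
  exact ⟨h0.le, fun j hj => (h1 j hj).le, h2.le⟩

theorem BD_mono (h : r ≤ r') : BD Λ v δ r ⊆ BD Λ v δ r' := by
  rintro a ⟨h0, h1, h2⟩
  exact ⟨h0, h1, h2.trans h⟩

theorem BD_subset_CE (hδ : 0 < δ) (hμ : 0 < μ) (hr : 0 ≤ r)
    (h : r * (1 + δ * d) + (d + 1) * μ < s) : BD Λ (fun j => v j - μ) δ r ⊆ CE Λ v s := by
  rintro a ⟨h0, h1, h2⟩
  obtain ⟨h3, h4⟩ := k2_le h0 h1 h2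
  set z : Fin (d + 1) → ℝ := Λ a + fun j => v j - μ with hz
  have e : ∀ j, (Λ a + v) j = z j + μ := fun j => by
    simp only [hz, Pi.add_apply]
    ring
  refine ⟨fun j => ?_, ?_⟩
  · rw [e j]
    by_cases hj : j = 0
    · subst hj
      linarith
    · have h6 := h1 j hj
      have h7 : 0 ≤ δ * z 0 := mul_nonneg hδ.le h0
      linarith
  · simp only [e]
    rw [Finset.sum_add_distrib, Finset.sum_const, Finset.card_univ, Fintype.card_fin,
      nsmul_eq_mul]
    have h5 : δ * d * z 0 ≤ δ * d * r := mul_le_mul_of_nonneg_left h3 (by positivity)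
    push_cast
    linarith only [h, h2, h5]

theorem BD_scale (hR : 0 < R) (a : Fin (d + 1) → ℝ) :
    a ∈ BD Λ (fun j => R * v j) δ (R * r) ↔ (fun k => a k / R) ∈ BD Λ v δ r := by
  have ha : a = R • (fun k => a k / R) := by
    funext k
    simp only [Pi.smul_apply, smul_eq_mul]
    field_simp
  have e : ∀ j, (Λ a + fun j => R * v j) j = R * (Λ (fun k => a k / R) + v) j := fun j => by
    conv_lhs => rw [ha]
    rw [map_smul]
    simp only [Pi.add_apply, Pi.smul_apply, smul_eq_mul]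
    ring
  simp only [BD, Set.mem_setOf_eq, e]
  set w := Λ (fun k => a k / R) + v
  rw [← Finset.mul_sum]
  refine and_congr ?_ (and_congr (forall_congr' fun j => imp_congr_right fun _ => ?_) ?_)
  · exact mul_nonneg_iff_of_pos_left hR
  · rw [show δ * (R * w 0) = R * (δ * w 0) by ring]
    exact mul_le_mul_iff_right₀ hR
  · rw [show R * ∑ j, w j - δ * d * (R * w 0) = R * (∑ j, w j - δ * d * w 0) by ring]
    exact mul_le_mul_iff_right₀ hR

end

end Vale.Agent.P209.Strong
end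
end
end
end

section

section

section

section

namespace Vale.Agent.P209.Strong

open MeasureTheory

/-! K3. Balls embed in the tilted bodies. -/

/-- the open tilted body in the chart coordinates -/
def k3_OZ (d : ℕ) (δ s : ℝ) : Set (Fin (d + 1) → ℝ) :=
  {z | 0 < z 0 ∧ (∀ j, j ≠ 0 → δ * z 0 < z j) ∧ ∑ j, z j - δ * d * z 0 < s}

theorem k3_open (d : ℕ) (δ s : ℝ) : IsOpen (k3_OZ d δ s) := by
  have h : k3_OZ d δ s = {z : Fin (d + 1) → ℝ | 0 < z 0} ∩
      ((⋂ j : Fin (d + 1), {z : Fin (d + 1) → ℝ | j ≠ 0 → δ * z 0 < z j}) ∩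
        {z : Fin (d + 1) → ℝ | ∑ j, z j - δ * d * z 0 < s}) := by
    ext z
    simp only [k3_OZ, ne_eq, Set.mem_ofPred_eq, Set.mem_inter_iff, Set.mem_iInter]
  rw [h]
  refine (isOpen_lt continuous_const (continuous_apply 0)).inter
    ((isOpen_iInter_of_finite fun j => ?_).inter ?_)
  · by_cases hj : j = 0
    · have : {z : Fin (d + 1) → ℝ | j ≠ 0 → δ * z 0 < z j} = Set.univ := by
        ext z
        simp only [hj, ne_eq, not_true_eq_false, IsEmpty.forall_iff, Set.ofPred_true, Set.mem_univ]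
      rw [this]
      exact isOpen_univ
    · have : {z : Fin (d + 1) → ℝ | j ≠ 0 → δ * z 0 < z j} =
          {z : Fin (d + 1) → ℝ | δ * z 0 < z j} := by
        ext z
        simp [hj]
      rw [this]
      exact isOpen_lt (continuous_const.mul (continuous_apply 0)) (continuous_apply j)
  · refine isOpen_lt (Continuous.sub (continuous_finsetSum _ fun j _ => continuous_apply j)
      (continuous_const.mul (continuous_apply 0))) continuous_const

theorem k3_emb {d : ℕ} {δ r r' : ℝ} (hδ : 0 < δ) (hr : 0 ≤ r) (h : r < r') :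
    ∃ f, TEmb r f (k3_OZ d δ r') := by
  set κ : ℝ := (r' - r) / (2 * ((d : ℝ) + 1)) with hκ
  have hd1 : (0 : ℝ) < (d : ℝ) + 1 := by positivity
  have hκ0 : 0 < κ := by
    rw [hκ]
    exact div_pos (by linarith only [h]) (by positivity)
  have hκ1 : ((d : ℝ) + 1) * κ = (r' - r) / 2 := by
    rw [hκ]
    field_simp
  refine exists_TEmb (fun j a _ => if j = 0 then κ else κ + δ * a 0) (fun j => ?_)
    (fun j y y' hy => ?_) r hr (k3_open d δ r') ?_
  · by_cases hj : j = 0
    · simp only [hj, if_true]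
      exact continuous_const
    · simp only [hj, if_false]
      exact continuous_const.add (continuous_const.mul ((continuous_apply 0).comp continuous_fst))
  · by_cases hj : j = 0
    · simp only [hj, if_true]
    · simp only [hj, if_false]
      rw [hy 0 (Fin.pos_iff_ne_zero.mpr hj)]
  · rintro a ⟨x, hx0, hx, hxn, ha⟩
    have ha0 : κ ≤ a 0 := by simpa using (ha 0).1
    have haj : ∀ j, j ≠ 0 → κ + δ * a 0 ≤ a j := by
      intro j hj
      simpa [hj] using (ha j).1
    refine ⟨hκ0.trans_le ha0, fun j hj => ?_, ?_⟩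
    · have := haj j hj
      linarith only [hκ0, this]
    · have h1 : ∑ j, a j ≤ ∑ j : Fin (d + 1), ((if j = 0 then κ else κ + δ * a 0) +
          (x j - x (j + 1))) := Finset.sum_le_sum fun j _ => (ha j).2
      have h2 : ∑ j : Fin (d + 1), (x (j : ℕ) - x ((j : ℕ) + 1)) = x 0 - x (d + 1) := by
        rw [Fin.sum_univ_eq_sum_range (fun i => x i - x (i + 1)) (d + 1), Finset.sum_range_sub']
      have h3 : ∑ j : Fin (d + 1), (if j = 0 then κ else κ + δ * a 0) =
          ((d : ℝ) + 1) * κ + δ * d * a 0 := by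
        rw [Fin.sum_univ_succ]
        simp only [if_true, Fin.succ_ne_zero, if_false, Finset.sum_const, Finset.card_univ,
          Fintype.card_fin, nsmul_eq_mul]
        ring
      rw [Finset.sum_add_distrib, h2, h3, hxn] at h1
      linarith only [h, hκ1, hx0, h1]

theorem OD_emb {d : ℕ} {Λ : (Fin (d + 1) → ℝ) ≃ₗ[ℝ] (Fin (d + 1) → ℝ)} (hΛ : CH Λ)
    (v : Fin (d + 1) → ℝ) {δ r r' : ℝ} (hδ : 0 < δ) (hδ1 : δ < 1) (hr : 0 ≤ r) (h : r < r') :
    ∃ f, TEmb r f (OD Λ v δ r') := by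
  have _ := hδ1
  obtain ⟨f, hf⟩ := k3_emb (d := d) hδ hr h
  have hpk : TPk (k3_OZ d δ r') (fun _ : Unit => r) :=
    ⟨fun _ => f, fun _ => hf, fun i j hij => absurd (Subsingleton.elim i j) hij⟩
  have hint : ∀ i j, ∃ m : ℤ, Λ.symm (Pi.single i 1) j = m := hΛ.int'
  have hint' : ∀ i j, ∃ m : ℤ, Λ.symm.symm (Pi.single i 1) j = m := hΛ.int
  obtain ⟨g, hg, -⟩ := hpk.image Λ.symm hint hint' (-(Λ.symm v))
  have hEq : (fun a => Λ.symm a + -(Λ.symm v)) '' (k3_OZ d δ r') = OD Λ v δ r' := by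
    ext a
    constructor
    · rintro ⟨z, hz, rfl⟩
      have hz' : Λ (Λ.symm z + -(Λ.symm v)) + v = z := by
        simp only [map_add, LinearEquiv.apply_symm_apply, map_neg, neg_add_cancel_right]
      show 0 < (Λ (Λ.symm z + -(Λ.symm v)) + v) 0 ∧ _
      simp only [hz']
      exact hz
    · intro ha
      refine ⟨Λ a + v, ha, ?_⟩
      simp
  rw [hEq] at hg
  exact ⟨g (), hg ()⟩

end Vale.Agent.P209.Strong
end
end
end
end

section

section

section

section

namespace Vale.Agent.P209.Strong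

open MeasureTheory

/-! K7. Charts from barycentric coordinates. -/

/-- The `d + 2` barycentric coordinates of a vector (linear part). -/
def bary {d : ℕ} (x : Fin (d + 1) → ℝ) : Fin (d + 2) → ℝ :=
  Fin.snoc (α := fun _ => ℝ) x (-∑ j, x j)

private theorem k7_castSucc {d : ℕ} (x : Fin (d + 1) → ℝ) (j : Fin (d + 1)) :
    bary x j.castSucc = x j := by
  unfold bary
  exact Fin.snoc_castSucc _ _ _

private theorem k7_last {d : ℕ} (x : Fin (d + 1) → ℝ) :
    bary x (Fin.last (d + 1)) = -∑ j, x j := by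
  unfold bary
  exact Fin.snoc_last _ _

private theorem k7_sum {d : ℕ} (x : Fin (d + 1) → ℝ) : ∑ i, bary x i = 0 := by
  rw [Fin.sum_univ_castSucc, k7_last]
  simp only [k7_castSucc]
  ring

private theorem k7_add {d : ℕ} (x y : Fin (d + 1) → ℝ) (i : Fin (d + 2)) :
    bary (x + y) i = bary x i + bary y i := by
  refine Fin.lastCases ?_ (fun j => ?_) i
  · simp only [k7_last, Pi.add_apply, Finset.sum_add_distrib]
    ring
  · simp only [k7_castSucc, Pi.add_apply]

private theorem k7_smul {d : ℕ} (c : ℝ) (x : Fin (d + 1) → ℝ) (i : Fin (d + 2)) :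
    bary (c • x) i = c * bary x i := by
  refine Fin.lastCases ?_ (fun j => ?_) i
  · simp only [k7_last, Pi.smul_apply, smul_eq_mul, ← Finset.mul_sum]
    ring
  · simp only [k7_castSucc, Pi.smul_apply, smul_eq_mul]

private theorem k7_int {d : ℕ} (x : Fin (d + 1) → ℝ) (hx : ∀ j, ∃ m : ℤ, x j = m)
    (i : Fin (d + 2)) : ∃ m : ℤ, bary x i = m := by
  refine Fin.lastCases ?_ (fun j => ?_) i
  · choose m hm using hx
    refine ⟨-∑ j, m j, ?_⟩
    rw [k7_last]
    push_cast
    simp only [hm]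
  · rw [k7_castSucc]
    exact hx j

/-- The map of a permutation of the barycentric coordinates. -/
private def k7_P {d : ℕ} (π : Equiv.Perm (Fin (d + 2))) (x : Fin (d + 1) → ℝ) :
    Fin (d + 1) → ℝ := fun j => bary x (π j.castSucc)

private theorem k7_bary_P {d : ℕ} (π : Equiv.Perm (Fin (d + 2))) (x : Fin (d + 1) → ℝ)
    (i : Fin (d + 2)) : bary (k7_P π x) i = bary x (π i) := by
  refine Fin.lastCases ?_ (fun j => ?_) i
  · rw [k7_last]
    have h1 : ∑ i, bary x (π i) = 0 := by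
      rw [Equiv.sum_comp π (fun i => bary x i)]
      exact k7_sum x
    rw [Fin.sum_univ_castSucc] at h1
    have h2 : ∑ j, k7_P π x j = ∑ j : Fin (d + 1), bary x (π j.castSucc) := rfl
    rw [h2]
    linarith only [h1]
  · rw [k7_castSucc]
    rfl

private theorem k7_P_inv {d : ℕ} (π : Equiv.Perm (Fin (d + 2))) (x : Fin (d + 1) → ℝ) :
    k7_P π⁻¹ (k7_P π x) = x := by
  funext j
  have h1 : k7_P π⁻¹ (k7_P π x) j = bary (k7_P π x) (π⁻¹ j.castSucc) := rfl
  have h2 : π (π⁻¹ j.castSucc) = j.castSucc := π.apply_symm_apply _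
  rw [h1, k7_bary_P, h2, k7_castSucc]

/-- The linear automorphism of a permutation. -/
private def k7_L {d : ℕ} (π : Equiv.Perm (Fin (d + 2))) :
    (Fin (d + 1) → ℝ) ≃ₗ[ℝ] (Fin (d + 1) → ℝ) where
  toFun := k7_P π
  map_add' x y := funext fun j => k7_add x y _
  map_smul' c x := funext fun j => k7_smul c x _
  invFun := k7_P π⁻¹
  left_inv x := k7_P_inv π x
  right_inv x := by
    have h := k7_P_inv π⁻¹ x
    rwa [inv_inv] at h

private theorem k7_perm {m : ℕ} (c p q : Fin (m + 1)) (hc : c ≠ 0) (hpq : p ≠ q) :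
    ∃ π : Equiv.Perm (Fin (m + 1)), π 0 = p ∧ π c = q := by
  have hq' : Equiv.swap 0 p q ≠ 0 := by
    intro h
    have h1 : Equiv.swap 0 p p = Equiv.swap 0 p q := by
      rw [h, Equiv.swap_apply_right]
    exact hpq ((Equiv.swap 0 p).injective h1)
  refine ⟨Equiv.swap 0 p * Equiv.swap c (Equiv.swap 0 p q), ?_, ?_⟩
  · rw [Equiv.Perm.mul_apply, Equiv.swap_apply_of_ne_of_ne hc.symm hq'.symm,
      Equiv.swap_apply_left]
  · rw [Equiv.Perm.mul_apply, Equiv.swap_apply_left, Equiv.swap_apply_self]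

/-- integer matrices send integer vectors to integer vectors -/
private theorem k7_intmap {n : ℕ} (f : (Fin n → ℝ) →ₗ[ℝ] (Fin n → ℝ))
    (hf : ∀ i j, ∃ m : ℤ, f (Pi.single i 1) j = m) (x : Fin n → ℝ) (hx : ∀ i, ∃ m : ℤ, x i = m)
    (j : Fin n) : ∃ m : ℤ, f x j = m := by
  choose a ha using hx
  choose b hb using hf
  refine ⟨∑ i, a i * b i j, ?_⟩
  have h1 : f x = ∑ i, x i • f (Pi.single i 1) := by
    conv_lhs => rw [pi_eq_sum_univ x]
    rw [map_sum]
    refine Finset.sum_congr rfl fun i _ => ?_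
    rw [map_smul]
    congr 2
    funext k
    rw [Pi.single_apply]
    simp only [eq_comm]
  rw [h1, Finset.sum_apply]
  push_cast
  refine Finset.sum_congr rfl fun i _ => ?_
  rw [Pi.smul_apply, smul_eq_mul, ha, hb]

/-- The barycentric coordinates of the point. -/
private theorem k7_cell {d : ℕ} (x : Fin (d + 1) → ℝ) (s : ℝ) (π : Equiv.Perm (Fin (d + 2)))
    (y : Fin (d + 1) → ℝ)
    (hy : ∀ j, y j = bary x (π j.castSucc) + if π j.castSucc = Fin.last (d + 1) then s else 0) :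
    ((∀ j, 0 < y j) ∧ ∑ j, y j < s) ↔ ((∀ j, 0 < x j) ∧ ∑ j, x j < s) := by
  set Y : Fin (d + 2) → ℝ := fun i => bary x i + if i = Fin.last (d + 1) then s else 0 with hY
  have hsum : ∑ i, Y i = s := by
    simp only [hY, Finset.sum_add_distrib, k7_sum, Finset.sum_ite_eq', Finset.mem_univ, if_true,
      zero_add]
  have hR : ((∀ j, 0 < x j) ∧ ∑ j, x j < s) ↔ ∀ i, 0 < Y i := by
    constructor
    · rintro ⟨h1, h2⟩ i
      refine Fin.lastCases ?_ (fun j => ?_) i
      · simp only [hY, if_true, k7_last]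
        linarith
      · simp only [hY, k7_castSucc, if_neg (Fin.castSucc_lt_last j).ne, add_zero]
        exact h1 j
    · intro h
      refine ⟨fun j => ?_, ?_⟩
      · have := h j.castSucc
        simp only [hY, k7_castSucc, if_neg (Fin.castSucc_lt_last j).ne, add_zero] at this
        exact this
      · have := h (Fin.last (d + 1))
        simp only [hY, if_true, k7_last] at this
        linarith
  have hyY : ∀ j, y j = Y (π j.castSucc) := hy
  have hsum' : ∑ j, y j = s - Y (π (Fin.last (d + 1))) := by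
    have h1 : ∑ i, Y (π i) = s := by
      rw [Equiv.sum_comp π Y]
      exact hsum
    rw [Fin.sum_univ_castSucc] at h1
    simp only [hyY]
    linarith only [h1]
  rw [hR, hsum']
  constructor
  · rintro ⟨h1, h2⟩ i
    have h3 : ∀ i, 0 < Y (π i) := by
      intro i
      refine Fin.lastCases ?_ (fun j => ?_) i
      · linarith
      · rw [← hyY]
        exact h1 j
    have := h3 (π.symm i)
    rwa [Equiv.apply_symm_apply] at this
  · intro h
    refine ⟨fun j => ?_, ?_⟩
    · rw [hyY]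
      exact h _
    · have := h (π (Fin.last (d + 1)))
      linarith

theorem exists_chart (d : ℕ) (hd : 1 ≤ d) (Λ₀ : (Fin (d + 1) → ℝ) ≃ₗ[ℝ] (Fin (d + 1) → ℝ))
    (hi : ∀ i j, ∃ m : ℤ, Λ₀ (Pi.single i 1) j = m)
    (hi' : ∀ i j, ∃ m : ℤ, Λ₀.symm (Pi.single i 1) j = m) (p q : Fin (d + 2)) (hpq : p ≠ q)
    (hv : bary (Λ₀ (Pi.single (Fin.last d) 1)) = Pi.single p 1 - Pi.single q 1)
    (w : Fin (d + 1) → ℝ) (s : ℝ) :
    ∃ (Λ : (Fin (d + 1) → ℝ) ≃ₗ[ℝ] (Fin (d + 1) → ℝ)) (v : Fin (d + 1) → ℝ), CH Λ ∧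
      ∀ a, a ∈ CE Λ v s ↔ ((∀ j, 0 < (Λ₀ a + w) j) ∧ ∑ j, (Λ₀ a + w) j < s) := by
  have hc : (Fin.castSucc (Fin.last d) : Fin (d + 2)) ≠ 0 := by
    intro h
    have := congrArg Fin.val h
    simp at this
    omega
  obtain ⟨π, hπp, hπq⟩ := k7_perm (Fin.castSucc (Fin.last d)) p q hc hpq
  refine ⟨Λ₀.trans (k7_L π), fun j => bary w (π j.castSucc) +
    (if π j.castSucc = Fin.last (d + 1) then s else 0), ⟨fun i j => ?_, fun i j => ?_, ?_⟩,
    fun a => ?_⟩
  · exact k7_int _ (fun j => hi i j) _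
  · refine k7_intmap Λ₀.symm.toLinearMap hi' _ (fun k => ?_) j
    refine k7_int _ (fun j => ?_) _
    by_cases hij : j = i
    · exact ⟨1, by rw [hij, Pi.single_eq_same]; norm_num⟩
    · exact ⟨0, by rw [Pi.single_eq_of_ne hij]; norm_num⟩
  · funext j
    have h1 : (Λ₀.trans (k7_L π)) (Pi.single (Fin.last d) 1) j =
        bary (Λ₀ (Pi.single (Fin.last d) 1)) (π j.castSucc) := rfl
    rw [h1, hv, Pi.sub_apply, Pi.sub_apply]
    have h2 : ∀ (i : Fin (d + 2)) (r : Fin (d + 2)), (Pi.single (π r) (1 : ℝ) : Fin (d + 2) → ℝ) (π i)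
        = (Pi.single r (1 : ℝ) : Fin (d + 2) → ℝ) i := by
      intro i r
      simp only [Pi.single_apply, π.injective.eq_iff]
    rw [← hπp, ← hπq, h2, h2]
    congr 1
    · simp only [Pi.single_apply]
      congr 1
      exact propext ⟨fun h => Fin.castSucc_injective _ (by simpa using h), fun h => by simp [h]⟩
    · simp only [Pi.single_apply]
      congr 1
      exact propext ⟨fun h => Fin.castSucc_injective _ h, fun h => by rw [h]⟩
  · refine k7_cell (Λ₀ a + w) s π _ fun j => ?_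
    rw [k7_add]
    have h1 : ((Λ₀.trans (k7_L π)) a + fun j : Fin (d + 1) => bary w (π j.castSucc) +
        (if π j.castSucc = Fin.last (d + 1) then s else 0)) j =
        bary (Λ₀ a) (π j.castSucc) + (bary w (π j.castSucc) +
        (if π j.castSucc = Fin.last (d + 1) then s else 0)) := rfl
    rw [h1]
    ring

end Vale.Agent.P209.Strong
end
end
end
end

section

section

section

section

namespace Vale.Agent.P209.Strong

open MeasureTheory Vale.Agent.P209

/-! K8. Charts of permuted cells. -/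

/-- partial sums -/
def cum {n : ℕ} (a : Fin n → ℝ) : Fin n → ℝ := fun k => ∑ i, if i ≤ k then a i else 0

private theorem k8_cum_zero {m : ℕ} (a : Fin (m + 1) → ℝ) : cum a 0 = a 0 := by
  unfold cum
  rw [Finset.sum_eq_single (0 : Fin (m + 1))]
  · simp
  · intro i _ hi
    rw [if_neg]
    intro h
    exact hi (le_antisymm h (Fin.zero_le _))
  · intro h; exact absurd (Finset.mem_univ _) h

private theorem k8_cum_succ {m : ℕ} (a : Fin (m + 1) → ℝ) (k : Fin m) :
    cum a k.succ = cum a k.castSucc + a k.succ := by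
  unfold cum
  have h : ∀ i : Fin (m + 1), (if i ≤ k.succ then a i else 0) =
      (if i ≤ k.castSucc then a i else 0) + (if i = k.succ then a i else 0) := by
    intro i
    have e1 : (i ≤ k.succ) ↔ (i : ℕ) ≤ k + 1 := by rw [Fin.le_def, Fin.val_succ]
    have e2 : (i ≤ k.castSucc) ↔ (i : ℕ) ≤ k := by rw [Fin.le_def, Fin.val_castSucc]
    have e3 : (i = k.succ) ↔ (i : ℕ) = k + 1 := by rw [Fin.ext_iff, Fin.val_succ]
    by_cases h3 : i = k.succ
    · have h3' := e3.1 h3
      rw [if_pos (e1.2 (by omega)), if_neg (fun h => by have := e2.1 h; omega), if_pos h3, zero_add]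
    · have h3' : ¬ (i : ℕ) = k + 1 := fun h => h3 (e3.2 h)
      rw [if_neg h3, add_zero]
      by_cases h2 : i ≤ k.castSucc
      · have := e2.1 h2
        rw [if_pos h2, if_pos (e1.2 (by omega))]
      · rw [if_neg h2, if_neg]
        intro h1
        have := e1.1 h1
        exact h2 (e2.2 (by omega))
  rw [Finset.sum_congr rfl (fun i _ => h i), Finset.sum_add_distrib, Finset.sum_ite_eq']
  simp

private theorem k8_cum_last {m : ℕ} (a : Fin (m + 1) → ℝ) :
    cum a (Fin.last m) = ∑ i, a i := by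
  unfold cum
  exact Finset.sum_congr rfl fun i _ => if_pos (Fin.le_last i)

private theorem k8_tri {m : ℕ} (a : Fin (m + 1) → ℝ) (R : ℝ) :
    cum a ∈ tri (m + 1) R ↔ a ∈ simplex (m + 1) R := by
  unfold tri simplex
  constructor
  · rintro ⟨h1, h2, h3⟩
    refine ⟨fun j => ?_, ?_⟩
    · refine Fin.cases ?_ (fun i => ?_) j
      · have := h1 0
        rwa [k8_cum_zero] at this
      · have := h2 (Fin.castSucc_lt_succ (i := i))
        rw [k8_cum_succ] at this
        linarith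
    · rw [← k8_cum_last]
      exact h3 _
  · rintro ⟨h1, h2⟩
    have hm : StrictMono (cum a) := by
      rw [Fin.strictMono_iff_lt_succ]
      intro i
      rw [k8_cum_succ]
      linarith [h1 i.succ]
    refine ⟨fun i => ?_, hm, fun i => ?_⟩
    · have h4 : cum a 0 ≤ cum a i := hm.monotone (Fin.zero_le _)
      rw [k8_cum_zero] at h4
      exact lt_of_lt_of_le (h1 0) h4
    · have h4 : cum a i ≤ cum a (Fin.last m) := hm.monotone (Fin.le_last _)
      rw [k8_cum_last] at h4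
      exact lt_of_le_of_lt h4 h2

theorem cum_tri {n : ℕ} (a : Fin n → ℝ) (R : ℝ) (hR : 0 < R) :
    cum a ∈ tri n R ↔ a ∈ simplex n R := by
  rcases n with _ | m
  · unfold tri simplex
    constructor
    · intro _
      refine ⟨fun j => j.elim0, ?_⟩
      simpa using hR
    · intro _
      exact ⟨fun i => i.elim0, fun i => i.elim0, fun i => i.elim0⟩
  · exact k8_tri a R

/-- differences -/
private def k8_dif {m : ℕ} (y : Fin (m + 1) → ℝ) : Fin (m + 1) → ℝ :=
  fun k => Fin.cases (motive := fun _ => ℝ) (y 0) (fun j => y j.succ - y j.castSucc) k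

private theorem k8_dif_zero {m : ℕ} (y : Fin (m + 1) → ℝ) : k8_dif y 0 = y 0 := rfl

private theorem k8_dif_succ {m : ℕ} (y : Fin (m + 1) → ℝ) (j : Fin m) :
    k8_dif y j.succ = y j.succ - y j.castSucc := rfl

private theorem k8_dif_cum {m : ℕ} (a : Fin (m + 1) → ℝ) : k8_dif (cum a) = a := by
  funext k
  refine Fin.cases ?_ (fun j => ?_) k
  · rw [k8_dif_zero, k8_cum_zero]
  · rw [k8_dif_succ, k8_cum_succ]; ring

private theorem k8_cum_dif {m : ℕ} (y : Fin (m + 1) → ℝ) : cum (k8_dif y) = y := by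
  funext k
  refine Fin.induction ?_ (fun j ih => ?_) k
  · rw [k8_cum_zero, k8_dif_zero]
  · rw [k8_cum_succ, ih, k8_dif_succ]; ring

private theorem k8_dif_add {m : ℕ} (y z : Fin (m + 1) → ℝ) :
    k8_dif (y + z) = k8_dif y + k8_dif z := by
  funext k
  refine Fin.cases ?_ (fun j => ?_) k
  · simp only [Pi.add_apply, k8_dif_zero]
  · simp only [Pi.add_apply, k8_dif_succ]; ring

/-- partial sums as a linear equivalence -/
private def k8_C (m : ℕ) : (Fin (m + 1) → ℝ) ≃ₗ[ℝ] (Fin (m + 1) → ℝ) where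
  toFun := cum
  invFun := k8_dif
  left_inv := k8_dif_cum
  right_inv := k8_cum_dif
  map_add' x y := by
    funext k
    simp only [cum, Pi.add_apply, ← Finset.sum_add_distrib]
    refine Finset.sum_congr rfl fun i _ => ?_
    split_ifs <;> simp
  map_smul' c x := by
    funext k
    simp only [cum, Pi.smul_apply, smul_eq_mul, RingHom.id_apply, Finset.mul_sum]
    refine Finset.sum_congr rfl fun i _ => ?_
    split_ifs <;> simp

/-- integer valued vectors -/
private def k8_IV {n : ℕ} (x : Fin n → ℝ) : Prop := ∀ j, ∃ m : ℤ, x j = m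

private theorem k8_IV_cum {n : ℕ} {x : Fin n → ℝ} (h : k8_IV x) : k8_IV (cum x) := by
  intro k
  choose m hm using h
  refine ⟨∑ i, if i ≤ k then m i else 0, ?_⟩
  unfold cum
  push_cast
  refine Finset.sum_congr rfl fun i _ => ?_
  split_ifs
  · exact hm i
  · rfl

private theorem k8_IV_dif {m : ℕ} {x : Fin (m + 1) → ℝ} (h : k8_IV x) : k8_IV (k8_dif x) := by
  intro k
  refine Fin.cases ?_ (fun j => ?_) k
  · rw [k8_dif_zero]; exact h 0
  · obtain ⟨a, ha⟩ := h j.succ
    obtain ⟨b, hb⟩ := h j.castSucc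
    refine ⟨a - b, ?_⟩
    rw [k8_dif_succ, ha, hb]
    push_cast
    rfl

private theorem k8_IV_single {n : ℕ} (i : Fin n) : k8_IV (Pi.single i (1 : ℝ) : Fin n → ℝ) := by
  intro j
  by_cases hij : j = i
  · exact ⟨1, by rw [hij, Pi.single_eq_same]; norm_num⟩
  · exact ⟨0, by rw [Pi.single_eq_of_ne hij]; norm_num⟩

/-- the chart of a permutation -/
private def k8_L {d : ℕ} (σ : Equiv.Perm (Fin (d + 1))) :
    (Fin (d + 1) → ℝ) ≃ₗ[ℝ] (Fin (d + 1) → ℝ) :=
  (k8_C d).trans ((LinearEquiv.funCongrLeft ℝ ℝ σ).trans (k8_C d).symm)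

private theorem k8_L_apply {d : ℕ} (σ : Equiv.Perm (Fin (d + 1))) (a : Fin (d + 1) → ℝ) :
    k8_L σ a = k8_dif (fun i => cum a (σ i)) := rfl

private theorem k8_cum_single {m : ℕ} :
    cum (Pi.single (Fin.last m) (1 : ℝ) : Fin (m + 1) → ℝ) = Pi.single (Fin.last m) 1 := by
  funext k
  unfold cum
  rw [Finset.sum_eq_single (Fin.last m)]
  · rw [Pi.single_eq_same]
    by_cases hk : k = Fin.last m
    · rw [hk, Pi.single_eq_same, if_pos le_rfl]
    · rw [Pi.single_eq_of_ne hk, if_neg]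
      intro h
      exact hk (le_antisymm (Fin.le_last _) h)
  · intro i _ hi
    rw [Pi.single_eq_of_ne hi, ite_self]
  · intro h; exact absurd (Finset.mem_univ _) h

private theorem k8_vert {d : ℕ} (σ : Equiv.Perm (Fin (d + 1))) :
    bary (k8_L σ (Pi.single (Fin.last d) 1)) =
      Pi.single (σ.symm (Fin.last d)).castSucc 1 - Pi.single (σ.symm (Fin.last d)).succ 1 := by
  set p := σ.symm (Fin.last d) with hp
  have hu : (fun i => cum (Pi.single (Fin.last d) (1 : ℝ) : Fin (d + 1) → ℝ) (σ i)) =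
      (Pi.single p 1 : Fin (d + 1) → ℝ) := by
    funext i
    rw [k8_cum_single]
    simp only [Pi.single_apply, hp]
    congr 1
    exact propext (Equiv.eq_symm_apply σ).symm
  rw [k8_L_apply, hu]
  funext i
  refine Fin.lastCases ?_ (fun j => ?_) i
  · have h1 : bary (k8_dif (Pi.single p 1 : Fin (d + 1) → ℝ)) (Fin.last (d + 1)) =
        -∑ j, k8_dif (Pi.single p 1 : Fin (d + 1) → ℝ) j := by
      unfold bary
      exact Fin.snoc_last _ _
    rw [h1, ← k8_cum_last, k8_cum_dif, Pi.sub_apply]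
    have h2 : (Pi.single p.castSucc (1 : ℝ) : Fin (d + 2) → ℝ) (Fin.last (d + 1)) = 0 :=
      Pi.single_eq_of_ne (fun h => absurd h.symm (Fin.castSucc_lt_last p).ne) _
    rw [h2, zero_sub]
    congr 1
    simp only [Pi.single_apply]
    congr 1
    rw [← Fin.succ_last]
    exact propext ⟨fun h => by rw [h], fun h => Fin.succ_injective _ h⟩
  · have h1 : bary (k8_dif (Pi.single p 1 : Fin (d + 1) → ℝ)) j.castSucc =
        k8_dif (Pi.single p 1 : Fin (d + 1) → ℝ) j := by
      unfold bary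
      exact Fin.snoc_castSucc _ _ _
    rw [h1, Pi.sub_apply]
    have hc : (Pi.single p.castSucc (1 : ℝ) : Fin (d + 2) → ℝ) j.castSucc =
        (Pi.single p (1 : ℝ) : Fin (d + 1) → ℝ) j := by
      simp only [Pi.single_apply]
      congr 1
      exact propext ⟨fun h => Fin.castSucc_injective _ h, fun h => by rw [h]⟩
    rw [hc]
    refine Fin.cases ?_ (fun k => ?_) j
    · rw [k8_dif_zero]
      have h2 : (Pi.single p.succ (1 : ℝ) : Fin (d + 2) → ℝ) (Fin.castSucc 0) = 0 := by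
        refine Pi.single_eq_of_ne ?_ _
        intro h
        exact absurd (congrArg Fin.val h) (by simp)
      rw [h2, sub_zero]
    · rw [k8_dif_succ]
      congr 1
      simp only [Pi.single_apply]
      congr 1
      rw [← Fin.succ_castSucc]
      exact propext ⟨fun h => by rw [h], fun h => Fin.succ_injective _ h⟩

theorem cell_chart (d : ℕ) (hd : 1 ≤ d) (σ : Equiv.Perm (Fin (d + 1))) (b : Fin (d + 1) → ℝ)
    (s : ℝ) : ∃ (Λ : (Fin (d + 1) → ℝ) ≃ₗ[ℝ] (Fin (d + 1) → ℝ)) (v : Fin (d + 1) → ℝ), CH Λ ∧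
      ∀ a, a ∈ CE Λ v s ↔ cum a ∈ cell σ b s := by
  obtain ⟨Λ, v, hΛ, h⟩ := exists_chart d hd (k8_L σ)
    (fun i j => k8_IV_dif (fun k => k8_IV_cum (k8_IV_single i) (σ k)) j)
    (fun i j => k8_IV_dif (fun k => k8_IV_cum (k8_IV_single i) (σ.symm k)) j)
    (σ.symm (Fin.last d)).castSucc (σ.symm (Fin.last d)).succ (Fin.castSucc_lt_succ).ne
    (k8_vert σ) (k8_dif (fun i => - b i)) s
  refine ⟨Λ, v, hΛ, fun a => ?_⟩
  rw [h a]
  have h1 : k8_L σ a + k8_dif (fun i => - b i) = k8_dif (fun i => cum a (σ i) - b i) := by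
    rw [k8_L_apply, ← k8_dif_add]
    rfl
  rw [h1]
  have h2 := k8_tri (k8_dif (fun i => cum a (σ i) - b i)) s
  rw [k8_cum_dif] at h2
  exact h2.symm

end Vale.Agent.P209.Strong
end
end
end
end

section

section

section

section

namespace Vale.Agent.P209.MM

open Vale.Agent.P209 Vale.Agent.P209.Strong

/-! U4. Replacing several virtual balls by groups of balls. -/

theorem packs_unmerge {n N : ℕ} {κ ι : Type} {R : ℝ} (b : κ → ℝ) (r : ι → ℝ)
    (g : ι → Option (Fin N)) (ρ : Fin N → ℝ)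
    (h : Packs (openBall n R) (Sum.elim (Sum.elim b ρ) (fun i : {i // g i = none} => r i)))
    (hg : ∀ c, Packs (openBall n (ρ c)) (fun i : {i // g i = some c} => r i)) :
    Packs (openBall n R) (Sum.elim b r) := by
  classical
  obtain ⟨F, hF, hFR, hFd⟩ := h
  choose G hG hGR hGd using hg
  have hsub : ∀ c (i : {i // g i = some c}),
      G c i '' closedBall n (r i) ⊆ closedBall n (ρ c) := fun c i =>
    (hGR c i).trans e1b_open_sub_closed
  have himg : ∀ c (i : {i // g i = some c}),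
      (fun z => F (Sum.inl (Sum.inr c)) (G c i z)) '' closedBall n (r i) ⊆
      F (Sum.inl (Sum.inr c)) '' closedBall n (ρ c) := by
    rintro c i _ ⟨z, hz, rfl⟩
    exact ⟨_, hsub c i ⟨z, hz, rfl⟩, rfl⟩
  have hinj : ∀ c, Set.InjOn (F (Sum.inl (Sum.inr c))) (closedBall n (ρ c)) := by
    intro c
    obtain ⟨U, hUo, hU, hFU, hFe, hFs⟩ := hF (Sum.inl (Sum.inr c))
    intro a ha b hb hab
    have h1 := hFe.injective (a₁ := ⟨a, hU ha⟩) (a₂ := ⟨b, hU hb⟩) hab
    exact congrArg Subtype.val h1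
  have hex : ∀ i, ∃ φ : (Fin n → ℂ) → (Fin n → ℂ),
      (∀ hi : g i = none, φ = F (Sum.inr ⟨i, hi⟩)) ∧
      (∀ c, ∀ hi : g i = some c, φ = fun z => F (Sum.inl (Sum.inr c)) (G c ⟨i, hi⟩ z)) := by
    intro i
    by_cases hgi : g i = none
    · exact ⟨F (Sum.inr ⟨i, hgi⟩), fun _ => rfl, fun c hc => by simp [hgi] at hc⟩
    · obtain ⟨c, hc⟩ := Option.ne_none_iff_exists'.1 hgi
      refine ⟨fun z => F (Sum.inl (Sum.inr c)) (G c ⟨i, hc⟩ z), fun h0 => absurd h0 hgi, ?_⟩
      intro c' hc'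
      obtain rfl : c = c' := Option.some_injective _ (hc.symm.trans hc')
      rfl
  choose φ hφ0 hφ1 using hex
  refine ⟨Sum.elim (fun k => F (Sum.inl (Sum.inl k))) φ, ?_, ?_, ?_⟩
  · rintro (k | i)
    · exact hF (Sum.inl (Sum.inl k))
    · simp only [Sum.elim_inr]
      rcases hgi : g i with _ | c
      · rw [hφ0 i hgi]
        exact hF (Sum.inr ⟨i, hgi⟩)
      · rw [hφ1 i c hgi]
        exact e1b_comp (hF (Sum.inl (Sum.inr c))) (hG c ⟨i, hgi⟩) (hsub c ⟨i, hgi⟩)
  · rintro (k | i)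
    · exact hFR (Sum.inl (Sum.inl k))
    · simp only [Sum.elim_inr]
      rcases hgi : g i with _ | c
      · rw [hφ0 i hgi]
        exact hFR (Sum.inr ⟨i, hgi⟩)
      · rw [hφ1 i c hgi]
        exact (himg c ⟨i, hgi⟩).trans (hFR (Sum.inl (Sum.inr c)))
  · have hki : ∀ k i, Disjoint (F (Sum.inl (Sum.inl k)) '' closedBall n (b k))
        (φ i '' closedBall n (r i)) := by
      intro k i
      rcases hgi : g i with _ | c
      · rw [hφ0 i hgi]
        exact hFd (i := Sum.inl (Sum.inl k)) (j := Sum.inr ⟨i, hgi⟩) (by simp)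
      · rw [hφ1 i c hgi]
        exact (hFd (i := Sum.inl (Sum.inl k)) (j := Sum.inl (Sum.inr c)) (by simp)).mono_right
          (himg c ⟨i, hgi⟩)
    rintro (k | i) (l | j) hij
    · exact hFd (i := Sum.inl (Sum.inl k)) (j := Sum.inl (Sum.inl l))
        (fun he => hij (by simpa using he))
    · exact hki k j
    · exact (hki l i).symm
    · have hij' : i ≠ j := fun he => hij (by rw [he])
      show Disjoint (φ i '' closedBall n (r i)) (φ j '' closedBall n (r j))
      rcases hgi : g i with _ | c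
      · rcases hgj : g j with _ | d
        · rw [hφ0 i hgi, hφ0 j hgj]
          exact hFd (i := Sum.inr ⟨i, hgi⟩) (j := Sum.inr ⟨j, hgj⟩) (by simpa using hij')
        · rw [hφ0 i hgi, hφ1 j d hgj]
          exact (hFd (i := Sum.inr ⟨i, hgi⟩) (j := Sum.inl (Sum.inr d)) (by simp)).mono_right
            (himg d ⟨j, hgj⟩)
      · rcases hgj : g j with _ | d
        · rw [hφ1 i c hgi, hφ0 j hgj]
          exact (hFd (i := Sum.inl (Sum.inr c)) (j := Sum.inr ⟨j, hgj⟩) (by simp)).mono_left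
            (himg c ⟨i, hgi⟩)
        · by_cases hcd : c = d
          · subst hcd
            rw [hφ1 i c hgi, hφ1 j c hgj, Set.disjoint_left]
            rintro _ ⟨z, hz, rfl⟩ ⟨w, hw, hzw⟩
            have h1 : G c ⟨j, hgj⟩ w = G c ⟨i, hgi⟩ z :=
              hinj c (hsub c ⟨j, hgj⟩ ⟨w, hw, rfl⟩) (hsub c ⟨i, hgi⟩ ⟨z, hz, rfl⟩) hzw
            have h2 : (⟨i, hgi⟩ : {i // g i = some c}) ≠ ⟨j, hgj⟩ :=
              fun h => hij' (congrArg Subtype.val h)
            exact Set.disjoint_left.1 (hGd c h2) ⟨z, hz, rfl⟩ ⟨w, hw, h1⟩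
          · rw [hφ1 i c hgi, hφ1 j d hgj]
            exact ((hFd (i := Sum.inl (Sum.inr c)) (j := Sum.inl (Sum.inr d))
              (by simpa using hcd)).mono_left (himg c ⟨i, hgi⟩)).mono_right (himg d ⟨j, hgj⟩)

end Vale.Agent.P209.MM
end
end
end
end

section

section

section

section

namespace Vale.Agent.P209.MM

open Vale.Agent.P209 Vale.Agent.P209.Strong

/-! U5. One level: constants, the case of small total volume, containers. -/

theorem level_const (n : ℕ) (hn : 1 ≤ n) (γ : ℝ) (hγ : 0 < γ) (hγ1 : γ < 1) :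
    ∃ c0 lam : ℝ, 0 < c0 ∧ 0 < lam ∧ lam ≤ γ / 4 ∧ ∀ l, 0 ≤ l → l ≤ lam →
      (1 - γ) ^ n + 8 * c0 ≤ (1 - γ / 2 - l) ^ n ∧ l ^ n ≤ c0 := by
  have hn0 : n ≠ 0 := by omega
  have hlt : (1 - γ) ^ n < (1 - 3 * γ / 4) ^ n :=
    pow_lt_pow_left₀ (by linarith only [hγ]) (by linarith only [hγ1]) hn0
  refine ⟨((1 - 3 * γ / 4) ^ n - (1 - γ) ^ n) / 8,
    min (γ / 4) (min 1 (((1 - 3 * γ / 4) ^ n - (1 - γ) ^ n) / 8)), by linarith only [hlt], ?_,
    min_le_left _ _, ?_⟩
  · exact lt_min (by linarith only [hγ]) (lt_min one_pos (by linarith only [hlt]))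
  · intro l hl hll
    have h1 : l ≤ γ / 4 := hll.trans (min_le_left _ _)
    have h2 : l ≤ 1 := hll.trans ((min_le_right _ _).trans (min_le_left _ _))
    have h3 : l ≤ ((1 - 3 * γ / 4) ^ n - (1 - γ) ^ n) / 8 :=
      hll.trans ((min_le_right _ _).trans (min_le_right _ _))
    constructor
    · have h4 : (1 - 3 * γ / 4) ^ n ≤ (1 - γ / 2 - l) ^ n :=
        pow_le_pow_left₀ (by linarith only [hγ1]) (by linarith only [h1]) n
      linarith only [h4]
    · exact (pow_le_of_le_one hl h2 hn0).trans h3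

/-- a decreasing enumeration -/
theorem u5_sort (ι : Type) [Fintype ι] (r : ι → ℝ) (hr : ∀ i, 0 < r i) :
    ∃ (k : ℕ) (e : ι ≃ Fin k) (x : ℕ → ℝ), Antitone x ∧ (∀ i, 0 ≤ x i) ∧
      ∀ i, x (e i : ℕ) = r i := by
  classical
  set f : Fin (Fintype.card ι) → ℝ := fun j => -r ((Fintype.equivFin ι).symm j) with hf
  have hmono : Monotone (f ∘ Tuple.sort f) := Tuple.monotone_sort f
  have hf0 : ∀ j, 0 ≤ -f j := fun j => by
    have h1 := hr ((Fintype.equivFin ι).symm j)
    have h2 : f j = -r ((Fintype.equivFin ι).symm j) := rfl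
    linarith
  refine ⟨Fintype.card ι, (Fintype.equivFin ι).trans (Tuple.sort f).symm,
    fun n => if h : n < Fintype.card ι then -f (Tuple.sort f ⟨n, h⟩) else 0, ?_, ?_, ?_⟩
  · intro m n hmn
    show (if h : n < Fintype.card ι then -f (Tuple.sort f ⟨n, h⟩) else 0) ≤
      (if h : m < Fintype.card ι then -f (Tuple.sort f ⟨m, h⟩) else 0)
    by_cases hn : n < Fintype.card ι
    · rw [dif_pos hn, dif_pos (lt_of_le_of_lt hmn hn)]
      have h1 : (⟨m, lt_of_le_of_lt hmn hn⟩ : Fin (Fintype.card ι)) ≤ ⟨n, hn⟩ := hmn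
      exact neg_le_neg (hmono h1)
    · rw [dif_neg hn]
      split_ifs
      · exact hf0 _
      · exact le_rfl
  · intro n
    show 0 ≤ (if h : n < Fintype.card ι then -f (Tuple.sort f ⟨n, h⟩) else 0)
    split_ifs
    · exact hf0 _
    · exact le_rfl
  · intro i
    have h1 : ((((Fintype.equivFin ι).trans (Tuple.sort f).symm) i : Fin (Fintype.card ι)) : ℕ) <
        Fintype.card ι := Fin.isLt _
    show (if h : ((((Fintype.equivFin ι).trans (Tuple.sort f).symm) i : Fin (Fintype.card ι)) : ℕ)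
      < Fintype.card ι then -f (Tuple.sort f ⟨_, h⟩) else 0) = r i
    rw [dif_pos h1]
    simp only [Fin.eta, Equiv.trans_apply, Equiv.apply_symm_apply, hf, Equiv.symm_apply_apply,
      neg_neg]

/-- the volume condition of the packing theorem on one level -/
theorem u5_vol (d : ℕ) (γ c0 l : ℝ) (hγ1 : γ < 1) (hc0 : 0 < c0) (hl1 : l ≤ γ / 4)
    (hγ : 0 < γ) (hc : (1 - γ) ^ (d + 1) + 8 * c0 ≤ (1 - γ / 2 - l) ^ (d + 1)) (R x0 s : ℝ)
    (hR : 0 < R) (hx : x0 ≤ l * R) (hs : s ≤ 4 * c0 * R ^ (d + 1)) :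
    x0 < (1 - γ / 2) * R ∧
      ((1 - γ) * R) ^ (d + 1) + s < ((1 - γ / 2) * R - x0) ^ (d + 1) := by
  have hg : 0 < 1 - γ / 2 - l := by linarith only [hγ1, hl1]
  have hRd : 0 < R ^ (d + 1) := pow_pos hR _
  constructor
  · have h1 : 0 < (1 - γ / 2 - l) * R := mul_pos hg hR
    linarith only [h1, hx]
  · have h1 : (1 - γ / 2 - l) * R ≤ (1 - γ / 2) * R - x0 := by nlinarith only [hx]
    have h2 : ((1 - γ / 2 - l) * R) ^ (d + 1) ≤ ((1 - γ / 2) * R - x0) ^ (d + 1) :=
      pow_le_pow_left₀ (mul_pos hg hR).le h1 _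
    rw [mul_pow] at h2
    have h3 : ((1 - γ) ^ (d + 1) + 8 * c0) * R ^ (d + 1) ≤
        (1 - γ / 2 - l) ^ (d + 1) * R ^ (d + 1) := mul_le_mul_of_nonneg_right hc hRd.le
    rw [mul_pow]
    have h4 : 0 < c0 * R ^ (d + 1) := mul_pos hc0 hRd
    have h5 : ((1 - γ) ^ (d + 1) + 8 * c0) * R ^ (d + 1) =
        (1 - γ) ^ (d + 1) * R ^ (d + 1) + 8 * (c0 * R ^ (d + 1)) := by ring
    have h6 : 4 * c0 * R ^ (d + 1) = 4 * (c0 * R ^ (d + 1)) := by ring
    linarith only [h4, h3, h2, hs]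

/-- If the small balls have small total volume then all balls are packed by simplices. -/
theorem level_lossy (d : ℕ) (γ c0 l : ℝ) (hγ : 0 < γ) (hγ1 : γ < 1) (hc0 : 0 < c0)
    (hl : 0 ≤ l) (hl1 : l ≤ γ / 4) (hc : (1 - γ) ^ (d + 1) + 8 * c0 ≤ (1 - γ / 2 - l) ^ (d + 1))
    (κ ι : Type) [Fintype κ] [Fintype ι] (b : κ → ℝ) (r : ι → ℝ) (R : ℝ) (hR : 0 < R)
    (hb : ∀ i, 0 < b i) (hr : ∀ i, 0 < r i ∧ r i ≤ l * R)
    (hB : OPackIn d b (tri (d + 1) ((1 - γ) * R)))
    (hv : ∑ i, r i ^ (d + 1) ≤ 2 * c0 * R ^ (d + 1)) :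
    Packs (openBall (d + 1) R) (Sum.elim b r) := by
  obtain ⟨k, e, x, hx, hx0, hxe⟩ := u5_sort ι r (fun i => (hr i).1)
  have hg : 0 < 1 - γ / 2 := by linarith only [hγ1]
  have hRd : 0 < R ^ (d + 1) := pow_pos hR _
  have hsum : ∑ i ∈ Finset.Ico 1 k, x i ^ (d + 1) ≤ 4 * c0 * R ^ (d + 1) := by
    have h1 : ∑ i, r i ^ (d + 1) = ∑ i ∈ Finset.range k, x i ^ (d + 1) := by
      rw [← Fin.sum_univ_eq_sum_range (fun i => x i ^ (d + 1)) k, ← Equiv.sum_comp e]
      exact Finset.sum_congr rfl fun i _ => by rw [hxe]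
    have h2 : ∑ i ∈ Finset.Ico 1 k, x i ^ (d + 1) ≤ ∑ i ∈ Finset.range k, x i ^ (d + 1) := by
      refine Finset.sum_le_sum_of_subset_of_nonneg ?_ fun i _ _ => pow_nonneg (hx0 i) _
      intro i hi
      exact Finset.mem_range.2 (Finset.mem_Ico.1 hi).2
    have h3 : 0 < c0 * R ^ (d + 1) := mul_pos hc0 hRd
    have h4 : 4 * c0 * R ^ (d + 1) = 4 * (c0 * R ^ (d + 1)) := by ring
    have h5 : 2 * c0 * R ^ (d + 1) = 2 * (c0 * R ^ (d + 1)) := by ring
    linarith only [hv, h1, h2, h3]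
  have hP : OPackIn d (Sum.elim b (fun i : Fin k => x i)) (tri (d + 1) ((1 - γ / 2) * R)) := by
    refine mm_rec d k b ((1 - γ) * R) x ((1 - γ / 2) * R)
      (mul_nonneg (by linarith only [hγ1]) hR.le) hB hx hx0 (by nlinarith only [hγ, hR]) fun hk => ?_
    refine u5_vol d γ c0 l hγ1 hc0 hl1 hγ hc R (x 0) _ hR ?_ hsum
    have h1 := (hr (e.symm ⟨0, hk⟩)).2
    rw [← hxe, Equiv.apply_symm_apply] at h1
    exact h1
  have hf : Function.Injective (Sum.map id e : κ ⊕ ι → κ ⊕ Fin k) :=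
    Function.Injective.sumMap Function.injective_id e.injective
  have hP2 : OPackIn d (Sum.elim b r) (tri (d + 1) ((1 - γ / 2) * R)) := by
    refine (hP.comp hf).mono ?_ subset_rfl
    rintro (a | a)
    · exact le_rfl
    · show r a ≤ x (e a : ℕ)
      rw [hxe]
  have hcc : 1 < (1 - γ / 2)⁻¹ := (one_lt_inv₀ hg).2 (by linarith only [hγ])
  have hP3 := (OPackIn.scale (inv_pos.2 hg) hP2).toTPack
  rw [← mul_assoc, inv_mul_cancel₀ hg.ne', one_mul] at hP3
  have hpos : ∀ i, 0 < Sum.elim b r i := by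
    rintro (a | a)
    · exact hb a
    · exact (hr a).1
  refine bridge (Nat.succ_pos d) hP3 hpos fun i => ?_
  have := hpos i
  nlinarith only [hcc, this]

/-- Containers of size at most `l * R` can be added to the big balls. -/
theorem level_cont (d : ℕ) (γ c0 l : ℝ) (hγ : 0 < γ) (hγ1 : γ < 1) (hc0 : 0 < c0)
    (hl : 0 ≤ l) (hl1 : l ≤ γ / 4) (hc : (1 - γ) ^ (d + 1) + 8 * c0 ≤ (1 - γ / 2 - l) ^ (d + 1))
    (κ : Type) [Fintype κ] (b : κ → ℝ) (R : ℝ) (hR : 0 < R)
    (hB : OPackIn d b (tri (d + 1) ((1 - γ) * R))) (N : ℕ)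
    (hN : (N : ℝ) * (l * R) ^ (d + 1) ≤ 4 * c0 * R ^ (d + 1)) (ρ : Fin N → ℝ)
    (hρ : ∀ c, ρ c ≤ l * R) :
    OPackIn d (Sum.elim b ρ) (tri (d + 1) ((1 - γ / 2) * R)) := by
  have hlR : 0 ≤ l * R := mul_nonneg hl hR.le
  have hP : OPackIn d (Sum.elim b (fun _ : Fin N => l * R)) (tri (d + 1) ((1 - γ / 2) * R)) := by
    refine mm_rec d N b ((1 - γ) * R) (fun _ => l * R) ((1 - γ / 2) * R)
      (mul_nonneg (by linarith only [hγ1]) hR.le) hB antitone_const (fun _ => hlR) (by nlinarith only [hγ, hR])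
      fun hk => ?_
    refine u5_vol d γ c0 l hγ1 hc0 hl1 hγ hc R (l * R) _ hR le_rfl (le_trans ?_ hN)
    rw [Finset.sum_const, Nat.card_Ico, nsmul_eq_mul]
    refine mul_le_mul_of_nonneg_right ?_ (pow_nonneg hlR _)
    exact_mod_cast Nat.sub_le N 1
  refine hP.mono ?_ subset_rfl
  rintro (a | a)
  · exact le_rfl
  · exact hρ a

end Vale.Agent.P209.MM
end
end
end
end

section

section

section

section

set_option linter.all false

namespace Vale.Agent.P209.Strong

/-! ### counting -/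

theorem c3_card_class {ι : Type} [Fintype ι] [DecidableEq ι] {D : ℕ} (J : Finset ι)
    (dig : ι → Fin (D + 1) → ℕ) (P : ι → Prop) [DecidablePred P] {M : ℕ}
    (hlt : ∀ i k, dig i k < M) (k : ℕ) :
    (Finset.univ.filter (fun i => i ∉ J ∧ dig i 0 = k ∧ P i)).card =
      ∑ κ ∈ Fintype.piFinset (fun _ : Fin D => Finset.range M),
        (Finset.univ.filter (fun i => i ∉ J ∧ dig i = Fin.cons k κ ∧ P i)).card := by
  rw [Finset.card_eq_sum_card_fiberwise (f := fun i => Fin.tail (dig i))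
    (t := Fintype.piFinset (fun _ : Fin D => Finset.range M))]
  · refine Finset.sum_congr rfl fun κ hκ => ?_
    congr 1
    ext i
    simp only [Finset.mem_filter, Finset.mem_univ, true_and]
    constructor
    · rintro ⟨⟨h1, h2, h3⟩, h4⟩
      refine ⟨h1, ?_, h3⟩
      rw [← Fin.cons_self_tail (dig i), h2, h4]
    · rintro ⟨h1, h2, h3⟩
      refine ⟨⟨h1, ?_, h3⟩, ?_⟩
      · rw [h2, Fin.cons_zero]
      · rw [h2, Fin.tail_cons]
  · intro i hi
    simp only [Fintype.coe_piFinset, Finset.coe_range, Set.mem_pi, Set.mem_univ, Fin.tail, Set.mem_Iio, hlt, imp_self, implies_true]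

theorem c3_cons_lt {D M k : ℕ} (hk : k < M) {κ : Fin D → ℕ}
    (hκ : κ ∈ Fintype.piFinset (fun _ : Fin D => Finset.range M)) :
    ∀ j, (Fin.cons k κ : Fin (D + 1) → ℕ) j < M := by
  intro j
  refine Fin.cases ?_ (fun j' => ?_) j
  · simpa using hk
  · rw [Fintype.mem_piFinset] at hκ
    simpa using hκ j'

theorem c3_class_lower {ι : Type} [Fintype ι] [DecidableEq ι] {D : ℕ} (J : Finset ι)
    (dig : ι → Fin (D + 1) → ℕ) (P : ι → Prop) [DecidablePred P] {M : ℕ}
    (hlt : ∀ i k, dig i k < M) {b : ℝ}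
    (h : ∀ κ : Fin (D + 1) → ℕ, (∀ k, κ k < M) →
      b ≤ ((Finset.univ.filter (fun i => i ∉ J ∧ dig i = κ ∧ P i)).card : ℝ)) {k : ℕ} (hk : k < M) :
    (M : ℝ) ^ D * b ≤
      ((Finset.univ.filter (fun i => i ∉ J ∧ dig i 0 = k ∧ P i)).card : ℝ) := by
  rw [c3_card_class J dig P hlt k]
  push_cast
  have h1 := Finset.card_nsmul_le_sum (Fintype.piFinset (fun _ : Fin D => Finset.range M))
    (fun κ => ((Finset.univ.filter (fun i => i ∉ J ∧ dig i = Fin.cons k κ ∧ P i)).card : ℝ)) b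
    (fun κ hκ => h _ (c3_cons_lt hk hκ))
  have h2 : (Fintype.piFinset (fun _ : Fin D => Finset.range M)).card = M ^ D := by simp only [Fintype.card_piFinset, Finset.card_range, Finset.prod_const, Finset.card_univ, Fintype.card_fin]
  rw [h2, nsmul_eq_mul] at h1
  push_cast at h1
  exact h1

theorem c3_class_upper {ι : Type} [Fintype ι] [DecidableEq ι] {D : ℕ} (J : Finset ι)
    (dig : ι → Fin (D + 1) → ℕ) (P : ι → Prop) [DecidablePred P] {M : ℕ}
    (hlt : ∀ i k, dig i k < M) {B : ℝ} (hB : 0 ≤ B)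
    (h : ∀ κ : Fin (D + 1) → ℕ, (∀ k, κ k < M) →
      ((Finset.univ.filter (fun i => i ∉ J ∧ dig i = κ ∧ P i)).card : ℝ) ≤ B) (k : ℕ) :
    ((Finset.univ.filter (fun i => i ∉ J ∧ dig i 0 = k ∧ P i)).card : ℝ) ≤ (M : ℝ) ^ D * B := by
  by_cases hk : k < M
  · rw [c3_card_class J dig P hlt k]
    push_cast
    have h1 := Finset.sum_le_card_nsmul (Fintype.piFinset (fun _ : Fin D => Finset.range M))
      (fun κ => ((Finset.univ.filter (fun i => i ∉ J ∧ dig i = Fin.cons k κ ∧ P i)).card : ℝ)) B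
      (fun κ hκ => h _ (c3_cons_lt hk hκ))
    have h2 : (Fintype.piFinset (fun _ : Fin D => Finset.range M)).card = M ^ D := by simp only [Fintype.card_piFinset, Finset.card_range, Finset.prod_const, Finset.card_univ, Fintype.card_fin]
    rw [h2, nsmul_eq_mul] at h1
    push_cast at h1
    exact h1
  · have h0 : (Finset.univ.filter (fun i => i ∉ J ∧ dig i 0 = k ∧ P i)) = ∅ := by
      ext i
      simp only [Finset.mem_filter, Finset.mem_univ, true_and, Finset.notMem_empty, iff_false]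
      rintro ⟨-, h2, -⟩
      have := hlt i 0
      omega
    rw [h0, Finset.card_empty, Nat.cast_zero]
    (clear * - hB; positivity)

theorem c3_total_lower {ι : Type} [Fintype ι] [DecidableEq ι] (J : Finset ι)
    (cls : ι → ℕ) (P : ι → Prop) [DecidablePred P] (S : Finset ℕ) {X : ℝ}
    (h : ∀ k ∈ S, X ≤ ((Finset.univ.filter (fun i => i ∉ J ∧ cls i = k ∧ P i)).card : ℝ)) :
    (S.card : ℝ) * X ≤
      ((Finset.univ.filter (fun i => i ∉ J ∧ cls i ∈ S ∧ P i)).card : ℝ) := by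
  rw [Finset.card_eq_sum_card_fiberwise (f := cls) (t := S)]
  · push_cast
    have h1 := Finset.card_nsmul_le_sum S
      (fun k => (((Finset.univ.filter (fun i => i ∉ J ∧ cls i ∈ S ∧ P i)).filter
        (fun i => cls i = k)).card : ℝ)) X (fun k hk => ?_)
    · rw [nsmul_eq_mul] at h1
      exact h1
    · refine (h k hk).trans (le_of_eq ?_)
      congr 2
      ext i
      simp only [Finset.mem_filter, Finset.mem_univ, true_and]
      constructor
      · rintro ⟨h1, h2, h3⟩
        exact ⟨⟨h1, h2 ▸ hk, h3⟩, h2⟩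
      · rintro ⟨⟨h1, h2, h3⟩, h4⟩
        exact ⟨h1, h4, h3⟩
  · intro i hi
    simp only [Finset.coe_filter, Finset.mem_univ, true_and, Set.mem_setOf_eq] at hi
    exact hi.2.1

theorem c3_total_upper {ι : Type} [Fintype ι] [DecidableEq ι] (J : Finset ι)
    (cls : ι → ℕ) (P : ι → Prop) [DecidablePred P] {M : ℕ} (hM : ∀ i, cls i < M) {X : ℝ}
    (h : ∀ k, ((Finset.univ.filter (fun i => i ∉ J ∧ cls i = k ∧ P i)).card : ℝ) ≤ X) :
    ((Finset.univ.filter (fun i => i ∉ J ∧ P i)).card : ℝ) ≤ M * X := by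
  rw [Finset.card_eq_sum_card_fiberwise (f := cls) (t := Finset.range M)]
  · push_cast
    have h1 := Finset.sum_le_card_nsmul (Finset.range M)
      (fun k => (((Finset.univ.filter (fun i => i ∉ J ∧ P i)).filter
        (fun i => cls i = k)).card : ℝ)) X (fun k hk => ?_)
    · rw [nsmul_eq_mul, Finset.card_range] at h1
      exact h1
    · refine le_trans (le_of_eq ?_) (h k)
      congr 2
      ext i
      simp only [Finset.mem_filter, Finset.mem_univ, true_and]
      constructor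
      · rintro ⟨⟨h1, h3⟩, h4⟩
        exact ⟨h1, h4, h3⟩
      · rintro ⟨h1, h2, h3⟩
        exact ⟨⟨h1, h3⟩, h2⟩
  · intro i hi
    simpa using hM i

/-- sum over the big balls -/
theorem c3_sum_big {ι : Type} [Fintype ι] [DecidableEq ι] {x : ι → ℝ} {δ : ℝ} (hδ : 0 < δ)
    (hx : ∀ i, 0 ≤ x i) (n : ℕ) (Q : ι → Prop) [DecidablePred Q] {Z m : ℝ} (hm : 0 < m)
    (h : Z ≤ ((Finset.univ.filter (fun i => Q i ∧ δ ≤ x i)).card : ℝ)) :
    Z * δ ^ n / m ≤ ∑ i ∈ Finset.univ.filter (fun i => Q i), x i ^ n / m := by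
  have h1 : Z * δ ^ n / m ≤ ((Finset.univ.filter (fun i => Q i ∧ δ ≤ x i)).card : ℝ) *
      (δ ^ n / m) := by
    rw [mul_div_assoc]
    exact mul_le_mul_of_nonneg_right h (by positivity)
  refine h1.trans ?_
  have h2 : ((Finset.univ.filter (fun i => Q i ∧ δ ≤ x i)).card : ℝ) * (δ ^ n / m) ≤
      ∑ i ∈ Finset.univ.filter (fun i => Q i ∧ δ ≤ x i), x i ^ n / m := by
    have := Finset.card_nsmul_le_sum (Finset.univ.filter (fun i => Q i ∧ δ ≤ x i))
      (fun i => x i ^ n / m) (δ ^ n / m) (fun i hi => ?_)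
    · rwa [nsmul_eq_mul] at this
    · rw [Finset.mem_filter] at hi
      have := hi.2.2
      (clear * - hδ this hm; gcongr)
  refine h2.trans (Finset.sum_le_sum_of_subset_of_nonneg ?_ fun i _ _ => ?_)
  · intro i hi
    rw [Finset.mem_filter] at hi ⊢
    exact ⟨hi.1, hi.2.1⟩
  · have := hx i
    (clear * - this hm; positivity)

/-- total volume is at most the number of active balls plus the tail -/
theorem c3_sum_le {ι : Type} [Fintype ι] [DecidableEq ι] (J : Finset ι) {x : ι → ℝ}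
    (hx : ∀ i, 0 ≤ x i ∧ x i ≤ 1) {N : ℝ} (hN : ∑ i ∈ J, x i ≤ N) {n : ℕ} (hn : n ≠ 0) :
    ∑ i, x i ^ n ≤ ((Finset.univ.filter (fun i => i ∉ J ∧ 0 < x i)).card : ℝ) + N := by
  have h1 : ∑ i, x i ^ n ≤ ∑ i, ((if i ∉ J ∧ 0 < x i then (1 : ℝ) else 0) +
      (if i ∈ J then x i else 0)) := by
    refine Finset.sum_le_sum fun i _ => ?_
    obtain ⟨h0, h1⟩ := hx i
    by_cases hi : i ∈ J
    · rw [if_neg (by tauto), if_pos hi, zero_add]
      exact pow_le_of_le_one h0 h1 hn
    · rw [if_neg hi, add_zero]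
      rcases h0.eq_or_lt with h | h
      · rw [← h, zero_pow hn]
        split_ifs <;> norm_num
      · rw [if_pos ⟨hi, h⟩]
        exact pow_le_one₀ h0 h1
  refine h1.trans ?_
  rw [Finset.sum_add_distrib]
  refine add_le_add (le_of_eq ?_) (le_trans (le_of_eq ?_) hN)
  · rw [Finset.card_filter]
    push_cast
    rfl
  · rw [Finset.sum_ite_mem, Finset.univ_inter]

/-- sizes of the parameters -/
structure C3Par (D : ℕ) (c δ ρ N Y R : ℝ) (K : ℕ) : Prop where
  hc : 0 < c
  hc1 : c ≤ 1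
  hδ : 0 < δ
  hδ1 : δ ≤ 1
  hρ : 1 ≤ ρ
  hN : 0 ≤ N
  hY : 1 ≤ Y
  hR : 0 < R
  h1 : 1 ≤ c * R
  h2 : 2 * Y ≤ c * R
  h3 : 256 * N / δ ≤ c * R
  h4 : 4 * ρ * Y / δ ^ (D + 1 + 1) ≤ c * R
  h5 : ρ * (((D + 1 : ℕ) : ℝ) + 1) / (min (1 / Y) (δ / 512) * δ ^ (D + 1 + 1) * c ^ (D + 1)) * R ≤ K
  h6 : (0 : ℝ) < K

/-- the scale of the target -/
noncomputable def c3A (D : ℕ) (c R : ℝ) : ℝ := 1 / 2 * ((D + 1).factorial * (c * R) ^ (D + 1))

theorem c3_fac (D : ℕ) :
    ((D + 1 + 1).factorial : ℝ) = (((D + 1 : ℕ) : ℝ) + 1) * (D + 1).factorial := by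
  rw [Nat.factorial_succ (D + 1)]
  push_cast
  ring

theorem C3Par.A_ge {D : ℕ} {c δ ρ N Y R : ℝ} {K : ℕ} (h : C3Par D c δ ρ N Y R K) :
    c * R / 2 ≤ c3A D c R := by
  have hcR0 : 0 < c * R := mul_pos h.hc h.hR
  have hfac : (1 : ℝ) ≤ ((D + 1).factorial : ℝ) := by
    exact_mod_cast Nat.succ_le_of_lt (Nat.factorial_pos _)
  have hpowR : c * R ≤ (c * R) ^ (D + 1) := le_self_pow₀ h.h1 (by omega)
  have h1 : 1 * (c * R) ≤ ((D + 1).factorial : ℝ) * (c * R) ^ (D + 1) :=
    mul_le_mul hfac hpowR hcR0.le (by positivity)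
  unfold c3A
  linarith

theorem C3Par.A_pos {D : ℕ} {c δ ρ N Y R : ℝ} {K : ℕ} (h : C3Par D c δ ρ N Y R K) :
    0 < c3A D c R := by
  have := h.A_ge
  have := mul_pos h.hc h.hR
  linarith

theorem C3Par.A_Y {D : ℕ} {c δ ρ N Y R : ℝ} {K : ℕ} (h : C3Par D c δ ρ N Y R K) :
    Y ≤ c3A D c R := by
  have := h.A_ge
  have := h.h2
  linarith

theorem C3Par.N1 {D : ℕ} {c δ ρ N Y R : ℝ} {K : ℕ} (h : C3Par D c δ ρ N Y R K) :
    N ≤ δ * c3A D c R / 128 := by
  have h1 := h.A_ge
  have h2 := h.h3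
  have hδ := h.hδ
  rw [div_le_iff₀ hδ] at h2
  have : c * R * δ ≤ 2 * c3A D c R * δ := mul_le_mul_of_nonneg_right (by linarith) hδ.le
  linarith only [h2, this]

theorem C3Par.N2 {D : ℕ} {c δ ρ N Y R : ℝ} {K : ℕ} (h : C3Par D c δ ρ N Y R K) :
    N ≤ c3A D c R / 8 := by
  have h1 := h.N1
  have h2 : δ * c3A D c R ≤ c3A D c R := by
    have := h.A_pos
    have := h.hδ1
    nlinarith
  have := h.A_pos
  linarith

theorem C3Par.Xa {D : ℕ} {c δ ρ N Y R : ℝ} {K : ℕ} (h : C3Par D c δ ρ N Y R K) {Xb : ℝ}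
    (hXb : 0 < Xb)
    (hi : 2 * K * Xb * δ ^ (D + 1 + 1) ≤ (D + 1 + 1).factorial * R ^ (D + 1 + 1)) :
    ρ * Xb ≤ min (1 / Y) (δ / 512) * c3A D c R := by
  have hc := h.hc
  have hδ := h.hδ
  have hρ : 0 < ρ := lt_of_lt_of_le one_pos h.hρ
  have hY : 0 < Y := lt_of_lt_of_le one_pos h.hY
  have hR := h.hR
  have hK := h.h6
  set ν : ℝ := min (1 / Y) (δ / 512) with hν
  have hν0 : 0 < ν := lt_min (by positivity) (by positivity)
  have h5 := h.h5
  rw [← hν] at h5
  rw [div_mul_eq_mul_div, div_le_iff₀ (by positivity)] at h5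
  have hδn : 0 < δ ^ (D + 1 + 1) := by positivity
  rw [c3_fac] at hi
  unfold c3A
  rw [mul_pow]
  have h7 : (ρ * Xb) * (2 * K * δ ^ (D + 1 + 1)) ≤
      (ν * (1 / 2 * (((D + 1).factorial : ℝ) * (c ^ (D + 1) * R ^ (D + 1))))) *
        (2 * K * δ ^ (D + 1 + 1)) := by
    calc (ρ * Xb) * (2 * K * δ ^ (D + 1 + 1))
        = ρ * (2 * K * Xb * δ ^ (D + 1 + 1)) := by ring
      _ ≤ ρ * ((((D + 1 : ℕ) : ℝ) + 1) * (D + 1).factorial * R ^ (D + 1 + 1)) :=
          mul_le_mul_of_nonneg_left hi hρ.le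
      _ = (ρ * (((D + 1 : ℕ) : ℝ) + 1) * R) * ((D + 1).factorial * R ^ (D + 1)) := by ring
      _ ≤ (K * (ν * δ ^ (D + 1 + 1) * c ^ (D + 1))) * ((D + 1).factorial * R ^ (D + 1)) :=
          mul_le_mul_of_nonneg_right h5 (by positivity)
      _ = _ := by ring
  exact le_of_mul_le_mul_right h7 (by (clear * - hK hδ; positivity))

theorem C3Par.XaY {D : ℕ} {c δ ρ N Y R : ℝ} {K : ℕ} (h : C3Par D c δ ρ N Y R K) {Xa : ℝ}
    (hi : Xa ≤ min (1 / Y) (δ / 512) * c3A D c R) : Xa ≤ c3A D c R / Y := by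
  refine hi.trans ?_
  rw [div_eq_mul_one_div (c3A D c R) Y, mul_comm (c3A D c R)]
  exact mul_le_mul_of_nonneg_right (min_le_left _ _) h.A_pos.le

theorem C3Par.Xaδ {D : ℕ} {c δ ρ N Y R : ℝ} {K : ℕ} (h : C3Par D c δ ρ N Y R K) {Xa : ℝ}
    (hi : Xa ≤ min (1 / Y) (δ / 512) * c3A D c R) : 512 * Xa ≤ δ * c3A D c R := by
  have h2 : min (1 / Y) (δ / 512) * c3A D c R ≤ δ / 512 * c3A D c R :=
    mul_le_mul_of_nonneg_right (min_le_right _ _) h.A_pos.le
  linarith

theorem C3Par.KX {D : ℕ} {c δ ρ N Y R : ℝ} {K : ℕ} (h : C3Par D c δ ρ N Y R K) {Xb : ℝ}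
    (hi : (((D + 1 : ℕ) : ℝ) + 1) * (c * R) * c3A D c R ≤ 2 * K * (ρ * Xb) + N) :
    (((D + 1 : ℕ) : ℝ) + 1) * (c * R) * c3A D c R ≤ K * Xb * (4 * ρ) := by
  have hD1 : (1 : ℝ) ≤ ((D + 1 : ℕ) : ℝ) + 1 := by
    have : (0 : ℝ) ≤ ((D + 1 : ℕ) : ℝ) := Nat.cast_nonneg _
    linarith
  have h11 : (1 : ℝ) ≤ (((D + 1 : ℕ) : ℝ) + 1) * (c * R) := one_le_mul_of_one_le_of_one_le hD1 h.h1
  have h12 : c3A D c R ≤ (((D + 1 : ℕ) : ℝ) + 1) * (c * R) * c3A D c R := by
    have := h.A_pos
    linarith only [mul_nonneg (sub_nonneg.2 h11) (le_of_lt (sub_pos.2 this))]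
  have h13 := h.N2
  have := h.A_pos
  linarith only [hi, h12, h13, this]

theorem C3Par.vol {D : ℕ} {c δ ρ N Y R : ℝ} {K : ℕ} (h : C3Par D c δ ρ N Y R K) {Xb : ℝ}
    (hi : (((D + 1 : ℕ) : ℝ) + 1) * (c * R) * c3A D c R ≤ K * Xb * (4 * ρ)) :
    Y * c3A D c R ≤ K * Xb * δ ^ (D + 1 + 1) / (((D + 1 : ℕ) : ℝ) + 1) := by
  have hδ := h.hδ
  have hρ : 0 < ρ := lt_of_lt_of_le one_pos h.hρ
  have hD1 : (0 : ℝ) < ((D + 1 : ℕ) : ℝ) + 1 := by positivity
  have h4 := h.h4
  have hA := h.A_pos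
  rw [div_le_iff₀ (by positivity)] at h4
  rw [le_div_iff₀ hD1]
  have hδn : 0 < δ ^ (D + 1 + 1) := by positivity
  have h2 : (Y * c3A D c R * (((D + 1 : ℕ) : ℝ) + 1)) * (4 * ρ) ≤
      (K * Xb * δ ^ (D + 1 + 1)) * (4 * ρ) := by
    calc (Y * c3A D c R * (((D + 1 : ℕ) : ℝ) + 1)) * (4 * ρ)
        = (4 * ρ * Y) * (c3A D c R * (((D + 1 : ℕ) : ℝ) + 1)) := by ring
      _ ≤ (c * R * δ ^ (D + 1 + 1)) * (c3A D c R * (((D + 1 : ℕ) : ℝ) + 1)) :=
          mul_le_mul_of_nonneg_right h4 (by positivity)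
      _ = ((((D + 1 : ℕ) : ℝ) + 1) * (c * R) * c3A D c R) * δ ^ (D + 1 + 1) := by ring
      _ ≤ (K * Xb * (4 * ρ)) * δ ^ (D + 1 + 1) := mul_le_mul_of_nonneg_right hi hδn.le
      _ = _ := by ring
  exact le_of_mul_le_mul_right h2 (by positivity)

section

variable {D : ℕ} {Θ : Type} [TopologicalSpace Θ] {c L R δ ρ N : ℝ} {K : ℕ}
  {l u : Fin (D + 1 + 1) → Θ → (Fin (D + 1 + 1) → ℝ) → ℝ} {ι : Type} [Fintype ι] [DecidableEq ι]
  {r : ι → Θ → ℝ} {J : Finset ι} {dig : ι → Fin (D + 1) → ℕ} {b η : ℝ}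

theorem c3_bigc (hin : StageIn (D + 1) c L R δ ρ N K l u r J dig b η) (θ : Θ) {k : ℕ}
    (hk : k < 2 * K) : ((2 * K : ℕ) : ℝ) ^ D * b ≤
      ((Finset.univ.filter (fun i => i ∉ J ∧ dig i 0 = k ∧ δ ≤ r i θ)).card : ℝ) :=
  c3_class_lower J dig (fun i => δ ≤ r i θ) hin.dlt (hin.big θ) hk

theorem c3_actc (hρ : 0 ≤ ρ) (hin : StageIn (D + 1) c L R δ ρ N K l u r J dig b η) (θ : Θ)
    (k : ℕ) : ((Finset.univ.filter (fun i => i ∉ J ∧ dig i 0 = k ∧ 0 < r i θ)).card : ℝ) ≤
      ρ * (((2 * K : ℕ) : ℝ) ^ D * b) := by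
  have := c3_class_upper J dig (fun i => 0 < r i θ) hin.dlt (mul_nonneg hρ hin.b0.le) (hin.act θ) k
  refine this.trans (le_of_eq ?_)
  ring

theorem c3_vpos (hc : 0 < c) (hR : 0 < R)
    (hin : StageIn (D + 1) c L R δ ρ N K l u r J dig b η) (θ : Θ) :
    0 < ((D + 1 + 1).factorial : ℝ) * vol (D + 1 + 1) l u θ :=
  mul_pos (by exact_mod_cast Nat.factorial_pos _)
    (lt_of_lt_of_le (by positivity) (vol_bounds hc hR hin.box θ).1)

theorem c3_i (hc : 0 < c) (hR : 0 < R) (hδ : 0 < δ)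
    (hin : StageIn (D + 1) c L R δ ρ N K l u r J dig b η) (θ : Θ) :
    2 * K * (((2 * K : ℕ) : ℝ) ^ D * b) * δ ^ (D + 1 + 1) ≤
      (D + 1 + 1).factorial * R ^ (D + 1 + 1) := by
  have h1 := c3_total_lower J (fun i => dig i 0) (fun i => δ ≤ r i θ) (Finset.range (2 * K))
    (X := ((2 * K : ℕ) : ℝ) ^ D * b) (fun k hk => c3_bigc hin θ (Finset.mem_range.mp hk))
  have h2 := c3_sum_big (x := fun i => r i θ) hδ (fun i => (hin.r01 i θ).1) (D + 1 + 1)
    (fun i => i ∉ J ∧ dig i 0 ∈ Finset.range (2 * K)) (m := 1) one_pos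
    (by simpa only [and_assoc] using h1)
  have h3 : ∑ i ∈ Finset.univ.filter (fun i => i ∉ J ∧ dig i 0 ∈ Finset.range (2 * K)),
      r i θ ^ (D + 1 + 1) / 1 ≤ ∑ i, r i θ ^ (D + 1 + 1) := by
    simp only [div_one]
    exact Finset.sum_le_univ_sum_of_nonneg fun i => pow_nonneg (hin.r01 i θ).1 _
  rw [Finset.card_range, div_one] at h2
  have hcast : ((2 * K : ℕ) : ℝ) = 2 * K := by push_cast; ring
  have h4 := (h2.trans h3).trans (hin.hi θ)
  have h5 := (vol_bounds hc hR hin.box θ).2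
  have h6 := c3_vpos hc hR hin θ
  have h7 : ((D + 1 + 1).factorial : ℝ) * vol (D + 1 + 1) l u θ ≤
      (D + 1 + 1).factorial * R ^ (D + 1 + 1) := mul_le_mul_of_nonneg_left h5 (by positivity)
  have h8 : (1 - η) * (((D + 1 + 1).factorial : ℝ) * vol (D + 1 + 1) l u θ) ≤
      (D + 1 + 1).factorial * R ^ (D + 1 + 1) := by
    have := hin.η0
    nlinarith only [h7, h6, this]
  calc 2 * K * (((2 * K : ℕ) : ℝ) ^ D * b) * δ ^ (D + 1 + 1)
      = ((2 * K : ℕ) : ℝ) * (((2 * K : ℕ) : ℝ) ^ D * b) * δ ^ (D + 1 + 1) := by rw [hcast]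
    _ ≤ _ := h4.trans h8

theorem c3_ii (hρ : 0 ≤ ρ) (hc : 0 < c) (hR : 0 < R)
    (hin : StageIn (D + 1) c L R δ ρ N K l u r J dig b η) (θ : Θ) :
    (((D + 1 : ℕ) : ℝ) + 1) * (c * R) * c3A D c R ≤
      2 * K * (ρ * (((2 * K : ℕ) : ℝ) ^ D * b)) + N := by
  have h1 := c3_total_upper J (fun i => dig i 0) (fun i => 0 < r i θ) (M := 2 * K)
    (fun i => hin.dlt i 0) (c3_actc hρ hin θ)
  have h2 := c3_sum_le J (x := fun i => r i θ) (fun i => hin.r01 i θ) (hin.tail θ)
    (n := D + 1 + 1) (by omega)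
  have h3 : (((D + 1 : ℕ) : ℝ) + 1) * (c * R) * c3A D c R ≤ ∑ i, r i θ ^ (D + 1 + 1) := by
    refine le_trans ?_ (hin.lo θ)
    have h5 := (vol_bounds hc hR hin.box θ).1
    have h6 : (((D + 1 : ℕ) : ℝ) + 1) * (c * R) * c3A D c R =
        1 / 2 * ((D + 1 + 1).factorial * (c * R) ^ (D + 1 + 1)) := by
      rw [c3_fac]
      unfold c3A
      ring
    rw [h6]
    have h7 : ((D + 1 + 1).factorial : ℝ) * (c * R) ^ (D + 1 + 1) ≤
        (D + 1 + 1).factorial * vol (D + 1 + 1) l u θ :=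
      mul_le_mul_of_nonneg_left h5 (by positivity)
    have h8 := c3_vpos hc hR hin θ
    have := hin.η0
    nlinarith only [h7, h8, this]
  have hcast : ((2 * K : ℕ) : ℝ) = 2 * K := by push_cast; ring
  have h9 : ((Finset.univ.filter (fun i => i ∉ J ∧ 0 < r i θ)).card : ℝ) ≤
      2 * K * (ρ * (((2 * K : ℕ) : ℝ) ^ D * b)) := by
    calc _ ≤ ((2 * K : ℕ) : ℝ) * (ρ * (((2 * K : ℕ) : ℝ) ^ D * b)) := h1
      _ = _ := by rw [hcast]
  linarith only [h2, h3, h9]

theorem c3_volL (hδ : 0 < δ) (hin : StageIn (D + 1) c L R δ ρ N K l u r J dig b η) (θ : Θ) :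
    K * (((2 * K : ℕ) : ℝ) ^ D * b) * δ ^ (D + 1 + 1) / (((D + 1 : ℕ) : ℝ) + 1) ≤
      ∑ i ∈ Finset.univ.filter (fun i => i ∉ J ∧ dig i 0 < K),
        r i θ ^ (D + 1 + 1) / (((D + 1 : ℕ) : ℝ) + 1) := by
  have h1 := c3_total_lower J (fun i => dig i 0) (fun i => δ ≤ r i θ) (Finset.range K)
    (X := ((2 * K : ℕ) : ℝ) ^ D * b)
    (fun k hk => c3_bigc hin θ (by have := Finset.mem_range.mp hk; omega))
  rw [Finset.card_range] at h1
  exact c3_sum_big (x := fun i => r i θ) hδ (fun i => (hin.r01 i θ).1) (D + 1 + 1)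
    (fun i => i ∉ J ∧ dig i 0 < K) (m := ((D + 1 : ℕ) : ℝ) + 1) (by positivity)
    (by simpa only [and_assoc, Finset.mem_range] using h1)

theorem c3_volR (hδ : 0 < δ) (hin : StageIn (D + 1) c L R δ ρ N K l u r J dig b η) (θ : Θ) :
    K * (((2 * K : ℕ) : ℝ) ^ D * b) * δ ^ (D + 1 + 1) / (((D + 1 : ℕ) : ℝ) + 1) ≤
      ∑ i ∈ Finset.univ.filter (fun i => i ∉ J ∧ K ≤ dig i 0),
        r i θ ^ (D + 1 + 1) / (((D + 1 : ℕ) : ℝ) + 1) := by
  have h1 := c3_total_lower J (fun i => dig i 0) (fun i => δ ≤ r i θ) (Finset.Ico K (2 * K))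
    (X := ((2 * K : ℕ) : ℝ) ^ D * b) (fun k hk => c3_bigc hin θ (Finset.mem_Ico.mp hk).2)
  have hcard : (Finset.Ico K (2 * K)).card = K := by
    rw [Nat.card_Ico]
    omega
  rw [hcard] at h1
  exact c3_sum_big (x := fun i => r i θ) hδ (fun i => (hin.r01 i θ).1) (D + 1 + 1)
    (fun i => i ∉ J ∧ K ≤ dig i 0) (m := ((D + 1 : ℕ) : ℝ) + 1) (by positivity) (by
      refine h1.trans ?_
      exact_mod_cast Finset.card_le_card (fun i hi => by
        simp only [Finset.mem_filter, Finset.mem_univ, true_and, Finset.mem_Ico] at hi ⊢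
        exact ⟨⟨hi.1, hi.2.1.1⟩, hi.2.2⟩))

/-- the target -/
noncomputable def c3T (l u : Fin (D + 1 + 1) → Θ → (Fin (D + 1 + 1) → ℝ) → ℝ) (r : ι → Θ → ℝ)
    (θ : Θ) (t : ℝ) : ℝ :=
  (∑ i, r i θ ^ (D + 1 + 1)) / ((D + 1 + 1).factorial * vol (D + 1 + 1) l u θ) *
    ((D + 1).factorial * vol (D + 1) (sl l) (sl u) (θ, l 0 θ 0 + t))

theorem c3_ratio (hc : 0 < c) (hR : 0 < R)
    (hin : StageIn (D + 1) c L R δ ρ N K l u r J dig b η) (θ : Θ) :
    1 / 2 + η ≤ (∑ i, r i θ ^ (D + 1 + 1)) / ((D + 1 + 1).factorial * vol (D + 1 + 1) l u θ) ∧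
    (∑ i, r i θ ^ (D + 1 + 1)) / ((D + 1 + 1).factorial * vol (D + 1 + 1) l u θ) ≤ 1 - η := by
  have h1 := c3_vpos hc hR hin θ
  exact ⟨(le_div_iff₀ h1).mpr (hin.lo θ), (div_le_iff₀ h1).mpr (hin.hi θ)⟩

theorem c3_cls {Y : ℝ} (hP : C3Par D c δ ρ N Y R K)
    (hin : StageIn (D + 1) c L R δ ρ N K l u r J dig b η)
    (hT : (Continuous fun z : Θ × ℝ => c3T l u r z.1 z.2) ∧
      (∀ θ t, c3A D c R ≤ c3T l u r θ t ∧ c3T l u r θ t ≤ 2 / c ^ (D + 1) * c3A D c R) ∧
      (∀ θ t t', |c3T l u r θ t - c3T l u r θ t'| ≤ c3A D c R / 256 * |t - t'|) ∧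
      (∀ θ, ∫ t in (0 : ℝ)..(u 0 θ 0 - l 0 θ 0), c3T l u r θ t =
        (∑ i, r i θ ^ (D + 1 + 1)) / (D + 1 + 1))) :
    ClsIn (D + 1) δ ρ (2 / c ^ (D + 1)) Y J (fun i => dig i 0) K r
      (fun θ => u 0 θ 0 - l 0 θ 0) (c3T l u r) (c3A D c R) := by
  have hρ : 0 ≤ ρ := zero_le_one.trans hP.hρ
  have hb := hin.b0
  have hK := hP.h6
  have hXb : 0 < ((2 * K : ℕ) : ℝ) ^ D * b := by
    have : (0 : ℝ) < ((2 * K : ℕ) : ℝ) := by push_cast; positivity
    (clear * - this hb; positivity)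
  have hXa : ∀ θ : Θ, ρ * (((2 * K : ℕ) : ℝ) ^ D * b) ≤ min (1 / Y) (δ / 512) * c3A D c R :=
    fun θ => hP.Xa hXb (c3_i hP.hc hP.hR hP.hδ hin θ)
  have hvol : ∀ θ : Θ, Y * c3A D c R ≤
      K * (((2 * K : ℕ) : ℝ) ^ D * b) * δ ^ (D + 1 + 1) / (((D + 1 : ℕ) : ℝ) + 1) :=
    fun θ => hP.vol (hP.KX (c3_ii hρ hP.hc hP.hR hin θ))
  refine ⟨hP.A_Y, ?_, hT.1, hin.cr, hin.r01, fun θ => ?_, hT.2.1, hT.2.2.1,
    fun θ => (hin.tail θ).trans hP.N2, fun i _ => hin.dlt i 0, ?_, ?_, ?_, ?_, ?_⟩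
  · exact ((hin.box.cont_u 0).comp (continuous_id.prodMk continuous_const)).sub
      ((hin.box.cont_l 0).comp (continuous_id.prodMk continuous_const))
  · exact lt_of_lt_of_le (mul_pos hP.hc hP.hR) (hin.box.lo 0 θ 0)
  · intro θ k hk
    exact (c3_actc hρ hin θ k).trans (mul_le_mul_of_nonneg_left (c3_bigc hin θ hk) hρ)
  · intro θ k hk
    exact (c3_actc hρ hin θ k).trans (hP.XaY (hXa θ))
  · intro θ
    exact (hvol θ).trans (c3_volL hP.hδ hin θ)
  · intro θ
    exact (hvol θ).trans (c3_volR hP.hδ hin θ)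
  · intro θ
    rw [hT.2.2.2 θ, ← Finset.sum_div]
    push_cast
    ring

/-- the ratio of the numbers of active and big balls in the next stage -/
noncomputable def c3ρ (D : ℕ) (c δ ρ : ℝ) : ℝ :=
  14 * 256 * (2 / c ^ (D + 1)) * (((D + 1 : ℕ) : ℝ) + 1) * ρ ^ 2 / δ ^ (D + 1 + 1 + 1)

theorem c3_next {Y : ℝ} (hP : C3Par D c δ ρ N Y R K)
    (hin : StageIn (D + 1) c L R δ ρ N K l u r J dig b η)
    (hTc : Continuous fun z : Θ × ℝ => c3T l u r z.1 z.2)
    (hTb : ∀ θ t, c3T l u r θ t ≤ 2 / c ^ (D + 1) * c3A D c R) {ε : ℝ}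
    (hε1 : ε ≤ c3A D c R / 8) (hε2 : ε ≤ η / 2 * ((D + 1).factorial * (c * R) ^ (D + 1)))
    {W v : ι → Θ → ℝ → ℝ} {p : ι → Θ → ℝ}
    (hout : ClsOut (D + 1) δ ε J (fun i => dig i 0) K r (fun θ => u 0 θ 0 - l 0 θ 0)
      (c3T l u r) (c3A D c R) W v p) {cl : Θ × ℝ → Θ × ℝ}
    (hcl : ∀ θ t, cl (θ, t) = (θ, max (l 0 θ 0) (min (u 0 θ 0) t))) :
    StageIn D c L R (δ / 2) (c3ρ D c δ ρ) N K (fun j z => sl l j (cl z))
      (fun j z => sl u j (cl z)) (fun i z => v i z.1 ((cl z).2 - l 0 z.1 0)) J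
      (fun i => Fin.tail (dig i))
      (b * (δ * c3A D c R / (256 * (ρ * (((2 * K : ℕ) : ℝ) ^ D * b))))) (η / 2) := by
  have hc := hP.hc
  have hδ := hP.hδ
  have hR := hP.hR
  have hρ : 0 < ρ := lt_of_lt_of_le one_pos hP.hρ
  have hb := hin.b0
  have hη := hin.η0
  have hK := hP.h6
  have hA := hP.A_pos
  have hM : (0 : ℝ) < ((2 * K : ℕ) : ℝ) := by push_cast; (clear * - hK; positivity)
  have hXb : 0 < ((2 * K : ℕ) : ℝ) ^ D * b := by (clear * - hM hb; positivity)
  have hXa : ∀ θ : Θ, ρ * (((2 * K : ℕ) : ℝ) ^ D * b) ≤ min (1 / Y) (δ / 512) * c3A D c R :=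
    fun θ => hP.Xa hXb (c3_i hc hR hδ hin θ)
  have hlc : Continuous fun z : Θ × ℝ => l 0 z.1 0 :=
    (hin.box.cont_l 0).comp (continuous_fst.prodMk continuous_const)
  have huc : Continuous fun z : Θ × ℝ => u 0 z.1 0 :=
    (hin.box.cont_u 0).comp (continuous_fst.prodMk continuous_const)
  have hclc : Continuous cl := by
    have : cl = fun z : Θ × ℝ => (z.1, max (l 0 z.1 0) (min (u 0 z.1 0) z.2)) := by
      funext z
      exact hcl z.1 z.2
    rw [this]
    exact continuous_fst.prodMk (hlc.max (huc.min continuous_snd))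
  have hlu : ∀ θ, l 0 θ 0 ≤ u 0 θ 0 := fun θ => by
    have := hin.box.lo 0 θ 0
    have := mul_pos hc hR
    (clear hTc hTb ε hε1 hε2 W v p hout cl hcl hδ hρ hb hη hK hA hM hXb hXa hlc huc hclc; linarith)
  have ht0 : ∀ z : Θ × ℝ, 0 ≤ (cl z).2 - l 0 z.1 0 := fun z => by
    rw [show cl z = _ from hcl z.1 z.2]
    have : l 0 z.1 0 ≤ max (l 0 z.1 0) (min (u 0 z.1 0) z.2) := le_max_left _ _
    show 0 ≤ max (l 0 z.1 0) (min (u 0 z.1 0) z.2) - l 0 z.1 0
    linarith only [this]
  have htT : ∀ z : Θ × ℝ, (cl z).2 - l 0 z.1 0 ≤ u 0 z.1 0 - l 0 z.1 0 := fun z => by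
    rw [show cl z = _ from hcl z.1 z.2]
    have : max (l 0 z.1 0) (min (u 0 z.1 0) z.2) ≤ u 0 z.1 0 :=
      max_le (hlu z.1) (min_le_left _ _)
    show max (l 0 z.1 0) (min (u 0 z.1 0) z.2) - l 0 z.1 0 ≤ u 0 z.1 0 - l 0 z.1 0
    linarith only [this]
  have hcl1 : ∀ z : Θ × ℝ, cl z = (z.1, l 0 z.1 0 + ((cl z).2 - l 0 z.1 0)) := fun z => by
    have h1 : (cl z).1 = z.1 := by rw [show cl z = _ from hcl z.1 z.2]
    have h2 : l 0 z.1 0 + ((cl z).2 - l 0 z.1 0) = (cl z).2 := by ring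
    rw [h2, ← h1]
  -- volumes
  have hvs : ∀ z : Θ × ℝ, (c * R) ^ (D + 1) ≤ vol (D + 1) (sl l) (sl u) (cl z) := fun z =>
    (vol_bounds hc hR hin.box.slice (cl z)).1
  have hkey : ∀ z : Θ × ℝ, c3T l u r z.1 ((cl z).2 - l 0 z.1 0) =
      (∑ i, r i z.1 ^ (D + 1 + 1)) / ((D + 1 + 1).factorial * vol (D + 1 + 1) l u z.1) *
        ((D + 1).factorial * vol (D + 1) (sl l) (sl u) (cl z)) := fun z => by
    unfold c3T
    rw [← hcl1 z]
  have hfac : (0 : ℝ) < ((D + 1).factorial : ℝ) := by exact_mod_cast Nat.factorial_pos _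
  refine ⟨hin.box.slice.comp hclc, fun i => ?_, fun i z => ⟨hout.v_nn _ _ _,
    (hout.v_le _ _ _).trans (hin.r01 _ _).2⟩, fun z => ?_, fun i k => hin.dlt i k.succ,
    by (clear * - hb hδ hA hρ hM; positivity), fun z κ hκ => ?_, fun z κ hκ => ?_, by positivity, fun z => ?_, fun z => ?_⟩
  · exact (hout.cv i).comp (continuous_fst.prodMk ((continuous_snd.comp hclc).sub hlc))
  · exact (Finset.sum_le_sum fun i _ => hout.v_le _ _ _).trans (hin.tail z.1)
  · exact next_big hδ (by omega) hin.r01 hout hin.dlt (by (clear * - hρ hM hb; positivity)) hb.le (ht0 z) (htT z)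
      (hin.tail z.1) hP.N1 (hP.Xaδ (hXa z.1)) (c3_actc hρ.le hin z.1) (hin.big z.1) κ hκ
  · have h1 := next_act (C := 2 / c ^ (D + 1)) hδ (by omega) hin.r01 (by
        rw [le_div_iff₀ (by positivity)]
        have : c ^ (D + 1) ≤ 1 := pow_le_one₀ hc.le hP.hc1
        linarith only [this]) hA hout hin.dlt hε1
      (fun θ => hTc.comp (continuous_const.prodMk continuous_id)) hTb
      (fun i θ => (hout.cv i).comp (continuous_const.prodMk continuous_id)) hXb (by
        have h2 := hP.Xaδ (hXa z.1)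
        have h3 : ((2 * K : ℕ) : ℝ) ^ D * b ≤ ρ * (((2 * K : ℕ) : ℝ) ^ D * b) := by
          have := hP.hρ
          linarith only [mul_nonneg (le_of_lt (sub_pos.2 hXb)) (sub_nonneg.2 this)]
        have h4 : δ * c3A D c R ≤ c3A D c R := by
          have := hP.hδ1
          nlinarith only [hA, this]
        linarith only [hXb, h2, h3, h4]) (mul_nonneg hρ.le hb.le) (ht0 z) (htT z)
      (fun k hk => c3_bigc hin z.1 hk) (hin.act z.1) hP.hδ1 κ hκ
    refine h1.trans (le_of_eq ?_)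
    unfold c3ρ
    generalize ((D + 1 : ℕ) : ℝ) + 1 = q1
    generalize c3A D c R = A0
    have hx : ((2 * K : ℕ) : ℝ) ^ D ≠ 0 := by (clear * - hM; positivity)
    generalize ((2 * K : ℕ) : ℝ) ^ D = X at hx ⊢
    field_simp
    ring
  · have h1 := abs_le.mp (hout.sum z.1 _ (ht0 z) (htT z))
    rw [hkey z] at h1
    rw [vol_comp]
    have h2 := (c3_ratio hc hR hin z.1).1
    have h3 := hvs z
    have h4 : (0 : ℝ) < vol (D + 1) (sl l) (sl u) (cl z) := lt_of_lt_of_le (by positivity) h3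
    have h5 : (1 / 2 + η) * ((D + 1).factorial * vol (D + 1) (sl l) (sl u) (cl z)) ≤
        (∑ i, r i z.1 ^ (D + 1 + 1)) / ((D + 1 + 1).factorial * vol (D + 1 + 1) l u z.1) *
        ((D + 1).factorial * vol (D + 1) (sl l) (sl u) (cl z)) :=
      mul_le_mul_of_nonneg_right h2 (by (clear * - h4; positivity))
    have h6 : η / 2 * ((D + 1).factorial * (c * R) ^ (D + 1)) ≤
        η / 2 * ((D + 1).factorial * vol (D + 1) (sl l) (sl u) (cl z)) := by (clear * - h3 hη; gcongr)
    linarith only [hε2, h1, h5, h6]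
  · have h1 := abs_le.mp (hout.sum z.1 _ (ht0 z) (htT z))
    rw [hkey z] at h1
    rw [vol_comp]
    have h2 := (c3_ratio hc hR hin z.1).2
    have h3 := hvs z
    have h4 : (0 : ℝ) < vol (D + 1) (sl l) (sl u) (cl z) := lt_of_lt_of_le (by positivity) h3
    have h5 : (∑ i, r i z.1 ^ (D + 1 + 1)) / ((D + 1 + 1).factorial * vol (D + 1 + 1) l u z.1) *
        ((D + 1).factorial * vol (D + 1) (sl l) (sl u) (cl z)) ≤
        (1 - η) * ((D + 1).factorial * vol (D + 1) (sl l) (sl u) (cl z)) :=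
      mul_le_mul_of_nonneg_right h2 (by (clear * - h4; positivity))
    have h6 : η / 2 * ((D + 1).factorial * (c * R) ^ (D + 1)) ≤
        η / 2 * ((D + 1).factorial * vol (D + 1) (sl l) (sl u) (cl z)) := by (clear * - h3 hη; gcongr)
    linarith only [hε2, h1, h5, h6]

end

theorem c3_ρ_one {D : ℕ} {c δ ρ : ℝ} (hc : 0 < c) (hc1 : c ≤ 1) (hδ : 0 < δ) (hδ1 : δ ≤ 1)
    (hρ : 1 ≤ ρ) : 1 ≤ c3ρ D c δ ρ := by
  unfold c3ρ
  have hcp : c ^ (D + 1) ≤ 1 := pow_le_one₀ hc.le hc1
  have hcp0 : 0 < c ^ (D + 1) := by positivity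
  have hC : 1 ≤ 2 / c ^ (D + 1) := by
    rw [le_div_iff₀ hcp0]
    linarith
  have hδp : δ ^ (D + 1 + 1 + 1) ≤ 1 := pow_le_one₀ hδ.le hδ1
  have hδp0 : 0 < δ ^ (D + 1 + 1 + 1) := by positivity
  rw [le_div_iff₀ hδp0]
  have h1 : (1 : ℝ) ≤ ((D + 1 : ℕ) : ℝ) + 1 := by
    have : (0 : ℝ) ≤ ((D + 1 : ℕ) : ℝ) := Nat.cast_nonneg _
    linarith only []
  have h2 : (1 : ℝ) ≤ ρ ^ 2 := one_le_pow₀ hρ
  have h3 := one_le_mul_of_one_le_of_one_le hC h1
  have h4 := one_le_mul_of_one_le_of_one_le h3 h2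
  linarith only [h4, hδp]

theorem stage_succ {D : ℕ} (ih : Stage D) : Stage (D + 1) := by
  intro c L δ ρ N hc hL hδ hδ1 hρ hN
  by_cases hc1 : c ≤ 1
  swap
  · refine ⟨1, 1, one_pos, one_pos, fun R hR K hK Θ _ l u ι _ _ r J dig b η hin => ?_⟩
    have hempty : IsEmpty Θ := by
      refine ⟨fun θ => ?_⟩
      have h1 := hin.box.lo 0 θ 0
      have h2 := hin.box.hi 0 θ 0
      rw [not_le] at hc1
      linarith only [mul_nonneg (le_of_lt (sub_pos.2 hc1)) (sub_nonneg.2 hR), h2, h1, hc1]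
    exact ⟨fun _ _ _ _ _ => 0, fun _ _ => continuous_const, fun _ _ _ _ _ _ => rfl,
      fun _ θ => (hempty.false θ).elim, fun _ _ θ => (hempty.false θ).elim⟩
  have hcp : c ^ (D + 1) ≤ 1 := pow_le_one₀ hc.le hc1
  have hcp0 : 0 < c ^ (D + 1) := by positivity
  have hC : 1 ≤ 2 / c ^ (D + 1) := by
    rw [le_div_iff₀ hcp0]
    linarith
  obtain ⟨Y, hY, hch⟩ := chain_classes (D + 1) (by omega) δ ρ (2 / c ^ (D + 1)) hδ hδ1 hρ hC
  obtain ⟨C1', R0', hC1', hR0', hih⟩ := ih c L (δ / 2) (c3ρ D c δ ρ) N hc hL (by positivity)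
    (by linarith only [hδ1]) (c3_ρ_one hc hc1 hδ hδ1 hρ) hN
  obtain ⟨R0t, hR0t, htg⟩ := stage_target (D := D) c L hc hL
  set C2 : ℝ := ρ * (((D + 1 : ℕ) : ℝ) + 1) /
    (min (1 / Y) (δ / 512) * δ ^ (D + 1 + 1) * c ^ (D + 1)) with hC2
  set Z : ℝ := 1 + 2 * Y + 256 * N / δ + 4 * ρ * Y / δ ^ (D + 1 + 1) with hZ
  refine ⟨max C1' C2, max R0' (max R0t (Z / c)), lt_of_lt_of_le hC1' (le_max_left _ _),
    lt_of_lt_of_le hR0' (le_max_left _ _),
    fun R hR K hK Θ _ l u ι _ _ r J dig b η hin => ?_⟩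
  have hRR0' : R0' ≤ R := (le_max_left _ _).trans hR
  have hRR0t : R0t ≤ R := ((le_max_left _ _).trans (le_max_right _ _)).trans hR
  have hRpos : 0 < R := lt_of_lt_of_le hR0' hRR0'
  have hRZ : Z ≤ c * R := by
    have : Z / c ≤ R := ((le_max_right _ _).trans (le_max_right _ _)).trans hR
    rw [div_le_iff₀ hc] at this
    linarith only [this]
  have hKR : C1' * R ≤ K := (mul_le_mul_of_nonneg_right (le_max_left _ _) hRpos.le).trans hK
  have hKpos : (0 : ℝ) < K := lt_of_lt_of_le (by positivity) hKR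
  have hY0 : 0 < Y := lt_of_lt_of_le one_pos hY
  have hρ0 : 0 < ρ := lt_of_lt_of_le one_pos hρ
  have hZ1 : 0 ≤ 256 * N / δ := by (clear * - hN hδ; positivity)
  have hZ2 : 0 ≤ 4 * ρ * Y / δ ^ (D + 1 + 1) := by positivity
  have hP : C3Par D c δ ρ N Y R K := ⟨hc, hc1, hδ, hδ1, hρ, hN, hY, hRpos, by linarith only [hY, hRZ, hZ1, hZ2],
    by linarith only [hRZ, hZ1, hZ2], by linarith only [hY, hRZ, hZ2], by linarith only [hY, hRZ, hZ1],
    (mul_le_mul_of_nonneg_right (le_max_right _ _) hRpos.le).trans hK, hKpos⟩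
  have hη := hin.η0
  have hT := htg R hRR0t Θ l u (fun θ => ∑ i, r i θ ^ (D + 1 + 1)) (c3T l u r) hin.box
    (continuous_finset_sum _ fun i _ => (hin.cr i).pow _) (fun θ => ⟨by
      have h1 := hin.lo θ
      have h2 := c3_vpos hc hRpos hin θ
      nlinarith only [h1, hη, h2], by
      have h1 := hin.hi θ
      have h2 := c3_vpos hc hRpos hin θ
      nlinarith only [h1, hη, h2]⟩) (fun θ t => rfl)
  have hcls := c3_cls hP hin hT
  have hεpos : 0 < min (c3A D c R / 8) (η / 2 * ((D + 1).factorial * (c * R) ^ (D + 1))) :=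
    lt_min (by have := hP.A_pos; (clear * - this; positivity)) (by positivity)
  obtain ⟨W, v, p, hout⟩ := hch Θ ι J (fun i => dig i 0) K r _ _ _ hcls _ hεpos
  set cl : Θ × ℝ → Θ × ℝ := fun z => (z.1, max (l 0 z.1 0) (min (u 0 z.1 0) z.2)) with hcl
  have hnext := c3_next hP hin hT.1 (fun θ t => (hT.2.1 θ t).2) (min_le_left _ _)
    (min_le_right _ _) hout (cl := cl) (fun θ t => rfl)
  obtain ⟨W', hW'⟩ := hih R hRR0' K hKR (Θ × ℝ) _ _ ι _ J _ _ _ hnext
  exact ⟨_, stage_assemble hin.box hout.cW hout.sec (cl := cl) (fun θ t => rfl) hW'⟩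

theorem stage (D : ℕ) : Stage D := by
  induction D with
  | zero => exact stage_zero
  | succ D ih => exact stage_succ ih

end Vale.Agent.P209.Strong
end
end
end
end

section

section

section

section

namespace Vale.Agent.P209.Strong

/-! C5. Column lemma: large fat iterated boxes are filled. -/

/-- the number of unit balls which are added -/
theorem c5_pad (x : ℝ) (hx : 0 < x) : ∃ M : ℕ, (M : ℝ) < x ∧ x ≤ M + 1 := by
  refine ⟨⌈x⌉₊ - 1, ?_, ?_⟩
  · have h1 : 0 < ⌈x⌉₊ := Nat.ceil_pos.2 hx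
    have h2 := Nat.ceil_lt_add_one hx.le
    rw [Nat.cast_sub h1, Nat.cast_one]
    linarith only [h2]
  · have h1 : 0 < ⌈x⌉₊ := Nat.ceil_pos.2 hx
    have h2 := Nat.le_ceil x
    rw [Nat.cast_sub h1, Nat.cast_one]
    linarith only [h2]

/-- the size of `R` -/
theorem c5_size (D : ℕ) (c C1 R N : ℝ) (hc : 0 < c) (hC : 0 < C1) (hN : 0 ≤ N) (h1 : 1 ≤ R)
    (h2 : 1 / C1 ≤ R) (h3 : ((4 * C1) ^ D + 5 + N) / (c / 2) ^ (D + 1) ≤ R) :
    4 ≤ (c / 2 * R) ^ (D + 1) ∧
    (2 * (⌈C1 * R⌉₊ : ℝ)) ^ D + 1 + N ≤ (c / 2 * R) ^ (D + 1) := by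
  have hc2 : 0 < (c / 2) ^ (D + 1) := by positivity
  rw [div_le_iff₀ hc2] at h3
  have hR0 : 0 < R := by linarith only [h1]
  have hRD : 1 ≤ R ^ D := one_le_pow₀ h1
  have h4 : (c / 2 * R) ^ (D + 1) = R * (c / 2) ^ (D + 1) * R ^ D := by
    rw [mul_pow, pow_succ R D]
    ring
  have h5 : ((4 * C1) ^ D + 5 + N) * R ^ D ≤ (c / 2 * R) ^ (D + 1) := by
    rw [h4]
    exact mul_le_mul_of_nonneg_right h3 (by positivity)
  have hK : 2 * (⌈C1 * R⌉₊ : ℝ) ≤ 4 * C1 * R := by
    have h6 := Nat.ceil_lt_add_one (by positivity : 0 ≤ C1 * R)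
    rw [div_le_iff₀ hC] at h2
    linarith only [h2, h6]
  have h7 : (2 * (⌈C1 * R⌉₊ : ℝ)) ^ D ≤ (4 * C1) ^ D * R ^ D := by
    rw [← mul_pow]
    exact pow_le_pow_left₀ (by positivity) hK D
  have h8 : 0 < (4 * C1) ^ D := by positivity
  constructor
  · nlinarith only [hN, hRD, h5, h8]
  · nlinarith only [hRD, h5, h7, hN]

theorem column (D : ℕ) (hD : 1 ≤ D) (c L δ N : ℝ) (hc : 0 < c) (hL : 0 ≤ L) (hδ : 0 < δ)
    (hδ1 : δ ≤ 1) (hN : 0 ≤ N) : ∃ R0 : ℝ, 0 < R0 ∧ ∀ R, R0 ≤ R →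
      ∀ l u : Fin (D + 1) → (Fin (D + 1) → ℝ) → ℝ,
        IsBox c L R (Θ := Unit) (fun j _ => l j) (fun j _ => u j) →
        Fill δ N (boxSet l u) := by
  obtain ⟨C1, R1, hC1, hR1, hst⟩ := stage D (c / 2) L δ 2 N (by positivity) hL hδ hδ1
    (by norm_num) hN
  refine ⟨max R1 (max 1 (max (1 / C1) (((4 * C1) ^ D + 5 + N) / (c / 2) ^ (D + 1)))),
    lt_max_of_lt_left hR1, ?_⟩
  intro R hR l u hbox ι _ r J hr hbulk htail hvol
  classical
  rw [max_le_iff, max_le_iff, max_le_iff] at hR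
  obtain ⟨hRa, hRb, hRc, hRd⟩ := hR
  have hR0 : 0 < R := by linarith only [hR1, hRa]
  obtain ⟨hs4, hsK⟩ := c5_size D c C1 R N hc hC1 hN hRb hRc hRd
  set f : ℝ := ((D + 1).factorial : ℝ) with hf
  have hf1 : 1 ≤ f := by
    rw [hf]
    exact_mod_cast Nat.succ_le_of_lt (Nat.factorial_pos _)
  have hf0 : 0 < f := by linarith only [hf1]
  -- volumes
  set V := vol (D + 1) (Θ := Unit) (fun j _ => l j) (fun j _ => u j) () with hV
  have hVb := (vol_bounds hc hR0 hbox ()).1
  have hV0 : 0 < V := lt_of_lt_of_le (by positivity) hVb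
  have hvolV : (MeasureTheory.volume (boxSet l u)).toReal = V := by
    have h1 := volume_boxSet hc hR0 hbox ()
    rw [h1, ENNReal.toReal_ofReal hV0.le]
  rw [hvolV, ← Finset.sum_div, div_lt_iff₀ hf0] at hvol
  set S : ℝ := ∑ i, r i ^ (D + 1) with hS
  obtain ⟨ε, hε, hbox', hvol', hsub⟩ := shrink_box hc hR0 hL hbox
    (η := (V - S / f) / 2) (by
      have : S / f < V := by rwa [div_lt_iff₀ hf0]
      linarith only [this])
  set V' := vol (D + 1) (Θ := Unit) (fun j _ y => l j y + ε) (fun j _ y => u j y - ε) ()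
    with hV'
  have hSf : S / f < V := by rwa [div_lt_iff₀ hf0]
  have hSV' : S < f * V' := by
    have h1 : S / f < V' := by linarith only [hvol', hSf]
    rw [div_lt_iff₀ hf0] at h1
    linarith only [h1]
  have hV'b : (c / 2 * R) ^ (D + 1) ≤ V' := (vol_bounds (by positivity) hR0 hbox' ()).1
  have hfV' : (c / 2 * R) ^ (D + 1) ≤ f * V' := by
    have h1 : 0 ≤ V' := le_trans (by positivity) hV'b
    linarith only [mul_nonneg (sub_nonneg.2 hf1) (sub_nonneg.2 hs4), mul_nonneg (sub_nonneg.2 hf1) (sub_nonneg.2 hV'b), hV'b, hf1]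
  have hfV'0 : 0 < f * V' := lt_of_lt_of_le (by positivity) hfV'
  -- additional unit balls
  obtain ⟨M, hM1, hM2⟩ := c5_pad (f * V' - S) (by linarith only [hSV'])
  set r' : ι ⊕ Fin M → ℝ := Sum.elim r (fun _ => 1) with hr'
  set J' : Finset (ι ⊕ Fin M) := J.map Function.Embedding.inl with hJ'
  have hr01 : ∀ i, 0 < r' i ∧ r' i ≤ 1 := by
    rintro (i | i)
    · exact hr i
    · exact ⟨one_pos, le_rfl⟩
  have hbulk' : ∀ i, i ∉ J' → δ ≤ r' i := by
    rintro (i | i) hi
    · refine hbulk i fun h => hi ?_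
      rw [hJ', Finset.mem_map]
      exact ⟨i, h, rfl⟩
    · exact hδ1
  have htail' : ∑ i ∈ J', r' i ≤ N := by
    rw [hJ', Finset.sum_map]
    exact htail
  have hsum' : ∑ i, r' i ^ (D + 1) = S + M := by
    rw [Fintype.sum_sum_type]
    simp only [hr', Sum.elim_inl, Sum.elim_inr, one_pow, Finset.sum_const, Finset.card_univ, Fintype.card_fin, nsmul_eq_mul, mul_one, hS]
  -- the bulk
  set B : Finset (ι ⊕ Fin M) := Finset.univ.filter (fun i => i ∉ J') with hB
  have hcard : (2 * ⌈C1 * R⌉₊) ^ D ≤ B.card := by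
    have h1 : ∑ i, r' i ^ (D + 1) = ∑ i ∈ J', r' i ^ (D + 1) + ∑ i ∈ B, r' i ^ (D + 1) := by
      rw [hB, ← Finset.sum_filter_add_sum_filter_not Finset.univ (fun i => i ∈ J')]
      congr 1
      refine Finset.sum_congr ?_ fun _ _ => rfl
      ext i
      simp only [Finset.subset_univ, Finset.filter_mem_eq_of_subset]
    have h2 : ∑ i ∈ J', r' i ^ (D + 1) ≤ N := by
      refine (Finset.sum_le_sum fun i _ => ?_).trans htail'
      exact pow_le_of_le_one (hr01 i).1.le (hr01 i).2 (by omega)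
    have h3 : ∑ i ∈ B, r' i ^ (D + 1) ≤ B.card := by
      refine (Finset.sum_le_card_nsmul B _ 1 fun i _ => ?_).trans (by simp)
      exact pow_le_one₀ (hr01 i).1.le (hr01 i).2
    have h4 : ((2 * ⌈C1 * R⌉₊) ^ D : ℕ) ≤ (B.card : ℝ) := by
      push_cast
      linarith only [hsK, hfV', hM2, hsum', h1, h2, h3]
    exact_mod_cast h4
  have hK1 : 1 ≤ ⌈C1 * R⌉₊ := Nat.ceil_pos.2 (by positivity)
  obtain ⟨dig, b, hdig, hb1, hcell⟩ := exists_digits B D ⌈C1 * R⌉₊ hK1 hcard
  -- the input of the stage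
  have hη0 : 0 < (f * V' - (S + M)) / (f * V') := div_pos (by linarith only [hM1]) hfV'0
  set η : ℝ := min (1 / 4) ((f * V' - (S + M)) / (f * V')) with hη
  have hin : StageIn D (c / 2) L R δ 2 N ⌈C1 * R⌉₊ (Θ := Unit) (fun j _ y => l j y + ε)
      (fun j _ y => u j y - ε) (fun i _ => r' i) J' dig b η := by
    refine ⟨hbox', fun i => continuous_const, fun i _ => ⟨(hr01 i).1.le, (hr01 i).2⟩,
      fun _ => htail', hdig, by linarith only [hb1], ?_, ?_, lt_min (by norm_num) hη0, ?_, ?_⟩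
    · intro _ κ hκ
      have h1 : Finset.univ.filter (fun i => i ∉ J' ∧ dig i = κ ∧ δ ≤ r' i) =
          B.filter (fun i => dig i = κ) := by
        ext i
        simp only [hB, Finset.mem_filter, Finset.mem_univ, true_and]
        exact ⟨fun h => ⟨h.1, h.2.1⟩, fun h => ⟨h.1, h.2, hbulk' i h.1⟩⟩
      rw [h1]
      exact (hcell κ hκ).1
    · intro _ κ hκ
      have h1 : Finset.univ.filter (fun i => i ∉ J' ∧ dig i = κ ∧ 0 < r' i) =
          B.filter (fun i => dig i = κ) := by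
        ext i
        simp only [hB, Finset.mem_filter, Finset.mem_univ, true_and]
        exact ⟨fun h => ⟨h.1, h.2.1⟩, fun h => ⟨h.1, h.2, (hr01 i).1⟩⟩
      rw [h1]
      exact (hcell κ hκ).2
    · intro _
      rw [hsum']
      have h1 : η ≤ 1 / 4 := min_le_left _ _
      have h2 : (1 / 2 + η) * (f * V') ≤ 3 / 4 * (f * V') :=
        mul_le_mul_of_nonneg_right (by linarith only [h1]) hfV'0.le
      change (1 / 2 + η) * (f * V') ≤ S + M
      linarith only [hs4, hfV', hM2, h2]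
    · intro _
      rw [hsum']
      have h1 : η ≤ (f * V' - (S + M)) / (f * V') := min_le_right _ _
      rw [le_div_iff₀ hfV'0] at h1
      change S + M ≤ (1 - η) * (f * V')
      linarith only [h1]
  obtain ⟨W, hW⟩ := hst R hRa ⌈C1 * R⌉₊ (Nat.le_ceil _) Unit _ _ (ι ⊕ Fin M) _ J' dig b η hin
  have hopen : IsOpen (boxSet l u) := by
    refine isOpen_boxSet (fun j => ?_) fun j => ?_
    · exact (hbox.cont_l j).comp (f := fun y : Fin (D + 1) → ℝ => (((), y) : Unit × _))
        (by fun_prop)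
    · exact (hbox.cont_u j).comp (f := fun y : Fin (D + 1) → ℝ => (((), y) : Unit × _))
        (by fun_prop)
  have hfin := TPk_of_KK (fun i j => W i j ()) (fun i j => ?_) (fun i => hW.dep i ()) r'
    (fun i => (hr01 i).1.le) hopen (fun i => (hW.sub i ()).trans hsub)
    (fun i j hij => hW.disj i j () hij)
  · exact hfin.comp_inj Sum.inl Sum.inl_injective
  · exact (hW.cont i j).comp (f := fun p : (Fin (D + 1) → ℝ) × ℝ =>
      ((((), p.1), p.2) : (Unit × (Fin (D + 1) → ℝ)) × ℝ)) (by fun_prop)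

end Vale.Agent.P209.Strong
end
end
end
end

section

section

section

section

namespace Vale.Agent.P209.Strong

open MeasureTheory

/-! D2. Iterated boxes whose walls are only controlled on the relevant region. -/

/-- the conditions of the box on the coordinates before `j` -/
def Pre {n : ℕ} (l u : Fin n → (Fin n → ℝ) → ℝ) (j : ℕ) (a : Fin n → ℝ) : Prop :=
  ∀ i : Fin n, (i : ℕ) < j → l i a < a i ∧ a i < u i a

/-- walls: `F j` depends only on the coordinates before `j` and is `L`-Lipschitz -/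
structure Walls {n : ℕ} (L : ℝ) (F : Fin n → (Fin n → ℝ) → ℝ) : Prop where
  dep : DepLt F
  lip : ∀ j y y', |F j y - F j y'| ≤ L * dist y y'

/-- the clamped upper wall -/
noncomputable def clampU {n : ℕ} (c R : ℝ) (l u : Fin n → (Fin n → ℝ) → ℝ) :
    Fin n → (Fin n → ℝ) → ℝ :=
  fun j a => l j a + max (c * R) (min R (u j a - l j a))

theorem Walls.continuous {n : ℕ} {L : ℝ} (hL : 0 ≤ L) {F : Fin n → (Fin n → ℝ) → ℝ}
    (h : Walls L F) (j : Fin n) : Continuous (F j) := by
  have : LipschitzWith (Real.toNNReal L) (F j) := by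
    refine LipschitzWith.of_dist_le_mul fun y y' => ?_
    rw [Real.dist_eq, Real.coe_toNNReal L hL]
    exact h.lip j y y'
  exact this.continuous

theorem clampU_walls {n : ℕ} {c R L : ℝ} {l u : Fin n → (Fin n → ℝ) → ℝ} (hl : Walls L l)
    (hu : Walls L u) : Walls (3 * L) (clampU c R l u) := by
  constructor
  · intro j y y' h
    simp only [clampU]
    rw [hl.dep j y y' h, hu.dep j y y' h]
  · intro j y y'
    have h1 := hl.lip j y y'
    have h2 := hu.lip j y y'
    have h3 : |max (c * R) (min R (u j y - l j y)) - max (c * R) (min R (u j y' - l j y'))| ≤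
        |(u j y - l j y) - (u j y' - l j y')| := by
      refine (abs_max_sub_max_le_max _ _ _ _).trans ?_
      refine max_le (by simp only [sub_self, abs_zero, abs_nonneg]) ?_
      refine (abs_min_sub_min_le_max _ _ _ _).trans ?_
      exact max_le (by simp only [sub_self, abs_zero, abs_nonneg]) le_rfl
    have h4 : |(u j y - l j y) - (u j y' - l j y')| ≤ |u j y - u j y'| + |l j y - l j y'| := by
      have : (u j y - l j y) - (u j y' - l j y') = (u j y - u j y') - (l j y - l j y') := by ring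
      rw [this]
      exact abs_sub _ _
    have h5 : |clampU c R l u j y - clampU c R l u j y'| ≤ |l j y - l j y'| +
        |max (c * R) (min R (u j y - l j y)) - max (c * R) (min R (u j y' - l j y'))| := by
      have : clampU c R l u j y - clampU c R l u j y' = (l j y - l j y') +
        (max (c * R) (min R (u j y - l j y)) - max (c * R) (min R (u j y' - l j y'))) := by
        simp only [clampU]; ring
      rw [this]
      exact abs_add_le _ _
    linarith

theorem boxSet_clampU {n : ℕ} {c R : ℝ} {l u : Fin n → (Fin n → ℝ) → ℝ}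
    (h : ∀ (j : Fin n) (a : Fin n → ℝ), Pre l u j a →
      c * R ≤ u j a - l j a ∧ u j a - l j a ≤ R) :
    boxSet l (clampU c R l u) = boxSet l u := by
  have key : ∀ (j : Fin n) (a : Fin n → ℝ), Pre l u j a → clampU c R l u j a = u j a := by
    intro j a hp
    obtain ⟨h1, h2⟩ := h j a hp
    simp only [clampU]
    rw [min_eq_right h2, max_eq_right h1]
    ring
  ext a
  constructor
  · intro ha
    have : ∀ m : ℕ, Pre l u m a := by
      intro m
      induction m with
      | zero => intro i hi; exact absurd hi (Nat.not_lt_zero _)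
      | succ m ih =>
        intro i hi
        rcases Nat.lt_succ_iff_lt_or_eq.1 hi with hi | hi
        · exact ih i hi
        · have hk := key i a (by rw [hi]; exact ih)
          have := ha i
          rw [hk] at this
          exact this
    intro j
    exact this (j + 1) j (Nat.lt_succ_self _)
  · intro ha j
    rw [key j a (fun i _ => ha i)]
    exact ha j

theorem isBox_clampU {n : ℕ} {c R L : ℝ} (hL : 0 ≤ L) (hcR : c * R ≤ R)
    {l u : Fin n → (Fin n → ℝ) → ℝ} (hl : Walls L l) (hu : Walls L u) :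
    IsBox c (3 * L) R (Θ := Unit) (fun j _ => l j) (fun j _ => clampU c R l u j) where
  dep_l := fun _ => hl.dep
  dep_u := fun _ => (clampU_walls hl hu).dep
  cont_l := fun j => (hl.continuous hL j).comp continuous_snd
  cont_u := fun j => ((clampU_walls hl hu).continuous (by positivity) j).comp continuous_snd
  lip_l := fun j _ y y' => (hl.lip j y y').trans
    (mul_le_mul_of_nonneg_right (by linarith) dist_nonneg)
  lip_u := fun j _ y y' => (clampU_walls hl hu).lip j y y'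
  lo := fun j _ y => by
    simp only [clampU]
    linarith [le_max_left (c * R) (min R (u j y - l j y))]
  hi := fun j _ y => by
    simp only [clampU]
    have : max (c * R) (min R (u j y - l j y)) ≤ R := max_le hcR (min_le_left _ _)
    linarith

/-- Fat iterated boxes are filled. -/
theorem column_pre (n : ℕ) (hn : 2 ≤ n) (c L δ N : ℝ) (hc : 0 < c) (hL : 0 ≤ L) (hδ : 0 < δ)
    (hδ1 : δ ≤ 1) (hN : 0 ≤ N) : ∃ R0 : ℝ, 0 < R0 ∧ ∀ R, R0 ≤ R →
      ∀ l u : Fin n → (Fin n → ℝ) → ℝ, Walls L l → Walls L u →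
        (∀ (j : Fin n) (a : Fin n → ℝ), Pre l u j a → c * R ≤ u j a - l j a ∧ u j a - l j a ≤ R) →
        Fill δ N (boxSet l u) := by
  obtain ⟨D, rfl⟩ : ∃ D, n = D + 1 := ⟨n - 1, by omega⟩
  obtain ⟨R0, hR0, H⟩ := column D (by omega) c (3 * L) δ N hc (by positivity) hδ hδ1 hN
  refine ⟨R0, hR0, fun R hR l u hl hu h => ?_⟩
  have hcR : c * R ≤ R := by
    have := h 0 0 (fun i hi => absurd hi (Nat.not_lt_zero _))
    linarith only [this]
  rw [← boxSet_clampU h]
  exact H R hR l (clampU c R l u) (isBox_clampU hL hcR hl hu)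

/-- Lower bound for the volume of a fat box. -/
theorem volume_pre_ge (n : ℕ) {c L R : ℝ} (hc : 0 < c) (hR : 0 < R) (hL : 0 ≤ L)
    {l u : Fin n → (Fin n → ℝ) → ℝ} (hl : Walls L l) (hu : Walls L u)
    (h : ∀ (j : Fin n) (a : Fin n → ℝ), Pre l u j a → c * R ≤ u j a - l j a ∧ u j a - l j a ≤ R) :
    (c * R) ^ n ≤ (volume (boxSet l u)).toReal ∧ volume (boxSet l u) ≠ ⊤ := by
  have hcR : c * R ≤ R ∨ n = 0 := by
    rcases Nat.eq_zero_or_pos n with hn | hn
    · exact Or.inr hn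
    · left
      have := h ⟨0, hn⟩ 0 (fun i hi => absurd hi (Nat.not_lt_zero _))
      linarith only [this]
  rcases hcR with hcR | rfl
  · rw [← boxSet_clampU h]
    have hb := isBox_clampU hL hcR hl hu
    have hv := volume_boxSet hc hR hb ()
    have hb2 := vol_bounds hc hR hb ()
    rw [hv]
    refine ⟨?_, ENNReal.ofReal_ne_top⟩
    rw [ENNReal.toReal_ofReal (le_trans (by positivity) hb2.1)]
    exact hb2.1
  · have : boxSet l u = Set.univ := by
      ext a
      simp only [Set.mem_univ, iff_true]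
      intro j
      exact j.elim0
    rw [this]
    have hv : volume (Set.univ : Set (Fin 0 → ℝ)) = 1 := by
      have h0 := volume_pi_pi (fun _ : Fin 0 => (Set.univ : Set ℝ))
      simpa only [Set.pi_univ, Finset.univ_eq_empty, measure_univ_of_isAddLeftInvariant, Finset.prod_const,     Finset.card_empty, pow_zero] using h0
    rw [hv]
    simp

end Vale.Agent.P209.Strong
end
end
end
end

section

section

section

section

namespace Vale.Agent.P209.Strong

open MeasureTheory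

/-! D3. Boxes with a simplex part, the pinwheel, and the filling of the simplex. -/

/-- `σ` is an affine function with integer linear part of the coordinates before `k` -/
def IntAff {n : ℕ} (k : ℕ) (σ : (Fin n → ℝ) → ℝ) : Prop :=
  ∃ (s : ℝ) (m : Fin n → ℤ), (∀ j : Fin n, k ≤ j → m j = 0) ∧ ∀ a, σ a = s + ∑ j, (m j : ℝ) * a j

/-- sum of the coordinates `k ≤ i < j` -/
def bsum {n : ℕ} (k j : ℕ) (a : Fin n → ℝ) : ℝ :=
  ∑ i : Fin n, if k ≤ (i : ℕ) ∧ (i : ℕ) < j then a i else 0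

/-- the coordinates `k, …, k + b - 1` form a simplex of size `σ a`:
`a i > 0`, `∑ a i < σ a` -/
def SimplexAt {n : ℕ} (l u : Fin n → (Fin n → ℝ) → ℝ) (k b : ℕ) (σ : (Fin n → ℝ) → ℝ) : Prop :=
  ∀ j : Fin n, k ≤ (j : ℕ) → (j : ℕ) < k + b →
    (∀ a, l j a = 0) ∧ ∀ a, u j a = σ a - bsum k j a

/-- Geometric data with one simplex block: coordinates `k, …, k + b - 1`. -/
structure Geo1 {n : ℕ} (c L R : ℝ) (l u : Fin n → (Fin n → ℝ) → ℝ) (k b : ℕ)
    (σ : (Fin n → ℝ) → ℝ) : Prop where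
  wl : Walls L l
  wu : Walls L u
  kb : k + b ≤ n
  int : IntAff k σ
  sim : SimplexAt l u k b σ
  fat : ∀ (j : Fin n) (a : Fin n → ℝ), ((j : ℕ) < k ∨ k + b ≤ (j : ℕ)) → Pre l u j a →
    c * R ≤ u j a - l j a ∧ u j a - l j a ≤ R
  size : ∀ a, Pre l u k a → c * R ≤ σ a ∧ σ a ≤ R

/-- Geometric data with two simplex blocks: a triangle in the coordinates `k, k + 1`, and a simplex
in the coordinates `k + 2, …, k + 1 + b`. -/
structure Geo2 {n : ℕ} (c L R : ℝ) (l u : Fin n → (Fin n → ℝ) → ℝ) (k b : ℕ)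
    (τ σ : (Fin n → ℝ) → ℝ) : Prop where
  wl : Walls L l
  wu : Walls L u
  kb : k + 2 + b ≤ n
  intτ : IntAff k τ
  intσ : IntAff (k + 2) σ
  simτ : SimplexAt l u k 2 τ
  simσ : SimplexAt l u (k + 2) b σ
  fat : ∀ (j : Fin n) (a : Fin n → ℝ), ((j : ℕ) < k ∨ k + 2 + b ≤ (j : ℕ)) → Pre l u j a →
    c * R ≤ u j a - l j a ∧ u j a - l j a ≤ R
  sizeτ : ∀ a, Pre l u k a → c * R ≤ τ a ∧ τ a ≤ R
  sizeσ : ∀ a, Pre l u (k + 2) a → c * R ≤ σ a ∧ σ a ≤ R

/-- statement for one block of dimension `b` -/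
def S1 (n b : ℕ) : Prop :=
  ∀ c L δ N : ℝ, 0 < c → 0 ≤ L → 0 < δ → δ ≤ 1 → 0 ≤ N → ∃ R0 : ℝ, 0 < R0 ∧ ∀ R, R0 ≤ R →
    ∀ (l u : Fin n → (Fin n → ℝ) → ℝ) (k : ℕ) (σ : (Fin n → ℝ) → ℝ),
      Geo1 c L R l u k b σ → Fill δ N (boxSet l u)

/-- statement for a triangle followed by a block of dimension `b` -/
def S2 (n b : ℕ) : Prop :=
  ∀ c L δ N : ℝ, 0 < c → 0 ≤ L → 0 < δ → δ ≤ 1 → 0 ≤ N → ∃ R0 : ℝ, 0 < R0 ∧ ∀ R, R0 ≤ R →
    ∀ (l u : Fin n → (Fin n → ℝ) → ℝ) (k : ℕ) (τ σ : (Fin n → ℝ) → ℝ),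
      Geo2 c L R l u k b τ σ → Fill δ N (boxSet l u)

/-- boxes are bounded -/
theorem d3a_bdd {n : ℕ} {L : ℝ} (hL : 0 ≤ L) {l u : Fin n → (Fin n → ℝ) → ℝ} (hl : Walls L l)
    (hu : Walls L u) (k : ℕ) : ∃ B : ℝ, 0 ≤ B ∧ ∀ a ∈ boxSet l u, ∀ i : Fin n,
      (i : ℕ) < k → |a i| ≤ B := by
  induction k with
  | zero => exact ⟨0, le_rfl, fun p _ i hi => absurd hi (by omega)⟩
  | succ k ih =>
    obtain ⟨B, hB0, hB⟩ := ih
    by_cases hk : k < n
    · set j : Fin n := ⟨k, hk⟩ with hj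
      refine ⟨max B (|l j 0| + |u j 0| + L * B), le_max_of_le_left hB0, fun a ha i hi => ?_⟩
      by_cases hik : (i : ℕ) < k
      · exact le_max_of_le_left (hB a ha i hik)
      · have hij : i = j := Fin.ext (by simp only [hj]; omega)
        rw [hij]
        refine le_max_of_le_right ?_
        set y : Fin n → ℝ := fun i => if (i : ℕ) < k then a i else 0 with hy
        have hya : ∀ i : Fin n, i < j → a i = y i := by
          intro i hi
          have h1 : (i : ℕ) < k := by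
            have := Fin.lt_def.mp hi
            simp only [hj] at this
            exact this
          simp [hy, h1]
        have hd : dist y 0 ≤ B := by
          rw [dist_pi_le_iff hB0]
          intro i
          simp only [hy, Pi.zero_apply]
          split_ifs with h1
          · rw [Real.dist_eq, sub_zero]
            exact hB a ha i h1
          · simpa only [dist_self] using hB0
        have hLd : L * dist y 0 ≤ L * B := mul_le_mul_of_nonneg_left hd hL
        have h1 := abs_le.1 (hl.lip j y 0)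
        have h2 := abs_le.1 (hu.lip j y 0)
        have h3 := ha j
        rw [hl.dep j a y hya, hu.dep j a y hya] at h3
        have h4 := neg_abs_le (l j 0)
        have h5 := le_abs_self (u j 0)
        have h6 := abs_nonneg (l j 0)
        have h7 := abs_nonneg (u j 0)
        rw [abs_le]
        constructor
        · linarith only [hLd, h1, h3, h4, h7]
        · linarith only [hLd, h2, h3, h5, h6]
    · exact ⟨B, hB0, fun p hp i _ => hB p hp i (lt_of_lt_of_le i.2 (not_lt.mp hk))⟩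

theorem d3a_fin {n : ℕ} {L : ℝ} (hL : 0 ≤ L) {l u : Fin n → (Fin n → ℝ) → ℝ} (hl : Walls L l)
    (hu : Walls L u) : volume (boxSet l u) ≠ ⊤ := by
  obtain ⟨B, hB0, hB⟩ := d3a_bdd hL hl hu n
  have h1 : boxSet l u ⊆ Set.Icc (fun _ : Fin n => -B) (fun _ : Fin n => B) := fun a ha =>
    ⟨fun i => (abs_le.1 (hB a ha i i.2)).1, fun i => (abs_le.1 (hB a ha i i.2)).2⟩
  exact ne_top_of_le_ne_top isCompact_Icc.measure_lt_top.ne (measure_mono h1)

/-- the conditions of the smaller box, whose block is a cube, imply those of the box -/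
theorem d3a_pre {n : ℕ} {c L R : ℝ} (hc : 0 < c) (hR : 0 < R)
    {l u : Fin n → (Fin n → ℝ) → ℝ} {k b : ℕ} {σ : (Fin n → ℝ) → ℝ}
    (h : Geo1 c L R l u k b σ) (v : Fin n → (Fin n → ℝ) → ℝ)
    (hv1 : ∀ (j : Fin n) (a : Fin n → ℝ), (k ≤ (j : ℕ) ∧ (j : ℕ) < k + b) →
      v j a = c / (n + 1) * R)
    (hv2 : ∀ (j : Fin n) (a : Fin n → ℝ), ¬ (k ≤ (j : ℕ) ∧ (j : ℕ) < k + b) → v j a = u j a)
    (j : ℕ) (a : Fin n → ℝ) (ha : Pre l v j a) : Pre l u j a := by
  intro i hi
  refine ⟨(ha i hi).1, ?_⟩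
  by_cases hb : k ≤ (i : ℕ) ∧ (i : ℕ) < k + b
  · obtain ⟨-, h2⟩ := h.sim i hb.1 hb.2
    rw [h2 a]
    have hpk : Pre l u k a := by
      intro i' hi'
      have h3 := ha i' (by omega)
      rw [hv2 i' a (by omega)] at h3
      exact h3
    have hs := (h.size a hpk).1
    have hn1 : (0 : ℝ) < n + 1 := by (clear * -; positivity)
    have hq : 0 < c / (n + 1) * R := by positivity
    have h4 : bsum k i a + a i ≤ n * (c / (n + 1) * R) := by
      have h5 : bsum k i a + a i
          = ∑ i' : Fin n, ((if k ≤ (i' : ℕ) ∧ (i' : ℕ) < i then a i' else 0)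
            + if i' = i then a i' else 0) := by
        rw [Finset.sum_add_distrib, Finset.sum_ite_eq' Finset.univ i a]
        simp only [bsum, Fin.val_fin_lt, Finset.mem_univ, ↓reduceIte]
      rw [h5]
      have h6 : ∀ i' ∈ (Finset.univ : Finset (Fin n)),
          ((if k ≤ (i' : ℕ) ∧ (i' : ℕ) < i then a i' else 0) + if i' = i then a i' else 0)
            ≤ c / (n + 1) * R := by
        intro i' _
        by_cases h7 : i' = i
        · subst h7
          have h8 := (ha i' hi).2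
          rw [hv1 i' a hb] at h8
          rw [if_neg (by omega), if_pos rfl]
          linarith only [h8]
        · rw [if_neg h7, add_zero]
          split_ifs with h8
          · have h9 := (ha i' (by omega)).2
            rw [hv1 i' a (by omega)] at h9
            exact h9.le
          · exact hq.le
      refine (Finset.sum_le_sum h6).trans ?_
      rw [Finset.sum_const, Finset.card_univ, Fintype.card_fin, nsmul_eq_mul]
    have h7 : c * R = (n + 1) * (c / (n + 1) * R) := by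
      field_simp
    have h8 : (n : ℝ) * (c / (n + 1) * R) < c * R := by
      rw [h7]
      linarith only [hq]
    linarith only [hs, hq, h4, h7]
  · have h3 := (ha i hi).2
    rw [hv2 i a hb] at h3
    exact h3

/-- lower bound for the volume, including the simplex block -/
theorem Geo1.volume_ge {n : ℕ} {c L R : ℝ} (hc : 0 < c) (hL : 0 ≤ L) (hR : 0 < R)
    {l u : Fin n → (Fin n → ℝ) → ℝ} {k b : ℕ} {σ : (Fin n → ℝ) → ℝ}
    (h : Geo1 c L R l u k b σ) :
    (c / (n + 1) * R) ^ n ≤ (volume (boxSet l u)).toReal ∧ volume (boxSet l u) ≠ ⊤ := by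
  classical
  have hfin := d3a_fin hL h.wl h.wu
  refine ⟨?_, hfin⟩
  have hn1 : (1 : ℝ) ≤ n + 1 := by
    have : (0 : ℝ) ≤ n := Nat.cast_nonneg n
    linarith
  have hcn : c / (n + 1) ≤ c := div_le_self hc.le hn1
  have hcn0 : 0 < c / ((n : ℝ) + 1) := div_pos hc (by linarith only [])
  set v : Fin n → (Fin n → ℝ) → ℝ := fun j a =>
    if k ≤ (j : ℕ) ∧ (j : ℕ) < k + b then c / (n + 1) * R else u j a with hv
  have hv1 : ∀ (j : Fin n) (a : Fin n → ℝ), (k ≤ (j : ℕ) ∧ (j : ℕ) < k + b) →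
      v j a = c / (n + 1) * R := fun j a hj => by simp only [hv]; rw [if_pos hj]
  have hv2 : ∀ (j : Fin n) (a : Fin n → ℝ), ¬ (k ≤ (j : ℕ) ∧ (j : ℕ) < k + b) →
      v j a = u j a := fun j a hj => by simp only [hv]; rw [if_neg hj]
  have hpre := d3a_pre hc hR h v hv1 hv2
  have hwv : Walls L v := by
    constructor
    · intro j y y' hy
      by_cases hb : k ≤ (j : ℕ) ∧ (j : ℕ) < k + b
      · rw [hv1 j y hb, hv1 j y' hb]
      · rw [hv2 j y hb, hv2 j y' hb]
        exact h.wu.dep j y y' hy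
    · intro j y y'
      by_cases hb : k ≤ (j : ℕ) ∧ (j : ℕ) < k + b
      · rw [hv1 j y hb, hv1 j y' hb, sub_self, abs_zero]
        exact mul_nonneg hL dist_nonneg
      · rw [hv2 j y hb, hv2 j y' hb]
        exact h.wu.lip j y y'
  have hvol := volume_pre_ge n hcn0 hR hL h.wl hwv (fun j a ha => by
    have hp := hpre j a ha
    by_cases hb : k ≤ (j : ℕ) ∧ (j : ℕ) < k + b
    · obtain ⟨h1, -⟩ := h.sim j hb.1 hb.2
      rw [hv1 j a hb, h1 a, sub_zero]
      refine ⟨le_rfl, ?_⟩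
      have hs := h.size a (fun i hi => hp i (by omega))
      have h3 : c / (n + 1) * R ≤ c * R := mul_le_mul_of_nonneg_right hcn hR.le
      linarith only [hs, h3]
    · rw [hv2 j a hb]
      have h2 := h.fat j a (by omega) hp
      have h3 : c / (n + 1) * R ≤ c * R := mul_le_mul_of_nonneg_right hcn hR.le
      exact ⟨h3.trans h2.1, h2.2⟩)
  refine hvol.1.trans (ENNReal.toReal_mono hfin (measure_mono ?_))
  intro a ha j
  exact hpre n a (fun i _ => ha i) j j.2

end Vale.Agent.P209.Strong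
end
end
end
end

section

section

section

section

namespace Vale.Agent.P209.Strong

open MeasureTheory

theorem S1_le_one (n b : ℕ) (hn : 2 ≤ n) (hb : b ≤ 1) : S1 n b := by
  intro c L δ N hc hL hδ hδ1 hN
  obtain ⟨R0, hR0, H⟩ := column_pre n hn c L δ N hc hL hδ hδ1 hN
  refine ⟨R0, hR0, fun R hR l u k σ hG => H R hR l u hG.wl hG.wu fun j a hj => ?_⟩
  by_cases hjk : (j : ℕ) < k ∨ k + b ≤ (j : ℕ)
  · exact hG.fat j a hjk hj
  · push Not at hjk
    obtain ⟨h1, h2⟩ := hjk
    have hjk' : (j : ℕ) = k := by omega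
    obtain ⟨h3, h4⟩ := hG.sim j h1 h2
    have h5 : bsum k j a = 0 := by
      unfold bsum
      refine Finset.sum_eq_zero fun i _ => ?_
      rw [if_neg]
      omega
    rw [h3 a, h4 a, h5, sub_zero, sub_zero]
    rw [hjk'] at hj
    exact hG.size a hj

/-- a triangle is a block of dimension two -/
theorem S1_two (n : ℕ) (h : S2 n 0) : S1 n 2 := by
  intro c L δ N hc hL hδ hδ1 hN
  obtain ⟨R0, hR0, H⟩ := h c L δ N hc hL hδ hδ1 hN
  refine ⟨R0, hR0, fun R hR l u k σ hG => H R hR l u k σ (fun _ => c * R) ?_⟩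
  exact {
    wl := hG.wl
    wu := hG.wu
    kb := hG.kb
    intτ := hG.int
    intσ := ⟨c * R, fun _ => 0, fun _ _ => rfl, fun a => by simp only [Int.cast_zero, zero_mul, Finset.sum_const_zero, add_zero]⟩
    simτ := hG.sim
    simσ := fun j h1 h2 => absurd h2 (by omega)
    fat := fun j a hj hp => hG.fat j a hj hp
    sizeτ := hG.size
    sizeσ := fun a ha => ⟨le_rfl, by
      have hp : Pre l u k a := fun i hi => ha i (by omega)
      have := hG.size a hp
      exact this.1.trans this.2⟩ }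

end Vale.Agent.P209.Strong
end
end
end
end

section

section

section

section

namespace Vale.Agent.P209.Strong

open MeasureTheory

section rot

variable {n : ℕ}

/-- linear part of the rotation -/
noncomputable def rotG (m : Fin n → ℤ) (p q : Fin n) (a : Fin n → ℝ) : Fin n → ℝ := fun j =>
  if j = p then a q else if j = q then (∑ i, (m i : ℝ) * a i) - a p - a q else a j

/-- linear part of the inverse rotation -/
noncomputable def rotI (m : Fin n → ℤ) (p q : Fin n) (a : Fin n → ℝ) : Fin n → ℝ := fun j =>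
  if j = p then (∑ i, (m i : ℝ) * a i) - a p - a q else if j = q then a p else a j

theorem rot_sum {m : Fin n → ℤ} {p q : Fin n} (hp : m p = 0) (hq : m q = 0) {a a' : Fin n → ℝ}
    (h : ∀ j, j ≠ p → j ≠ q → a j = a' j) :
    ∑ i, (m i : ℝ) * a i = ∑ i, (m i : ℝ) * a' i := by
  refine Finset.sum_congr rfl fun i _ => ?_
  by_cases h1 : i = p
  · subst h1; simp [hp]
  · by_cases h2 : i = q
    · subst h2; simp [hq]
    · rw [h i h1 h2]

theorem rotG_sum {m : Fin n → ℤ} {p q : Fin n} (hp : m p = 0) (hq : m q = 0) (a : Fin n → ℝ) :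
    ∑ i, (m i : ℝ) * rotG m p q a i = ∑ i, (m i : ℝ) * a i :=
  rot_sum hp hq fun j h1 h2 => by simp [rotG, h1, h2]

theorem rotI_sum {m : Fin n → ℤ} {p q : Fin n} (hp : m p = 0) (hq : m q = 0) (a : Fin n → ℝ) :
    ∑ i, (m i : ℝ) * rotI m p q a i = ∑ i, (m i : ℝ) * a i :=
  rot_sum hp hq fun j h1 h2 => by simp [rotI, h1, h2]

/-- the rotation as a linear equivalence -/
noncomputable def rotE (m : Fin n → ℤ) (p q : Fin n) (hpq : p ≠ q) (hp : m p = 0) (hq : m q = 0) :
    (Fin n → ℝ) ≃ₗ[ℝ] (Fin n → ℝ) where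
  toFun := rotG m p q
  invFun := rotI m p q
  map_add' a b := by
    funext j
    simp only [rotG, Pi.add_apply, mul_add, Finset.sum_add_distrib]
    split_ifs <;> ring
  map_smul' r a := by
    funext j
    simp only [rotG, Pi.smul_apply, smul_eq_mul, RingHom.id_apply]
    have : ∑ i, (m i : ℝ) * (r * a i) = r * ∑ i, (m i : ℝ) * a i := by
      rw [Finset.mul_sum]; exact Finset.sum_congr rfl fun i _ => by ring
    rw [this]
    split_ifs <;> ring
  left_inv a := by
    funext j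
    by_cases h1 : j = p
    · subst h1
      show (if j = j then _ else _) = _
      rw [if_pos rfl, rotG_sum hp hq]
      simp [rotG, hpq.symm]
    · by_cases h2 : j = q
      · subst h2
        simp [rotI, rotG, h1]
      · simp [rotI, rotG, h1, h2]
  right_inv a := by
    funext j
    by_cases h1 : j = p
    · subst h1
      simp [rotI, rotG, hpq.symm]
    · by_cases h2 : j = q
      · subst h2
        show (if j = p then _ else if j = j then _ else _) = _
        rw [if_neg h1, if_pos rfl, rotI_sum hp hq]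
        simp only [rotI, if_true, if_neg h1]
        ring
      · simp [rotI, rotG, h1, h2]

theorem rot_single (m : Fin n → ℤ) (i : Fin n) :
    ∑ k, (m k : ℝ) * (Pi.single i (1 : ℝ) : Fin n → ℝ) k = m i := by
  simp only [Pi.single_apply, mul_ite, mul_one, mul_zero, Finset.sum_ite_eq', Finset.mem_univ, ↓reduceIte]

theorem rot_single_int (i j : Fin n) : ∃ z : ℤ, (Pi.single i (1 : ℝ) : Fin n → ℝ) j = z := by
  by_cases h : j = i
  · subst h; exact ⟨1, by simp⟩
  · exact ⟨0, by simp [h]⟩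

theorem rotG_int (m : Fin n → ℤ) (p q i j : Fin n) : ∃ z : ℤ, rotG m p q (Pi.single i 1) j = z := by
  obtain ⟨z1, h1⟩ := rot_single_int i p
  obtain ⟨z2, h2⟩ := rot_single_int i q
  obtain ⟨z3, h3⟩ := rot_single_int i j
  simp only [rotG, rot_single, h1, h2, h3]
  split_ifs
  · exact ⟨z2, rfl⟩
  · exact ⟨m i - z1 - z2, by push_cast; ring⟩
  · exact ⟨z3, rfl⟩

theorem rotI_int (m : Fin n → ℤ) (p q i j : Fin n) : ∃ z : ℤ, rotI m p q (Pi.single i 1) j = z := by
  obtain ⟨z1, h1⟩ := rot_single_int i p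
  obtain ⟨z2, h2⟩ := rot_single_int i q
  obtain ⟨z3, h3⟩ := rot_single_int i j
  simp only [rotI, rot_single, h1, h2, h3]
  split_ifs
  · exact ⟨m i - z1 - z2, by push_cast; ring⟩
  · exact ⟨z1, rfl⟩
  · exact ⟨z3, rfl⟩

end rot

/-- The rotation `(a_k, a_{k+1}) ↦ (a_{k+1}, τ a - a_k - a_{k+1})` of the triangle. -/
theorem Geo2.rot {n : ℕ} {c L R : ℝ} (hL : 0 ≤ L) {l u : Fin n → (Fin n → ℝ) → ℝ} {k b : ℕ}
    {τ σ : (Fin n → ℝ) → ℝ} (h : Geo2 c L R l u k b τ σ) :
    ∃ (G : (Fin n → ℝ) ≃ₗ[ℝ] (Fin n → ℝ)) (v : Fin n → ℝ) (l' u' : Fin n → (Fin n → ℝ) → ℝ)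
      (σ' : (Fin n → ℝ) → ℝ),
      (∀ i j, ∃ m : ℤ, G (Pi.single i 1) j = m) ∧
      (∀ i j, ∃ m : ℤ, G.symm (Pi.single i 1) j = m) ∧
      Geo2 c (L * (L + 2)) R l' u' k b τ σ' ∧
      (fun a => G a + v) '' boxSet l u = boxSet l' u' ∧
      (∀ (a : Fin n → ℝ) (j : Fin n), ((j : ℕ) < k ∨ k + 2 ≤ (j : ℕ)) → (G a + v) j = a j) ∧
      (∀ (a : Fin n → ℝ) (i j : Fin n), (i : ℕ) = k → (j : ℕ) = k + 1 →
        (G a + v) i = a j ∧ (G a + v) j = τ a - a i - a j) := by
  classical
  obtain ⟨s, m, hm0, hτ⟩ := h.intτ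
  obtain ⟨s', m', hm0', hσ⟩ := h.intσ
  have hkb := h.kb
  set p : Fin n := ⟨k, by omega⟩ with hp
  set q : Fin n := ⟨k + 1, by omega⟩ with hq
  have hpv : (p : ℕ) = k := rfl
  have hqv : (q : ℕ) = k + 1 := rfl
  have hpq : p ≠ q := by
    intro e
    have := congrArg Fin.val e
    simp [hp, hq] at this
  have hmp : m p = 0 := hm0 p le_rfl
  have hmq : m q = 0 := hm0 q (by rw [hqv]; omega)
  have ne_iff : ∀ j : Fin n, ((j : ℕ) < k ∨ k + 2 ≤ (j : ℕ)) ↔ (j ≠ p ∧ j ≠ q) := by
    intro j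
    rw [Ne, Ne, Fin.ext_iff, Fin.ext_iff, hpv, hqv]
    omega
  -- `τ` only depends on the coordinates before `k`
  have τdep : ∀ a a' : Fin n → ℝ, (∀ j, j ≠ p → j ≠ q → a j = a' j) → τ a = τ a' := by
    intro a a' haa
    rw [hτ, hτ, rot_sum hmp hmq haa]
  -- values of the walls of the triangle
  have hbp : ∀ a : Fin n → ℝ, bsum k (p : ℕ) a = 0 := by
    intro a
    unfold bsum
    refine Finset.sum_eq_zero fun i _ => ?_
    rw [if_neg]
    rw [hpv]; omega
  have hbq : ∀ a : Fin n → ℝ, bsum k (q : ℕ) a = a p := by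
    intro a
    unfold bsum
    rw [Finset.sum_eq_single p]
    · rw [if_pos ⟨le_rfl, by rw [hpv, hqv]; omega⟩]
    · intro i _ hi
      rw [if_neg]
      rw [hqv]
      intro hh
      exact hi (Fin.ext (by rw [hpv]; omega))
    · intro hh; exact absurd (Finset.mem_univ _) hh
  have lp : ∀ a, l p a = 0 := (h.simτ p le_rfl (by rw [hpv]; omega)).1
  have lq : ∀ a, l q a = 0 := (h.simτ q (by rw [hqv]; omega) (by rw [hqv]; omega)).1
  have up : ∀ a, u p a = τ a := fun a => by
    rw [(h.simτ p le_rfl (by rw [hpv]; omega)).2 a, hbp, sub_zero]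
  have uq : ∀ a, u q a = τ a - a p := fun a => by
    rw [(h.simτ q (by rw [hqv]; omega) (by rw [hqv]; omega)).2 a, hbq]
  -- the inverse map
  set H : (Fin n → ℝ) → (Fin n → ℝ) := fun a j =>
    if j = p then τ a - a p - a q else if j = q then a p else a j with hH
  have Hp : ∀ a, H a p = τ a - a p - a q := fun a => by simp [hH]
  have Hq : ∀ a, H a q = a p := fun a => by simp [hH, hpq.symm]
  have Hj : ∀ a j, j ≠ p → j ≠ q → H a j = a j := fun a j h1 h2 => by simp [hH, h1, h2]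
  have Hτ : ∀ a, τ (H a) = τ a := fun a => τdep _ _ fun j h1 h2 => Hj a j h1 h2
  set G := rotE m p q hpq hmp hmq with hG
  set v : Fin n → ℝ := Pi.single q s with hv
  have vp : v p = 0 := by simp [hv, hpq]
  have vq : v q = s := by simp [hv]
  have vj : ∀ j, j ≠ q → v j = 0 := fun j hj => by simp [hv, hj]
  have Gp : ∀ a, (G a + v) p = a q := fun a => by
    show rotG m p q a p + v p = _
    rw [vp]; simp [rotG]
  have Gq : ∀ a, (G a + v) q = τ a - a p - a q := fun a => by
    show rotG m p q a q + v q = _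
    rw [vq, hτ]
    simp only [rotG, if_neg hpq.symm, if_true]
    ring
  have Gj : ∀ a j, j ≠ p → j ≠ q → (G a + v) j = a j := fun a j h1 h2 => by
    show rotG m p q a j + v j = _
    rw [vj j h2]; simp [rotG, h1, h2]
  have Gτ : ∀ a, τ (G a + v) = τ a := fun a => τdep _ _ fun j h1 h2 => Gj a j h1 h2
  have HG : ∀ a, H (G a + v) = a := by
    intro a
    funext j
    by_cases h1 : j = p
    · rw [h1, Hp, Gτ, Gp, Gq]; ring
    · by_cases h2 : j = q
      · rw [h2, Hq, Gp]
      · rw [Hj _ _ h1 h2, Gj _ _ h1 h2]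
  have GH : ∀ a, G (H a) + v = a := by
    intro a
    funext j
    by_cases h1 : j = p
    · rw [h1, Gp, Hq]
    · by_cases h2 : j = q
      · rw [h2, Gq, Hτ, Hp, Hq]; ring
      · rw [Gj _ _ h1 h2, Hj _ _ h1 h2]
  -- `H` is Lipschitz
  have Hlip : ∀ y y', dist (H y) (H y') ≤ (L + 2) * dist y y' := by
    intro y y'
    have hd : 0 ≤ dist y y' := dist_nonneg
    rw [dist_pi_le_iff (by (clear * - hL; positivity))]
    have hc : ∀ j, |y j - y' j| ≤ dist y y' := fun j => by
      rw [← Real.dist_eq]; exact dist_le_pi_dist y y' j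
    intro j
    rw [Real.dist_eq]
    by_cases h1 : j = p
    · subst h1
      rw [Hp, Hp]
      have e1 : |τ y - τ y'| ≤ L * dist y y' := by
        rw [← up y, ← up y']; exact h.wu.lip p y y'
      have e2 := abs_le.1 e1
      have e3 := abs_le.1 (hc p)
      have e4 := abs_le.1 (hc q)
      rw [abs_le]
      constructor <;> nlinarith [e2.1, e2.2, e3.1, e3.2, e4.1, e4.2]
    · by_cases h2 : j = q
      · subst h2
        rw [Hq, Hq]
        have := hc p
        linarith only [mul_nonneg (sub_nonneg.2 hd) (sub_nonneg.2 hL), this, hd]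
      · rw [Hj _ _ h1 h2, Hj _ _ h1 h2]
        have := hc j
        nlinarith only [hd, this, hL]
  -- new walls
  set l' : Fin n → (Fin n → ℝ) → ℝ := fun j a => if j = p ∨ j = q then l j a else l j (H a) with hl'
  set u' : Fin n → (Fin n → ℝ) → ℝ := fun j a => if j = p ∨ j = q then u j a else u j (H a) with hu'
  have walls : ∀ F : Fin n → (Fin n → ℝ) → ℝ, Walls L F →
      Walls (L * (L + 2)) (fun j a => if j = p ∨ j = q then F j a else F j (H a)) := by
    intro F hF
    refine ⟨?_, ?_⟩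
    · intro j y y' hyy
      by_cases h1 : j = p ∨ j = q
      · simp only [if_pos h1]
        exact hF.dep j y y' hyy
      · simp only [if_neg h1]
        refine hF.dep j _ _ fun i hi => ?_
        push Not at h1
        have hj := (ne_iff j).2 h1
        have hij : (i : ℕ) < (j : ℕ) := hi
        by_cases h2 : i = p
        · have hkj : k + 2 ≤ (j : ℕ) := by
            rw [h2, hpv] at hij
            omega
          rw [h2, Hp, Hp]
          have e1 : y p = y' p := hyy p (by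
            show (p : ℕ) < (j : ℕ)
            rw [hpv]; omega)
          have e2 : y q = y' q := hyy q (by
            show (q : ℕ) < (j : ℕ)
            rw [hqv]; omega)
          have e3 : τ y = τ y' := by
            rw [hτ, hτ]
            congr 1
            refine Finset.sum_congr rfl fun i' _ => ?_
            by_cases h3 : k ≤ (i' : ℕ)
            · rw [hm0 i' h3]; simp
            · rw [hyy i' (by
                show (i' : ℕ) < (j : ℕ)
                omega)]
          rw [e1, e2, e3]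
        · by_cases h3 : i = q
          · have hkj : k + 2 ≤ (j : ℕ) := by
              rw [h3, hqv] at hij
              omega
            rw [h3, Hq, Hq]
            exact hyy p (by
              show (p : ℕ) < (j : ℕ)
              rw [hpv]; omega)
          · rw [Hj _ _ h2 h3, Hj _ _ h2 h3]
            exact hyy i hi
    · intro j y y'
      have hd : 0 ≤ dist y y' := dist_nonneg
      by_cases h1 : j = p ∨ j = q
      · simp only [if_pos h1]
        refine (hF.lip j y y').trans ?_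
        have : L ≤ L * (L + 2) := by linarith only [mul_nonneg (sub_nonneg.2 hL) (sub_nonneg.2 hL), hL]
        exact mul_le_mul_of_nonneg_right this hd
      · simp only [if_neg h1]
        refine (hF.lip j _ _).trans ?_
        rw [mul_assoc]
        exact mul_le_mul_of_nonneg_left (Hlip y y') hL
  have l'j : ∀ j a, j ≠ p → j ≠ q → l' j a = l j (H a) := fun j a h1 h2 => by
    simp [hl', h1, h2]
  have u'j : ∀ j a, j ≠ p → j ≠ q → u' j a = u j (H a) := fun j a h1 h2 => by
    simp [hu', h1, h2]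
  have l'p : ∀ a, l' p a = 0 := fun a => by simp [hl', lp]
  have l'q : ∀ a, l' q a = 0 := fun a => by simp [hl', lq]
  have u'p : ∀ a, u' p a = τ a := fun a => by simp [hu', up]
  have u'q : ∀ a, u' q a = τ a - a p := fun a => by simp [hu', uq]
  have pre : ∀ (J : ℕ) (a : Fin n → ℝ), (J ≤ k ∨ k + 2 ≤ J) → Pre l' u' J a → Pre l u J (H a) := by
    intro J a hJ hpre i hi
    by_cases h1 : i = p
    · have hJ2 : k + 2 ≤ J := by
        rw [h1, hpv] at hi
        omega
      have e1 := hpre p (by rw [hpv]; omega)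
      have e2 := hpre q (by rw [hqv]; omega)
      rw [l'p, u'p] at e1
      rw [l'q, u'q] at e2
      rw [h1, lp, up, Hτ, Hp]
      constructor <;> linarith only [e1, e2]
    · by_cases h2 : i = q
      · have hJ2 : k + 2 ≤ J := by
          rw [h2, hqv] at hi
          omega
        have e1 := hpre p (by rw [hpv]; omega)
        have e2 := hpre q (by rw [hqv]; omega)
        rw [l'p, u'p] at e1
        rw [l'q, u'q] at e2
        rw [h2, lq, uq, Hτ, Hp, Hq]
        constructor <;> linarith only [e1, e2]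
      · have e := hpre i hi
        rw [l'j _ _ h1 h2, u'j _ _ h1 h2] at e
        rw [Hj _ _ h1 h2]
        exact e
  refine ⟨G, v, l', u', fun a => σ (H a), fun i j => rotG_int m p q i j, fun i j =>
    rotI_int m p q i j, ?_, ?_, ?_, ?_⟩
  · refine ⟨walls l h.wl, walls u h.wu, h.kb, h.intτ, ?_, ?_, ?_, ?_, ?_, ?_⟩
    · refine ⟨s' + m' p * s, fun j => (if j = p then m' q - m' p else if j = q then -m' p else m' j) +
        m' p * m j, ?_, ?_⟩
      · intro j hj
        have h1 : j ≠ p := by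
          intro e; rw [e, hpv] at hj; omega
        have h2 : j ≠ q := by
          intro e; rw [e, hqv] at hj; omega
        show (if j = p then m' q - m' p else if j = q then -m' p else m' j) + m' p * m j = 0
        rw [if_neg h1, if_neg h2, hm0' j hj, hm0 j (by omega)]
        simp
      · intro a
        show σ (H a) = s' + m' p * s + ∑ j, (((if j = p then m' q - m' p else if j = q then -m' p
          else m' j) + m' p * m j : ℤ) : ℝ) * a j
        rw [hσ]
        have split : ∀ f : Fin n → ℝ, ∑ j, f j = f p + f q +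
            ∑ j ∈ (Finset.univ.erase p).erase q, f j := by
          intro f
          rw [← Finset.add_sum_erase _ f (Finset.mem_univ p),
            ← Finset.add_sum_erase _ f (Finset.mem_erase.2 ⟨hpq.symm, Finset.mem_univ q⟩)]
          ring
        have e1 : ∑ j, (m' j : ℝ) * H a j = m' p * (τ a - a p - a q) + m' q * a p +
            ∑ j ∈ (Finset.univ.erase p).erase q, (m' j : ℝ) * a j := by
          rw [split, Hp, Hq]
          congr 1
          refine Finset.sum_congr rfl fun j hj => ?_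
          rw [Finset.mem_erase, Finset.mem_erase] at hj
          rw [Hj _ _ hj.2.1 hj.1]
        have e2 : ∑ j, (((if j = p then m' q - m' p else if j = q then -m' p else m' j) +
            m' p * m j : ℤ) : ℝ) * a j = ((m' q : ℝ) - m' p) * a p + (-m' p) * a q +
            ∑ j ∈ (Finset.univ.erase p).erase q, (m' j : ℝ) * a j +
              m' p * ∑ j, (m j : ℝ) * a j := by
          rw [Finset.mul_sum]
          have e3 : ∀ j, (((if j = p then m' q - m' p else if j = q then -m' p else m' j) +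
            m' p * m j : ℤ) : ℝ) * a j =
            (((if j = p then m' q - m' p else if j = q then -m' p else m' j) : ℤ) : ℝ) * a j +
              m' p * ((m j : ℝ) * a j) := by
            intro j
            push_cast
            ring
          rw [Finset.sum_congr rfl fun j _ => e3 j, Finset.sum_add_distrib]
          congr 1
          rw [split]
          congr 1
          · simp [hpq.symm]
          · refine Finset.sum_congr rfl fun j hj => ?_
            rw [Finset.mem_erase, Finset.mem_erase] at hj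
            rw [if_neg hj.2.1, if_neg hj.1]
        rw [e1, e2, hτ]
        ring
    · intro j hj1 hj2
      by_cases h1 : j = p
      · rw [h1]
        exact ⟨l'p, fun a => by rw [u'p, hbp, sub_zero]⟩
      · have h2 : j = q := by
          by_contra h2
          have := (ne_iff j).2 ⟨h1, h2⟩
          omega
        rw [h2]
        exact ⟨l'q, fun a => by rw [u'q, hbq]⟩
    · intro j hj1 hj2
      have hne := (ne_iff j).1 (Or.inr hj1)
      obtain ⟨e1, e2⟩ := h.simσ j hj1 hj2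
      refine ⟨fun a => by rw [l'j _ _ hne.1 hne.2, e1], fun a => ?_⟩
      rw [u'j _ _ hne.1 hne.2, e2]
      congr 1
      unfold bsum
      refine Finset.sum_congr rfl fun i _ => ?_
      by_cases hi : k + 2 ≤ (i : ℕ) ∧ (i : ℕ) < (j : ℕ)
      · rw [if_pos hi, if_pos hi]
        have := (ne_iff i).1 (Or.inr hi.1)
        exact Hj _ _ this.1 this.2
      · rw [if_neg hi, if_neg hi]
    · intro j a hj hpre
      have hne := (ne_iff j).1 (by omega)
      have := h.fat j (H a) hj (pre j a (by omega) hpre)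
      rw [l'j _ _ hne.1 hne.2, u'j _ _ hne.1 hne.2]
      exact this
    · intro a hpre
      have := h.sizeτ (H a) (pre k a (Or.inl le_rfl) hpre)
      rwa [Hτ] at this
    · intro a hpre
      exact h.sizeσ (H a) (pre (k + 2) a (Or.inr le_rfl) hpre)
  · apply Set.Subset.antisymm
    · rintro _ ⟨a, ha, rfl⟩
      have ap := ha p
      have aq := ha q
      rw [lp, up] at ap
      rw [lq, uq] at aq
      intro j
      show l' j (G a + v) < (G a + v) j ∧ (G a + v) j < u' j (G a + v)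
      by_cases h1 : j = p
      · rw [h1, l'p, u'p, Gτ, Gp]
        constructor <;> linarith only [ap, aq]
      · by_cases h2 : j = q
        · rw [h2, l'q, u'q, Gτ, Gp, Gq]
          constructor <;> linarith only [ap, aq]
        · rw [l'j _ _ h1 h2, u'j _ _ h1 h2, HG, Gj _ _ h1 h2]
          exact ha j
    · intro a ha
      refine ⟨H a, ?_, GH a⟩
      intro j
      exact pre n a (Or.inr (by omega)) (fun i _ => ha i) j j.2
  · intro a j hj
    have := (ne_iff j).1 hj
    exact Gj a j this.1 this.2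
  · intro a i j hi hj
    have e1 : i = p := Fin.ext hi
    have e2 : j = q := Fin.ext hj
    rw [e1, e2]
    exact ⟨Gp a, Gq a⟩

end Vale.Agent.P209.Strong
end
end
end
end

section

section

section

section

set_option linter.all false

namespace Vale.Agent.P209.Strong

open MeasureTheory

/-- lower walls of a cell. -/
noncomputable def d3cL {n : ℕ} (l : Fin n → (Fin n → ℝ) → ℝ) (i j : Fin n) (α : ℝ)
    (τ g : (Fin n → ℝ) → ℝ) : Fin n → (Fin n → ℝ) → ℝ :=
  fun m => if m = i then fun a => α * τ a else if m = j then g else l m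

/-- upper walls of a cell. -/
noncomputable def d3cU {n : ℕ} (u : Fin n → (Fin n → ℝ) → ℝ) (i : Fin n) (β : ℝ)
    (τ : (Fin n → ℝ) → ℝ) : Fin n → (Fin n → ℝ) → ℝ :=
  fun m => if m = i then fun a => β * τ a else u m

section d3c

variable {n b : ℕ} {c L R : ℝ} {l u : Fin n → (Fin n → ℝ) → ℝ} {k : ℕ}
  {τ σ : (Fin n → ℝ) → ℝ} {i j : Fin n} {α β : ℝ} {g : (Fin n → ℝ) → ℝ}

theorem d3c_ui (h : Geo2 c L R l u k b τ σ) (hi : (i : ℕ) = k) (a : Fin n → ℝ) :
    l i a = 0 ∧ u i a = τ a := by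
  obtain ⟨h1, h2⟩ := h.simτ i (by omega) (by omega)
  refine ⟨h1 a, ?_⟩
  rw [h2 a]
  have : bsum k (i : ℕ) a = 0 := by
    unfold bsum
    refine Finset.sum_eq_zero fun m _ => ?_
    rw [if_neg (by omega)]
  rw [this, sub_zero]

theorem d3c_uj (h : Geo2 c L R l u k b τ σ) (hi : (i : ℕ) = k) (hj : (j : ℕ) = k + 1)
    (a : Fin n → ℝ) : l j a = 0 ∧ u j a = τ a - a i := by
  obtain ⟨h1, h2⟩ := h.simτ j (by omega) (by omega)
  refine ⟨h1 a, ?_⟩
  rw [h2 a]
  have : bsum k (j : ℕ) a = a i := by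
    unfold bsum
    rw [Finset.sum_eq_single i]
    · rw [if_pos (by omega)]
    · intro m _ hm
      rw [if_neg]
      intro hm2
      exact hm (Fin.ext (by omega))
    · intro hh
      exact absurd (Finset.mem_univ i) hh
  rw [this]

theorem d3c_pre (hR : 0 < R) (hc : 0 < c) (h : Geo2 c L R l u k b τ σ) (hi : (i : ℕ) = k)
    (hj : (j : ℕ) = k + 1) (hα : 0 ≤ α) (hβ : β ≤ 1)
    (hg3 : ∀ a, Pre l u j a → a i < β * τ a → 0 ≤ g a ∧ g a + τ a / 10 ≤ τ a - a i)
    {m : ℕ} {a : Fin n → ℝ} (hp : Pre (d3cL l i j α τ g) (d3cU u i β τ) m a) : Pre l u m a := by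
  have hij : j ≠ i := fun e => by rw [e] at hj; omega
  -- the coordinates before k
  have h0 : ∀ x : Fin n, (x : ℕ) < m → x ≠ i → x ≠ j → l x a < a x ∧ a x < u x a := by
    intro x hx hxi hxj
    have := hp x hx
    simp only [d3cL, d3cU, if_neg hxi, if_neg hxj] at this
    exact this
  have h1 : k < m → Pre l u k a := by
    intro hkm x hx
    exact h0 x (by omega) (fun e => by rw [e] at hx; omega) (fun e => by rw [e] at hx; omega)
  have h2 : k < m → (l i a < a i ∧ a i < u i a) ∧ a i < β * τ a := by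
    intro hkm
    have hτ := (h.sizeτ a (h1 hkm)).1
    have hτ0 : 0 < τ a := (mul_pos hc hR).trans_le hτ
    have := hp i (by omega)
    simp only [d3cL, d3cU, if_true] at this
    obtain ⟨e1, e2⟩ := d3c_ui h hi a
    rw [e1, e2]
    have h3 : 0 ≤ α * τ a := mul_nonneg hα hτ0.le
    have h4 : β * τ a ≤ 1 * τ a := mul_le_mul_of_nonneg_right hβ hτ0.le
    exact ⟨⟨by linarith only [this, h3], by linarith only [this, h4]⟩, this.2⟩
  intro x hx
  by_cases hxi : x = i
  · rw [hxi]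
    exact (h2 (by rw [hxi] at hx; omega)).1
  · by_cases hxj : x = j
    · rw [hxj]
      rw [hxj] at hx
      have hkm : k < m := by omega
      have hpre : Pre l u j a := by
        intro y hy
        by_cases hyi : y = i
        · rw [hyi]
          exact (h2 hkm).1
        · exact h1 hkm y (by
            have : (y : ℕ) ≠ (i : ℕ) := fun e => hyi (Fin.ext e)
            omega)
      have h3 := hg3 a hpre (h2 hkm).2
      have := hp j hx
      simp only [d3cL, d3cU, if_neg hij, if_true] at this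
      refine ⟨?_, this.2⟩
      rw [(d3c_uj h hi hj a).1]
      linarith only [h3, this]
    · exact h0 x hx hxi hxj

theorem d3c_box (hR : 0 < R) (hc : 0 < c) (h : Geo2 c L R l u k b τ σ) (hi : (i : ℕ) = k)
    (hj : (j : ℕ) = k + 1) (hα : 0 ≤ α) (hβ : β ≤ 1)
    (hg3 : ∀ a, Pre l u j a → a i < β * τ a → 0 ≤ g a ∧ g a + τ a / 10 ≤ τ a - a i) :
    boxSet (d3cL l i j α τ g) (d3cU u i β τ) =
      boxSet l u ∩ {a | α * τ a < a i ∧ a i < β * τ a ∧ g a < a j} := by
  have hij : j ≠ i := fun e => by rw [e] at hj; omega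
  ext a
  constructor
  · intro ha
    have hp : Pre (d3cL l i j α τ g) (d3cU u i β τ) n a := fun x _ => ha x
    have hp' := d3c_pre hR hc h hi hj hα hβ hg3 hp
    refine ⟨fun x => hp' x x.2, ?_⟩
    have hai := ha i
    have haj := ha j
    simp only [d3cL, d3cU, if_true] at hai
    simp only [d3cL, d3cU, if_neg hij, if_true] at haj
    exact ⟨hai.1, hai.2, haj.1⟩
  · rintro ⟨ha, h1, h2, h3⟩ x
    by_cases hxi : x = i
    · rw [hxi]
      simp only [d3cL, d3cU, if_true]
      exact ⟨h1, h2⟩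
    · by_cases hxj : x = j
      · rw [hxj]
        simp only [d3cL, d3cU, if_neg hij, if_true]
        exact ⟨h3, (ha j).2⟩
      · simp only [d3cL, d3cU, if_neg hxi, if_neg hxj]
        exact ha x

theorem d3c_geo (hR : 0 < R) (hc : 0 < c) (hL : 0 ≤ L) (h : Geo2 c L R l u k b τ σ)
    (hi : (i : ℕ) = k) (hj : (j : ℕ) = k + 1) {ρ : ℝ} (hρ : 0 ≤ ρ) (hρ1 : ρ ≤ 1 / 10)
    (hα : 0 ≤ α) (hαβ : α + ρ ≤ β) (hβ : β ≤ 1)
    (hg : ∀ y y', (∀ m, m < j → y m = y' m) → g y = g y')
    (hg2 : ∀ y y', |g y - g y'| ≤ L * dist y y')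
    (hg3 : ∀ a, Pre l u j a → a i < β * τ a → 0 ≤ g a ∧ g a + τ a / 10 ≤ τ a - a i) :
    Geo1 (c * ρ) L R (d3cL l i j α τ g) (d3cU u i β τ) (k + 2) b σ := by
  have hij : j ≠ i := fun e => by rw [e] at hj; omega
  have hτdep : ∀ y y' : Fin n → ℝ, (∀ m, m < i → y m = y' m) → τ y = τ y' := by
    intro y y' hy
    rw [← (d3c_ui h hi y).2, ← (d3c_ui h hi y').2]
    exact h.wu.dep i y y' hy
  have hτlip : ∀ y y' : Fin n → ℝ, |τ y - τ y'| ≤ L * dist y y' := by
    intro y y'
    rw [← (d3c_ui h hi y).2, ← (d3c_ui h hi y').2]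
    exact h.wu.lip i y y'
  have hscal : ∀ γ : ℝ, 0 ≤ γ → γ ≤ 1 → ∀ y y' : Fin n → ℝ,
      |γ * τ y - γ * τ y'| ≤ L * dist y y' := by
    intro γ h0 h1 y y'
    rw [← mul_sub, abs_mul, abs_of_nonneg h0]
    calc γ * |τ y - τ y'| ≤ 1 * |τ y - τ y'| := mul_le_mul_of_nonneg_right h1 (abs_nonneg _)
      _ ≤ L * dist y y' := by rw [one_mul]; exact hτlip y y'
  have hα1 : α ≤ 1 := by linarith only [hρ, hαβ, hβ]
  have hβ0 : 0 ≤ β := by linarith only [hρ, hα, hαβ]
  have hρc : c * ρ * R ≤ c * R / 10 := by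
    have : c * ρ * R = (c * R) * ρ := by ring
    rw [this, div_eq_mul_one_div]
    exact mul_le_mul_of_nonneg_left hρ1 (mul_pos hc hR).le
  have hcR := mul_pos hc hR
  have hpre : ∀ {m : ℕ} {a : Fin n → ℝ}, Pre (d3cL l i j α τ g) (d3cU u i β τ) m a →
      Pre l u m a := fun hp => d3c_pre hR hc h hi hj hα hβ hg3 hp
  refine ⟨⟨fun m y y' hy => ?_, fun m y y' => ?_⟩, ⟨fun m y y' hy => ?_, fun m y y' => ?_⟩, h.kb,
    h.intσ, fun m h1 h2 => ?_, fun m a hm hp => ?_, fun a hp => ?_⟩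
  · by_cases hmi : m = i
    · simp only [d3cL, if_pos hmi]
      rw [hτdep y y' (fun x hx => hy x (by rw [hmi]; exact hx))]
    · by_cases hmj : m = j
      · simp only [d3cL, if_neg hmi, if_pos hmj]
        exact hg y y' (fun x hx => hy x (by rw [hmj]; exact hx))
      · simp only [d3cL, if_neg hmi, if_neg hmj]
        exact h.wl.dep m y y' hy
  · by_cases hmi : m = i
    · simp only [d3cL, if_pos hmi]
      exact hscal α hα hα1 y y'
    · by_cases hmj : m = j
      · simp only [d3cL, if_neg hmi, if_pos hmj]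
        exact hg2 y y'
      · simp only [d3cL, if_neg hmi, if_neg hmj]
        exact h.wl.lip m y y'
  · by_cases hmi : m = i
    · simp only [d3cU, if_pos hmi]
      rw [hτdep y y' (fun x hx => hy x (by rw [hmi]; exact hx))]
    · simp only [d3cU, if_neg hmi]
      exact h.wu.dep m y y' hy
  · by_cases hmi : m = i
    · simp only [d3cU, if_pos hmi]
      exact hscal β hβ0 hβ y y'
    · simp only [d3cU, if_neg hmi]
      exact h.wu.lip m y y'
  · have hmi : m ≠ i := fun e => by rw [e] at h1; omega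
    have hmj : m ≠ j := fun e => by rw [e] at h1; omega
    simp only [d3cL, d3cU, if_neg hmi, if_neg hmj]
    exact h.simσ m h1 h2
  · have hp' := hpre hp
    by_cases hmi : m = i
    · rw [hmi] at hp' ⊢
      simp only [d3cL, d3cU, if_true]
      rw [hi] at hp'
      obtain ⟨s1, s2⟩ := h.sizeτ a hp'
      have hτ0 : 0 < τ a := hcR.trans_le s1
      have e1 : β * τ a - α * τ a = (β - α) * τ a := by ring
      rw [e1]
      constructor
      · calc c * ρ * R = ρ * (c * R) := by ring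
          _ ≤ (β - α) * τ a := mul_le_mul (by linarith only [hαβ]) s1 hcR.le (by linarith only [hρ, hαβ])
      · calc (β - α) * τ a ≤ 1 * τ a := mul_le_mul_of_nonneg_right (by linarith only [hα, hβ]) hτ0.le
          _ ≤ R := by linarith only [s2]
    · by_cases hmj : m = j
      · rw [hmj] at hp' hp ⊢
        simp only [d3cL, d3cU, if_neg hij, if_true]
        have hpk : Pre l u k a := fun x hx => hp' x (by omega)
        obtain ⟨s1, s2⟩ := h.sizeτ a hpk
        have hpi := hp i (by omega)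
        simp only [d3cL, d3cU, if_true] at hpi
        have h3 := hg3 a hp' hpi.2
        have hpi' := hp' i (by omega)
        rw [(d3c_ui h hi a).1] at hpi'
        rw [(d3c_uj h hi hj a).2]
        constructor <;> linarith only [hρc, s1, h3, s2, hpi']
      · simp only [d3cL, d3cU, if_neg hmi, if_neg hmj]
        have hmk : (m : ℕ) ≠ k := fun e => hmi (Fin.ext (by omega))
        have hmk1 : (m : ℕ) ≠ k + 1 := fun e => hmj (Fin.ext (by omega))
        obtain ⟨s1, s2⟩ := h.fat m a (by omega) hp'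
        constructor <;> linarith only [hρc, hcR, s1, s2]
  · obtain ⟨s1, s2⟩ := h.sizeσ a (hpre hp)
    constructor <;> linarith only [hρc, hcR, s1, s2]

end d3c

/-- A cell in the triangle of the form `α τ < a_k < β τ`, `g < a_{k+1} (< τ - a_k)` is filled
(`i, j` are the indices `k`, `k + 1`). -/
theorem Geo2.cell_fill {n b : ℕ} (hn : 2 ≤ n) (hS : S1 n b) (c L δ N : ℝ) (hc : 0 < c)
    (hL : 0 ≤ L) (hδ : 0 < δ) (hδ1 : δ ≤ 1) (hN : 0 ≤ N) : ∃ R0 : ℝ, 0 < R0 ∧ ∀ R, R0 ≤ R →
    ∀ (l u : Fin n → (Fin n → ℝ) → ℝ) (k : ℕ) (τ σ : (Fin n → ℝ) → ℝ), Geo2 c L R l u k b τ σ →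
      ∀ (i j : Fin n), (i : ℕ) = k → (j : ℕ) = k + 1 → ∀ (β : ℝ) (g : (Fin n → ℝ) → ℝ),
        1 / 5 ≤ β → β ≤ 1 → (∀ y y', (∀ m, m < j → y m = y' m) → g y = g y') →
        (∀ y y', |g y - g y'| ≤ L * dist y y') →
        (∀ a, Pre l u j a → a i < β * τ a → 0 ≤ g a ∧ g a + τ a / 10 ≤ τ a - a i) →
        Fill δ N (boxSet l u ∩ {a | a i < β * τ a ∧ g a < a j}) := by
  obtain ⟨R0, hR0, hR0'⟩ := hS (c * (1 / 10)) L δ N (by positivity) hL hδ hδ1 hN
  refine ⟨R0, hR0, fun R hR l u k τ σ h i j hi hj β g hβ5 hβ hg hg2 hg3 => ?_⟩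
  have hRp : 0 < R := hR0.trans_le hR
  have h1 := hR0' R hR _ _ _ _ (d3c_geo (α := 0) hRp hc hL h hi hj (by norm_num) le_rfl le_rfl
    (by linarith only [hβ5]) hβ hg hg2 hg3)
  rw [d3c_box hRp hc h hi hj le_rfl hβ hg3] at h1
  convert h1 using 1
  ext a
  constructor
  · rintro ⟨ha, h2, h3⟩
    refine ⟨ha, ?_, h2, h3⟩
    have := (ha i).1
    rw [(d3c_ui h hi a).1] at this
    rw [zero_mul]
    exact this
  · rintro ⟨ha, _, h2, h3⟩
    exact ⟨ha, h2, h3⟩

/-- Lower bound for the volume of such a cell. -/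
theorem Geo2.cell_volume {n b : ℕ} {c L R : ℝ} (hc : 0 < c) (hL : 0 ≤ L) (hR : 0 < R)
    {l u : Fin n → (Fin n → ℝ) → ℝ} {k : ℕ} {τ σ : (Fin n → ℝ) → ℝ}
    (h : Geo2 c L R l u k b τ σ) {i j : Fin n} (hi : (i : ℕ) = k) (hj : (j : ℕ) = k + 1)
    {α β : ℝ} {g : (Fin n → ℝ) → ℝ} (hα : 0 ≤ α) (hαβ : α + 1 / 100 ≤ β) (hβ : β ≤ 1)
    (hg : ∀ y y', (∀ m, m < j → y m = y' m) → g y = g y')
    (hg2 : ∀ y y', |g y - g y'| ≤ L * dist y y')
    (hg3 : ∀ a, Pre l u j a → a i < β * τ a → 0 ≤ g a ∧ g a + τ a / 10 ≤ τ a - a i) :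
    (c / (100 * (n + 1)) * R) ^ n ≤
      (volume (boxSet l u ∩ {a | α * τ a ≤ a i ∧ a i < β * τ a ∧ g a < a j})).toReal := by
  have h1 := (d3c_geo (α := α) hR hc hL h hi hj (ρ := 1 / 100) (by norm_num) (by norm_num) hα
    hαβ hβ hg hg2 hg3).volume_ge (by positivity) hL hR
  have h2 := (d3c_geo (α := 0) hR hc hL h hi hj (ρ := 1 / 100) (by norm_num) (by norm_num) le_rfl
    (by linarith only [hα, hαβ]) hβ hg hg2 hg3).volume_ge (by positivity) hL hR
  rw [d3c_box hR hc h hi hj hα hβ hg3] at h1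
  rw [d3c_box hR hc h hi hj le_rfl hβ hg3] at h2
  have e1 : c / (100 * (n + 1)) * R = c * (1 / 100) / (n + 1) * R := by
    (clear * - hR hc; field_simp)
  rw [e1]
  refine h1.1.trans (ENNReal.toReal_mono ?_ (measure_mono ?_))
  · refine ne_top_of_le_ne_top h2.2 (measure_mono ?_)
    rintro a ⟨ha, _, h3, h4⟩
    refine ⟨ha, ?_, h3, h4⟩
    have := (ha i).1
    rw [(d3c_ui h hi a).1] at this
    rw [zero_mul]
    exact this
  · rintro a ⟨ha, h3, h4, h5⟩
    exact ⟨ha, h3.le, h4, h5⟩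

end Vale.Agent.P209.Strong
end
end
end
end

section

section

section

section

set_option linter.all false

namespace Vale.Agent.P209.Strong

open MeasureTheory

theorem d3s_congr {n k : ℕ} {σ : (Fin n → ℝ) → ℝ} (h : IntAff k σ) {a a' : Fin n → ℝ}
    (ha : ∀ m : Fin n, (m : ℕ) < k → a m = a' m) : σ a = σ a' := by
  obtain ⟨s, m, hm, hσ⟩ := h
  rw [hσ, hσ]
  congr 1
  refine Finset.sum_congr rfl fun j _ => ?_
  rcases lt_or_ge (j : ℕ) k with hj | hj
  · rw [ha j hj]
  · rw [hm j hj]; simp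

theorem d3s_bsum {n k : ℕ} {i : Fin n} (hi : (i : ℕ) = k) (a : Fin n → ℝ) :
    bsum k k a = 0 ∧ bsum k (k + 1) a = a i := by
  unfold bsum
  constructor
  · exact Finset.sum_eq_zero fun m _ => if_neg (by omega)
  · rw [Finset.sum_eq_single i]
    · rw [if_pos (by omega)]
    · intro m _ hm
      rw [if_neg]
      intro h
      exact hm (Fin.ext (by omega))
    · intro h; exact absurd (Finset.mem_univ _) h

section

variable {n b k : ℕ} {c L R : ℝ} {l u : Fin n → (Fin n → ℝ) → ℝ} {τ σ : (Fin n → ℝ) → ℝ}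

theorem Geo2.d3s_walls (h : Geo2 c L R l u k b τ σ) {i j : Fin n} (hi : (i : ℕ) = k)
    (hj : (j : ℕ) = k + 1) : (∀ a, l i a = 0) ∧ (∀ a, u i a = τ a) ∧ (∀ a, l j a = 0) ∧
      ∀ a, u j a = τ a - a i := by
  obtain ⟨h1, h2⟩ := h.simτ i (by omega) (by omega)
  obtain ⟨h3, h4⟩ := h.simτ j (by omega) (by omega)
  refine ⟨h1, fun a => ?_, h3, fun a => ?_⟩
  · rw [h2, hi, (d3s_bsum hi a).1, sub_zero]
  · rw [h4, hj, (d3s_bsum hi a).2]

theorem Geo2.d3s_lip (h : Geo2 c L R l u k b τ σ) (y y' : Fin n → ℝ) :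
    |τ y - τ y'| ≤ L * dist y y' := by
  have hkb := h.kb
  obtain ⟨-, h2, -, -⟩ := h.d3s_walls (i := ⟨k, by omega⟩) (j := ⟨k + 1, by omega⟩) rfl rfl
  rw [← h2, ← h2]
  exact h.wu.lip _ y y'

theorem Geo2.d3s_mono {L' : ℝ} (h : Geo2 c L R l u k b τ σ) (hL : L ≤ L') :
    Geo2 c L' R l u k b τ σ where
  wl := ⟨h.wl.dep, fun j y y' => (h.wl.lip j y y').trans
    (mul_le_mul_of_nonneg_right hL dist_nonneg)⟩
  wu := ⟨h.wu.dep, fun j y y' => (h.wu.lip j y y').trans
    (mul_le_mul_of_nonneg_right hL dist_nonneg)⟩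
  kb := h.kb
  intτ := h.intτ
  intσ := h.intσ
  simτ := h.simτ
  simσ := h.simσ
  fat := h.fat
  sizeτ := h.sizeτ
  sizeσ := h.sizeσ

theorem d3s_bdd (hl : Walls L l) (hu : Walls L u) : volume (boxSet l u) ≠ ⊤ := by
  have key : ∀ m ≤ n, ∃ B : ℝ, 0 ≤ B ∧ ∀ a ∈ boxSet l u, ∀ i : Fin n, (i : ℕ) < m → |a i| ≤ B := by
    intro m
    induction m with
    | zero => intro _; exact ⟨0, le_rfl, fun a _ i hi => by omega⟩
    | succ m ih =>
      intro hm
      obtain ⟨B, hB, hb⟩ := ih (by omega)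
      set j : Fin n := ⟨m, by omega⟩ with hj
      refine ⟨B + |l j 0| + |u j 0| + |L| * B, by (clear * - hB; positivity), fun a ha i hi => ?_⟩
      rcases Nat.lt_succ_iff_lt_or_eq.1 hi with h | h
      · have := hb a ha i h
        have h1 : 0 ≤ |l j 0| + |u j 0| + |L| * B := by (clear * - hB; positivity)
        linarith only [this, h1]
      · have hij : i = j := Fin.ext h
        rw [hij]
        set a' : Fin n → ℝ := fun i => if (i : ℕ) < m then a i else 0 with ha'
        have hd : dist a' 0 ≤ B := by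
          rw [dist_pi_le_iff hB]
          intro x
          simp only [ha', Pi.zero_apply, Real.dist_eq, sub_zero]
          split_ifs with hx
          · exact hb a ha x hx
          · simpa only [abs_zero] using hB
        have hLd : L * dist a' 0 ≤ |L| * B :=
          (mul_le_mul_of_nonneg_right (le_abs_self L) dist_nonneg).trans
            (mul_le_mul_of_nonneg_left hd (abs_nonneg L))
        have hdep : ∀ i, i < j → a i = a' i := by
          intro x hx
          have hx' : (x : ℕ) < m := hx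
          simp only [ha', if_pos hx']
        have h1 : l j a = l j a' := hl.dep j a a' hdep
        have h2 : u j a = u j a' := hu.dep j a a' hdep
        have h3 := (hl.lip j a' 0).trans hLd
        have h4 := (hu.lip j a' 0).trans hLd
        have h5 := ha j
        rw [h1, h2] at h5
        rw [abs_le] at h3 h4 ⊢
        have h6 := neg_abs_le (l j 0)
        have h7 := le_abs_self (u j 0)
        have h8 := abs_nonneg (l j 0)
        have h9 := abs_nonneg (u j 0)
        constructor <;> linarith only [hB, h3, h5, h6, h9, h4, h7, h8]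
  obtain ⟨B, hB, hb⟩ := key n le_rfl
  have h1 : boxSet l u ⊆ Metric.closedBall 0 B := by
    intro a ha
    rw [Metric.mem_closedBall, dist_pi_le_iff hB]
    intro i
    simpa using hb a ha i i.2
  exact (Metric.isBounded_closedBall.subset h1).measure_lt_top.ne

theorem d3s_cont {F : (Fin n → ℝ) → ℝ} (hF : ∀ y y', |F y - F y'| ≤ L * dist y y') :
    Continuous F := by
  have h1 : LipschitzWith L.toNNReal F := by
    refine LipschitzWith.of_dist_le_mul fun y y' => ?_
    rw [Real.dist_eq]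
    exact (hF y y').trans (mul_le_mul_of_nonneg_right (Real.le_coe_toNNReal L) dist_nonneg)
  exact h1.continuous

theorem d3s_meas (hl : Walls L l) (hu : Walls L u) : MeasurableSet (boxSet l u) := by
  have e : boxSet l u = ⋂ j, ({y | l j y < y j} ∩ {y | y j < u j y}) := by
    ext y
    simp only [boxSet, Set.mem_setOf_eq, Set.mem_iInter, Set.mem_inter_iff]
  rw [e]
  refine MeasurableSet.iInter fun j => ?_
  exact (measurableSet_lt (d3s_cont (hl.lip j)).measurable (measurable_pi_apply j)).inter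
    (measurableSet_lt (measurable_pi_apply j) (d3s_cont (hu.lip j)).measurable)

end

theorem d3s_det {n : ℕ} (G : (Fin n → ℝ) ≃ₗ[ℝ] (Fin n → ℝ))
    (hG : ∀ i j, ∃ m : ℤ, G (Pi.single i 1) j = m) :
    ∃ d : ℤ, LinearMap.det (G : (Fin n → ℝ) →ₗ[ℝ] (Fin n → ℝ)) = d := by
  choose M hM using hG
  refine ⟨(Matrix.of fun j i => M i j).det, ?_⟩
  rw [← LinearMap.det_toMatrix', Int.cast_det]
  congr 1
  ext j i
  simp [LinearMap.toMatrix'_apply, hM]

theorem d3s_volume {n : ℕ} (G : (Fin n → ℝ) ≃ₗ[ℝ] (Fin n → ℝ))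
    (hG : ∀ i j, ∃ m : ℤ, G (Pi.single i 1) j = m)
    (hG' : ∀ i j, ∃ m : ℤ, G.symm (Pi.single i 1) j = m) (v : Fin n → ℝ)
    (S : Set (Fin n → ℝ)) : volume ((fun a => G a + v) '' S) = volume S := by
  obtain ⟨d, hd⟩ := d3s_det G hG
  obtain ⟨d', hd'⟩ := d3s_det G.symm hG'
  have h1 : LinearMap.det (G : (Fin n → ℝ) →ₗ[ℝ] (Fin n → ℝ)) *
      LinearMap.det (G.symm : (Fin n → ℝ) →ₗ[ℝ] (Fin n → ℝ)) = 1 := by
    rw [← LinearMap.det_comp]
    simp
  rw [hd, hd'] at h1
  have h2 : d * d' = 1 := by exact_mod_cast h1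
  have h3 : |(d : ℝ)| = 1 := by
    rcases Int.isUnit_iff.1 (IsUnit.of_mul_eq_one _ h2) with h | h <;> simp [h]
  have e : (fun a => G a + v) '' S = (fun x => x + v) '' (G '' S) := by
    rw [Set.image_image]
  rw [e, Set.image_add_right, measure_preimage_add_right]
  have h4 := Measure.addHaar_image_linearMap (volume : Measure (Fin n → ℝ))
    (G : (Fin n → ℝ) →ₗ[ℝ] (Fin n → ℝ)) S
  rw [hd, h3] at h4
  simpa using h4

theorem d3s_null {n k : ℕ} {τ : (Fin n → ℝ) → ℝ} (h : IntAff k τ) {i j : Fin n}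
    (hi : k ≤ (i : ℕ)) (hj : k ≤ (j : ℕ)) (hij : i ≠ j) {p q : ℝ} (hpq : p ≠ 0 ∨ q ≠ 0) (t : ℝ) :
    volume {a : Fin n → ℝ | p * a i + q * a j = t * τ a} = 0 := by
  obtain ⟨s, m, hm, hσ⟩ := h
  have e : {a : Fin n → ℝ | p * a i + q * a j = t * τ a} = {a | ∑ x, ((if x = i then p else 0) +
      (if x = j then q else 0) - t * m x) * a x = t * s} := by
    ext a
    simp only [Set.mem_setOf_eq]
    have h1 : ∑ x, ((if x = i then p else 0) + (if x = j then q else 0) - t * m x) * a x =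
        p * a i + q * a j - t * ∑ x, (m x : ℝ) * a x := by
      simp only [sub_mul, add_mul, Finset.sum_sub_distrib, Finset.sum_add_distrib, ite_mul,
        zero_mul, Finset.sum_ite_eq', Finset.mem_univ, if_true, Finset.mul_sum, mul_assoc]
    rw [h1, hσ, mul_add]
    constructor <;> intro h <;> linarith only [h]
  rw [e]
  refine volume_affine_zero _ ?_ _
  intro h0
  rcases hpq with h | h
  · have := congrFun h0 i
    simp [hij, hm i hi] at this
    exact h this
  · have := congrFun h0 j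
    simp [hij.symm, hm j hj] at this
    exact h this

section

variable {n b k : ℕ} {c L R : ℝ} {l u : Fin n → (Fin n → ℝ) → ℝ} {τ σ : (Fin n → ℝ) → ℝ}

/-- In the box, the three barycentric coordinates are positive. -/
theorem Geo2.d3s_pos (h : Geo2 c L R l u k b τ σ) {i j : Fin n} (hi : (i : ℕ) = k)
    (hj : (j : ℕ) = k + 1) {a : Fin n → ℝ} (ha : Pre l u j a) : 0 < a i ∧ a i < τ a := by
  obtain ⟨h1, h2, h3, h4⟩ := h.d3s_walls hi hj
  have h5 := ha i (by omega)
  rw [h1, h2] at h5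
  exact h5

theorem d3s_pre {j : ℕ} {a : Fin n → ℝ} (ha : a ∈ boxSet l u) : Pre l u j a := fun m _ => ha m

/-- conditions for the first type of cells -/
theorem Geo2.d3s_condA (h : Geo2 c L R l u k b τ σ) {i j : Fin n} (hi : (i : ℕ) = k)
    (hj : (j : ℕ) = k + 1) {β γ : ℝ} (hβ : β ≤ 2 / 5) (hγ0 : 0 ≤ γ) (hγ : γ ≤ 2 / 5) :
    (∀ y y' : Fin n → ℝ, (∀ m, m < j → y m = y' m) → γ * τ y = γ * τ y') ∧
    (∀ y y', |γ * τ y - γ * τ y'| ≤ L * dist y y') ∧
    (∀ a, Pre l u j a → a i < β * τ a → 0 ≤ γ * τ a ∧ γ * τ a + τ a / 10 ≤ τ a - a i) := by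
  refine ⟨fun y y' hy => ?_, fun y y' => ?_, fun a ha hβa => ?_⟩
  · rw [d3s_congr h.intτ (a := y) (a' := y') fun m hm => hy m (by
      rw [Fin.lt_def]; omega)]
  · rw [← mul_sub, abs_mul, abs_of_nonneg hγ0]
    have h1 := h.d3s_lip y y'
    have h2 := abs_nonneg (τ y - τ y')
    linarith only [mul_nonneg (sub_nonneg.2 h2) (sub_nonneg.2 hγ), h2, h1]
  · obtain ⟨h1, h2⟩ := h.d3s_pos hi hj ha
    have h3 : 0 < τ a := h1.trans h2
    exact ⟨by (clear * - hγ0 h3; positivity), by nlinarith only [hβa, h1, hβ, h2, hγ]⟩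

/-- conditions for the second type of cells -/
theorem Geo2.d3s_condB (h : Geo2 c L R l u k b τ σ) {L₀ : ℝ}
    (hL0 : ∀ y y', |τ y - τ y'| ≤ L₀ * dist y y') (hLL : L₀ + 1 ≤ L) {i j : Fin n}
    (hi : (i : ℕ) = k) (hj : (j : ℕ) = k + 1) {β γ : ℝ} (hβ0 : 0 ≤ β) (hβ : β ≤ 2 / 5)
    (hγ0 : 0 ≤ γ) (hγ : γ ≤ 2 / 5) :
    (∀ y y' : Fin n → ℝ, (∀ m, m < j → y m = y' m) →
      min (β * τ y) (τ y - y i - γ * τ y) = min (β * τ y') (τ y' - y' i - γ * τ y')) ∧
    (∀ y y', |min (β * τ y) (τ y - y i - γ * τ y) - min (β * τ y') (τ y' - y' i - γ * τ y')| ≤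
      L * dist y y') ∧
    (∀ a, Pre l u j a → a i < 2 / 5 * τ a → 0 ≤ min (β * τ a) (τ a - a i - γ * τ a) ∧
      min (β * τ a) (τ a - a i - γ * τ a) + τ a / 10 ≤ τ a - a i) := by
  refine ⟨fun y y' hy => ?_, fun y y' => ?_, fun a ha hβa => ?_⟩
  · rw [d3s_congr h.intτ (a := y) (a' := y') fun m hm => hy m (by
      rw [Fin.lt_def]; omega), hy i (by rw [Fin.lt_def]; omega)]
  · refine (abs_min_sub_min_le_max _ _ _ _).trans (max_le ?_ ?_)
    · rw [← mul_sub, abs_mul, abs_of_nonneg hβ0]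
      have h1 := hL0 y y'
      have h2 := abs_nonneg (τ y - τ y')
      have h3 : 0 ≤ dist y y' := dist_nonneg
      linarith only [mul_nonneg (sub_nonneg.2 h3) (sub_nonneg.2 hLL), mul_nonneg (sub_nonneg.2 h2) (sub_nonneg.2 hβ), h3, h2, h1]
    · have h1 := hL0 y y'
      have h2 := abs_nonneg (τ y - τ y')
      have h3 : |y i - y' i| ≤ dist y y' := by
        rw [← Real.dist_eq]; exact dist_le_pi_dist y y' i
      have e : τ y - y i - γ * τ y - (τ y' - y' i - γ * τ y') =
          (1 - γ) * (τ y - τ y') - (y i - y' i) := by ring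
      rw [e]
      have h4 : |(1 - γ) * (τ y - τ y')| ≤ |τ y - τ y'| := by
        rw [abs_mul, abs_of_nonneg (by linarith only [hγ] : 0 ≤ 1 - γ)]
        nlinarith only [hγ0, h2]
      have h5 := abs_sub ((1 - γ) * (τ y - τ y')) (y i - y' i)
      have h6 : 0 ≤ dist y y' := dist_nonneg
      linarith only [mul_nonneg (sub_nonneg.2 hLL) (sub_nonneg.2 h6), h5, h4, h3, h1]
  · obtain ⟨h1, h2⟩ := h.d3s_pos hi hj ha
    have h3 : 0 < τ a := h1.trans h2
    refine ⟨le_min (by (clear * - hβ0 h3; positivity)) (by nlinarith only [hβa, h1, hγ]), ?_⟩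
    have h4 := min_le_left (β * τ a) (τ a - a i - γ * τ a)
    nlinarith only [hβa, h1, h4, hβ]

end

/-- the pinwheel -/
theorem S2_of_S1 (n b : ℕ) (hn : 2 ≤ n) (h : S1 n b) : S2 n b := by
  intro c L δ N hc hL hδ hδ1 hN
  set Λ0 : ℝ := L + 1 with hΛ0
  set Λ1 : ℝ := Λ0 * (Λ0 + 2) with hΛ1
  set Λ2 : ℝ := Λ1 * (Λ1 + 2) with hΛ2
  have hp0 : 1 ≤ Λ0 := by linarith only [hL]
  have h01 : Λ0 + 1 ≤ Λ1 := by rw [hΛ1]; linarith only [mul_nonneg (sub_nonneg.2 hL) (sub_nonneg.2 hL), hL]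
  have h12 : Λ1 + 1 ≤ Λ2 := by rw [hΛ2]; nlinarith only [hL, h01]
  obtain ⟨R0, hR0, hfill⟩ := Geo2.cell_fill hn h c Λ2 δ N hc (by linarith only [hL, h01, h12]) hδ hδ1 hN
  have hK : 0 < c / (100 * ((n : ℝ) + 1)) := by positivity
  refine ⟨max R0 (2 / (c / (100 * ((n : ℝ) + 1)))), lt_max_of_lt_left hR0,
    fun R hR l u k τ σ hgeo => ?_⟩
  have hRR0 : R0 ≤ R := (le_max_left _ _).trans hR
  have hRpos : 0 < R := hR0.trans_le hRR0
  have hbigR : 2 ≤ c / (100 * ((n : ℝ) + 1)) * R := by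
    have := (le_max_right _ _).trans hR
    rw [div_le_iff₀ hK] at this
    linarith only [this]
  have hpow : 1 / (n.factorial : ℝ) < (c / (100 * ((n : ℝ) + 1)) * R) ^ n := by
    have h1 : 1 / (n.factorial : ℝ) ≤ 1 := by
      rw [div_le_one (by positivity)]
      exact_mod_cast n.factorial_pos
    have h2 : (1 : ℝ) < (c / (100 * ((n : ℝ) + 1)) * R) ^ n :=
      one_lt_pow₀ (by linarith only [hbigR]) (by omega)
    linarith only [h1, h2]
  have hkb := hgeo.kb
  set i : Fin n := ⟨k, by omega⟩ with hi'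
  set j : Fin n := ⟨k + 1, by omega⟩ with hj'
  have hi : (i : ℕ) = k := rfl
  have hj : (j : ℕ) = k + 1 := rfl
  have hij : i ≠ j := by rw [Ne, Fin.ext_iff]; omega
  have hg0 : Geo2 c Λ0 R l u k b τ σ := hgeo.d3s_mono (by linarith only [])
  obtain ⟨G, v, l', u', σ', hG, hG', hg1, himg, hfix, hact⟩ := Geo2.rot (by linarith only [hL]) hg0
  obtain ⟨G2, v2, l2, u2, σ2, hG2, hG2', hg2, himg2, hfix2, hact2⟩ := Geo2.rot (by linarith only [hL, h01]) hg1
  have hτ1 : ∀ a, τ (G a + v) = τ a := fun a =>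
    d3s_congr hgeo.intτ fun m hm => hfix a m (Or.inl hm)
  have hτ2 : ∀ a, τ (G2 a + v2) = τ a := fun a =>
    d3s_congr hgeo.intτ fun m hm => hfix2 a m (Or.inl hm)
  have hgA : Geo2 c Λ2 R l u k b τ σ := hg0.d3s_mono (by linarith only [h01, h12])
  have hgB : Geo2 c Λ2 R l' u' k b τ σ' := hg1.d3s_mono (by linarith only [h12])
  -- the three fillings
  have F1 : ∀ γ γ' : ℝ, 1 / 3 ≤ γ → γ ≤ 2 / 5 → 1 / 3 ≤ γ' → γ' ≤ 2 / 5 →
      Fill δ N (boxSet l u ∩ {a | a i < γ' * τ a ∧ γ * τ a < a j}) := by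
    intro γ γ' h1 h2 h3 h4
    obtain ⟨q1, q2, q3⟩ := hgA.d3s_condA hi hj h4 (by linarith only [h1]) h2
    exact hfill R hRR0 l u k τ σ hgA i j hi hj γ' (fun a => γ * τ a) (by linarith only [h3]) (by linarith only [h4])
      q1 q2 q3
  have F2 : ∀ γ : ℝ, 1 / 3 ≤ γ → γ ≤ 2 / 5 →
      Fill δ N (boxSet l u ∩ {a | a j < γ * τ a ∧ 2 / 5 * τ a < τ a - a i - a j}) := by
    intro γ h1 h2
    obtain ⟨q1, q2, q3⟩ := hgB.d3s_condA hi hj h2 (by norm_num : (0:ℝ) ≤ 2 / 5) le_rfl
    have h3 := hfill R hRR0 l' u' k τ σ' hgB i j hi hj γ (fun a => 2 / 5 * τ a) (by linarith only [h1])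
      (by linarith only [h2]) q1 q2 q3
    refine Fill.image G hG hG' v ?_
    have e : boxSet l u ∩ {a | a j < γ * τ a ∧ 2 / 5 * τ a < τ a - a i - a j} =
        boxSet l u ∩ (fun a => G a + v) ⁻¹' {a | a i < γ * τ a ∧ 2 / 5 * τ a < a j} := by
      ext a
      simp only [Set.mem_inter_iff, Set.mem_setOf_eq, Set.mem_preimage]
      rw [hτ1, (hact a i j hi hj).1, (hact a i j hi hj).2]
    rw [e, Set.image_inter_preimage, himg]
    exact h3
  have F0 : ∀ γ γ' : ℝ, 1 / 3 ≤ γ → γ ≤ 2 / 5 → 1 / 3 ≤ γ' → γ' ≤ 2 / 5 →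
      Fill δ N (boxSet l u ∩ {a | τ a - a i - a j < 2 / 5 * τ a ∧
        min (γ' * τ a) (τ a - (τ a - a i - a j) - γ * τ a) < a i}) := by
    intro γ γ' h1 h2 h3 h4
    obtain ⟨q1, q2, q3⟩ := hg2.d3s_condB (L₀ := Λ1) hg1.d3s_lip h12 hi hj (by linarith only [h3] : 0 ≤ γ')
      h4 (by linarith only [h1] : 0 ≤ γ) h2
    have h5 := hfill R hRR0 l2 u2 k τ σ2 hg2 i j hi hj (2 / 5)
      (fun a => min (γ' * τ a) (τ a - a i - γ * τ a)) (by norm_num) (by norm_num) q1 q2 q3
    refine Fill.image G hG hG' v ?_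
    have e : boxSet l u ∩ {a | τ a - a i - a j < 2 / 5 * τ a ∧
        min (γ' * τ a) (τ a - (τ a - a i - a j) - γ * τ a) < a i} =
        boxSet l u ∩ (fun a => G a + v) ⁻¹' ((fun a => G2 a + v2) ⁻¹'
          {a | a i < 2 / 5 * τ a ∧ min (γ' * τ a) (τ a - a i - γ * τ a) < a j}) := by
      ext a
      simp only [Set.mem_inter_iff, Set.mem_setOf_eq, Set.mem_preimage]
      rw [hτ2, hτ1, (hact2 _ i j hi hj).1, (hact2 _ i j hi hj).2, hτ1, (hact a i j hi hj).1,
        (hact a i j hi hj).2]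
      rw [show τ a - a j - (τ a - a i - a j) = a i by ring]
    rw [e, Set.image_inter_preimage, himg]
    refine Fill.image G2 hG2 hG2' v2 ?_
    rw [Set.image_inter_preimage, himg2]
    exact h5
  -- volumes
  have hfin : volume (boxSet l u) ≠ ⊤ := d3s_bdd hgeo.wl hgeo.wu
  have hmeas : MeasurableSet (boxSet l u) := d3s_meas hgeo.wl hgeo.wu
  have hτc : Continuous τ := d3s_cont hgeo.d3s_lip
  have hτm : Measurable τ := hτc.measurable
  have hai : Measurable fun a : Fin n → ℝ => a i := measurable_pi_apply i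
  have haj : Measurable fun a : Fin n → ℝ => a j := measurable_pi_apply j
  have hfin' : ∀ S : Set (Fin n → ℝ), S ⊆ boxSet l u → volume S ≠ ⊤ := fun S hS =>
    ((measure_mono hS).trans_lt hfin.lt_top).ne
  have hpos : ∀ a ∈ boxSet l u, 0 < a i ∧ a i < τ a := fun a ha =>
    hgeo.d3s_pos hi hj (d3s_pre ha)
  have hposj : ∀ a ∈ boxSet l u, 0 < a j ∧ a j < τ a - a i := by
    intro a ha
    obtain ⟨-, -, h3, h4⟩ := hgeo.d3s_walls hi hj
    have h5 := ha j
    rw [h3, h4] at h5
    exact h5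
  -- covering up to null sets
  have hcover : ∀ (S T Z U : Set (Fin n → ℝ)), U ⊆ boxSet l u → S ⊆ boxSet l u →
      T ⊆ boxSet l u → U ⊆ (S ∪ T) ∪ Z → volume Z = 0 →
      (volume U).toReal ≤ (volume S).toReal + (volume T).toReal := by
    intro S T Z U hU hS hT hc hZ
    have h1 : volume U ≤ volume S + volume T := by
      calc volume U ≤ volume ((S ∪ T) ∪ Z) := measure_mono hc
        _ ≤ volume (S ∪ T) + volume Z := measure_union_le _ _
        _ = volume (S ∪ T) := by rw [hZ, add_zero]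
        _ ≤ volume S + volume T := measure_union_le _ _
    rw [← ENNReal.toReal_add (hfin' S hS) (hfin' T hT)]
    exact ENNReal.toReal_mono (ENNReal.add_ne_top.2 ⟨hfin' S hS, hfin' T hT⟩) h1
  have nullj : ∀ t : ℝ, volume {a : Fin n → ℝ | a j = t * τ a} = 0 := by
    intro t
    have := d3s_null hgeo.intτ hi.ge (by omega : k ≤ (j : ℕ)) hij (p := 0) (q := 1)
      (Or.inr one_ne_zero) t
    simpa only [zero_mul, one_mul, zero_add] using this
  have nulli : ∀ t : ℝ, volume {a : Fin n → ℝ | a i = t * τ a} = 0 := by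
    intro t
    have := d3s_null hgeo.intτ hi.ge (by omega : k ≤ (j : ℕ)) hij (p := 1) (q := 0)
      (Or.inl one_ne_zero) t
    simpa only [one_mul, zero_mul, add_zero] using this
  have null0 : volume {a : Fin n → ℝ | τ a - a i - a j = 2 / 5 * τ a} = 0 := by
    have := d3s_null hgeo.intτ hi.ge (by omega : k ≤ (j : ℕ)) hij (p := 1) (q := 1)
      (Or.inl one_ne_zero) (3 / 5)
    refine measure_mono_null ?_ this
    intro a ha
    simp only [Set.mem_setOf_eq] at ha ⊢
    linarith only [ha]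
  -- the differences of volumes
  have hdiff : ∀ (Ω₁ : Set (Fin n → ℝ)) (f : (Fin n → ℝ) → ℝ), Ω₁ ⊆ boxSet l u →
      MeasurableSet Ω₁ → Measurable f →
      (c / (100 * ((n : ℝ) + 1)) * R) ^ n ≤
        (volume (Ω₁ ∩ {a | 1 / 3 * τ a ≤ f a ∧ f a < 2 / 5 * τ a})).toReal →
      (volume (Ω₁ ∩ {a | f a < 1 / 3 * τ a})).toReal + 1 / (n.factorial : ℝ) <
        (volume (Ω₁ ∩ {a | f a < 2 / 5 * τ a})).toReal := by
    intro Ω₁ f hΩ hΩm hf hv
    have hd : Disjoint (Ω₁ ∩ {a | f a < 1 / 3 * τ a})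
        (Ω₁ ∩ {a | 1 / 3 * τ a ≤ f a ∧ f a < 2 / 5 * τ a}) := by
      rw [Set.disjoint_left]
      intro a h1 h2
      have h3 := h1.2
      have h4 := h2.2.1
      simp only [Set.mem_setOf_eq] at h3
      linarith only [h4, h3]
    have hm2 : MeasurableSet (Ω₁ ∩ {a | 1 / 3 * τ a ≤ f a ∧ f a < 2 / 5 * τ a}) :=
      hΩm.inter ((measurableSet_le (hτm.const_mul _) hf).inter
        (measurableSet_lt hf (hτm.const_mul _)))
    have h1 : volume (Ω₁ ∩ {a | f a < 1 / 3 * τ a}) +
        volume (Ω₁ ∩ {a | 1 / 3 * τ a ≤ f a ∧ f a < 2 / 5 * τ a}) ≤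
        volume (Ω₁ ∩ {a | f a < 2 / 5 * τ a}) := by
      rw [← measure_union hd hm2]
      refine measure_mono ?_
      rintro a (⟨h1, h2⟩ | ⟨h1, h2⟩)
      · refine ⟨h1, ?_⟩
        simp only [Set.mem_setOf_eq] at h2 ⊢
        have := hpos a (hΩ h1)
        linarith only [h2, this]
      · exact ⟨h1, h2.2⟩
    have f1 := hfin' (Ω₁ ∩ {a | f a < 1 / 3 * τ a}) (Set.inter_subset_left.trans hΩ)
    have f2 := hfin' (Ω₁ ∩ {a | 1 / 3 * τ a ≤ f a ∧ f a < 2 / 5 * τ a})
      (Set.inter_subset_left.trans hΩ)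
    have f3 := hfin' (Ω₁ ∩ {a | f a < 2 / 5 * τ a}) (Set.inter_subset_left.trans hΩ)
    have h2 := ENNReal.toReal_mono f3 h1
    rw [ENNReal.toReal_add f1 f2] at h2
    linarith only [hpow, hv, h2]
  -- second split
  have FV : ∀ γ : ℝ, 1 / 3 ≤ γ → γ ≤ 2 / 5 → Fill δ N (boxSet l u ∩
      {a | γ * τ a < a j ∨ τ a - a i - a j < 2 / 5 * τ a}) := by
    intro γ hγ1 hγ2
    have hsub3 : boxSet l u ∩ {a | γ * τ a < a j} ⊆ boxSet l u := Set.inter_subset_left
    have hm3 : MeasurableSet (boxSet l u ∩ {a | γ * τ a < a j}) :=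
      hmeas.inter (measurableSet_lt (hτm.const_mul _) haj)
    have hre : ∀ γ' : ℝ, boxSet l u ∩ {a | a i < γ' * τ a ∧ γ * τ a < a j} =
        (boxSet l u ∩ {a | γ * τ a < a j}) ∩ {a | a i < γ' * τ a} := by
      intro γ'
      ext a
      simp only [Set.mem_inter_iff, Set.mem_setOf_eq]
      (clear * -; tauto)
    refine Fill.split (by omega) hδ1 (hfin' _ Set.inter_subset_left)
      (fun γ' => boxSet l u ∩ {a | a i < γ' * τ a ∧ γ * τ a < a j})
      (fun γ' => boxSet l u ∩ {a | τ a - a i - a j < 2 / 5 * τ a ∧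
        min (γ' * τ a) (τ a - (τ a - a i - a j) - γ * τ a) < a i})
      (c₀ := 1 / 3) (c₁ := 2 / 5) (by norm_num) ?_ ?_ ?_ ?_ ?_ ?_ ?_ ?_
    · rintro γ' _ _ a ⟨h1, h2⟩
      exact ⟨h1, Or.inl h2.2⟩
    · rintro γ' _ _ a ⟨h1, h2⟩
      exact ⟨h1, Or.inr h2.1⟩
    · intro γ' _ _
      rw [Set.disjoint_left]
      rintro a ⟨h1, h2, h3⟩ ⟨-, h4, h5⟩
      rcases min_lt_iff.1 h5 with h6 | h6 <;> linarith only [h2, h6, h3]
    · intro γ' hγ'1 hγ'2
      refine hcover _ _ ({a | a i = γ' * τ a} ∪ {a | a j = γ * τ a}) _ Set.inter_subset_left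
        Set.inter_subset_left Set.inter_subset_left ?_ ?_
      · rintro a ⟨h1, h2⟩
        have hp := hpos a h1
        have hpj := hposj a h1
        by_cases e1 : a i = γ' * τ a
        · exact Or.inr (Or.inl e1)
        by_cases e2 : a j = γ * τ a
        · exact Or.inr (Or.inr e2)
        left
        rcases lt_or_gt_of_ne e2 with h3 | h3
        · -- `a j < γ τ`
          right
          have h4 : τ a - a i - a j < 2 / 5 * τ a := by
            rcases h2 with h2 | h2
            · exact absurd h3 (not_lt.2 (le_of_lt h2))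
            · exact h2
          exact ⟨h1, h4, min_lt_of_right_lt (by linarith only [h3])⟩
        · rcases lt_or_gt_of_ne e1 with h4 | h4
          · exact Or.inl ⟨h1, h4, h3⟩
          · right
            refine ⟨h1, ?_, min_lt_of_left_lt h4⟩
            have h5 : 0 < τ a := hp.1.trans hp.2
            nlinarith only [hp, h3, h4, hγ1, hγ'1]
      · exact measure_union_null (nulli γ') (nullj γ)
    · have h1 := volume_lt_continuous (hfin' _ hsub3) hm3 hai hτm
        (fun a ha => (hpos a ha.1).1.trans (hpos a ha.1).2)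
        (fun t => measure_mono_null Set.inter_subset_right (nulli t))
      simp only [hre]
      exact h1.continuousOn
    · simp only [hre]
      refine hdiff _ (fun a => a i) hsub3 hm3 hai ?_
      obtain ⟨q1, q2, q3⟩ := hgA.d3s_condA hi hj (le_refl (2 / 5 : ℝ)) (by linarith only [hγ1]) hγ2
      have h1 := Geo2.cell_volume hc (by linarith only [hL, h01, h12]) hRpos hgA hi hj (α := 1 / 3) (β := 2 / 5)
        (g := fun a => γ * τ a) (by norm_num) (by norm_num) (by norm_num) q1 q2 q3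
      refine h1.trans (le_of_eq ?_)
      congr 2
      ext a
      simp only [Set.mem_inter_iff, Set.mem_setOf_eq]
      (clear * -; tauto)
    · intro γ' h1 h2
      exact F1 γ γ' hγ1 hγ2 h1 h2
    · intro γ' h1 h2
      exact F0 γ γ' hγ1 hγ2 h1 h2
  -- first split
  have hsub4 : boxSet l u ∩ {a | 2 / 5 * τ a < τ a - a i - a j} ⊆ boxSet l u :=
    Set.inter_subset_left
  have hm4 : MeasurableSet (boxSet l u ∩ {a | 2 / 5 * τ a < τ a - a i - a j}) :=
    hmeas.inter (measurableSet_lt (hτm.const_mul _) ((hτm.sub hai).sub haj))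
  have hre2 : ∀ γ : ℝ, boxSet l u ∩ {a | a j < γ * τ a ∧ 2 / 5 * τ a < τ a - a i - a j} =
      (boxSet l u ∩ {a | 2 / 5 * τ a < τ a - a i - a j}) ∩ {a | a j < γ * τ a} := by
    intro γ
    ext a
    simp only [Set.mem_inter_iff, Set.mem_setOf_eq]
    (clear * -; tauto)
  refine Fill.split (by omega) hδ1 hfin
    (fun γ => boxSet l u ∩ {a | a j < γ * τ a ∧ 2 / 5 * τ a < τ a - a i - a j})
    (fun γ => boxSet l u ∩ {a | γ * τ a < a j ∨ τ a - a i - a j < 2 / 5 * τ a})
    (c₀ := 1 / 3) (c₁ := 2 / 5) (by norm_num) ?_ ?_ ?_ ?_ ?_ ?_ ?_ ?_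
  · intro γ _ _
    exact Set.inter_subset_left
  · intro γ _ _
    exact Set.inter_subset_left
  · intro γ _ _
    rw [Set.disjoint_left]
    rintro a ⟨h1, h2, h3⟩ ⟨-, h4⟩
    rcases h4 with h4 | h4 <;> linarith only [h2, h4, h3]
  · intro γ hγ1 hγ2
    refine hcover _ _ ({a | a j = γ * τ a} ∪ {a | τ a - a i - a j = 2 / 5 * τ a}) _ le_rfl
      Set.inter_subset_left Set.inter_subset_left ?_ ?_
    · intro a h1
      by_cases e1 : a j = γ * τ a
      · exact Or.inr (Or.inl e1)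
      by_cases e2 : τ a - a i - a j = 2 / 5 * τ a
      · exact Or.inr (Or.inr e2)
      left
      rcases lt_or_gt_of_ne e1 with h3 | h3
      · rcases lt_or_gt_of_ne e2 with h4 | h4
        · exact Or.inr ⟨h1, Or.inr h4⟩
        · exact Or.inl ⟨h1, h3, h4⟩
      · exact Or.inr ⟨h1, Or.inl h3⟩
    · exact measure_union_null (nullj γ) null0
  · have h1 := volume_lt_continuous (hfin' _ hsub4) hm4 haj hτm
      (fun a ha => (hpos a ha.1).1.trans (hpos a ha.1).2)
      (fun t => measure_mono_null Set.inter_subset_right (nullj t))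
    simp only [hre2]
    exact h1.continuousOn
  · simp only [hre2]
    refine hdiff _ (fun a => a j) hsub4 hm4 haj ?_
    obtain ⟨q1, q2, q3⟩ := hgB.d3s_condA hi hj (le_refl (2 / 5 : ℝ)) (by norm_num : (0:ℝ) ≤ 2 / 5)
      le_rfl
    have h1 := Geo2.cell_volume hc (by linarith only [hL, h01, h12]) hRpos hgB hi hj (α := 1 / 3) (β := 2 / 5)
      (g := fun a => 2 / 5 * τ a) (by norm_num) (by norm_num) (by norm_num) q1 q2 q3
    refine h1.trans (le_of_eq ?_)
    have e : boxSet l u ∩ {a | 2 / 5 * τ a < τ a - a i - a j} ∩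
        {a | 1 / 3 * τ a ≤ a j ∧ a j < 2 / 5 * τ a} =
        boxSet l u ∩ (fun a => G a + v) ⁻¹' {a | 1 / 3 * τ a ≤ a i ∧ a i < 2 / 5 * τ a ∧
          2 / 5 * τ a < a j} := by
      ext a
      simp only [Set.mem_inter_iff, Set.mem_setOf_eq, Set.mem_preimage]
      rw [hτ1, (hact a i j hi hj).1, (hact a i j hi hj).2]
      (clear * -; tauto)
    rw [e, ← d3s_volume G hG hG' v (boxSet l u ∩ (fun a => G a + v) ⁻¹' _),
      Set.image_inter_preimage, himg]
  · intro γ h1 h2
    exact F2 γ h1 h2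
  · intro γ h1 h2
    exact FV γ h1 h2

end Vale.Agent.P209.Strong
end
end
end
end

section

section

section

section

namespace Vale.Agent.P209.Strong

open MeasureTheory

namespace HM

/-- block sum, split off one coordinate -/
theorem bsum_succ {n : ℕ} {k : ℕ} (j : Fin n) (hj : k ≤ (j : ℕ)) (a : Fin n → ℝ) :
    bsum k (j + 1) a = bsum k j a + a j := by
  unfold bsum
  have h : ∀ i : Fin n, (if k ≤ (i : ℕ) ∧ (i : ℕ) < (j : ℕ) + 1 then a i else 0) =
      (if k ≤ (i : ℕ) ∧ (i : ℕ) < (j : ℕ) then a i else 0) + (if i = j then a i else 0) := by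
    intro i
    by_cases h1 : i = j
    · subst h1
      have h2 : ¬ (k ≤ (i : ℕ) ∧ (i : ℕ) < (i : ℕ)) := by omega
      have h3 : k ≤ (i : ℕ) ∧ (i : ℕ) < (i : ℕ) + 1 := by omega
      rw [if_neg h2, if_pos h3, if_pos rfl]; ring
    · have h1' : (i : ℕ) ≠ (j : ℕ) := fun h => h1 (Fin.ext h)
      rw [if_neg h1, add_zero]
      by_cases h2 : k ≤ (i : ℕ) ∧ (i : ℕ) < (j : ℕ)
      · rw [if_pos h2, if_pos (by omega)]
      · rw [if_neg h2, if_neg (by omega)]
  rw [Finset.sum_congr rfl fun i _ => h i, Finset.sum_add_distrib]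
  simp only [Fin.val_fin_lt, Finset.sum_ite_eq', Finset.mem_univ, ↓reduceIte]

theorem bsum_split {n : ℕ} {k m j : ℕ} (h1 : k ≤ m) (h2 : m ≤ j) (a : Fin n → ℝ) :
    bsum k j a = bsum k m a + bsum m j a := by
  unfold bsum
  rw [← Finset.sum_add_distrib]
  refine Finset.sum_congr rfl fun i _ => ?_
  by_cases h3 : (i : ℕ) < m
  · have h4 : ¬ (m ≤ (i : ℕ) ∧ (i : ℕ) < j) := by omega
    rw [if_neg h4, add_zero]
    by_cases h5 : k ≤ (i : ℕ) ∧ (i : ℕ) < m
    · rw [if_pos h5, if_pos (by omega)]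
    · rw [if_neg h5, if_neg (by omega)]
  · have h4 : ¬ (k ≤ (i : ℕ) ∧ (i : ℕ) < m) := by omega
    rw [if_neg h4, zero_add]
    by_cases h5 : m ≤ (i : ℕ) ∧ (i : ℕ) < j
    · rw [if_pos h5, if_pos (by omega)]
    · rw [if_neg h5, if_neg (by omega)]

theorem bsum_self {n : ℕ} {k : ℕ} (a : Fin n → ℝ) : bsum k k a = 0 := by
  unfold bsum
  refine Finset.sum_eq_zero fun i _ => if_neg (by omega)

theorem bsum_nonneg {n : ℕ} {k j : ℕ} {a : Fin n → ℝ}
    (h : ∀ i : Fin n, k ≤ (i : ℕ) → (i : ℕ) < j → 0 < a i) : 0 ≤ bsum k j a := by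
  unfold bsum
  refine Finset.sum_nonneg fun i _ => ?_
  split_ifs with h1
  · exact (h i h1.1 h1.2).le
  · exact le_rfl

theorem bsum_congr {n : ℕ} {k j : ℕ} {a a' : Fin n → ℝ}
    (h : ∀ i : Fin n, k ≤ (i : ℕ) → (i : ℕ) < j → a i = a' i) : bsum k j a = bsum k j a' := by
  unfold bsum
  refine Finset.sum_congr rfl fun i _ => ?_
  split_ifs with h1
  · exact h i h1.1 h1.2
  · rfl

theorem bsum_lip {n : ℕ} {k j : ℕ} (a a' : Fin n → ℝ) :
    |bsum k j a - bsum k j a'| ≤ n * dist a a' := by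
  unfold bsum
  rw [← Finset.sum_sub_distrib]
  refine (Finset.abs_sum_le_sum_abs _ _).trans ?_
  have h : ∀ i ∈ (Finset.univ : Finset (Fin n)),
      |(if k ≤ (i : ℕ) ∧ (i : ℕ) < j then a i else 0) -
        (if k ≤ (i : ℕ) ∧ (i : ℕ) < j then a' i else 0)| ≤ dist a a' := by
    intro i _
    split_ifs with h1
    · rw [← Real.dist_eq]; exact dist_le_pi_dist a a' i
    · simp
  refine (Finset.sum_le_sum h).trans ?_
  simp only [Finset.sum_const, Finset.card_univ, Fintype.card_fin, nsmul_eq_mul, Std.le_refl]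

/-- the simplex block in terms of the full sum -/
theorem block_iff {n : ℕ} {k b : ℕ} (hb : 1 ≤ b) (hkb : k + b ≤ n) (y : Fin n → ℝ) (s : ℝ) :
    (∀ j : Fin n, k ≤ (j : ℕ) → (j : ℕ) < k + b → 0 < y j ∧ y j < s - bsum k j y) ↔
      (∀ j : Fin n, k ≤ (j : ℕ) → (j : ℕ) < k + b → 0 < y j) ∧ bsum k (k + b) y < s := by
  constructor
  · intro h
    refine ⟨fun j h1 h2 => (h j h1 h2).1, ?_⟩
    have h3 := (h ⟨k + b - 1, by omega⟩ (by simp only; omega) (by simp only [tsub_lt_self_iff, add_pos_iff, Order.lt_one_iff, and_true]; omega)).2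
    have h4 := bsum_succ (k := k) (⟨k + b - 1, by omega⟩ : Fin n) (by simp only; omega) y
    simp only at h3 h4
    rw [show k + b - 1 + 1 = k + b by omega] at h4
    linarith only [h3, h4]
  · rintro ⟨h1, h2⟩ j h3 h4
    refine ⟨h1 j h3 h4, ?_⟩
    have h5 := bsum_succ (k := k) j h3 y
    have h6 := bsum_split (k := k) (m := (j : ℕ) + 1) (j := k + b) (by omega) (by omega) y
    have h7 : 0 ≤ bsum ((j : ℕ) + 1) (k + b) y :=
      bsum_nonneg fun i h8 h9 => h1 i (by omega) h9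
    linarith only [h2, h5, h6, h7]

/-- the permutation of the block -/
def fw (k b j : ℕ) : ℕ :=
  if k ≤ j ∧ j < k + b then (if j = k then k + b - 1 else if j = k + 1 then k + b - 2 else j - 2)
  else j

def bw (k b j : ℕ) : ℕ :=
  if k ≤ j ∧ j < k + b then (if j = k + b - 1 then k else if j = k + b - 2 then k + 1 else j + 2)
  else j

theorem fw_lt {n k b j : ℕ} (hkb : k + b ≤ n) (hj : j < n) : fw k b j < n := by
  unfold fw; split_ifs <;> omega

theorem bw_lt {n k b j : ℕ} (hkb : k + b ≤ n) (hj : j < n) : bw k b j < n := by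
  unfold bw; split_ifs <;> omega

theorem bw_fw {k b j : ℕ} (hb : 3 ≤ b) : bw k b (fw k b j) = j := by
  unfold fw
  split_ifs with h1 h2 h3
  · unfold bw
    rw [if_pos (by omega), if_pos rfl]; omega
  · unfold bw
    rw [if_pos (by omega), if_neg (by omega), if_pos rfl]; omega
  · unfold bw
    rw [if_pos (by omega), if_neg (by omega), if_neg (by omega)]; omega
  · unfold bw
    rw [if_neg h1]

theorem fw_bw {k b j : ℕ} (hb : 3 ≤ b) : fw k b (bw k b j) = j := by
  unfold bw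
  split_ifs with h1 h2 h3
  · unfold fw
    rw [if_pos (by omega), if_pos rfl]; omega
  · unfold fw
    rw [if_pos (by omega), if_neg (by omega), if_pos rfl]; omega
  · unfold fw
    rw [if_pos (by omega), if_neg (by omega), if_neg (by omega)]; omega
  · unfold fw
    rw [if_neg h1]

def perm {n k b : ℕ} (hb : 3 ≤ b) (hkb : k + b ≤ n) : Equiv.Perm (Fin n) where
  toFun j := ⟨fw k b j, fw_lt hkb j.2⟩
  invFun j := ⟨bw k b j, bw_lt hkb j.2⟩
  left_inv j := by ext; exact bw_fw hb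
  right_inv j := by ext; exact fw_bw hb

theorem bsum_perm {n k b : ℕ} (hb : 3 ≤ b) (hkb : k + b ≤ n) (a : Fin n → ℝ) :
    bsum k (k + b) (fun j => a ((perm hb hkb).symm j)) = bsum k (k + b) a := by
  unfold bsum
  rw [← Equiv.sum_comp (perm hb hkb).symm
    (fun i : Fin n => if k ≤ (i : ℕ) ∧ (i : ℕ) < k + b then a i else 0)]
  refine Finset.sum_congr rfl fun i _ => ?_
  have h : (((perm hb hkb).symm i : Fin n) : ℕ) = bw k b i := rfl
  have h2 : (k ≤ (i : ℕ) ∧ (i : ℕ) < k + b) ↔ (k ≤ bw k b i ∧ bw k b i < k + b) := by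
    unfold bw
    split_ifs <;> omega
  simp only [h]
  by_cases h3 : k ≤ (i : ℕ) ∧ (i : ℕ) < k + b
  · rw [if_pos h3, if_pos (h2.1 h3)]
  · rw [if_neg h3, if_neg (fun h4 => h3 (h2.2 h4))]

theorem bsum_perm' {n k b : ℕ} (hb : 3 ≤ b) (hkb : k + b ≤ n) (a : Fin n → ℝ) :
    bsum k (k + b) (fun j => a (perm hb hkb j)) = bsum k (k + b) a := by
  rw [← bsum_perm hb hkb (fun j => a (perm hb hkb j))]
  simp

def pp {n k b : ℕ} (hb : 3 ≤ b) (hkb : k + b ≤ n) : Fin n := ⟨k + b - 2, by omega⟩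
def q0 {n k b : ℕ} (hb : 3 ≤ b) (hkb : k + b ≤ n) : Fin n := ⟨k, by omega⟩
def q1 {n k b : ℕ} (hb : 3 ≤ b) (hkb : k + b ≤ n) : Fin n := ⟨k + 1, by omega⟩
def qe {n k b : ℕ} (hb : 3 ≤ b) (hkb : k + b ≤ n) : Fin n := ⟨k + b - 1, by omega⟩

/-- the inverse of the coordinate change -/
noncomputable def gi {n k b : ℕ} (hb : 3 ≤ b) (hkb : k + b ≤ n) (σ : (Fin n → ℝ) → ℝ)
    (y : Fin n → ℝ) : Fin n → ℝ :=
  Function.update (fun j => y ((perm hb hkb).symm j)) (pp hb hkb) (σ y - bsum k (k + b) y)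

theorem symm_val {n k b : ℕ} (hb : 3 ≤ b) (hkb : k + b ≤ n) (j : Fin n) :
    (((perm hb hkb).symm j : Fin n) : ℕ) = bw k b j := rfl

theorem perm_val {n k b : ℕ} (hb : 3 ≤ b) (hkb : k + b ≤ n) (j : Fin n) :
    ((perm hb hkb j : Fin n) : ℕ) = fw k b j := rfl

theorem symm_out {n k b : ℕ} (hb : 3 ≤ b) (hkb : k + b ≤ n) (j : Fin n)
    (h : (j : ℕ) < k ∨ k + b ≤ (j : ℕ)) : (perm hb hkb).symm j = j := by
  apply Fin.ext
  rw [symm_val]; unfold bw
  rw [if_neg (by omega)]

theorem perm_out {n k b : ℕ} (hb : 3 ≤ b) (hkb : k + b ≤ n) (j : Fin n)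
    (h : (j : ℕ) < k ∨ k + b ≤ (j : ℕ)) : perm hb hkb j = j := by
  apply Fin.ext
  rw [perm_val]; unfold fw
  rw [if_neg (by omega)]

theorem symm_block {n k b : ℕ} (hb : 3 ≤ b) (hkb : k + b ≤ n) (j : Fin n)
    (h : k ≤ (j : ℕ) ∧ (j : ℕ) < k + b) : k ≤ (((perm hb hkb).symm j : Fin n) : ℕ) ∧
      (((perm hb hkb).symm j : Fin n) : ℕ) < k + b := by
  rw [symm_val]; unfold bw
  rw [if_pos h]
  split_ifs <;> omega

theorem perm_block {n k b : ℕ} (hb : 3 ≤ b) (hkb : k + b ≤ n) (j : Fin n)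
    (h : k ≤ (j : ℕ) ∧ (j : ℕ) < k + b) : k ≤ ((perm hb hkb j : Fin n) : ℕ) ∧
      ((perm hb hkb j : Fin n) : ℕ) < k + b := by
  rw [perm_val]; unfold fw
  rw [if_pos h]
  split_ifs <;> omega

theorem perm_q1 {n k b : ℕ} (hb : 3 ≤ b) (hkb : k + b ≤ n) :
    perm hb hkb (q1 hb hkb) = pp hb hkb := by
  apply Fin.ext
  rw [perm_val]
  show fw k b (k + 1) = k + b - 2
  unfold fw
  rw [if_pos (by omega), if_neg (by omega), if_pos rfl]

theorem symm_pp {n k b : ℕ} (hb : 3 ≤ b) (hkb : k + b ≤ n) :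
    (perm hb hkb).symm (pp hb hkb) = q1 hb hkb := by
  rw [← perm_q1, Equiv.symm_apply_apply]

theorem perm_q0 {n k b : ℕ} (hb : 3 ≤ b) (hkb : k + b ≤ n) :
    perm hb hkb (q0 hb hkb) = qe hb hkb := by
  apply Fin.ext
  rw [perm_val]
  show fw k b k = k + b - 1
  unfold fw
  rw [if_pos (by omega), if_pos rfl]

theorem symm_qe {n k b : ℕ} (hb : 3 ≤ b) (hkb : k + b ≤ n) :
    (perm hb hkb).symm (qe hb hkb) = q0 hb hkb := by
  rw [← perm_q0, Equiv.symm_apply_apply]

theorem gi_out {n k b : ℕ} (hb : 3 ≤ b) (hkb : k + b ≤ n) (σ : (Fin n → ℝ) → ℝ)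
    (y : Fin n → ℝ) (i : Fin n) (h : (i : ℕ) < k ∨ k + b ≤ (i : ℕ)) :
    gi hb hkb σ y i = y i := by
  have h1 : i ≠ pp hb hkb := by
    intro h2; subst h2; simp only [pp] at h; omega
  rw [gi, Function.update_of_ne h1, symm_out hb hkb i h]

theorem gi_pp {n k b : ℕ} (hb : 3 ≤ b) (hkb : k + b ≤ n) (σ : (Fin n → ℝ) → ℝ)
    (y : Fin n → ℝ) : gi hb hkb σ y (pp hb hkb) = σ y - bsum k (k + b) y := by
  rw [gi, Function.update_self]

theorem gi_ne {n k b : ℕ} (hb : 3 ≤ b) (hkb : k + b ≤ n) (σ : (Fin n → ℝ) → ℝ)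
    (y : Fin n → ℝ) (i : Fin n) (h : i ≠ pp hb hkb) :
    gi hb hkb σ y i = y ((perm hb hkb).symm i) := by
  rw [gi, Function.update_of_ne h]

theorem gi_qe {n k b : ℕ} (hb : 3 ≤ b) (hkb : k + b ≤ n) (σ : (Fin n → ℝ) → ℝ)
    (y : Fin n → ℝ) : gi hb hkb σ y (qe hb hkb) = y (q0 hb hkb) := by
  rw [gi_ne, symm_qe]
  intro h
  have := congrArg Fin.val h
  simp only [qe, pp] at this
  omega

theorem bsum_update {n k j : ℕ} (a : Fin n → ℝ) (p : Fin n) (hp : k ≤ (p : ℕ) ∧ (p : ℕ) < j)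
    (x : ℝ) : bsum k j (Function.update a p x) = bsum k j a - a p + x := by
  unfold bsum
  have h : ∀ i : Fin n, (if k ≤ (i : ℕ) ∧ (i : ℕ) < j then Function.update a p x i else 0) =
      (if k ≤ (i : ℕ) ∧ (i : ℕ) < j then a i else 0) + (if i = p then x - a p else 0) := by
    intro i
    by_cases h1 : i = p
    · subst h1
      rw [if_pos hp, if_pos hp, if_pos rfl, Function.update_self]; ring
    · rw [Function.update_of_ne h1, if_neg h1, add_zero]
  rw [Finset.sum_congr rfl fun i _ => h i, Finset.sum_add_distrib]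
  simp only [Finset.sum_ite_eq', Finset.mem_univ, if_true]
  ring

theorem bsum_gi {n k b : ℕ} (hb : 3 ≤ b) (hkb : k + b ≤ n) (σ : (Fin n → ℝ) → ℝ)
    (y : Fin n → ℝ) : bsum k (k + b) (gi hb hkb σ y) = σ y - y (q1 hb hkb) := by
  rw [gi, bsum_update _ _ (by simp only [pp]; omega), bsum_perm, symm_pp]
  ring

theorem bsum_gi' {n k b : ℕ} (hb : 3 ≤ b) (hkb : k + b ≤ n) (σ : (Fin n → ℝ) → ℝ)
    (y : Fin n → ℝ) : bsum k (k + b - 1) (gi hb hkb σ y) =
      σ y - y (q0 hb hkb) - y (q1 hb hkb) := by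
  have h1 := bsum_succ (k := k) (qe hb hkb) (by simp only [qe]; omega) (gi hb hkb σ y)
  have h2 : ((qe hb hkb : Fin n) : ℕ) = k + b - 1 := rfl
  rw [h2, show k + b - 1 + 1 = k + b by omega, bsum_gi, gi_qe] at h1
  linarith only [h1]

theorem bsum_two {n k b : ℕ} (hb : 3 ≤ b) (hkb : k + b ≤ n) (y : Fin n → ℝ) :
    bsum k (k + 2) y = y (q0 hb hkb) + y (q1 hb hkb) := by
  have h1 := bsum_succ (k := k) (q1 hb hkb) (by simp only [q1]; omega) y
  have h2 := bsum_succ (k := k) (q0 hb hkb) (by simp only [q0]; omega) y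
  have h3 : ((q1 hb hkb : Fin n) : ℕ) = k + 1 := rfl
  have h4 : ((q0 hb hkb : Fin n) : ℕ) = k := rfl
  rw [h3] at h1
  rw [h4, bsum_self] at h2
  rw [show k + 2 = k + 1 + 1 by rfl, h1, h2]
  ring

theorem intAff_congr {n k : ℕ} {σ : (Fin n → ℝ) → ℝ} (h : IntAff k σ) {y y' : Fin n → ℝ}
    (hy : ∀ i : Fin n, (i : ℕ) < k → y i = y' i) : σ y = σ y' := by
  obtain ⟨s, m, h1, h2⟩ := h
  rw [h2, h2]
  congr 1
  refine Finset.sum_congr rfl fun j _ => ?_
  by_cases hj : (j : ℕ) < k
  · rw [hy j hj]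
  · rw [h1 j (by omega)]; simp

theorem sigma_gi {n k b : ℕ} (hb : 3 ≤ b) (hkb : k + b ≤ n) {σ : (Fin n → ℝ) → ℝ}
    (h : IntAff k σ) (y : Fin n → ℝ) : σ (gi hb hkb σ y) = σ y :=
  intAff_congr h fun i hi => gi_out hb hkb σ y i (Or.inl hi)

/-- linear version of the block sum -/
noncomputable def bL {n : ℕ} (k j : ℕ) : (Fin n → ℝ) →ₗ[ℝ] ℝ :=
  ∑ i : Fin n, if k ≤ (i : ℕ) ∧ (i : ℕ) < j then LinearMap.proj i else 0

theorem bL_apply {n : ℕ} (k j : ℕ) (a : Fin n → ℝ) : bL k j a = bsum k j a := by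
  unfold bL bsum
  rw [LinearMap.sum_apply]
  refine Finset.sum_congr rfl fun i _ => ?_
  split_ifs <;> simp

/-- linear part of the barycentric coordinate -/
noncomputable def eL {n : ℕ} (k b : ℕ) (m : Fin n → ℤ) : (Fin n → ℝ) →ₗ[ℝ] ℝ :=
  (∑ i : Fin n, (m i : ℝ) • LinearMap.proj i) - bL k (k + b)

theorem eL_apply {n : ℕ} (k b : ℕ) (m : Fin n → ℤ) (a : Fin n → ℝ) :
    eL k b m a = ∑ i, (m i : ℝ) * a i - bsum k (k + b) a := by
  unfold eL
  rw [LinearMap.sub_apply, bL_apply, LinearMap.sum_apply]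
  simp only [LinearMap.smul_apply, LinearMap.coe_proj, Function.eval, smul_eq_mul]

noncomputable def SL {n : ℕ} (k b : ℕ) (m : Fin n → ℤ) (p : Fin n) :
    (Fin n → ℝ) →ₗ[ℝ] (Fin n → ℝ) :=
  LinearMap.pi fun j => if j = p then eL k b m else LinearMap.proj j

theorem SL_apply {n : ℕ} (k b : ℕ) (m : Fin n → ℤ) (p : Fin n) (a : Fin n → ℝ) :
    SL k b m p a = Function.update a p (eL k b m a) := by
  funext j
  unfold SL
  rw [LinearMap.pi_apply]
  by_cases h : j = p
  · subst h; simp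
  · rw [if_neg h, Function.update_of_ne h]; simp

theorem SL_inv {n : ℕ} (k b : ℕ) (m : Fin n → ℤ) (p : Fin n)
    (hp : k ≤ (p : ℕ) ∧ (p : ℕ) < k + b) (hm : m p = 0) :
    Function.Involutive (SL k b m p) := by
  intro a
  have h1 : ∑ i, (m i : ℝ) * Function.update a p (eL k b m a) i = ∑ i, (m i : ℝ) * a i := by
    refine Finset.sum_congr rfl fun i _ => ?_
    by_cases h : i = p
    · subst h; rw [hm]; simp
    · rw [Function.update_of_ne h]
  have h2 : eL k b m (Function.update a p (eL k b m a)) = a p := by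
    rw [eL_apply, bsum_update _ _ hp, h1, eL_apply]; ring
  rw [SL_apply, SL_apply, h2, Function.update_idem]
  funext j
  by_cases h : j = p
  · subst h
    rw [Function.update_self]
  · rw [Function.update_of_ne h]

theorem SL_int {n : ℕ} (k b : ℕ) (m : Fin n → ℤ) (p : Fin n) (a : Fin n → ℝ)
    (ha : ∀ i, ∃ z : ℤ, a i = z) (j : Fin n) : ∃ z : ℤ, SL k b m p a j = z := by
  rw [SL_apply]
  by_cases h : j = p
  · subst h
    rw [Function.update_self, eL_apply]
    choose z hz using ha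
    refine ⟨∑ i, m i * z i - ∑ i : Fin n, (if k ≤ (i : ℕ) ∧ (i : ℕ) < k + b then z i else 0), ?_⟩
    unfold bsum
    push_cast
    congr 1
    · exact Finset.sum_congr rfl fun i _ => by rw [hz]
    · refine Finset.sum_congr rfl fun i _ => ?_
      split_ifs
      · rw [hz]
      · rfl
  · rw [Function.update_of_ne h]; exact ha j

/-- new lower walls -/
noncomputable def lw {n k b : ℕ} (hb : 3 ≤ b) (hkb : k + b ≤ n) (σ : (Fin n → ℝ) → ℝ)
    (l : Fin n → (Fin n → ℝ) → ℝ) : Fin n → (Fin n → ℝ) → ℝ :=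
  fun j a => if (j : ℕ) < k then l j a else if (j : ℕ) < k + b then 0 else l j (gi hb hkb σ a)

/-- new upper walls -/
noncomputable def uw {n k b : ℕ} (hb : 3 ≤ b) (hkb : k + b ≤ n) (σ : (Fin n → ℝ) → ℝ) (c' : ℝ)
    (u : Fin n → (Fin n → ℝ) → ℝ) : Fin n → (Fin n → ℝ) → ℝ :=
  fun j a => if (j : ℕ) < k then u j a else if (j : ℕ) < k + 2 then σ a - c' - bsum k j a
    else if (j : ℕ) < k + b then σ a - bsum k (k + 2) a - bsum (k + 2) j a
    else u j (gi hb hkb σ a)

theorem exists_symm {n k b : ℕ} (hb : 3 ≤ b) (hkb : k + b ≤ n) (i : Fin n)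
    (h1 : k ≤ (i : ℕ)) (h2 : (i : ℕ) < k + b) (h3 : i ≠ q1 hb hkb) :
    ∃ i' : Fin n, k ≤ (i' : ℕ) ∧ (i' : ℕ) < k + b ∧ i' ≠ pp hb hkb ∧
      (perm hb hkb).symm i' = i := by
  refine ⟨perm hb hkb i, (perm_block hb hkb i ⟨h1, h2⟩).1, (perm_block hb hkb i ⟨h1, h2⟩).2, ?_,
    Equiv.symm_apply_apply _ _⟩
  intro h
  rw [← perm_q1 hb hkb] at h
  exact h3 ((perm hb hkb).injective h)

theorem symm_ne {n k b : ℕ} (hb : 3 ≤ b) (hkb : k + b ≤ n) (i : Fin n)
    (h3 : i ≠ pp hb hkb) : (perm hb hkb).symm i ≠ q1 hb hkb := by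
  intro h
  rw [← symm_pp hb hkb] at h
  exact h3 ((perm hb hkb).symm.injective h)

theorem key {n k b : ℕ} (hb : 3 ≤ b) (hkb : k + b ≤ n) {c L R c' : ℝ}
    {l u : Fin n → (Fin n → ℝ) → ℝ} {σ : (Fin n → ℝ) → ℝ} (h : Geo1 c L R l u k b σ) (j : ℕ)
    (hj : k + b ≤ j) (y : Fin n → ℝ) :
    Pre (lw hb hkb σ l) (uw hb hkb σ c' u) j y ↔
      Pre l u j (gi hb hkb σ y) ∧ c' < bsum k (k + b - 1) (gi hb hkb σ y) := by
  set z := gi hb hkb σ y with hz
  have e1 : ∀ i : Fin n, (i : ℕ) < k → l i z = l i y := fun i hi =>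
    h.wl.dep i z y fun i' hi' => gi_out hb hkb σ y i' (Or.inl (lt_trans hi' hi))
  have e2 : ∀ i : Fin n, (i : ℕ) < k → u i z = u i y := fun i hi =>
    h.wu.dep i z y fun i' hi' => gi_out hb hkb σ y i' (Or.inl (lt_trans hi' hi))
  have e3 : σ z = σ y := sigma_gi hb hkb h.int y
  have e4 : bsum k (k + b - 1) z = σ y - y (q0 hb hkb) - y (q1 hb hkb) := bsum_gi' hb hkb σ y
  have e5 : bsum k (k + b) z = σ y - y (q1 hb hkb) := bsum_gi hb hkb σ y
  have e6 : bsum k (k + 2) y = y (q0 hb hkb) + y (q1 hb hkb) := bsum_two hb hkb y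
  have e7 : bsum k (k + b) y = bsum k (k + 2) y + bsum (k + 2) (k + b) y :=
    bsum_split (by omega) (by omega) y
  -- the block condition for `z`
  have B1 : (∀ i : Fin n, k ≤ (i : ℕ) → (i : ℕ) < k + b → l i z < z i ∧ z i < u i z) ↔
      (∀ i : Fin n, k ≤ (i : ℕ) → (i : ℕ) < k + b → 0 < z i) ∧ bsum k (k + b) z < σ z := by
    rw [← block_iff (by omega) hkb z (σ z)]
    refine forall_congr' fun i => forall_congr' fun h1 => forall_congr' fun h2 => ?_
    rw [(h.sim i h1 h2).1 z, (h.sim i h1 h2).2 z]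
  have B2 : (∀ i : Fin n, k ≤ (i : ℕ) → (i : ℕ) < k + b → 0 < z i) ↔
      (∀ i : Fin n, k ≤ (i : ℕ) → (i : ℕ) < k + b → i ≠ q1 hb hkb → 0 < y i) ∧
        bsum k (k + b) y < σ y := by
    constructor
    · intro h1
      constructor
      · intro i h2 h3 h4
        obtain ⟨i', h5, h6, h7, h8⟩ := exists_symm hb hkb i h2 h3 h4
        have := h1 i' h5 h6
        rwa [hz, gi_ne hb hkb σ y i' h7, h8] at this
      · have := h1 (pp hb hkb) (by simp only [pp]; omega) (by simp only [pp]; omega)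
        rw [hz, gi_pp] at this
        linarith only [this]
    · rintro ⟨h1, h2⟩ i h3 h4
      by_cases h5 : i = pp hb hkb
      · rw [h5, hz, gi_pp]; linarith only [h2]
      · rw [hz, gi_ne hb hkb σ y i h5]
        have h6 := symm_block hb hkb i ⟨h3, h4⟩
        exact h1 _ h6.1 h6.2 (symm_ne hb hkb i h5)
  -- the new block conditions for `y`
  have C1 : (∀ i : Fin n, k ≤ (i : ℕ) → (i : ℕ) < k + 2 →
      0 < y i ∧ y i < (σ y - c') - bsum k i y) ↔
      (∀ i : Fin n, k ≤ (i : ℕ) → (i : ℕ) < k + 2 → 0 < y i) ∧ bsum k (k + 2) y < σ y - c' :=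
    block_iff (by omega) (by omega) y _
  have C2 : (∀ i : Fin n, k + 2 ≤ (i : ℕ) → (i : ℕ) < k + 2 + (b - 2) →
      0 < y i ∧ y i < (σ y - bsum k (k + 2) y) - bsum (k + 2) i y) ↔
      (∀ i : Fin n, k + 2 ≤ (i : ℕ) → (i : ℕ) < k + 2 + (b - 2) → 0 < y i) ∧
        bsum (k + 2) (k + 2 + (b - 2)) y < σ y - bsum k (k + 2) y :=
    block_iff (by omega) (by omega) y _
  rw [show k + 2 + (b - 2) = k + b by omega] at C2
  -- the value of the new walls
  have L1 : ∀ i : Fin n, (i : ℕ) < k → lw hb hkb σ l i y = l i y := fun i hi => by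
    unfold lw; rw [if_pos hi]
  have L2 : ∀ i : Fin n, k ≤ (i : ℕ) → (i : ℕ) < k + b → lw hb hkb σ l i y = 0 :=
    fun i hi hi' => by
      unfold lw; rw [if_neg (by omega), if_pos hi']
  have L3 : ∀ i : Fin n, k + b ≤ (i : ℕ) → lw hb hkb σ l i y = l i z := fun i hi => by
    unfold lw; rw [if_neg (by omega), if_neg (by omega)]
  have U1 : ∀ i : Fin n, (i : ℕ) < k → uw hb hkb σ c' u i y = u i y := fun i hi => by
    unfold uw; rw [if_pos hi]
  have U2 : ∀ i : Fin n, k ≤ (i : ℕ) → (i : ℕ) < k + 2 →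
      uw hb hkb σ c' u i y = (σ y - c') - bsum k i y :=
    fun i hi hi' => by
      unfold uw; rw [if_neg (by omega), if_pos hi']
  have U3 : ∀ i : Fin n, k + 2 ≤ (i : ℕ) → (i : ℕ) < k + b →
      uw hb hkb σ c' u i y = (σ y - bsum k (k + 2) y) - bsum (k + 2) i y :=
    fun i hi hi' => by
      unfold uw; rw [if_neg (by omega), if_neg (by omega), if_pos hi']
  have U4 : ∀ i : Fin n, k + b ≤ (i : ℕ) → uw hb hkb σ c' u i y = u i z := fun i hi => by
    unfold uw; rw [if_neg (by omega), if_neg (by omega), if_neg (by omega)]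
  constructor
  · intro hP
    have D1 := C1.1 fun i h1 h2 => by
      have := hP i (by omega)
      rwa [L2 i h1 (by omega), U2 i h1 h2] at this
    have D2 := C2.1 fun i h1 h2 => by
      have := hP i (by omega)
      rwa [L2 i (by omega) (by omega), U3 i h1 h2] at this
    have hpos : ∀ i : Fin n, k ≤ (i : ℕ) → (i : ℕ) < k + b → 0 < y i := by
      intro i h1 h2
      by_cases h3 : (i : ℕ) < k + 2
      · exact D1.1 i h1 h3
      · exact D2.1 i (by omega) h2
    have hq1 : 0 < y (q1 hb hkb) :=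
      hpos _ (by simp only [q1]; omega) (by simp only [q1]; omega)
    have D3 := B1.2 ⟨B2.2 ⟨fun i h1 h2 _ => hpos i h1 h2, by linarith only [e7, D2]⟩, by
      rw [e5, e3]; linarith only [hq1]⟩
    refine ⟨fun i hi => ?_, by rw [e4]; linarith only [e6, D1]⟩
    rcases lt_or_ge (i : ℕ) k with h1 | h1
    · have := hP i hi
      rw [L1 i h1, U1 i h1] at this
      rw [e1 i h1, e2 i h1, hz, gi_out hb hkb σ y i (Or.inl h1)]
      exact this
    · rcases lt_or_ge (i : ℕ) (k + b) with h2 | h2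
      · exact D3 i h1 h2
      · have := hP i hi
        rw [L3 i h2, U4 i h2] at this
        rw [hz, gi_out hb hkb σ y i (Or.inr h2), ← hz]
        exact this
  · rintro ⟨hP, hc⟩
    have D1 := B1.1 fun i h1 h2 => hP i (by omega)
    have D2 := B2.1 D1.1
    have hq1 : 0 < y (q1 hb hkb) := by
      have := D1.2
      rw [e5, e3] at this
      linarith only [e3, e5, D1]
    have hpos : ∀ i : Fin n, k ≤ (i : ℕ) → (i : ℕ) < k + b → 0 < y i := by
      intro i h1 h2
      by_cases h3 : i = q1 hb hkb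
      · rw [h3]; exact hq1
      · exact D2.1 i h1 h2 h3
    rw [e4] at hc
    have E1 := C1.2 ⟨fun i h1 h2 => hpos i h1 (by omega), by rw [e6]; linarith only [hc]⟩
    have E2 := C2.2 ⟨fun i h1 h2 => hpos i (by omega) h2, by linarith only [e7, D2]⟩
    intro i hi
    rcases lt_or_ge (i : ℕ) k with h1 | h1
    · have := hP i hi
      rw [e1 i h1, e2 i h1, hz, gi_out hb hkb σ y i (Or.inl h1)] at this
      rw [L1 i h1, U1 i h1]
      exact this
    · rcases lt_or_ge (i : ℕ) (k + b) with h2 | h2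
      · rw [L2 i h1 h2]
        rcases lt_or_ge (i : ℕ) (k + 2) with h3 | h3
        · rw [U2 i h1 h3]; exact E1 i h1 h3
        · rw [U3 i h3 h2]; exact E2 i h3 h2
      · have := hP i hi
        rw [hz, gi_out hb hkb σ y i (Or.inr h2), ← hz] at this
        rw [L3 i h2, U4 i h2]
        exact this

theorem gi_lip {n k b : ℕ} (hb : 3 ≤ b) (hkb : k + b ≤ n) {σ : (Fin n → ℝ) → ℝ} {L : ℝ}
    (hL : 0 ≤ L) (hσ : ∀ y y', |σ y - σ y'| ≤ L * dist y y') (y y' : Fin n → ℝ) :
    dist (gi hb hkb σ y) (gi hb hkb σ y') ≤ (L + n + 1) * dist y y' := by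
  have hd : 0 ≤ dist y y' := dist_nonneg
  have hn : (0 : ℝ) ≤ n := Nat.cast_nonneg n
  refine (dist_pi_le_iff (by (clear * - hL; positivity))).2 fun i => ?_
  by_cases h : i = pp hb hkb
  · subst h
    rw [gi_pp, gi_pp, Real.dist_eq]
    have h1 := hσ y y'
    have h2 := bsum_lip (k := k) (j := k + b) y y'
    have h3 : σ y - bsum k (k + b) y - (σ y' - bsum k (k + b) y') =
      (σ y - σ y') - (bsum k (k + b) y - bsum k (k + b) y') := by ring
    rw [h3]
    refine (abs_sub _ _).trans ?_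
    linarith only [h2, h1, hd]
  · rw [gi_ne _ _ _ _ _ h, gi_ne _ _ _ _ _ h]
    refine (dist_le_pi_dist y y' _).trans ?_
    nlinarith only [hd, hL]

theorem gi_dep {n k b : ℕ} (hb : 3 ≤ b) (hkb : k + b ≤ n) {σ : (Fin n → ℝ) → ℝ}
    (h : IntAff k σ) {y y' : Fin n → ℝ} {j : Fin n} (hj : k + b ≤ (j : ℕ))
    (hy : ∀ i, i < j → y i = y' i) (i : Fin n) (hi : i < j) :
    gi hb hkb σ y i = gi hb hkb σ y' i := by
  have hlt : ∀ i : Fin n, (i : ℕ) < k + b → i < j := fun i hi => by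
    show (i : ℕ) < (j : ℕ); omega
  by_cases h1 : i = pp hb hkb
  · subst h1
    rw [gi_pp, gi_pp, intAff_congr h fun i hi => hy i (hlt i (by omega)),
      bsum_congr fun i _ hi => hy i (hlt i hi)]
  · rw [gi_ne _ _ _ _ _ h1, gi_ne _ _ _ _ _ h1]
    by_cases h2 : (i : ℕ) < k ∨ k + b ≤ (i : ℕ)
    · rw [symm_out hb hkb i h2]; exact hy i hi
    · exact hy _ (hlt _ (symm_block hb hkb i ⟨by omega, by omega⟩).2)

theorem sigma_lip {n k b : ℕ} (hb : 3 ≤ b) (hkb : k + b ≤ n) {c L R : ℝ}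
    {l u : Fin n → (Fin n → ℝ) → ℝ} {σ : (Fin n → ℝ) → ℝ} (h : Geo1 c L R l u k b σ)
    (y y' : Fin n → ℝ) : |σ y - σ y'| ≤ L * dist y y' := by
  have h1 := h.wu.lip (q0 hb hkb) y y'
  have h2 : ((q0 hb hkb : Fin n) : ℕ) = k := rfl
  rw [(h.sim (q0 hb hkb) (by omega) (by omega)).2, (h.sim (q0 hb hkb) (by omega) (by omega)).2,
    h2, bsum_self, bsum_self, sub_zero, sub_zero] at h1
  exact h1

theorem lw_walls {n k b : ℕ} (hb : 3 ≤ b) (hkb : k + b ≤ n) {c L R : ℝ} (hL : 0 ≤ L)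
    {l u : Fin n → (Fin n → ℝ) → ℝ} {σ : (Fin n → ℝ) → ℝ} (h : Geo1 c L R l u k b σ) :
    Walls ((L + 1) * (L + 2 * n + 2)) (lw hb hkb σ l) := by
  have hn : (0 : ℝ) ≤ n := Nat.cast_nonneg n
  constructor
  · intro j y y' hy
    unfold lw
    split_ifs with h1 h2
    · exact h.wl.dep j y y' hy
    · rfl
    · exact h.wl.dep j _ _ fun i hi => gi_dep hb hkb h.int (by omega) hy i hi
  · intro j y y'
    have hd : 0 ≤ dist y y' := dist_nonneg
    unfold lw
    split_ifs with h1 h2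
    · refine (h.wl.lip j y y').trans (mul_le_mul_of_nonneg_right ?_ hd)
      nlinarith only [hL]
    · rw [sub_self, abs_zero]; (clear * - hL; positivity)
    · refine (h.wl.lip j _ _).trans ?_
      refine (mul_le_mul_of_nonneg_left (gi_lip hb hkb hL (sigma_lip hb hkb h) y y') hL).trans ?_
      rw [← mul_assoc]
      refine mul_le_mul_of_nonneg_right ?_ hd
      nlinarith only [hL]

theorem uw_walls {n k b : ℕ} (hb : 3 ≤ b) (hkb : k + b ≤ n) {c L R c' : ℝ} (hL : 0 ≤ L)
    {l u : Fin n → (Fin n → ℝ) → ℝ} {σ : (Fin n → ℝ) → ℝ} (h : Geo1 c L R l u k b σ) :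
    Walls ((L + 1) * (L + 2 * n + 2)) (uw hb hkb σ c' u) := by
  have hn : (0 : ℝ) ≤ n := Nat.cast_nonneg n
  constructor
  · intro j y y' hy
    have hlt : ∀ i : Fin n, (i : ℕ) < (j : ℕ) → y i = y' i := fun i hi => hy i hi
    unfold uw
    split_ifs with h1 h2 h3
    · exact h.wu.dep j y y' hy
    · rw [intAff_congr h.int fun i hi => hlt i (by omega), bsum_congr fun i _ hi => hlt i hi]
    · rw [intAff_congr h.int fun i hi => hlt i (by omega),
        bsum_congr (j := k + 2) fun i _ hi => hlt i (by omega),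
        bsum_congr (k := k + 2) fun i _ hi => hlt i hi]
    · exact h.wu.dep j _ _ fun i hi => gi_dep hb hkb h.int (by omega) hy i hi
  · intro j y y'
    have hd : 0 ≤ dist y y' := dist_nonneg
    have hσ := sigma_lip hb hkb h y y'
    unfold uw
    split_ifs with h1 h2 h3
    · refine (h.wu.lip j y y').trans (mul_le_mul_of_nonneg_right ?_ hd)
      nlinarith only [hL]
    · have h4 := bsum_lip (k := k) (j := (j : ℕ)) y y'
      have h5 : σ y - c' - bsum k j y - (σ y' - c' - bsum k j y') =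
        (σ y - σ y') - (bsum k j y - bsum k j y') := by ring
      rw [h5]
      refine (abs_sub _ _).trans ?_
      have : (L + n) * dist y y' ≤ (L + 1) * (L + 2 * n + 2) * dist y y' :=
        mul_le_mul_of_nonneg_right (by nlinarith only [hL]) hd
      linarith only [hσ, h4, this]
    · have h4 := bsum_lip (k := k) (j := k + 2) y y'
      have h4' := bsum_lip (k := k + 2) (j := (j : ℕ)) y y'
      have h5 : σ y - bsum k (k + 2) y - bsum (k + 2) j y -
          (σ y' - bsum k (k + 2) y' - bsum (k + 2) j y') =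
        (σ y - σ y') - (bsum k (k + 2) y - bsum k (k + 2) y') -
          (bsum (k + 2) j y - bsum (k + 2) j y') := by ring
      rw [h5]
      refine (abs_sub _ _).trans ?_
      have h6 := abs_sub (σ y - σ y') (bsum k (k + 2) y - bsum k (k + 2) y')
      have : (L + 2 * n) * dist y y' ≤ (L + 1) * (L + 2 * n + 2) * dist y y' :=
        mul_le_mul_of_nonneg_right (by nlinarith only [hL]) hd
      linarith only [hσ, h4, h4', h6, this]
    · refine (h.wu.lip j _ _).trans ?_
      refine (mul_le_mul_of_nonneg_left (gi_lip hb hkb hL (sigma_lip hb hkb h) y y') hL).trans ?_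
      rw [← mul_assoc]
      refine mul_le_mul_of_nonneg_right ?_ hd
      nlinarith only [hL]

theorem geo2 {n k b : ℕ} (hb : 3 ≤ b) (hkb : k + b ≤ n) {c L R c' : ℝ} (hc : 0 < c)
    (hR : 0 < R) (hL : 0 ≤ L)
    {l u : Fin n → (Fin n → ℝ) → ℝ} {σ : (Fin n → ℝ) → ℝ} (h : Geo1 c L R l u k b σ)
    (h1 : c / 4 * R ≤ c') (h2 : c' ≤ c / 2 * R) :
    Geo2 (c / 4) ((L + 1) * (L + 2 * n + 2)) R (lw hb hkb σ l) (uw hb hkb σ c' u) k (b - 2)
      (fun a => σ a - c') (fun a => σ a - bsum k (k + 2) a) := by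
  have hcR : 0 < c * R := mul_pos hc hR
  have hlow : ∀ (j : ℕ), j ≤ k → ∀ a, Pre (lw hb hkb σ l) (uw hb hkb σ c' u) j a →
      Pre l u j a := by
    intro j hj a ha i hi
    have := ha i hi
    unfold lw uw at this
    rw [if_pos (by omega), if_pos (by omega)] at this
    exact this
  refine ⟨lw_walls hb hkb hL h, uw_walls hb hkb hL h, by omega, ?_, ?_, ?_, ?_, ?_, ?_, ?_⟩
  · obtain ⟨s, m, h3, h4⟩ := h.int
    refine ⟨s - c', m, h3, fun a => ?_⟩
    show σ a - c' = _
    rw [h4 a]; ring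
  · obtain ⟨s, m, h3, h4⟩ := h.int
    refine ⟨s, fun j => m j - (if k ≤ (j : ℕ) ∧ (j : ℕ) < k + 2 then 1 else 0), ?_, fun a => ?_⟩
    · intro j hj
      show m j - (if k ≤ (j : ℕ) ∧ (j : ℕ) < k + 2 then 1 else 0) = 0
      rw [h3 j (by omega), if_neg (by omega), sub_zero]
    · show σ a - bsum k (k + 2) a = s + ∑ j : Fin n,
        ((m j - (if k ≤ (j : ℕ) ∧ (j : ℕ) < k + 2 then 1 else 0) : ℤ) : ℝ) * a j
      rw [h4 a]
      unfold bsum
      rw [add_sub_assoc, ← Finset.sum_sub_distrib]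
      congr 1
      refine Finset.sum_congr rfl fun j _ => ?_
      split_ifs <;> push_cast <;> ring
  · intro j hj hj'
    constructor
    · intro a; unfold lw; rw [if_neg (by omega), if_pos (by omega)]
    · intro a; unfold uw; rw [if_neg (by omega), if_pos (by omega)]
  · intro j hj hj'
    constructor
    · intro a; unfold lw; rw [if_neg (by omega), if_pos (by omega)]
    · intro a; unfold uw; rw [if_neg (by omega), if_neg (by omega), if_pos (by omega)]
  · intro j a hj ha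
    rcases hj with hj | hj
    · have h5 := h.fat j a (Or.inl hj) (hlow j hj.le a ha)
      unfold lw uw
      rw [if_pos hj, if_pos hj]
      exact ⟨by linarith only [hcR, h5], h5.2⟩
    · have h6 : k + b ≤ (j : ℕ) := by omega
      have h5 := h.fat j _ (Or.inr h6) ((key hb hkb h j h6 a).1 ha).1
      unfold lw uw
      rw [if_neg (by omega), if_neg (by omega), if_neg (by omega), if_neg (by omega),
        if_neg (by omega)]
      exact ⟨by linarith only [hcR, h5], h5.2⟩
  · intro a ha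
    have h5 := h.size a (hlow k le_rfl a ha)
    constructor
    · linarith only [h2, hcR, h5]
    · linarith only [h1, h2, h5]
  · intro a ha
    have h5 := h.size a (hlow k le_rfl a fun i hi => ha i (by omega))
    have h6 := ha (q0 hb hkb) (by simp only [q0]; omega)
    have h7 := ha (q1 hb hkb) (by simp only [q1]; omega)
    have v0 : ((q0 hb hkb : Fin n) : ℕ) = k := rfl
    have v1 : ((q1 hb hkb : Fin n) : ℕ) = k + 1 := rfl
    unfold lw uw at h6 h7
    rw [v0, if_neg (by omega), if_pos (by omega), if_neg (by omega), if_pos (by omega),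
      bsum_self] at h6
    rw [v1, if_neg (by omega), if_pos (by omega), if_neg (by omega), if_pos (by omega)] at h7
    have h8 := bsum_succ (k := k) (q0 hb hkb) (by omega) a
    rw [v0, bsum_self] at h8
    have h9 := bsum_two hb hkb a
    constructor
    · show c / 4 * R ≤ σ a - bsum k (k + 2) a
      linarith only [h1, h7, h8, h9]
    · show σ a - bsum k (k + 2) a ≤ R
      linarith only [h5, h6, h7, h9]

end HM

/-- The coordinate change of the pairs scheme:
`(a_k, …, a_{k+b-1}) ↦ (a_{k+b-1}, σ a - ∑ a_i, a_k, …, a_{k+b-3})`. -/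
theorem Geo1.hmap {n : ℕ} (L : ℝ) (hL : 0 ≤ L) : ∃ L' : ℝ, 0 ≤ L' ∧
    ∀ (c R c' : ℝ) (l u : Fin n → (Fin n → ℝ) → ℝ) (k b : ℕ) (σ : (Fin n → ℝ) → ℝ), 0 < c →
      0 < R → 3 ≤ b → Geo1 c L R l u k b σ → c / 4 * R ≤ c' → c' ≤ c / 2 * R →
      ∃ (G : (Fin n → ℝ) ≃ₗ[ℝ] (Fin n → ℝ)) (v : Fin n → ℝ) (l' u' : Fin n → (Fin n → ℝ) → ℝ)
        (σ' : (Fin n → ℝ) → ℝ),
        (∀ i j, ∃ m : ℤ, G (Pi.single i 1) j = m) ∧
        (∀ i j, ∃ m : ℤ, G.symm (Pi.single i 1) j = m) ∧
        Geo2 (c / 4) L' R l' u' k (b - 2) (fun a => σ a - c') σ' ∧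
        (fun a => G a + v) '' (boxSet l u ∩ {a | c' < bsum k (k + b - 1) a}) = boxSet l' u' := by
  have hn : (0 : ℝ) ≤ n := Nat.cast_nonneg n
  refine ⟨(L + 1) * (L + 2 * n + 2), by positivity, ?_⟩
  intro c R c' l u k b σ hc hR hb h h1 h2
  have hkb := h.kb
  obtain ⟨s, m, hm, hs⟩ := h.int
  have hp0 : m (HM.pp hb hkb) = 0 := hm _ (by simp only [HM.pp]; omega)
  have hpb : k ≤ ((HM.pp hb hkb : Fin n) : ℕ) ∧ ((HM.pp hb hkb : Fin n) : ℕ) < k + b := by
    simp only [HM.pp]; omega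
  have hS := HM.SL_inv k b m (HM.pp hb hkb) hpb hp0
  let S : (Fin n → ℝ) ≃ₗ[ℝ] (Fin n → ℝ) := LinearEquiv.ofInvolutive _ hS
  let G : (Fin n → ℝ) ≃ₗ[ℝ] (Fin n → ℝ) :=
    S.trans (LinearEquiv.funCongrLeft ℝ ℝ (HM.perm hb hkb))
  have hG : ∀ a j, G a j = Function.update a (HM.pp hb hkb) (HM.eL k b m a)
      (HM.perm hb hkb j) := fun a j => by
    rw [← HM.SL_apply]; rfl
  have hG' : ∀ a, G.symm a = HM.SL k b m (HM.pp hb hkb) (fun j => a ((HM.perm hb hkb).symm j)) :=
    fun a => rfl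
  have hint : ∀ i j : Fin n, ∃ z : ℤ, (Pi.single i (1 : ℝ) : Fin n → ℝ) j = z := by
    intro i j
    by_cases hij : j = i
    · subst hij; exact ⟨1, by simp⟩
    · exact ⟨0, by simp [hij]⟩
  have hgi : ∀ a, (fun j => G a j + (Pi.single (HM.q1 hb hkb) s : Fin n → ℝ) j) =
      G a + Pi.single (HM.q1 hb hkb) s := fun a => rfl
  -- agreement of the coordinates before `k`
  have hlow : ∀ a, ∀ i : Fin n, (i : ℕ) < k →
      (G a + (Pi.single (HM.q1 hb hkb) s : Fin n → ℝ)) i = a i := by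
    intro a i hi
    have e1 : i ≠ HM.q1 hb hkb := by
      intro e; rw [e] at hi; simp only [HM.q1] at hi; omega
    have e2 : i ≠ HM.pp hb hkb := by
      intro e; rw [e] at hi; simp only [HM.pp] at hi; omega
    rw [Pi.add_apply, Pi.single_eq_of_ne e1, add_zero, hG, HM.perm_out hb hkb i (Or.inl hi),
      Function.update_of_ne e2]
  have hlin : ∀ a a' : Fin n → ℝ, (∀ i : Fin n, (i : ℕ) < k → a i = a' i) →
      ∑ i, (m i : ℝ) * a i = ∑ i, (m i : ℝ) * a' i := by
    intro a a' haa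
    have := HM.intAff_congr h.int haa
    rw [hs, hs] at this
    linarith only [this]
  have hbG : ∀ a, bsum k (k + b) (G a + (Pi.single (HM.q1 hb hkb) s : Fin n → ℝ)) =
      σ a - a (HM.pp hb hkb) := by
    intro a
    have e1 : (G a + (Pi.single (HM.q1 hb hkb) s : Fin n → ℝ)) =
        Function.update (G a) (HM.q1 hb hkb) (G a (HM.q1 hb hkb) + s) := by
      funext j
      by_cases hj : j = HM.q1 hb hkb
      · subst hj; simp
      · rw [Function.update_of_ne hj, Pi.add_apply, Pi.single_eq_of_ne hj, add_zero]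
    have e2 : bsum k (k + b) (G a) = bsum k (k + b)
        (Function.update a (HM.pp hb hkb) (HM.eL k b m a)) := by
      rw [show G a = fun j => Function.update a (HM.pp hb hkb) (HM.eL k b m a)
        (HM.perm hb hkb j) from funext (hG a), HM.bsum_perm']
    rw [e1, HM.bsum_update _ _ (by simp only [HM.q1]; omega), e2, HM.bsum_update _ _ hpb,
      HM.eL_apply, hs a]
    ring
  have hleft : ∀ a, HM.gi hb hkb σ (G a + Pi.single (HM.q1 hb hkb) s) = a := by
    intro a
    funext j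
    by_cases hj : j = HM.pp hb hkb
    · subst hj
      rw [HM.gi_pp, hbG, HM.intAff_congr h.int (hlow a)]
      ring
    · rw [HM.gi_ne _ _ _ _ _ hj, Pi.add_apply, Pi.single_eq_of_ne (HM.symm_ne hb hkb j hj),
        add_zero, hG, Equiv.apply_symm_apply, Function.update_of_ne hj]
  have hright : ∀ y, G (HM.gi hb hkb σ y) + Pi.single (HM.q1 hb hkb) s = y := by
    intro y
    funext j
    rw [Pi.add_apply, hG]
    by_cases hj : j = HM.q1 hb hkb
    · subst hj
      rw [HM.perm_q1, Function.update_self, HM.eL_apply, HM.bsum_gi, Pi.single_eq_same,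
        hlin _ y fun i hi => HM.gi_out hb hkb σ y i (Or.inl hi), hs y]
      ring
    · have e1 : HM.perm hb hkb j ≠ HM.pp hb hkb := by
        intro e
        rw [← HM.perm_q1 hb hkb] at e
        exact hj ((HM.perm hb hkb).injective e)
      rw [Function.update_of_ne e1, HM.gi_ne _ _ _ _ _ e1, Equiv.symm_apply_apply,
        Pi.single_eq_of_ne hj, add_zero]
  refine ⟨G, Pi.single (HM.q1 hb hkb) s, HM.lw hb hkb σ l, HM.uw hb hkb σ c' u,
    fun a => σ a - bsum k (k + 2) a, ?_, ?_, HM.geo2 hb hkb hc hR hL h h1 h2, ?_⟩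
  · intro i j
    rw [hG, ← HM.SL_apply]
    exact HM.SL_int k b m _ _ (hint i) _
  · intro i j
    rw [hG']
    exact HM.SL_int k b m _ _ (fun i' => hint i _) _
  · have hkey : ∀ y, (HM.gi hb hkb σ y ∈ boxSet l u ∩ {a | c' < bsum k (k + b - 1) a}) ↔
        y ∈ boxSet (HM.lw hb hkb σ l) (HM.uw hb hkb σ c' u) := by
      intro y
      have e1 := HM.key (c' := c') hb hkb h n hkb y
      constructor
      · rintro ⟨e2, e3⟩ i
        exact (e1.2 ⟨fun i _ => e2 i, e3⟩) i i.2
      · intro e2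
        have e3 := e1.1 fun i _ => e2 i
        exact ⟨fun i => e3.1 i i.2, e3.2⟩
    ext y
    constructor
    · rintro ⟨a, ha, rfl⟩
      refine (hkey _).1 ?_
      show HM.gi hb hkb σ (G a + Pi.single (HM.q1 hb hkb) s) ∈ _
      rw [hleft]
      exact ha
    · intro hy
      exact ⟨HM.gi hb hkb σ y, (hkey y).2 hy, hright y⟩

end Vale.Agent.P209.Strong
end
end
end
end

section

section

section

section

namespace Vale.Agent.P209.Strong

open MeasureTheory

theorem D3d_bsum_lip {n : ℕ} (k j : ℕ) (y y' : Fin n → ℝ) :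
    |bsum k j y - bsum k j y'| ≤ n * dist y y' := by
  unfold bsum
  rw [← Finset.sum_sub_distrib]
  refine (Finset.abs_sum_le_sum_abs _ _).trans ?_
  refine (Finset.sum_le_card_nsmul _ _ (dist y y') fun i _ => ?_).trans (by simp only [Finset.card_univ, Fintype.card_fin, nsmul_eq_mul, Std.le_refl])
  split_ifs
  · rw [← Real.dist_eq]
    exact dist_le_pi_dist y y' i
  · simp only [sub_self, abs_zero, dist_nonneg]

theorem D3d_bsum_congr {n : ℕ} (k j : ℕ) {y y' : Fin n → ℝ}
    (h : ∀ i : Fin n, (i : ℕ) < j → y i = y' i) : bsum k j y = bsum k j y' := by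
  unfold bsum
  refine Finset.sum_congr rfl fun i _ => ?_
  split_ifs with hi
  · exact h i hi.2
  · rfl

theorem D3d_bsum_succ {n : ℕ} (k : ℕ) (j : Fin n) (hj : k ≤ (j : ℕ)) (a : Fin n → ℝ) :
    bsum k (j + 1) a = bsum k j a + a j := by
  unfold bsum
  have key : ∀ i : Fin n, (if k ≤ (i : ℕ) ∧ (i : ℕ) < (j : ℕ) + 1 then a i else 0) =
      (if k ≤ (i : ℕ) ∧ (i : ℕ) < (j : ℕ) then a i else 0) + (if i = j then a j else 0) := by
    intro i
    by_cases hij : i = j
    · subst hij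
      rw [if_pos ⟨hj, Nat.lt_succ_self _⟩, if_neg (by omega), if_pos rfl, zero_add]
    · have h1 : (i : ℕ) ≠ (j : ℕ) := fun h => hij (Fin.ext h)
      rw [if_neg hij, add_zero]
      by_cases h2 : k ≤ (i : ℕ) ∧ (i : ℕ) < (j : ℕ)
      · rw [if_pos h2, if_pos ⟨h2.1, by omega⟩]
      · rw [if_neg h2, if_neg (by omega)]
  simp only [key]
  rw [Finset.sum_add_distrib, Finset.sum_ite_eq' Finset.univ j, if_pos (Finset.mem_univ j)]

theorem D3d_bsum_self {n : ℕ} (k : ℕ) (a : Fin n → ℝ) : bsum k k a = 0 := by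
  unfold bsum
  exact Finset.sum_eq_zero fun i _ => if_neg (by omega)

theorem D3d_bsum_mono {n : ℕ} (k : ℕ) {j j' : ℕ} (hjj : j ≤ j') (a : Fin n → ℝ)
    (h : ∀ i : Fin n, k ≤ (i : ℕ) → (i : ℕ) < j' → 0 ≤ a i) : bsum k j a ≤ bsum k j' a := by
  unfold bsum
  refine Finset.sum_le_sum fun i _ => ?_
  split_ifs with h1 h2 h2
  · exact le_rfl
  · exact absurd ⟨h1.1, by omega⟩ h2
  · exact h i h2.1 h2.2
  · exact le_rfl

theorem D3d_bsum_nonneg {n : ℕ} (k j : ℕ) (a : Fin n → ℝ)
    (h : ∀ i : Fin n, k ≤ (i : ℕ) → (i : ℕ) < j → 0 ≤ a i) : 0 ≤ bsum k j a := by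
  unfold bsum
  refine Finset.sum_nonneg fun i _ => ?_
  split_ifs with h1
  · exact h i h1.1 h1.2
  · exact le_rfl

theorem D3d_bsum_le {n : ℕ} (k m : ℕ) (hk : k < n) {A B : ℝ} (hA : 0 ≤ A) (hB : 0 ≤ B)
    (a : Fin n → ℝ) (h : ∀ i : Fin n, k ≤ (i : ℕ) → (i : ℕ) < m →
      a i ≤ if (i : ℕ) = k then A else B) : bsum k m a ≤ A + n * B := by
  have h1 : ∀ i : Fin n, (if k ≤ (i : ℕ) ∧ (i : ℕ) < m then a i else 0) ≤
      (if i = (⟨k, hk⟩ : Fin n) then A else 0) + B := by
    intro i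
    by_cases hik : (i : ℕ) = k
    · have h2 : i = (⟨k, hk⟩ : Fin n) := Fin.ext hik
      rw [if_pos h2]
      split_ifs with h3
      · have h4 := h i h3.1 h3.2
        rw [if_pos hik] at h4
        linarith only [hB, h4]
      · linarith only [hA, hB]
    · have h2 : i ≠ (⟨k, hk⟩ : Fin n) := fun h => hik (congrArg Fin.val h)
      rw [if_neg h2]
      split_ifs with h3
      · have h4 := h i h3.1 h3.2
        rw [if_neg hik] at h4
        linarith only [h4]
      · linarith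
  unfold bsum
  refine (Finset.sum_le_sum fun i _ => h1 i).trans ?_
  rw [Finset.sum_add_distrib, Finset.sum_ite_eq' Finset.univ (⟨k, hk⟩ : Fin n),
    if_pos (Finset.mem_univ _)]
  simp only [Finset.sum_const, Finset.card_univ, Fintype.card_fin, nsmul_eq_mul, Std.le_refl]

theorem D3d_walls_cont {n : ℕ} {L : ℝ} (hL : 0 ≤ L) {F : Fin n → (Fin n → ℝ) → ℝ}
    (h : Walls L F) (j : Fin n) : Continuous (F j) := by
  refine (LipschitzWith.of_dist_le_mul (K := ⟨L, hL⟩) fun x y => ?_).continuous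
  rw [Real.dist_eq]
  exact h.lip j x y

theorem D3d_meas {n : ℕ} {L : ℝ} (hL : 0 ≤ L) {l u : Fin n → (Fin n → ℝ) → ℝ}
    (hl : Walls L l) (hu : Walls L u) : MeasurableSet (boxSet l u) := by
  have h1 : boxSet l u = ⋂ j : Fin n, ({y | l j y < y j} ∩ {y | y j < u j y}) := by
    ext y
    simp only [boxSet, Set.mem_ofPred_eq, Set.mem_iInter, Set.mem_inter_iff]
  rw [h1]
  refine MeasurableSet.iInter fun j => ?_
  have hc1 := (D3d_walls_cont hL hl j).measurable
  have hc2 := (D3d_walls_cont hL hu j).measurable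
  exact (measurableSet_lt hc1 (measurable_pi_apply j)).inter
    (measurableSet_lt (measurable_pi_apply j) hc2)

theorem D3d_bsum_cont {n : ℕ} (k m : ℕ) : Continuous fun a : Fin n → ℝ => bsum k m a := by
  unfold bsum
  refine continuous_finsetSum _ fun i _ => ?_
  split_ifs
  · exact continuous_apply i
  · exact continuous_const

/-- the upper wall after cutting -/
noncomputable def D3d_u {n : ℕ} (k m : ℕ) (c' : ℝ) (u : Fin n → (Fin n → ℝ) → ℝ) :
    Fin n → (Fin n → ℝ) → ℝ :=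
  fun j a => if k ≤ (j : ℕ) ∧ (j : ℕ) < m then c' - bsum k j a else u j a

theorem D3d_pre_u {n : ℕ} {c L R : ℝ} {l u : Fin n → (Fin n → ℝ) → ℝ} {k b : ℕ}
    {σ : (Fin n → ℝ) → ℝ} (h : Geo1 c L R l u k b σ) (hb : 1 ≤ b) {c' : ℝ} (hc' : c' ≤ c * R)
    {j : ℕ} {a : Fin n → ℝ} (hp : Pre l (D3d_u k (k + (b - 1)) c' u) j a) : Pre l u j a := by
  intro i hi
  have h1 := hp i hi
  refine ⟨h1.1, ?_⟩
  have h2 := h1.2
  unfold D3d_u at h2
  split_ifs at h2 with h3
  · have h4 : Pre l u k a := by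
      intro i' hi'
      have h5 := hp i' (by omega)
      unfold D3d_u at h5
      rw [if_neg (by omega)] at h5
      exact h5
    have h6 := (h.size a h4).1
    rw [(h.sim i h3.1 (by omega)).2 a]
    linarith only [hc', h2, h6]
  · exact h2

theorem D3d_geo {n : ℕ} {c L R : ℝ} (hc : 0 < c) (hR : 0 < R) (hL : 0 ≤ L)
    {l u : Fin n → (Fin n → ℝ) → ℝ} {k b : ℕ}
    {σ : (Fin n → ℝ) → ℝ} (h : Geo1 c L R l u k b σ) (hb : 3 ≤ b) {c' : ℝ}
    (h0 : c / 4 * R ≤ c') (h1 : c' ≤ c / 2 * R) :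
    Geo1 (c / 4) (L + n) R l (D3d_u k (k + (b - 1)) c' u) k (b - 1) (fun _ => c') := by
  have hcR : 0 < c * R := mul_pos hc hR
  have hc'le : c' ≤ c * R := by linarith only [hcR, h1]
  have hmono : ∀ y y' : Fin n → ℝ, L * dist y y' ≤ (L + n) * dist y y' := fun y y' =>
    mul_le_mul_of_nonneg_right (by linarith only []) dist_nonneg
  have hblock : ∀ (j : ℕ) (a : Fin n → ℝ), Pre l (D3d_u k (k + (b - 1)) c' u) j a →
      ∀ i : Fin n, k ≤ (i : ℕ) → (i : ℕ) < j → (i : ℕ) < k + (b - 1) → 0 ≤ a i := by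
    intro j a hp i h2 h3 h4
    have h5 := (hp i h3).1
    rw [(h.sim i h2 (by omega)).1 a] at h5
    exact h5.le
  refine ⟨⟨h.wl.dep, fun j y y' => (h.wl.lip j y y').trans (hmono y y')⟩, ⟨?_, ?_⟩, ?_, ?_, ?_,
    ?_, ?_⟩
  · intro j y y' hy
    unfold D3d_u
    split_ifs with h2
    · rw [D3d_bsum_congr k j (fun i hi => hy i (Fin.lt_def.2 hi))]
    · exact h.wu.dep j y y' hy
  · intro j y y'
    unfold D3d_u
    split_ifs with h2
    · have h3 := D3d_bsum_lip k j y y'
      have h4 : c' - bsum k j y - (c' - bsum k j y') = -(bsum k j y - bsum k j y') := by ring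
      rw [h4, abs_neg]
      refine h3.trans (mul_le_mul_of_nonneg_right (by linarith only [hL]) dist_nonneg)
    · exact (h.wu.lip j y y').trans (hmono y y')
  · have := h.kb
    omega
  · exact ⟨c', fun _ => 0, fun _ _ => rfl, fun a => by simp only [Int.cast_zero, zero_mul, Finset.sum_const_zero, add_zero]⟩
  · intro j h2 h3
    refine ⟨(h.sim j h2 (by omega)).1, fun a => ?_⟩
    unfold D3d_u
    rw [if_pos ⟨h2, h3⟩]
  · intro j a hj hp
    have hp' := D3d_pre_u h (by omega) hc'le hp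
    have h5 : D3d_u k (k + (b - 1)) c' u j a = u j a := by
      unfold D3d_u
      rw [if_neg (by omega)]
    rw [h5]
    by_cases hj2 : (j : ℕ) < k ∨ k + b ≤ (j : ℕ)
    · have h6 := h.fat j a hj2 hp'
      exact ⟨by linarith only [hcR, h6], h6.2⟩
    · have hjk : (j : ℕ) = k + (b - 1) := by omega
      have hs := h.size a (fun i hi => hp' i (by omega))
      have hsim := h.sim j (by omega) (by omega)
      rw [hsim.1 a, hsim.2 a]
      have h7 : 0 ≤ bsum k j a :=
        D3d_bsum_nonneg k j a fun i h8 h9 => hblock j a hp i h8 h9 (by omega)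
      -- upper bound of the sum
      have hkb := h.kb
      have hi : k + (b - 2) < n := by omega
      let i₀ : Fin n := ⟨k + (b - 2), hi⟩
      have h8 : bsum k j a ≤ c' := by
        have h9 := (hp i₀ (by change k + (b - 2) < (j : ℕ); omega)).2
        unfold D3d_u at h9
        rw [if_pos (by change k ≤ k + (b - 2) ∧ k + (b - 2) < k + (b - 1); omega)] at h9
        have h10 := D3d_bsum_succ k i₀ (by change k ≤ k + (b - 2); omega) a
        have h11 : ((i₀ : ℕ) + 1) = (j : ℕ) := by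
          change k + (b - 2) + 1 = (j : ℕ)
          omega
        rw [h11] at h10
        linarith only [h9, h10]
      constructor
      · linarith only [h1, hcR, hs, h8]
      · linarith only [hs, h7]
  · intro a hp
    have hp' : Pre l u k a := D3d_pre_u h (by omega) hc'le hp
    have hs := h.size a hp'
    exact ⟨by linarith only [h0], by linarith only [hR, h1, hs]⟩

theorem D3d_U_eq {n : ℕ} {c L R : ℝ}
    {l u : Fin n → (Fin n → ℝ) → ℝ} {k b : ℕ}
    {σ : (Fin n → ℝ) → ℝ} (h : Geo1 c L R l u k b σ) (hb : 3 ≤ b) {c' : ℝ}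
    (hc' : c' ≤ c * R) :
    boxSet l u ∩ {a | bsum k (k + (b - 1)) a < c'} =
      boxSet l (D3d_u k (k + (b - 1)) c' u) := by
  have hkb := h.kb
  ext a
  constructor
  · rintro ⟨ha, hs⟩ j
    refine ⟨(ha j).1, ?_⟩
    unfold D3d_u
    split_ifs with h1
    · have h2 := D3d_bsum_succ k j h1.1 a
      have h3 : bsum k ((j : ℕ) + 1) a ≤ bsum k (k + (b - 1)) a := by
        refine D3d_bsum_mono k (by omega) a fun i h4 h5 => ?_
        have h6 := (ha i).1
        rw [(h.sim i h4 (by omega)).1 a] at h6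
        exact h6.le
      have h4 : bsum k (k + (b - 1)) a < c' := hs
      linarith only [h2, h3, h4]
    · exact (ha j).2
  · intro ha
    have h1 : Pre l u n a := D3d_pre_u h (by omega) hc' (fun i _ => ha i)
    refine ⟨fun j => h1 j j.2, ?_⟩
    have hi : k + (b - 2) < n := by omega
    let i₀ : Fin n := ⟨k + (b - 2), hi⟩
    have h9 := (ha i₀).2
    unfold D3d_u at h9
    rw [if_pos (by change k ≤ k + (b - 2) ∧ k + (b - 2) < k + (b - 1); omega)] at h9
    have h10 := D3d_bsum_succ k i₀ (by change k ≤ k + (b - 2); omega) a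
    have h11 : ((i₀ : ℕ) + 1) = k + (b - 1) := by
      change k + (b - 2) + 1 = k + (b - 1)
      omega
    rw [h11] at h10
    change bsum k (k + (b - 1)) a < c'
    linarith only [h9, h10]

/-- the walls of the sub-box -/
noncomputable def D3d_wl {n : ℕ} (k : ℕ) (A : ℝ) (l : Fin n → (Fin n → ℝ) → ℝ) :
    Fin n → (Fin n → ℝ) → ℝ :=
  fun j a => if (j : ℕ) = k then A else l j a

/-- the walls of the sub-box -/
noncomputable def D3d_wu {n : ℕ} (k m : ℕ) (A B : ℝ) (u : Fin n → (Fin n → ℝ) → ℝ) :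
    Fin n → (Fin n → ℝ) → ℝ :=
  fun j a => if (j : ℕ) = k then A else if k ≤ (j : ℕ) ∧ (j : ℕ) < m then B else u j a

theorem D3d_pre_W {n : ℕ} {c L R : ℝ} (hc : 0 < c) (hR : 0 < R)
    {l u : Fin n → (Fin n → ℝ) → ℝ} {k b : ℕ}
    {σ : (Fin n → ℝ) → ℝ} (h : Geo1 c L R l u k b σ) (hb : 3 ≤ b)
    {j : ℕ} {a : Fin n → ℝ} (hp : Pre (D3d_wl k (c * R / 4) l)
      (D3d_wu k (k + b) (5 * (c * R) / 16) (c * R / (16 * n)) u) j a) :
    Pre l u j a ∧ (∀ i : Fin n, k ≤ (i : ℕ) → (i : ℕ) < j → (i : ℕ) < k + b → 0 ≤ a i) ∧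
      ∀ m, m ≤ j → m ≤ k + b → bsum k m a ≤ 3 * (c * R) / 8 := by
  have hkb := h.kb
  have hcR : 0 < c * R := mul_pos hc hR
  have hn : (0 : ℝ) < n := by
    have : 0 < n := by omega
    exact_mod_cast this
  have hlow : ∀ i : Fin n, (i : ℕ) < j → l i a < a i := by
    intro i hi
    have h1 := (hp i hi).1
    unfold D3d_wl at h1
    split_ifs at h1 with h2
    · rw [(h.sim i (by omega) (by omega)).1 a]
      linarith only [hcR, h1]
    · exact h1
  have hnn : ∀ i : Fin n, k ≤ (i : ℕ) → (i : ℕ) < j → (i : ℕ) < k + b → 0 ≤ a i := by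
    intro i h1 h2 h3
    have h4 := hlow i h2
    rw [(h.sim i h1 h3).1 a] at h4
    exact h4.le
  have hsum : ∀ m, m ≤ j → m ≤ k + b → bsum k m a ≤ 3 * (c * R) / 8 := by
    intro m hm1 hm2
    have h1 := D3d_bsum_le (n := n) k m (by omega) (A := 5 * (c * R) / 16)
      (B := c * R / (16 * n)) (by positivity) (by positivity) a ?_
    · refine h1.trans (le_of_eq ?_)
      field_simp
      ring
    · intro i h2 h3
      have h4 := (hp i (by omega)).2
      unfold D3d_wu at h4
      by_cases hik : (i : ℕ) = k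
      · rw [if_pos hik] at h4 ⊢
        exact h4.le
      · rw [if_neg hik, if_pos ⟨h2, by omega⟩] at h4
        rw [if_neg hik]
        exact h4.le
  refine ⟨fun i hi => ⟨hlow i hi, ?_⟩, hnn, hsum⟩
  by_cases hblk : k ≤ (i : ℕ) ∧ (i : ℕ) < k + b
  · have h4 : Pre l u k a := by
      intro i' hi'
      have h5 := hp i' (by omega)
      unfold D3d_wl D3d_wu at h5
      rw [if_neg (by omega), if_neg (by omega), if_neg (by omega)] at h5
      exact h5
    have h6 := (h.size a h4).1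
    rw [(h.sim i hblk.1 hblk.2).2 a]
    have h7 := D3d_bsum_succ k i hblk.1 a
    have h8 := hsum ((i : ℕ) + 1) (by omega) (by omega)
    linarith only [hcR, h6, h7, h8]
  · have h5 := (hp i hi).2
    unfold D3d_wu at h5
    rw [if_neg (by omega), if_neg hblk] at h5
    exact h5

theorem D3d_W_vol {n : ℕ} {c L R : ℝ} (hc : 0 < c) (hR : 0 < R) (hL : 0 ≤ L)
    {l u : Fin n → (Fin n → ℝ) → ℝ} {k b : ℕ}
    {σ : (Fin n → ℝ) → ℝ} (h : Geo1 c L R l u k b σ) (hb : 3 ≤ b) :
    MeasurableSet (boxSet (D3d_wl k (c * R / 4) l)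
      (D3d_wu k (k + b) (5 * (c * R) / 16) (c * R / (16 * n)) u)) ∧
    (c / (16 * n) * R) ^ n ≤ (volume (boxSet (D3d_wl k (c * R / 4) l)
      (D3d_wu k (k + b) (5 * (c * R) / 16) (c * R / (16 * n)) u))).toReal ∧
    volume (boxSet (D3d_wl k (c * R / 4) l)
      (D3d_wu k (k + b) (5 * (c * R) / 16) (c * R / (16 * n)) u)) ≠ ⊤ := by
  have hkb := h.kb
  have hcR : 0 < c * R := mul_pos hc hR
  have hn1 : 1 ≤ n := by omega
  have hn : (1 : ℝ) ≤ n := by exact_mod_cast hn1
  have hwl : Walls L (D3d_wl k (c * R / 4) l) := by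
    refine ⟨fun j y y' hy => ?_, fun j y y' => ?_⟩
    · unfold D3d_wl
      split_ifs
      · rfl
      · exact h.wl.dep j y y' hy
    · unfold D3d_wl
      split_ifs
      · rw [sub_self, abs_zero]
        positivity
      · exact h.wl.lip j y y'
  have hwu : Walls L (D3d_wu k (k + b) (5 * (c * R) / 16) (c * R / (16 * n)) u) := by
    refine ⟨fun j y y' hy => ?_, fun j y y' => ?_⟩
    · unfold D3d_wu
      split_ifs
      · rfl
      · rfl
      · exact h.wu.dep j y y' hy
    · unfold D3d_wu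
      split_ifs
      · rw [sub_self, abs_zero]
        (clear * - hL; positivity)
      · rw [sub_self, abs_zero]
        positivity
      · exact h.wu.lip j y y'
  refine ⟨D3d_meas hL hwl hwu, ?_⟩
  have hsmall : c / (16 * n) * R ≤ c * R / 16 := by
    rw [div_mul_eq_mul_div]
    exact div_le_div_of_nonneg_left hcR.le (by norm_num) (by linarith only [hn])
  refine volume_pre_ge n (c := c / (16 * n)) (by positivity) hR hL hwl hwu ?_
  intro j a hp
  obtain ⟨hp', -, -⟩ := D3d_pre_W hc hR h hb hp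
  by_cases hj : (j : ℕ) = k
  · have hs := h.size a (fun i hi => hp' i (by omega))
    unfold D3d_wl D3d_wu
    rw [if_pos hj, if_pos hj]
    constructor
    · linarith only [hsmall]
    · linarith only [hR, hs]
  · by_cases hj2 : k ≤ (j : ℕ) ∧ (j : ℕ) < k + b
    · have hs := h.size a (fun i hi => hp' i (by omega))
      unfold D3d_wl D3d_wu
      rw [if_neg hj, if_neg hj, if_pos hj2, (h.sim j hj2.1 hj2.2).1 a]
      have h3 : c * R / (16 * n) = c / (16 * n) * R := by ring
      rw [h3]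
      constructor
      · linarith only []
      · linarith only [hR, hsmall, hs]
    · have hf := h.fat j a (by omega) hp'
      unfold D3d_wl D3d_wu
      rw [if_neg hj, if_neg hj, if_neg hj2]
      constructor
      · linarith only [hcR, hsmall, hf]
      · exact hf.2

theorem D3d_big {n : ℕ} {c L R : ℝ} (hc : 0 < c) (hR : 0 < R) (hL : 0 ≤ L)
    {l u : Fin n → (Fin n → ℝ) → ℝ} {k b : ℕ}
    {σ : (Fin n → ℝ) → ℝ} (h : Geo1 c L R l u k b σ) (hb : 3 ≤ b)
    (hfin : volume (boxSet l u) ≠ ⊤) (hRb : 1 < c / (16 * n) * R) :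
    (volume (boxSet l u ∩ {a | bsum k (k + (b - 1)) a < c / 4 * R})).toReal +
      1 / (n.factorial : ℝ) <
      (volume (boxSet l u ∩ {a | bsum k (k + (b - 1)) a < c / 2 * R})).toReal := by
  have hkb := h.kb
  have hcR : 0 < c * R := mul_pos hc hR
  obtain ⟨hWm, hWv, hWf⟩ := D3d_W_vol hc hR hL h hb
  set W := boxSet (D3d_wl k (c * R / 4) l)
      (D3d_wu k (k + b) (5 * (c * R) / 16) (c * R / (16 * n)) u) with hW
  have hWsub : ∀ a ∈ W, a ∈ boxSet l u ∧ c * R / 4 < bsum k (k + (b - 1)) a ∧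
      bsum k (k + (b - 1)) a < c / 2 * R := by
    intro a ha
    have hp : Pre (D3d_wl k (c * R / 4) l)
      (D3d_wu k (k + b) (5 * (c * R) / 16) (c * R / (16 * n)) u) n a := fun i _ => ha i
    obtain ⟨h1, h2, h3⟩ := D3d_pre_W hc hR h hb hp
    refine ⟨fun j => h1 j j.2, ?_, ?_⟩
    · have hkn : k < n := by omega
      let i₀ : Fin n := ⟨k, hkn⟩
      have h4 := (ha i₀).1
      unfold D3d_wl at h4
      rw [if_pos (show (i₀ : ℕ) = k from rfl)] at h4
      have h5 := D3d_bsum_succ k i₀ (le_refl k) a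
      have h6 : bsum k (i₀ : ℕ) a = 0 := D3d_bsum_self k a
      have h7 : bsum k ((i₀ : ℕ) + 1) a ≤ bsum k (k + (b - 1)) a := by
        refine D3d_bsum_mono k ?_ a fun i h8 h9 => h2 i h8 i.2 (by omega)
        change k + 1 ≤ k + (b - 1)
        omega
      linarith only [h4, h5, h6, h7]
    · have h4 := h3 (k + (b - 1)) (by omega) (by omega)
      linarith only [hcR, h4]
  have hdisj : Disjoint (boxSet l u ∩ {a | bsum k (k + (b - 1)) a < c / 4 * R}) W := by
    rw [Set.disjoint_left]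
    rintro a ⟨-, ha⟩ haW
    have h1 := (hWsub a haW).2.1
    have h2 : bsum k (k + (b - 1)) a < c / 4 * R := ha
    linarith only [h1, h2]
  have hsub : (boxSet l u ∩ {a | bsum k (k + (b - 1)) a < c / 4 * R}) ∪ W ⊆
      boxSet l u ∩ {a | bsum k (k + (b - 1)) a < c / 2 * R} := by
    rintro a (⟨ha1, ha2⟩ | ha)
    · have h2 : bsum k (k + (b - 1)) a < c / 4 * R := ha2
      refine ⟨ha1, ?_⟩
      change bsum k (k + (b - 1)) a < c / 2 * R
      linarith only [hcR, h2]
    · exact ⟨(hWsub a ha).1, (hWsub a ha).2.2⟩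
  have hf1 : volume (boxSet l u ∩ {a | bsum k (k + (b - 1)) a < c / 2 * R}) ≠ ⊤ :=
    ne_top_of_le_ne_top hfin (measure_mono Set.inter_subset_left)
  have hf0 : volume (boxSet l u ∩ {a | bsum k (k + (b - 1)) a < c / 4 * R}) ≠ ⊤ :=
    ne_top_of_le_ne_top hfin (measure_mono Set.inter_subset_left)
  have h1 : (volume (boxSet l u ∩ {a | bsum k (k + (b - 1)) a < c / 4 * R})).toReal +
      (volume W).toReal ≤
      (volume (boxSet l u ∩ {a | bsum k (k + (b - 1)) a < c / 2 * R})).toReal := by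
    rw [← ENNReal.toReal_add hf0 hWf, ← measure_union hdisj hWm]
    exact ENNReal.toReal_mono hf1 (measure_mono hsub)
  have hn0 : n ≠ 0 := by omega
  have h2 : 1 < (c / (16 * n) * R) ^ n := one_lt_pow₀ hRb hn0
  have h3 : 1 / (n.factorial : ℝ) ≤ 1 := by
    rw [div_le_one (by positivity)]
    exact_mod_cast Nat.one_le_iff_ne_zero.2 (Nat.factorial_ne_zero n)
  linarith only [hWv, h1, h2, h3]

/-- the pairs scheme -/
theorem S1_step (n b : ℕ) (hn : 2 ≤ n) (hb : 3 ≤ b) (h1 : S1 n (b - 1)) (h2 : S2 n (b - 2)) :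
    S1 n b := by
  intro c L δ N hc hL hδ hδ1 hN
  obtain ⟨L', hL', hmap⟩ := Geo1.hmap (n := n) L hL
  have hnn : (0 : ℝ) < n := by
    have : 0 < n := by omega
    exact_mod_cast this
  obtain ⟨R1, hR1, hF1⟩ := h1 (c / 4) (L + n) δ N (by positivity) (by positivity) hδ hδ1 hN
  obtain ⟨R2, hR2, hF2⟩ := h2 (c / 4) L' δ N (by positivity) hL' hδ hδ1 hN
  refine ⟨max (max R1 R2) (16 * n / c + 1), by positivity, ?_⟩
  intro R hR l u k σ hG
  have hRR1 : R1 ≤ R := (le_max_left _ _).trans ((le_max_left _ _).trans hR)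
  have hRR2 : R2 ≤ R := (le_max_right _ _).trans ((le_max_left _ _).trans hR)
  have hRR3 : 16 * n / c + 1 ≤ R := (le_max_right _ _).trans hR
  have hR0 : 0 < R := lt_of_lt_of_le hR1 hRR1
  have hcR : 0 < c * R := mul_pos hc hR0
  have hkb := hG.kb
  obtain ⟨-, hfin⟩ := Geo1.volume_ge hc hL hR0 hG
  have hmeas : MeasurableSet (boxSet l u) := D3d_meas hL hG.wl hG.wu
  have hRb : 1 < c / (16 * n) * R := by
    have h3 : 16 * n / c < R := by linarith only [hRR3]
    rw [div_lt_iff₀ hc] at h3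
    rw [div_mul_eq_mul_div, lt_div_iff₀ (by positivity)]
    linarith only [h3]
  have hnull : ∀ s : ℝ, volume {a : Fin n → ℝ | bsum k (k + (b - 1)) a = s} = 0 := by
    intro s
    have h3 := volume_affine_zero (n := n)
      (fun i => if k ≤ (i : ℕ) ∧ (i : ℕ) < k + (b - 1) then 1 else 0) ?_ s
    · have h4 : {a : Fin n → ℝ | bsum k (k + (b - 1)) a = s} = {a : Fin n → ℝ |
          ∑ i : Fin n, (if k ≤ (i : ℕ) ∧ (i : ℕ) < k + (b - 1) then (1 : ℝ) else 0) * a i = s} := by
        ext a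
        have h5 : bsum k (k + (b - 1)) a =
            ∑ i : Fin n, (if k ≤ (i : ℕ) ∧ (i : ℕ) < k + (b - 1) then (1 : ℝ) else 0) * a i := by
          unfold bsum
          refine Finset.sum_congr rfl fun i _ => ?_
          split_ifs
          · rw [one_mul]
          · rw [zero_mul]
        change bsum k (k + (b - 1)) a = s ↔ _ = s
        rw [h5]
      rw [h4]
      exact h3
    · intro h4
      have h5 := congrFun h4 (⟨k, by omega⟩ : Fin n)
      simp only [Pi.zero_apply] at h5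
      rw [if_pos (by omega)] at h5
      exact one_ne_zero h5
  refine Fill.split (by omega) hδ1 hfin
    (fun c' => boxSet l u ∩ {a | bsum k (k + (b - 1)) a < c'})
    (fun c' => boxSet l u ∩ {a | c' < bsum k (k + (b - 1)) a})
    (c₀ := c / 4 * R) (c₁ := c / 2 * R) (by linarith only [hcR])
    (fun c' _ _ => Set.inter_subset_left) (fun c' _ _ => Set.inter_subset_left)
    ?_ ?_ ?_ (D3d_big hc hR0 hL hG hb hfin hRb) ?_ ?_
  · intro c' _ _
    rw [Set.disjoint_left]
    rintro a ⟨-, ha⟩ ⟨-, ha'⟩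
    exact lt_asymm (show bsum k (k + (b - 1)) a < c' from ha) ha'
  · intro c' _ _
    have hf1 : volume (boxSet l u ∩ {a | bsum k (k + (b - 1)) a < c'}) ≠ ⊤ :=
      ne_top_of_le_ne_top hfin (measure_mono Set.inter_subset_left)
    have hf2 : volume (boxSet l u ∩ {a | c' < bsum k (k + (b - 1)) a}) ≠ ⊤ :=
      ne_top_of_le_ne_top hfin (measure_mono Set.inter_subset_left)
    rw [← ENNReal.toReal_add hf1 hf2]
    refine ENNReal.toReal_mono (ENNReal.add_ne_top.2 ⟨hf1, hf2⟩) ?_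
    have hcov : boxSet l u ⊆ ((boxSet l u ∩ {a | bsum k (k + (b - 1)) a < c'}) ∪
        (boxSet l u ∩ {a | c' < bsum k (k + (b - 1)) a})) ∪
        {a | bsum k (k + (b - 1)) a = c'} := by
      intro a ha
      rcases lt_trichotomy (bsum k (k + (b - 1)) a) c' with h3 | h3 | h3
      · exact Or.inl (Or.inl ⟨ha, h3⟩)
      · exact Or.inr h3
      · exact Or.inl (Or.inr ⟨ha, h3⟩)
    refine (measure_mono hcov).trans ((measure_union_le _ _).trans ?_)
    rw [hnull c', add_zero]
    exact measure_union_le _ _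
  · have h3 := volume_lt_continuous hfin hmeas (f := fun a => bsum k (k + (b - 1)) a)
      (g := fun _ => 1) (D3d_bsum_cont k _).measurable measurable_const
      (fun _ _ => one_pos) (fun c' => by
        refine measure_mono_null Set.inter_subset_right ?_
        simp only [mul_one]
        exact hnull c')
    simp only [mul_one] at h3
    exact h3.continuousOn
  · intro c' h3 h4
    rw [D3d_U_eq hG hb (by linarith only [hcR, h4])]
    exact hF1 R hRR1 l _ k _ (D3d_geo hc hR0 hL hG hb h3 h4)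
  · intro c' h3 h4
    obtain ⟨G, v, l', u', σ', hG1, hG2, hG3, hG4⟩ :=
      hmap c R c' l u k b σ hc hR0 hb hG h3 h4
    refine Fill.image G hG1 hG2 v ?_
    have h5 : k + (b - 1) = k + b - 1 := by omega
    rw [h5, hG4]
    exact hF2 R hRR2 l' u' k _ σ' hG3

end Vale.Agent.P209.Strong
end
end
end
end

section

section

section

section

namespace Vale.Agent.P209.Strong

open MeasureTheory

theorem S1_all (n : ℕ) (hn : 2 ≤ n) (b : ℕ) : S1 n b := by
  induction b using Nat.strong_induction_on with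
  | _ b ih =>
    by_cases hb : b ≤ 1
    · exact S1_le_one n b hn hb
    · by_cases hb2 : b = 2
      · subst hb2
        exact S1_two n (S2_of_S1 n 0 hn (ih 0 (by omega)))
      · exact S1_step n b hn (by omega) (ih _ (by omega)) (S2_of_S1 n _ hn (ih _ (by omega)))

theorem D3_bsum_lip {n : ℕ} (k j : ℕ) (y y' : Fin n → ℝ) :
    |bsum k j y - bsum k j y'| ≤ n * dist y y' := by
  unfold bsum
  rw [← Finset.sum_sub_distrib]
  refine (Finset.abs_sum_le_sum_abs _ _).trans ?_
  calc ∑ i : Fin n, |(if k ≤ (i : ℕ) ∧ (i : ℕ) < j then y i else 0) -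
        (if k ≤ (i : ℕ) ∧ (i : ℕ) < j then y' i else 0)| ≤ ∑ _i : Fin n, dist y y' := by
        refine Finset.sum_le_sum fun i _ => ?_
        split_ifs
        · rw [← Real.dist_eq]
          exact dist_le_pi_dist y y' i
        · simp
    _ = n * dist y y' := by
        rw [Finset.sum_const, Finset.card_univ, Fintype.card_fin, nsmul_eq_mul]

theorem D3_bsum_dep {n : ℕ} (k : ℕ) (j : Fin n) {y y' : Fin n → ℝ}
    (h : ∀ i, i < j → y i = y' i) : bsum k j y = bsum k j y' := by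
  unfold bsum
  refine Finset.sum_congr rfl fun i _ => ?_
  split_ifs with hi
  · exact h i hi.2
  · rfl

theorem D3_boxSet_simplex {n : ℕ} (hn : 1 ≤ n) (R : ℝ) :
    boxSet (fun (_ : Fin n) (_ : Fin n → ℝ) => (0 : ℝ)) (fun j a => R - bsum 0 (j : ℕ) a) =
      simplex n R := by
  have key : ∀ (j : Fin n) (a : Fin n → ℝ), bsum 0 (j : ℕ) a + a j =
      ∑ i : Fin n, if i ≤ j then a i else 0 := by
    intro j a
    have h1 : a j = ∑ i : Fin n, if i = j then a i else 0 := by simp only [Finset.sum_ite_eq', Finset.mem_univ, ↓reduceIte]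
    conv_lhs => rw [h1]
    unfold bsum
    rw [← Finset.sum_add_distrib]
    refine Finset.sum_congr rfl fun i _ => ?_
    rcases lt_trichotomy i j with h | h | h
    · have h2 : (i : ℕ) < j := h
      rw [if_pos ⟨Nat.zero_le _, h2⟩, if_neg h.ne, if_pos h.le, add_zero]
    · subst h
      simp
    · have h2 : ¬ (i : ℕ) < j := not_lt.2 (Fin.le_def.1 h.le)
      rw [if_neg (fun h3 => h2 h3.2), if_neg h.ne', if_neg (not_le.2 h), add_zero]
  ext a
  constructor
  · intro h
    refine ⟨fun j => (h j).1, ?_⟩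
    have h1 := (h ⟨n - 1, by omega⟩).2
    have h2 := key ⟨n - 1, by omega⟩ a
    have h3 : ∑ i : Fin n, (if i ≤ (⟨n - 1, by omega⟩ : Fin n) then a i else 0) = ∑ i, a i :=
      Finset.sum_congr rfl fun i _ => by
        rw [if_pos]
        rw [Fin.le_def]
        have := i.2
        simp only
        omega
    rw [h3] at h2
    simp only at h1 h2
    linarith only [h1, h2]
  · intro h j
    refine ⟨h.1 j, ?_⟩
    have h2 := key j a
    have h3 : ∑ i : Fin n, (if i ≤ j then a i else 0) ≤ ∑ i, a i :=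
      Finset.sum_le_sum fun i _ => by
        split_ifs
        · exact le_rfl
        · exact (h.1 i).le
    have h4 := h.2
    show a j < R - bsum 0 (j : ℕ) a
    linarith only [h2, h3, h4]

/-- Large simplices are filled. -/
theorem simplex_fill (n : ℕ) (hn : 2 ≤ n) (δ N : ℝ) (hδ : 0 < δ) (hδ1 : δ ≤ 1) (hN : 0 ≤ N) :
    ∃ R0 : ℝ, 0 < R0 ∧ ∀ R, R0 ≤ R → Fill δ N (simplex n R) := by
  obtain ⟨R0, h0, h⟩ := S1_all n hn n 1 (n + 1) δ N one_pos (by positivity) hδ hδ1 hN
  refine ⟨R0, h0, fun R hR => ?_⟩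
  rw [← D3_boxSet_simplex (by omega) R]
  refine h R hR _ _ 0 (fun _ => R) ?_
  exact
    { wl := ⟨fun j y y' _ => rfl, fun j y y' => by simp only [sub_self, abs_zero]; positivity⟩
      wu := ⟨fun j y y' hy => by
          show R - bsum 0 (j : ℕ) y = R - bsum 0 (j : ℕ) y'
          rw [D3_bsum_dep 0 j hy],
        fun j y y' => by
          have h1 := D3_bsum_lip 0 (j : ℕ) y y'
          have h2 : (0 : ℝ) ≤ dist y y' := dist_nonneg
          rw [show R - bsum 0 (j : ℕ) y - (R - bsum 0 (j : ℕ) y') =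
            -(bsum 0 (j : ℕ) y - bsum 0 (j : ℕ) y') by ring, abs_neg]
          linarith only [h1, h2]⟩
      kb := by omega
      int := ⟨R, fun _ => 0, fun _ _ => rfl, fun a => by simp only [Int.cast_zero, zero_mul, Finset.sum_const_zero, add_zero]⟩
      sim := fun j _ _ => ⟨fun _ => rfl, fun _ => rfl⟩
      fat := fun j a hj => by
        have := j.2
        omega
      size := fun a _ => ⟨by rw [one_mul], le_rfl⟩ }

end Vale.Agent.P209.Strong
end
end
end
end

section

section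

section

section

set_option linter.all false

namespace Vale.Agent.P209.Strong

open Vale.Agent.P209 MeasureTheory

/-- `Fill` gives packings of balls after scaling. -/
theorem packs_of_Fill {n : ℕ} {δ N m y : ℝ} (hm : 0 < m) (hy : 0 < y)
    (hF : Fill δ N (simplex n m)) (ι : Type) [Fintype ι] (r : ι → ℝ) (J : Finset ι)
    (h1 : ∀ i, 0 < r i ∧ r i ≤ y) (h2 : ∀ i, i ∉ J → δ * y ≤ r i)
    (h3 : ∑ i ∈ J, r i ≤ N * y) (h4 : ∑ i, r i ^ n < (m * y) ^ n) :
    Packs (openBall n (m * y)) r := by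
  have hT : TPk (simplex n m) (fun i => r i / y) := by
    refine hF ι (fun i => r i / y) J (fun i => ⟨div_pos (h1 i).1 hy, ?_⟩) (fun i hi => ?_) ?_ ?_
    · rw [div_le_one hy]; exact (h1 i).2
    · rw [le_div_iff₀ hy]; exact h2 i hi
    · rw [← Finset.sum_div, div_le_iff₀ hy]; exact h3
    · rw [volume_simplex n m hm, ← Finset.sum_div]
      apply div_lt_div_of_pos_right _ (by positivity)
      simp only [div_pow]
      rw [← Finset.sum_div, div_lt_iff₀ (by positivity), ← mul_pow]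
      exact h4
  have hP := Packs.scale hy (packs_of_TPk hT)
  have e1 : (fun i => y * (r i / y)) = r := by
    funext i; field_simp
  rw [mul_comm m y]
  simpa only [e1] using hP

/-- Sum of the small radii, when all dyadic classes have few elements. -/
theorem sum_small_le {ι : Type} [Fintype ι] (r : ι → ℝ) (s : ℝ) (hs : 0 < s) (Nr : ℕ)
    (J : Finset ι) (h1 : ∀ i ∈ J, 0 < r i ∧ r i ≤ s)
    (hc : ∀ i ∈ J, ∀ j : ℕ, (1 / 2 : ℝ) ^ (j + 1) * s < r i → r i ≤ (1 / 2 : ℝ) ^ j * s →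
      ∀ G : Finset ι, (∀ k ∈ G, (1 / 2 : ℝ) ^ (j + 1) * s < r k ∧ r k ≤ (1 / 2 : ℝ) ^ j * s) →
        G.card < Nr) :
    ∑ i ∈ J, r i ≤ 2 * Nr * s := by
  classical
  have hlev : ∀ i : ι, ∃ j : ℕ, i ∈ J →
      (1 / 2 : ℝ) ^ (j + 1) * s < r i ∧ r i ≤ (1 / 2 : ℝ) ^ j * s := by
    intro i
    by_cases hi : i ∈ J
    · obtain ⟨j, hj1, hj2⟩ := exists_nat_pow_near_of_lt_one (x := r i / s) (y := (1 / 2 : ℝ))
        (div_pos (h1 i hi).1 hs) ((div_le_one hs).2 (h1 i hi).2) (by norm_num) (by norm_num)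
      refine ⟨j, fun _ => ⟨?_, ?_⟩⟩
      · exact (lt_div_iff₀ hs).1 hj1
      · exact (div_le_iff₀ hs).1 hj2
    · exact ⟨0, fun h => absurd h hi⟩
  choose lev hl using hlev
  set M := J.sup lev + 1 with hM
  have hmaps : ∀ i ∈ J, lev i ∈ Finset.range M := by
    intro i hi
    rw [Finset.mem_range]
    have := Finset.le_sup (f := lev) hi
    omega
  rw [← Finset.sum_fiberwise_of_maps_to hmaps]
  have hfib : ∀ j ∈ Finset.range M, ∑ i ∈ J with lev i = j, r i ≤ Nr * s * (1 / 2 : ℝ) ^ j := by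
    intro j _
    by_cases hne : (J.filter fun i => lev i = j).Nonempty
    · obtain ⟨i0, hi0⟩ := hne
      rw [Finset.mem_filter] at hi0
      have hl0 := hl i0 hi0.1
      rw [hi0.2] at hl0
      have hcard := hc i0 hi0.1 j hl0.1 hl0.2 (J.filter fun i => lev i = j) (by
        intro k hk
        rw [Finset.mem_filter] at hk
        have := hl k hk.1
        rwa [hk.2] at this)
      calc ∑ i ∈ J with lev i = j, r i ≤ ∑ i ∈ J with lev i = j, (1 / 2 : ℝ) ^ j * s := by
            refine Finset.sum_le_sum fun k hk => ?_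
            rw [Finset.mem_filter] at hk
            have := (hl k hk.1).2
            rwa [hk.2] at this
        _ = ((J.filter fun i => lev i = j).card : ℝ) * ((1 / 2 : ℝ) ^ j * s) := by
            rw [Finset.sum_const, nsmul_eq_mul]
        _ ≤ (Nr : ℝ) * ((1 / 2 : ℝ) ^ j * s) := by
            apply mul_le_mul_of_nonneg_right _ (by positivity)
            exact_mod_cast hcard.le
        _ = Nr * s * (1 / 2 : ℝ) ^ j := by ring
    · rw [Finset.not_nonempty_iff_eq_empty] at hne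
      rw [hne, Finset.sum_empty]
      (clear * - hs; positivity)
  calc ∑ j ∈ Finset.range M, ∑ i ∈ J with lev i = j, r i
      ≤ ∑ j ∈ Finset.range M, Nr * s * (1 / 2 : ℝ) ^ j := Finset.sum_le_sum hfib
    _ = Nr * s * ∑ j ∈ Finset.range M, (1 / 2 : ℝ) ^ j := by rw [Finset.mul_sum]
    _ ≤ Nr * s * 2 := by
        apply mul_le_mul_of_nonneg_left (sum_geometric_two_le M) (by positivity)
    _ = 2 * Nr * s := by ring

/-- Strong packing stability of the ball, in every dimension. -/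
theorem strong_stability (n : ℕ) (hn : 2 ≤ n) : ∃ ε : ℝ, 0 < ε ∧
    ∀ (ι : Type) [Fintype ι] (R : ℝ) (r : ι → ℝ), 0 < R → (∀ i, 0 < r i ∧ r i ≤ ε * R) →
      ∑ i, r i ^ n < R ^ n → Packs (openBall n R) r := by
  classical
  obtain ⟨R1, hR1, hF1⟩ := simplex_fill n hn (1 / 2) 0 (by norm_num) (by norm_num) le_rfl
  set m1 : ℝ := max R1 2 with hm1
  have hm1R : R1 ≤ m1 := le_max_left _ _
  have hm12 : 2 ≤ m1 := le_max_right _ _
  set Nr : ℕ := ⌈(2 * m1) ^ n⌉₊ with hNr
  have hNr1 : (2 * m1) ^ n ≤ (Nr : ℝ) := Nat.le_ceil _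
  have hNr2 : 2 ≤ Nr := by
    have h1 : (1 : ℝ) ≤ 2 * m1 := by linarith only [hm12]
    have h2 : (2 * m1) ^ 1 ≤ (2 * m1) ^ n := pow_le_pow_right₀ h1 (by omega)
    have h3 : (2 : ℝ) ≤ (Nr : ℝ) := by
      rw [pow_one] at h2; linarith only [hm12, hNr1, h2]
    exact_mod_cast h3
  have hNrR : (2 : ℝ) ≤ (Nr : ℝ) := by exact_mod_cast hNr2
  set δ1 : ℝ := 1 / (2 * (Nr + 1)) with hδ1
  have hδ1p : 0 < δ1 := by positivity
  have hδ1l : δ1 ≤ 1 := by
    rw [hδ1, div_le_one (by positivity)]; linarith only []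
  obtain ⟨R2, hR2, hF2⟩ := simplex_fill n hn δ1 (2 * Nr) hδ1p hδ1l (by positivity)
  set m2 : ℝ := max R2 1 with hm2
  have hm2R : R2 ≤ m2 := le_max_left _ _
  have hm21 : 1 ≤ m2 := le_max_right _ _
  have hm2p : 0 < m2 := by linarith only [hR2, hm2R]
  refine ⟨1 / m2, by positivity, ?_⟩
  -- strong induction on the number of balls
  have key : ∀ k : ℕ, ∀ (ι : Type) [Fintype ι], Fintype.card ι = k → ∀ (R : ℝ) (r : ι → ℝ), 0 < R →
      (∀ i, 0 < r i ∧ r i ≤ 1 / m2 * R) → ∑ i, r i ^ n < R ^ n → Packs (openBall n R) r := by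
    intro k
    induction k using Nat.strong_induction_on with
    | _ k ih =>
    intro ι _ hcard R r hR hr hsum
    set s : ℝ := R / m2 with hs
    have hsp : 0 < s := by positivity
    have hms : m2 * s = R := by rw [hs]; (clear * - hm21 hR; field_simp)
    have hrs : ∀ i, 0 < r i ∧ r i ≤ s := by
      intro i
      refine ⟨(hr i).1, ?_⟩
      have := (hr i).2
      rw [hs]
      calc r i ≤ 1 / m2 * R := this
        _ = R / m2 := by ring
    by_cases hcase : ∃ (j : ℕ) (G : Finset ι), (1 / 2 : ℝ) ^ j * (Nr + 1) ≤ 1 ∧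
        (∀ k ∈ G, (1 / 2 : ℝ) ^ (j + 1) * s < r k ∧ r k ≤ (1 / 2 : ℝ) ^ j * s) ∧ G.card = Nr
    · obtain ⟨j, G, hj, hG, hGc⟩ := hcase
      set y : ℝ := (1 / 2 : ℝ) ^ j * s with hy
      have hyp : 0 < y := by (clear * - hR hR2; positivity)
      have hGy : ∀ k ∈ G, 1 / 2 * y < r k ∧ r k ≤ y := by
        intro k hk
        refine ⟨?_, (hG k hk).2⟩
        have := (hG k hk).1
        rw [pow_succ] at this
        rw [hy]; linarith only [this]
      set θ : ℝ := min ((R ^ n - ∑ i, r i ^ n) / 2) (y ^ n) with hθ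
      have hθp : 0 < θ := lt_min (by linarith only [hsum]) (by (clear * - hR hR2; positivity))
      have hθ1 : θ ≤ (R ^ n - ∑ i, r i ^ n) / 2 := min_le_left _ _
      have hθ2 : θ ≤ y ^ n := min_le_right _ _
      set P : ℝ := ∑ i ∈ G, r i ^ n + θ with hP
      have hGnn : 0 ≤ ∑ i ∈ G, r i ^ n := Finset.sum_nonneg fun i _ => pow_nonneg (hrs i).1.le n
      have hPp : 0 < P := by rw [hP]; linarith only [hθp, hGnn]
      set ρ : ℝ := P ^ ((n : ℝ)⁻¹) with hρ
      have hρp : 0 < ρ := Real.rpow_pos_of_pos hPp _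
      have hρn : ρ ^ n = P := Real.rpow_inv_natCast_pow hPp.le (by omega)
      have hlow : m1 * y ≤ ρ := by
        have h1 : (m1 * y) ^ n ≤ ρ ^ n := by
          rw [hρn, hP]
          have h2 : ∑ i ∈ G, (1 / 2 * y) ^ n ≤ ∑ i ∈ G, r i ^ n :=
            Finset.sum_le_sum fun i hi => pow_le_pow_left₀ (by (clear * - hR hR2; positivity)) (hGy i hi).1.le n
          rw [Finset.sum_const, nsmul_eq_mul, hGc] at h2
          have h3 : (m1 * y) ^ n = (2 * m1) ^ n * (1 / 2 * y) ^ n := by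
            rw [← mul_pow]; congr 1; ring
          have h4 : (2 * m1) ^ n * (1 / 2 * y) ^ n ≤ (Nr : ℝ) * (1 / 2 * y) ^ n :=
            mul_le_mul_of_nonneg_right hNr1 (by positivity)
          linarith only [hθp, h2, h3, h4]
        exact le_of_pow_le_pow_left₀ (by omega) hρp.le h1
      have hup : ρ ≤ s := by
        have h1 : ρ ^ n ≤ ((Nr + 1) * y) ^ n := by
          rw [hρn, hP]
          have h2 : ∑ i ∈ G, r i ^ n ≤ ∑ i ∈ G, y ^ n :=
            Finset.sum_le_sum fun i hi => pow_le_pow_left₀ (hrs i).1.le (hGy i hi).2 n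
          rw [Finset.sum_const, nsmul_eq_mul, hGc] at h2
          have h3 : ((Nr : ℝ) + 1) * y ^ n ≤ ((Nr + 1) * y) ^ n := by
            have h31 : ((Nr : ℝ) + 1) ≤ ((Nr : ℝ) + 1) ^ n := by
              calc ((Nr : ℝ) + 1) = ((Nr : ℝ) + 1) ^ 1 := (pow_one _).symm
                _ ≤ ((Nr : ℝ) + 1) ^ n := pow_le_pow_right₀ (by linarith only []) (by omega)
            have h32 : (((Nr : ℝ) + 1) * y) ^ n = ((Nr : ℝ) + 1) ^ n * y ^ n :=
              mul_pow ((Nr : ℝ) + 1) y n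
            rw [h32]
            exact mul_le_mul_of_nonneg_right h31 (pow_nonneg hyp.le n)
          linarith only [h3, h2, hθ2]
        have h4 : ρ ≤ (Nr + 1) * y := le_of_pow_le_pow_left₀ (by omega) (by positivity) h1
        have h5 : (Nr + 1) * y ≤ s := by
          rw [hy]
          calc ((Nr : ℝ) + 1) * ((1 / 2 : ℝ) ^ j * s) = ((1 / 2 : ℝ) ^ j * (Nr + 1)) * s := by ring
            _ ≤ 1 * s := mul_le_mul_of_nonneg_right hj hsp.le
            _ = s := one_mul s
        linarith only [h4, h5]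
      -- the group packs the virtual ball
      have hpackG : Packs (openBall n ρ) (fun i : (G : Set ι) => r i) := by
        have hm : 0 < ρ / y := div_pos hρp hyp
        have hm' : R1 ≤ ρ / y := by
          rw [le_div_iff₀ hyp]
          calc R1 * y ≤ m1 * y := mul_le_mul_of_nonneg_right hm1R hyp.le
            _ ≤ ρ := hlow
        have hmy : ρ / y * y = ρ := by (clear * - hyp hρp; field_simp)
        have := packs_of_Fill hm hyp (hF1 _ hm') (G : Set ι) (fun i : (G : Set ι) => r i) ∅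
          (fun i => ⟨(hrs i).1, (hGy i i.2).2⟩) (fun i _ => (hGy i i.2).1.le) (by simp) (by
            rw [hmy, hρn, hP]
            have h1 : ∑ i : (G : Set ι), r i ^ n = ∑ i ∈ G, r i ^ n := by
              rw [← Finset.sum_coe_sort G]
              rfl
            rw [h1]; linarith only [hθp])
        rwa [hmy] at this
      refine Packs.merge (G : Set ι) (ρ := ρ) ?_ hpackG
      -- the family with the virtual ball
      have hcompl : Fintype.card (↥((G : Set ι)ᶜ)) = k - Nr := by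
        rw [Fintype.card_compl_set]
        simp only [hcard, SetLike.coe_sort_coe, Fintype.card_coe, hGc]
      have hGk : Nr ≤ k := by
        rw [← hcard, ← hGc]; exact Finset.card_le_univ G
      refine ih (k - Nr + 1) (by omega) (Option (↥((G : Set ι)ᶜ))) (by
        rw [Fintype.card_option, hcompl]) R _ hR ?_ ?_
      · rintro (_ | i)
        · refine ⟨hρp, ?_⟩
          show ρ ≤ 1 / m2 * R
          have : 1 / m2 * R = s := by rw [hs]; ring
          rw [this]; exact hup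
        · exact hr i
      · rw [Fintype.sum_option]
        show ρ ^ n + ∑ i : ↥((G : Set ι)ᶜ), r i ^ n < R ^ n
        have h1 : ∑ i : ↥((G : Set ι)ᶜ), r i ^ n = ∑ i ∈ Gᶜ, r i ^ n := by
          rw [← Finset.sum_coe_sort Gᶜ]
          refine Fintype.sum_equiv (Equiv.subtypeEquivRight ?_) _ _ ?_
          · intro x; simp
          · intro x; rfl
        rw [h1, hρn, hP]
        have h2 := Finset.sum_add_sum_compl G (fun i => r i ^ n)
        linarith only [hθp, hθ1, h2]
    · push Not at hcase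
      -- the least `j0` with `2^{-j0} (Nr + 1) ≤ 1`
      have hex : ∃ j : ℕ, (1 / 2 : ℝ) ^ j * (Nr + 1) ≤ 1 := by
        obtain ⟨j, hj⟩ := exists_pow_lt_of_lt_one (x := 1 / ((Nr : ℝ) + 1)) (y := 1 / 2)
          (by positivity) (by norm_num)
        refine ⟨j, ?_⟩
        rw [lt_div_iff₀ (by positivity)] at hj
        exact hj.le
      set j0 := Nat.find hex with hj0
      have hj0s : (1 / 2 : ℝ) ^ j0 * (Nr + 1) ≤ 1 := Nat.find_spec hex
      have hj0p : j0 ≠ 0 := by
        intro h0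
        rw [h0, pow_zero, one_mul] at hj0s
        linarith only [hNrR, hj0s]
      have hj0m : 1 < (1 / 2 : ℝ) ^ (j0 - 1) * (Nr + 1) := by
        have := Nat.find_min hex (m := j0 - 1) (by omega)
        push Not at this
        exact this
      have hδj : δ1 ≤ (1 / 2 : ℝ) ^ j0 := by
        have h1 : (1 / 2 : ℝ) ^ (j0 - 1) = 2 * (1 / 2 : ℝ) ^ j0 := by
          obtain ⟨i, hi⟩ := Nat.exists_eq_succ_of_ne_zero hj0p
          rw [hi, Nat.succ_sub_one, pow_succ]; ring
        rw [h1] at hj0m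
        rw [hδ1, div_le_iff₀ (by positivity)]
        linarith only [hj0m]
      set J : Finset ι := Finset.univ.filter fun i => r i ≤ (1 / 2 : ℝ) ^ j0 * s with hJ
      have hJsum : ∑ i ∈ J, r i ≤ 2 * Nr * s := by
        refine sum_small_le r s hsp Nr J (fun i _ => hrs i) ?_
        intro i hi j hj1 hj2 G hG
        by_contra hlt
        push Not at hlt
        obtain ⟨G', hG', hG'c⟩ := Finset.exists_subset_card_eq hlt
        have hjj : j0 ≤ j := by
          by_contra hh
          push Not at hh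
          have h1 : (1 / 2 : ℝ) ^ j0 ≤ (1 / 2 : ℝ) ^ (j + 1) :=
            pow_le_pow_of_le_one (by norm_num) (by norm_num) hh
          have h2 : r i ≤ (1 / 2 : ℝ) ^ j0 * s := by
            rw [hJ, Finset.mem_filter] at hi; exact hi.2
          have h3 : (1 / 2 : ℝ) ^ j0 * s ≤ (1 / 2 : ℝ) ^ (j + 1) * s :=
            mul_le_mul_of_nonneg_right h1 hsp.le
          linarith only [hj1, h2, h3]
        have hj : (1 / 2 : ℝ) ^ j * (Nr + 1) ≤ 1 := by
          have h1 : (1 / 2 : ℝ) ^ j ≤ (1 / 2 : ℝ) ^ j0 :=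
            pow_le_pow_of_le_one (by norm_num) (by norm_num) hjj
          have h2 : (1 / 2 : ℝ) ^ j * ((Nr : ℝ) + 1) ≤ (1 / 2 : ℝ) ^ j0 * (Nr + 1) :=
            mul_le_mul_of_nonneg_right h1 (by positivity)
          linarith only [hj0s, h2]
        exact hcase j G' hj (fun k hk => hG k (hG' hk)) hG'c
      have := packs_of_Fill hm2p hsp (hF2 m2 hm2R) ι r J hrs (by
          intro i hi
          have h1 : (1 / 2 : ℝ) ^ j0 * s < r i := by
            by_contra hh
            push Not at hh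
            exact hi (by rw [hJ, Finset.mem_filter]; exact ⟨Finset.mem_univ i, hh⟩)
          have h2 : δ1 * s ≤ (1 / 2 : ℝ) ^ j0 * s := mul_le_mul_of_nonneg_right hδj hsp.le
          linarith only [h1, h2]) hJsum (by rw [hms]; exact hsum)
      rwa [hms] at this
  intro ι _ R r hR hr hsum
  exact key (Fintype.card ι) ι rfl R r hR hr hsum

end Vale.Agent.P209.Strong
end
end
end
end

section

section

section

section

namespace Vale.Agent.P209.Strong

open MeasureTheory

/-! G0. Truncated simplex blocks: definitions. -/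

/-- Truncated simplex block: the coordinates `j < k` lie between the walls; the coordinates
`j ≥ k` and the slack `σ a - ∑_{j ≥ k} a j` lie between `0` and the caps `A j`, `As`. -/
def TR {n : ℕ} (k : ℕ) (l u : Fin n → (Fin n → ℝ) → ℝ) (σ : (Fin n → ℝ) → ℝ) (A : Fin n → ℝ)
    (As : ℝ) : Set (Fin n → ℝ) :=
  {a | (∀ j : Fin n, (j : ℕ) < k → l j a < a j ∧ a j < u j a) ∧
    (∀ j : Fin n, k ≤ (j : ℕ) → 0 < a j ∧ a j < A j) ∧
    0 < σ a - bsum k n a ∧ σ a - bsum k n a < As}

/-- Simplex block without caps. -/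
def SR {n : ℕ} (k : ℕ) (l u : Fin n → (Fin n → ℝ) → ℝ) (σ : (Fin n → ℝ) → ℝ) :
    Set (Fin n → ℝ) :=
  {a | (∀ j : Fin n, (j : ℕ) < k → l j a < a j ∧ a j < u j a) ∧
    (∀ j : Fin n, k ≤ (j : ℕ) → 0 < a j) ∧ bsum k n a < σ a}

/-- Data for a simplex block: the outer coordinates `j < k` have widths in `[c * Rv j, Rv j]`, the
size `σ` of the block is in `[c * Rb, Rb]`. -/
structure SD {n : ℕ} (c L : ℝ) (Rv : Fin n → ℝ) (Rb : ℝ) (k : ℕ)
    (l u : Fin n → (Fin n → ℝ) → ℝ) (σ : (Fin n → ℝ) → ℝ) : Prop where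
  wl : Walls L l
  wu : Walls L u
  int : IntAff k σ
  lip : ∀ y y', |σ y - σ y'| ≤ L * dist y y'
  fat : ∀ (j : Fin n) (a : Fin n → ℝ), (j : ℕ) < k → Pre l u j a →
    c * Rv j ≤ u j a - l j a ∧ u j a - l j a ≤ Rv j
  size : ∀ a, Pre l u k a → c * Rb ≤ σ a ∧ σ a ≤ Rb

/-- Data for a truncated simplex block, with gap `g`: any two caps have sum at least `σ + g`. -/
structure TD {n : ℕ} (c L : ℝ) (Rv : Fin n → ℝ) (Rb : ℝ) (k : ℕ)
    (l u : Fin n → (Fin n → ℝ) → ℝ) (σ : (Fin n → ℝ) → ℝ) (A : Fin n → ℝ) (As g : ℝ) : Prop where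
  sd : SD c L Rv Rb k l u σ
  cap : ∀ j : Fin n, k ≤ (j : ℕ) → c * Rb ≤ A j
  caps : c * Rb ≤ As
  pair : ∀ a, Pre l u k a → ∀ i j : Fin n, i ≠ j → k ≤ (i : ℕ) → k ≤ (j : ℕ) →
    σ a + g ≤ A i + A j
  pairs : ∀ a, Pre l u k a → ∀ j : Fin n, k ≤ (j : ℕ) → σ a + g ≤ A j + As
  tot : ∀ a, Pre l u k a → σ a + c * Rb ≤ bsum k n A + As

/-- Anisotropic fat boxes are filled. -/
def CA (n : ℕ) : Prop :=
  ∀ c L δ N : ℝ, 0 < c → 0 ≤ L → 0 < δ → δ ≤ 1 → 0 ≤ N → ∃ R0 : ℝ, 0 < R0 ∧
    ∀ (Rv : Fin n → ℝ), (∀ j, R0 ≤ Rv j) → ∀ l u : Fin n → (Fin n → ℝ) → ℝ, Walls L l → Walls L u →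
      (∀ (j : Fin n) (a : Fin n → ℝ), Pre l u j a →
        c * Rv j ≤ u j a - l j a ∧ u j a - l j a ≤ Rv j) → Fill δ N (boxSet l u)

/-- Simplex blocks are filled. -/
def PS (n k : ℕ) : Prop :=
  ∀ c L δ N : ℝ, 0 < c → 0 ≤ L → 0 < δ → δ ≤ 1 → 0 ≤ N → ∃ R0 : ℝ, 0 < R0 ∧
    ∀ (Rv : Fin n → ℝ) (Rb : ℝ), (∀ j : Fin n, (j : ℕ) < k → R0 ≤ Rv j) → R0 ≤ Rb →
      ∀ (l u : Fin n → (Fin n → ℝ) → ℝ) (σ : (Fin n → ℝ) → ℝ),
        SD c L Rv Rb k l u σ → Fill δ N (SR k l u σ)

/-- Truncated simplex blocks with gap `c * Rb` are filled. -/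
def TS (n k : ℕ) : Prop :=
  ∀ c L δ N : ℝ, 0 < c → 0 ≤ L → 0 < δ → δ ≤ 1 → 0 ≤ N → ∃ R0 : ℝ, 0 < R0 ∧
    ∀ (Rv : Fin n → ℝ) (Rb : ℝ), (∀ j : Fin n, (j : ℕ) < k → R0 ≤ Rv j) → R0 ≤ Rb →
      ∀ (l u : Fin n → (Fin n → ℝ) → ℝ) (σ : (Fin n → ℝ) → ℝ) (A : Fin n → ℝ) (As : ℝ),
        TD c L Rv Rb k l u σ A As (c * Rb) → Fill δ N (TR k l u σ A As)

/-- Truncated simplex blocks with gap `0` are filled. -/
def TZ (n k : ℕ) : Prop :=
  ∀ c L δ N : ℝ, 0 < c → 0 ≤ L → 0 < δ → δ ≤ 1 → 0 ≤ N → ∃ R0 : ℝ, 0 < R0 ∧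
    ∀ (Rv : Fin n → ℝ) (Rb : ℝ), (∀ j : Fin n, (j : ℕ) < k → R0 ≤ Rv j) → R0 ≤ Rb →
      ∀ (l u : Fin n → (Fin n → ℝ) → ℝ) (σ : (Fin n → ℝ) → ℝ) (A : Fin n → ℝ) (As : ℝ),
        TD c L Rv Rb k l u σ A As 0 → Fill δ N (TR k l u σ A As)

/-- The first block coordinate has a large corner. -/
def TSA (n k : ℕ) : Prop :=
  ∀ c L δ N : ℝ, 0 < c → 0 ≤ L → 0 < δ → δ ≤ 1 → 0 ≤ N → ∃ R0 : ℝ, 0 < R0 ∧
    ∀ (Rv : Fin n → ℝ) (Rb : ℝ), (∀ j : Fin n, (j : ℕ) < k → R0 ≤ Rv j) → R0 ≤ Rb →
      ∀ (l u : Fin n → (Fin n → ℝ) → ℝ) (σ : (Fin n → ℝ) → ℝ) (A : Fin n → ℝ) (As : ℝ),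
        TD c L Rv Rb k l u σ A As (c * Rb) →
        (∀ a, Pre l u k a → ∀ j : Fin n, (j : ℕ) = k → A j + c * Rb ≤ σ a) →
        Fill δ N (TR k l u σ A As)

/-- Some block coordinate, or the slack, has a large corner. -/
def TSI (n k : ℕ) : Prop :=
  ∀ c L δ N : ℝ, 0 < c → 0 ≤ L → 0 < δ → δ ≤ 1 → 0 ≤ N → ∃ R0 : ℝ, 0 < R0 ∧
    ∀ (Rv : Fin n → ℝ) (Rb : ℝ), (∀ j : Fin n, (j : ℕ) < k → R0 ≤ Rv j) → R0 ≤ Rb →
      ∀ (l u : Fin n → (Fin n → ℝ) → ℝ) (σ : (Fin n → ℝ) → ℝ) (A : Fin n → ℝ) (As : ℝ),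
        TD c L Rv Rb k l u σ A As (c * Rb) →
        ((∃ j : Fin n, k ≤ (j : ℕ) ∧ ∀ a, Pre l u k a → A j + c * Rb ≤ σ a) ∨
          ∀ a, Pre l u k a → As + c * Rb ≤ σ a) →
        Fill δ N (TR k l u σ A As)

/-- Only the coordinate `k + 1` has an active cap. -/
def TSC (n k : ℕ) : Prop :=
  ∀ c L δ N : ℝ, 0 < c → 0 ≤ L → 0 < δ → δ ≤ 1 → 0 ≤ N → ∃ R0 : ℝ, 0 < R0 ∧
    ∀ (Rv : Fin n → ℝ) (Rb : ℝ), (∀ j : Fin n, (j : ℕ) < k → R0 ≤ Rv j) → R0 ≤ Rb →
      ∀ (l u : Fin n → (Fin n → ℝ) → ℝ) (σ : (Fin n → ℝ) → ℝ) (A : Fin n → ℝ) (As : ℝ),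
        TD c L Rv Rb k l u σ A As (c * Rb) →
        (∀ j : Fin n, k ≤ (j : ℕ) → (j : ℕ) ≠ k + 1 → Rb ≤ A j) → Rb ≤ As →
        Fill δ N (TR k l u σ A As)

/-- All corners are small. -/
def TSB (n k : ℕ) : Prop :=
  ∀ c L δ N : ℝ, 0 < c → 0 ≤ L → 0 < δ → δ ≤ 1 → 0 ≤ N → ∃ R0 : ℝ, 0 < R0 ∧
    ∀ (Rv : Fin n → ℝ) (Rb : ℝ), (∀ j : Fin n, (j : ℕ) < k → R0 ≤ Rv j) → R0 ≤ Rb →
      ∀ (l u : Fin n → (Fin n → ℝ) → ℝ) (σ : (Fin n → ℝ) → ℝ) (A : Fin n → ℝ) (As : ℝ),
        TD c L Rv Rb k l u σ A As (c * Rb) →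
        (∀ a, Pre l u k a → ∀ j : Fin n, k ≤ (j : ℕ) → σ a ≤ A j + 3 * (c / 100 * Rb)) →
        (∀ a, Pre l u k a → σ a ≤ As + 3 * (c / 100 * Rb)) →
        Fill δ N (TR k l u σ A As)

end Vale.Agent.P209.Strong
end
end
end
end

section

section

section

section

namespace Vale.Agent.P209.Strong

open MeasureTheory

/-! G1a. First properties of truncated simplex blocks. -/

/-- the outer coordinates of points satisfying the outer conditions are bounded -/
theorem g1a_bdd {n : ℕ} {L : ℝ} (hL : 0 ≤ L) {l u : Fin n → (Fin n → ℝ) → ℝ} (hl : Walls L l)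
    (hu : Walls L u) (k : ℕ) : ∃ B : ℝ, 0 ≤ B ∧ ∀ a, Pre l u k a → ∀ i : Fin n,
      (i : ℕ) < k → |a i| ≤ B := by
  induction k with
  | zero => exact ⟨0, le_rfl, fun p _ i hi => absurd hi (by omega)⟩
  | succ k ih =>
    obtain ⟨B, hB0, hB⟩ := ih
    by_cases hk : k < n
    · set j : Fin n := ⟨k, hk⟩ with hj
      refine ⟨max B (|l j 0| + |u j 0| + L * B), le_max_of_le_left hB0, fun a ha i hi => ?_⟩
      have ha' : Pre l u k a := fun i hi => ha i (by omega)
      by_cases hik : (i : ℕ) < k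
      · exact le_max_of_le_left (hB a ha' i hik)
      · have hij : i = j := Fin.ext (by simp only [hj]; omega)
        rw [hij]
        refine le_max_of_le_right ?_
        set y : Fin n → ℝ := fun i => if (i : ℕ) < k then a i else 0 with hy
        have hya : ∀ i : Fin n, i < j → a i = y i := by
          intro i hi
          have h1 : (i : ℕ) < k := by
            have := Fin.lt_def.mp hi
            simp only [hj] at this
            exact this
          simp [hy, h1]
        have hd : dist y 0 ≤ B := by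
          rw [dist_pi_le_iff hB0]
          intro i
          simp only [hy, Pi.zero_apply]
          split_ifs with h1
          · rw [Real.dist_eq, sub_zero]
            exact hB a ha' i h1
          · simpa only [dist_self] using hB0
        have hLd : L * dist y 0 ≤ L * B := mul_le_mul_of_nonneg_left hd hL
        have h1 := abs_le.1 (hl.lip j y 0)
        have h2 := abs_le.1 (hu.lip j y 0)
        have h3 := ha j (by simp only [hj]; omega)
        rw [hl.dep j a y hya, hu.dep j a y hya] at h3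
        have h4 := neg_abs_le (l j 0)
        have h5 := le_abs_self (u j 0)
        have h6 := abs_nonneg (l j 0)
        have h7 := abs_nonneg (u j 0)
        rw [abs_le]
        constructor
        · linarith only [hLd, h1, h3, h4, h7]
        · linarith only [hLd, h2, h3, h5, h6]
    · exact ⟨B, hB0, fun p hp i _ => hB p (fun i hi => hp i (by omega)) i
        (lt_of_lt_of_le i.2 (not_lt.mp hk))⟩

/-- a set of points satisfying the outer conditions and with bounded block coordinates has finite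
volume -/
theorem g1a_fin {n k : ℕ} {L : ℝ} (hL : 0 ≤ L) {l u : Fin n → (Fin n → ℝ) → ℝ} (hl : Walls L l)
    (hu : Walls L u) (S : Set (Fin n → ℝ)) (A : Fin n → ℝ)
    (h : ∀ a ∈ S, Pre l u k a ∧ ∀ j : Fin n, k ≤ (j : ℕ) → 0 < a j ∧ a j < A j) :
    volume S ≠ ⊤ := by
  obtain ⟨B, hB0, hB⟩ := g1a_bdd hL hl hu k
  have h1 : S ⊆ Set.Icc (fun _ : Fin n => -B) (fun j : Fin n => max B (A j)) := by
    intro a ha
    obtain ⟨h2, h3⟩ := h a ha
    refine ⟨fun i => ?_, fun i => ?_⟩
    · rcases lt_or_ge (i : ℕ) k with hi | hi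
      · exact (abs_le.1 (hB a h2 i hi)).1
      · have := (h3 i hi).1
        show -B ≤ a i
        linarith only [hB0, this]
    · rcases lt_or_ge (i : ℕ) k with hi | hi
      · exact le_max_of_le_left (abs_le.1 (hB a h2 i hi)).2
      · exact le_max_of_le_right (h3 i hi).2.le
  exact ne_top_of_le_ne_top isCompact_Icc.measure_lt_top.ne (measure_mono h1)

theorem g1a_le_bsum {n k : ℕ} {a : Fin n → ℝ} (h : ∀ j : Fin n, k ≤ (j : ℕ) → 0 < a j)
    (j : Fin n) (hj : k ≤ (j : ℕ)) : a j ≤ bsum k n a := by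
  unfold bsum
  have h1 := Finset.single_le_sum (f := fun i : Fin n => if k ≤ (i : ℕ) ∧ (i : ℕ) < n then a i
    else 0) (s := Finset.univ) (fun i _ => by
      show (0 : ℝ) ≤ if k ≤ (i : ℕ) ∧ (i : ℕ) < n then a i else 0
      split_ifs with h2
      · exact (h i h2.1).le
      · exact le_rfl) (Finset.mem_univ j)
  have h3 : (if k ≤ (j : ℕ) ∧ (j : ℕ) < n then a j else 0) = a j := if_pos ⟨hj, j.2⟩
  calc a j = (if k ≤ (j : ℕ) ∧ (j : ℕ) < n then a j else 0) := h3.symm
    _ ≤ _ := h1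

theorem g1a_walls_mono {n : ℕ} {L L' : ℝ} {F : Fin n → (Fin n → ℝ) → ℝ} (h : Walls L F)
    (hL : L ≤ L') : Walls L' F :=
  ⟨h.dep, fun j y y' => (h.lip j y y').trans (mul_le_mul_of_nonneg_right hL dist_nonneg)⟩

theorem g1a_outer_open {n : ℕ} {L : ℝ} (hL : 0 ≤ L) {l u : Fin n → (Fin n → ℝ) → ℝ}
    (hl : Walls L l) (hu : Walls L u) (k : ℕ) :
    IsOpen {a : Fin n → ℝ | ∀ j : Fin n, (j : ℕ) < k → l j a < a j ∧ a j < u j a} := by
  have e : {a : Fin n → ℝ | ∀ j : Fin n, (j : ℕ) < k → l j a < a j ∧ a j < u j a} =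
      ⋂ j : Fin n, {a | (j : ℕ) < k → l j a < a j ∧ a j < u j a} := by
    ext a
    simp only [Set.mem_ofPred_eq, Set.mem_iInter]
  rw [e]
  refine isOpen_iInter_of_finite fun j => ?_
  by_cases hj : (j : ℕ) < k
  · have e2 : {a : Fin n → ℝ | (j : ℕ) < k → l j a < a j ∧ a j < u j a} =
        {a | l j a < a j} ∩ {a | a j < u j a} := by
      ext a
      simp [hj]
    rw [e2]
    exact (isOpen_lt (hl.continuous hL j) (continuous_apply j)).inter
      (isOpen_lt (continuous_apply j) (hu.continuous hL j))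
  · have e2 : {a : Fin n → ℝ | (j : ℕ) < k → l j a < a j ∧ a j < u j a} = Set.univ := by
      ext a
      simp [hj]
    rw [e2]
    exact isOpen_univ

section
variable {n k : ℕ} {c L Rb As g : ℝ} {Rv A : Fin n → ℝ} {l u : Fin n → (Fin n → ℝ) → ℝ}
  {σ : (Fin n → ℝ) → ℝ}

theorem TR.pre {a : Fin n → ℝ} (h : a ∈ TR k l u σ A As) : Pre l u k a := h.1

theorem SR.pre {a : Fin n → ℝ} (h : a ∈ SR k l u σ) : Pre l u k a := h.1

theorem TR.isOpen (hL : 0 ≤ L) (hl : Walls L l) (hu : Walls L u) (hσ : Continuous σ) :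
    IsOpen (TR k l u σ A As) := by
  have e : TR k l u σ A As =
      {a : Fin n → ℝ | ∀ j : Fin n, (j : ℕ) < k → l j a < a j ∧ a j < u j a} ∩
        ((⋂ j : Fin n, {a | k ≤ (j : ℕ) → 0 < a j ∧ a j < A j}) ∩
          ({a | 0 < σ a - bsum k n a} ∩ {a | σ a - bsum k n a < As})) := by
    ext a
    simp only [TR, Set.mem_ofPred_eq, Set.mem_iInter, Set.mem_inter_iff]
  rw [e]
  have hb : Continuous fun a : Fin n → ℝ => σ a - bsum k n a := hσ.sub (D3d_bsum_cont k n)
  refine (g1a_outer_open hL hl hu k).inter (IsOpen.inter ?_ ((isOpen_lt continuous_const hb).inter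
    (isOpen_lt hb continuous_const)))
  refine isOpen_iInter_of_finite fun j => ?_
  by_cases hj : k ≤ (j : ℕ)
  · have e2 : {a : Fin n → ℝ | k ≤ (j : ℕ) → 0 < a j ∧ a j < A j} =
        {a | 0 < a j} ∩ {a | a j < A j} := by
      ext a
      simp only [hj, forall_const, Set.mem_ofPred_eq, Set.mem_inter_iff]
    rw [e2]
    exact (isOpen_lt continuous_const (continuous_apply j)).inter
      (isOpen_lt (continuous_apply j) continuous_const)
  · have e2 : {a : Fin n → ℝ | k ≤ (j : ℕ) → 0 < a j ∧ a j < A j} = Set.univ := by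
      ext a
      simp [hj]
    rw [e2]
    exact isOpen_univ

theorem TR.finite (hL : 0 ≤ L) (hl : Walls L l) (hu : Walls L u) :
    volume (TR k l u σ A As) ≠ ⊤ :=
  g1a_fin hL hl hu _ A fun _ ha => ⟨ha.1, ha.2.1⟩

/-- inactive caps -/
theorem TR_eq_SR (hk : k < n) (hA : ∀ a, Pre l u k a → ∀ j : Fin n, k ≤ (j : ℕ) → σ a ≤ A j)
    (hs : ∀ a, Pre l u k a → σ a ≤ As) : TR k l u σ A As = SR k l u σ := by
  ext a
  constructor
  · rintro ⟨h1, h2, h3, -⟩
    exact ⟨h1, fun j hj => (h2 j hj).1, by linarith only [h3]⟩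
  · rintro ⟨h1, h2, h3⟩
    refine ⟨h1, fun j hj => ⟨h2 j hj, ?_⟩, by linarith, ?_⟩
    · have h4 := g1a_le_bsum h2 j hj
      have h5 := hA a h1 j hj
      linarith only [h3, h4, h5]
    · have h4 := g1a_le_bsum h2 ⟨k, hk⟩ le_rfl
      have h5 := h2 ⟨k, hk⟩ le_rfl
      have h6 := hs a h1
      linarith only [h4, h5, h6]

/-- lowering one cap -/
theorem TR.inter_lt {p : Fin n} (hp : k ≤ (p : ℕ)) {x : ℝ} (hx : x ≤ A p) :
    TR k l u σ A As ∩ {a | a p < x} = TR k l u σ (Function.update A p x) As := by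
  ext a
  constructor
  · rintro ⟨⟨h1, h2, h3, h4⟩, h5⟩
    refine ⟨h1, fun j hj => ⟨(h2 j hj).1, ?_⟩, h3, h4⟩
    by_cases hjp : j = p
    · subst hjp
      rw [Function.update_self]
      exact h5
    · rw [Function.update_of_ne hjp]
      exact (h2 j hj).2
  · rintro ⟨h1, h2, h3, h4⟩
    have h6 := (h2 p hp).2
    rw [Function.update_self] at h6
    refine ⟨⟨h1, fun j hj => ⟨(h2 j hj).1, ?_⟩, h3, h4⟩, h6⟩
    by_cases hjp : j = p
    · subst hjp
      exact lt_of_lt_of_le h6 hx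
    · have h7 := (h2 j hj).2
      rw [Function.update_of_ne hjp] at h7
      exact h7

theorem SD.mono {c' L' : ℝ} (h : SD c L Rv Rb k l u σ) (hc : c' ≤ c) (hL : L ≤ L')
    (hRb : 0 ≤ Rb) (hRv : ∀ j : Fin n, (j : ℕ) < k → 0 ≤ Rv j) : SD c' L' Rv Rb k l u σ where
  wl := g1a_walls_mono h.wl hL
  wu := g1a_walls_mono h.wu hL
  int := h.int
  lip := fun y y' => (h.lip y y').trans (mul_le_mul_of_nonneg_right hL dist_nonneg)
  fat := fun j a hj ha => ⟨(mul_le_mul_of_nonneg_right hc (hRv j hj)).trans (h.fat j a hj ha).1,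
    (h.fat j a hj ha).2⟩
  size := fun a ha => ⟨(mul_le_mul_of_nonneg_right hc hRb).trans (h.size a ha).1, (h.size a ha).2⟩

theorem TD.mono {c' L' g' : ℝ} (h : TD c L Rv Rb k l u σ A As g) (hc : c' ≤ c) (hL : L ≤ L')
    (hg : g' ≤ g) (hRb : 0 ≤ Rb) (hRv : ∀ j : Fin n, (j : ℕ) < k → 0 ≤ Rv j) :
    TD c' L' Rv Rb k l u σ A As g' where
  sd := h.sd.mono hc hL hRb hRv
  cap := fun j hj => (mul_le_mul_of_nonneg_right hc hRb).trans (h.cap j hj)
  caps := (mul_le_mul_of_nonneg_right hc hRb).trans h.caps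
  pair := fun a ha i j hij hi hj => by
    have := h.pair a ha i j hij hi hj
    linarith only [hg, this]
  pairs := fun a ha j hj => by
    have := h.pairs a ha j hj
    linarith only [hg, this]
  tot := fun a ha => by
    have h1 := h.tot a ha
    have h2 := mul_le_mul_of_nonneg_right hc hRb
    linarith

theorem SD.continuous (hL : 0 ≤ L) (h : SD c L Rv Rb k l u σ) : Continuous σ := by
  have : LipschitzWith (Real.toNNReal L) σ := by
    refine LipschitzWith.of_dist_le_mul fun y y' => ?_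
    rw [Real.dist_eq, Real.coe_toNNReal L hL]
    exact h.lip y y'
  exact this.continuous

/-- the size only depends on the outer coordinates -/
theorem SD.dep (h : SD c L Rv Rb k l u σ) {y y' : Fin n → ℝ}
    (hy : ∀ i : Fin n, (i : ℕ) < k → y i = y' i) : σ y = σ y' :=
  d3s_congr h.int hy

end

end Vale.Agent.P209.Strong
end
end
end
end

section

section

section

section

namespace Vale.Agent.P209.Strong

open MeasureTheory

/-- a point all whose outer coordinates are in the middle of the walls -/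
theorem g1c_mid {n : ℕ} {l u : Fin n → (Fin n → ℝ) → ℝ} (hl : DepLt l) (hu : DepLt u) (k : ℕ) :
    ∃ a : Fin n → ℝ, ∀ j : Fin n, (j : ℕ) < k → a j = (l j a + u j a) / 2 := by
  classical
  induction k with
  | zero => exact ⟨0, fun j hj => absurd hj (Nat.not_lt_zero _)⟩
  | succ k ih =>
    obtain ⟨a, ha⟩ := ih
    by_cases hk : k < n
    · set p : Fin n := ⟨k, hk⟩ with hp
      refine ⟨Function.update a p ((l p a + u p a) / 2), fun j hj => ?_⟩
      have hd : ∀ i : Fin n, i < j →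
          Function.update a p ((l p a + u p a) / 2) i = a i := by
        intro i hi
        rw [Function.update_of_ne]
        intro h
        have h1 : (i : ℕ) = k := by rw [h]
        have h2 : (i : ℕ) < j := hi
        omega
      rw [hl j _ a hd, hu j _ a hd]
      by_cases hjk : (j : ℕ) < k
      · rw [Function.update_of_ne, ha j hjk]
        intro h
        have h1 : (j : ℕ) = k := by rw [h]
        omega
      · have hjp : j = p := Fin.ext (by simp only [hp]; omega)
        rw [hjp, Function.update_self]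
    · exact ⟨a, fun j _ => ha j (lt_of_lt_of_le j.2 (not_lt.mp hk))⟩

/-- sum of an affine function of the caps -/
theorem g1c_bsum {n k : ℕ} (r t : ℝ) (A a : Fin n → ℝ)
    (ha : ∀ j : Fin n, k ≤ (j : ℕ) → a j = r + t * (A j - 2 * r)) :
    bsum k n a = r * bsum k n (fun _ : Fin n => (1 : ℝ)) +
      t * (bsum k n A - 2 * r * bsum k n (fun _ : Fin n => (1 : ℝ))) := by
  unfold bsum
  rw [Finset.mul_sum, Finset.mul_sum, ← Finset.sum_sub_distrib, Finset.mul_sum,
    ← Finset.sum_add_distrib]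
  refine Finset.sum_congr rfl fun i _ => ?_
  by_cases hi : k ≤ (i : ℕ)
  · rw [if_pos ⟨hi, i.2⟩, if_pos ⟨hi, i.2⟩, if_pos ⟨hi, i.2⟩, ha i hi]; ring
  · rw [if_neg (fun h => hi h.1), if_neg (fun h => hi h.1), if_neg (fun h => hi h.1)]; ring

theorem g1c_card {n k : ℕ} : 0 ≤ bsum k n (fun _ : Fin n => (1 : ℝ)) ∧
    bsum k n (fun _ : Fin n => (1 : ℝ)) ≤ n := by
  constructor
  · exact D3d_bsum_nonneg _ _ _ fun _ _ _ => zero_le_one
  · unfold bsum
    refine (Finset.sum_le_card_nsmul _ _ 1 fun i _ => ?_).trans (by simp only [Finset.card_univ, Fintype.card_fin, nsmul_eq_mul, mul_one, Std.le_refl])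
    split_ifs <;> norm_num

/-- a ball in the block -/
theorem g1c_ball {n k : ℕ} {c L Rb As g : ℝ} {Rv A : Fin n → ℝ}
    {l u : Fin n → (Fin n → ℝ) → ℝ} {σ : (Fin n → ℝ) → ℝ} (hL : 0 ≤ L)
    (h : TD c L Rv Rb k l u σ A As g) {a0 : Fin n → ℝ} {r ρ w : ℝ}
    (hρ : 0 ≤ ρ) (hsum : (L + n + 1) * ρ < r) (hrc : r ≤ w)
    (hout : ∀ j : Fin n, (j : ℕ) < k → l j a0 + w ≤ a0 j ∧ a0 j + w ≤ u j a0)
    (hblk : ∀ j : Fin n, k ≤ (j : ℕ) → r ≤ a0 j ∧ a0 j ≤ A j - r)
    (hslack : r ≤ σ a0 - bsum k n a0 ∧ σ a0 - bsum k n a0 ≤ As - r) :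
    Metric.ball a0 ρ ⊆ TR k l u σ A As := by
  intro a ha
  rw [Metric.mem_ball] at ha
  have hn0 : (0 : ℝ) ≤ n := Nat.cast_nonneg n
  have hLd : L * dist a a0 ≤ L * ρ := mul_le_mul_of_nonneg_left ha.le hL
  have hnd : (n : ℝ) * dist a a0 ≤ n * ρ := mul_le_mul_of_nonneg_left ha.le hn0
  have hnρ : 0 ≤ (n : ℝ) * ρ := mul_nonneg hn0 hρ
  have hLρ : 0 ≤ L * ρ := mul_nonneg hL hρ
  have hs : L * ρ + n * ρ + ρ < r := by
    have : (L + n + 1) * ρ = L * ρ + n * ρ + ρ := by ring
    rw [← this]; exact hsum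
  have hcoord : ∀ j, |a j - a0 j| < ρ := by
    intro j
    rw [← Real.dist_eq]
    exact lt_of_le_of_lt (dist_le_pi_dist a a0 j) ha
  refine ⟨fun j hj => ?_, fun j hj => ?_, ?_⟩
  · have h1 := (abs_le.1 (h.sd.wl.lip j a a0)).2
    have h2 := (abs_le.1 (h.sd.wu.lip j a a0)).1
    have h3 := abs_lt.1 (hcoord j)
    have h4 := hout j hj
    have h5 := h3.1
    have h6 := h3.2
    have h7 := h4.1
    have h8 := h4.2
    constructor
    · linarith only [h1, h5, h7, hLd, hs, hrc, hnρ]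
    · linarith only [h2, h6, h8, hLd, hs, hrc, hnρ]
  · have h3 := abs_lt.1 (hcoord j)
    have h4 := hblk j hj
    have h5 := h3.1
    have h6 := h3.2
    have h7 := h4.1
    have h8 := h4.2
    constructor
    · linarith only [h5, h7, hs, hnρ, hLρ]
    · linarith only [h6, h8, hs, hnρ, hLρ]
  · have h1 := abs_le.1 (h.sd.lip a a0)
    have h2 := abs_le.1 (D3d_bsum_lip k n a a0)
    have h5 := h1.1
    have h6 := h1.2
    have h7 := h2.1
    have h8 := h2.2
    have h9 := hslack.1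
    have h10 := hslack.2
    constructor
    · linarith only [h5, h8, h9, hs, hLd, hnd, hρ]
    · linarith only [h6, h7, h10, hs, hLd, hnd, hρ]

/-- the outer coordinates in the middle -/
theorem g1c_pre {n k : ℕ} {c L Rb m : ℝ} {Rv : Fin n → ℝ}
    {l u : Fin n → (Fin n → ℝ) → ℝ} {σ : (Fin n → ℝ) → ℝ} (hc : 0 < c) (hm : 0 < m)
    (h : SD c L Rv Rb k l u σ) (hRv : ∀ j : Fin n, (j : ℕ) < k → m ≤ Rv j)
    {b a : Fin n → ℝ} (hb : ∀ j : Fin n, (j : ℕ) < k → b j = (l j b + u j b) / 2)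
    (hab : ∀ j : Fin n, (j : ℕ) < k → a j = b j) : Pre l u k a ∧
      ∀ j : Fin n, (j : ℕ) < k → l j a + c * m / 2 ≤ a j ∧ a j + c * m / 2 ≤ u j a := by
  have hmid : ∀ j : Fin n, (j : ℕ) < k → a j = (l j a + u j a) / 2 := by
    intro j hj
    have hd : ∀ i : Fin n, i < j → a i = b i := fun i hi =>
      hab i (lt_trans (show (i : ℕ) < j from hi) hj)
    rw [h.wl.dep j a b hd, h.wu.dep j a b hd, hab j hj, hb j hj]
  have h5 : 0 < c * m := mul_pos hc hm
  have hstep : ∀ q : ℕ, q ≤ k → Pre l u q a := by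
    intro q
    induction q with
    | zero => intro _ i hi; exact absurd hi (Nat.not_lt_zero _)
    | succ q ih =>
      intro hq i hi
      have hP := ih (by omega)
      rcases Nat.lt_succ_iff_lt_or_eq.1 hi with h1 | h1
      · exact hP i h1
      · have hPi : Pre l u i a := by rw [h1]; exact hP
        have hik : (i : ℕ) < k := by omega
        have h2 := (h.fat i a hik hPi).1
        have h3 : c * m ≤ c * Rv i := mul_le_mul_of_nonneg_left (hRv i hik) hc.le
        have h4 := hmid i hik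
        constructor <;> linarith only [h2, h3, h4, h5]
  refine ⟨hstep k le_rfl, fun j hj => ?_⟩
  have hPj : Pre l u j a := fun i hi => hstep k le_rfl i (lt_trans hi hj)
  have h2 := (h.fat j a hj hPj).1
  have h3 : c * m ≤ c * Rv j := mul_le_mul_of_nonneg_left (hRv j hj) hc.le
  have h4 := hmid j hj
  constructor <;> linarith only [h2, h3, h4, h5]

theorem g1c_ineq {r t x : ℝ} (ht0 : 0 ≤ t) (ht1 : t ≤ 1) (hx : 0 ≤ x - 2 * r) :
    r ≤ r + t * (x - 2 * r) ∧ r + t * (x - 2 * r) ≤ x - r := by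
  have h1 : 0 ≤ t * (x - 2 * r) := mul_nonneg ht0 hx
  have h2 : t * (x - 2 * r) ≤ 1 * (x - 2 * r) := mul_le_mul_of_nonneg_right ht1 hx
  constructor
  · linarith only [h1]
  · linarith only [h2]

/-- the centre of the ball -/
theorem g1c_centre {n k : ℕ} {c L Rb m As g : ℝ} {Rv A : Fin n → ℝ}
    {l u : Fin n → (Fin n → ℝ) → ℝ} {σ : (Fin n → ℝ) → ℝ} (hc : 0 < c) (hm : 0 < m)
    (h : TD c L Rv Rb k l u σ A As g) (hRv : ∀ j : Fin n, (j : ℕ) < k → m ≤ Rv j)
    (hRb : m ≤ Rb) {r : ℝ} (hr0 : 0 < r) (hcm : 2 * ((n : ℝ) + 1) * r = c * m) :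
    ∃ a0 : Fin n → ℝ,
      (∀ j : Fin n, (j : ℕ) < k → l j a0 + c * m / 2 ≤ a0 j ∧ a0 j + c * m / 2 ≤ u j a0) ∧
      (∀ j : Fin n, k ≤ (j : ℕ) → r ≤ a0 j ∧ a0 j ≤ A j - r) ∧
      (r ≤ σ a0 - bsum k n a0 ∧ σ a0 - bsum k n a0 ≤ As - r) := by
  classical
  obtain ⟨b, hb⟩ := g1c_mid h.sd.wl.dep h.sd.wu.dep k
  have hn0 : (0 : ℝ) ≤ n := Nat.cast_nonneg n
  have hcRb : c * m ≤ c * Rb := mul_le_mul_of_nonneg_left hRb hc.le
  have hσb := (g1c_pre hc hm h.sd hRv hb (fun _ _ => rfl)).1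
  have hs1 := (h.sd.size b hσb).1
  have htot := h.tot b hσb
  obtain ⟨hc0, hc1⟩ := g1c_card (n := n) (k := k)
  set e : ℝ := bsum k n (fun _ : Fin n => (1 : ℝ)) with he
  have her : (e + 1) * r ≤ c * m / 2 := by
    have h1 : (e + 1) * r ≤ (n + 1) * r :=
      mul_le_mul_of_nonneg_right (by linarith only [hc1]) hr0.le
    linarith only [h1, hcm]
  have hcm0 : 0 < c * m := mul_pos hc hm
  have hden : 0 < bsum k n A + As - 2 * (e + 1) * r := by
    linarith only [htot, her, hs1, hcRb, hcm0]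
  have h2r : 2 * r ≤ c * m := by
    have : 0 ≤ (n : ℝ) * r := mul_nonneg hn0 hr0.le
    linarith only [this, hcm]
  set t : ℝ := (σ b - (e + 1) * r) / (bsum k n A + As - 2 * (e + 1) * r) with ht
  have ht0 : 0 ≤ t := div_nonneg (by linarith only [hs1, hcRb, her, hcm0]) hden.le
  have ht1 : t ≤ 1 := by
    rw [ht, div_le_one hden]; linarith only [htot, her, hcRb, hcm0]
  have htF : (e + 1) * r + t * (bsum k n A + As - 2 * (e + 1) * r) = σ b := by
    rw [ht, div_mul_cancel₀ _ hden.ne']; ring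
  set a0 : Fin n → ℝ := fun j => if (j : ℕ) < k then b j else r + t * (A j - 2 * r) with ha0
  have ha0k : ∀ j : Fin n, (j : ℕ) < k → a0 j = b j := fun j hj => by
    simp only [ha0]; rw [if_pos hj]
  have ha0b : ∀ j : Fin n, k ≤ (j : ℕ) → a0 j = r + t * (A j - 2 * r) := fun j hj => by
    simp only [ha0]; rw [if_neg (not_lt.2 hj)]
  have hσ0 : σ a0 = σ b := d3s_congr h.sd.int ha0k
  have hbs := g1c_bsum (k := k) r t A a0 ha0b
  rw [← he] at hbs
  refine ⟨a0, (g1c_pre hc hm h.sd hRv hb ha0k).2, fun j hj => ?_, ?_⟩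
  · have h1 := h.cap j hj
    rw [ha0b j hj]
    exact g1c_ineq ht0 ht1 (by linarith only [h1, h2r, hcRb])
  · have h1 : σ a0 - bsum k n a0 = r + t * (As - 2 * r) := by
      rw [hσ0, hbs, ← htF]; ring
    have h2 := h.caps
    rw [h1]
    exact g1c_ineq ht0 ht1 (by linarith only [h2, h2r, hcRb])

/-- Lower bound for the volume of a truncated simplex block. -/
theorem TD.volume_ge {n : ℕ} (c L : ℝ) (hc : 0 < c) (hL : 0 ≤ L) : ∃ κ : ℝ, 0 < κ ∧
    ∀ (k : ℕ) (Rv : Fin n → ℝ) (Rb m : ℝ) (l u : Fin n → (Fin n → ℝ) → ℝ)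
      (σ : (Fin n → ℝ) → ℝ) (A : Fin n → ℝ) (As g : ℝ), k ≤ n → 0 < m →
      (∀ j : Fin n, (j : ℕ) < k → m ≤ Rv j) → m ≤ Rb → TD c L Rv Rb k l u σ A As g →
      (κ * m) ^ n ≤ (volume (TR k l u σ A As)).toReal := by
  have hn0 : (0 : ℝ) ≤ n := Nat.cast_nonneg n
  have hLn : 0 < L + n + 1 := by positivity
  refine ⟨c / (2 * (n + 1) * (L + n + 1)), by positivity, ?_⟩
  intro k Rv Rb m l u σ A As g hk hm hRv hRb h
  -- constants
  set r : ℝ := c * m / (2 * (n + 1)) with hr
  have hr0 : 0 < r := by positivity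
  have hcm : 2 * ((n : ℝ) + 1) * r = c * m := by rw [hr]; field_simp
  set ρ : ℝ := r / (2 * (L + n + 1)) with hρ
  have hρ0 : 0 < ρ := by (clear * - hc hm hL; positivity)
  have hρr : (L + n + 1) * ρ = r / 2 := by rw [hρ]; (clear * - hL hr0; field_simp)
  have hκ : c / (2 * (n + 1) * (L + n + 1)) * m = 2 * ρ := by
    rw [hρ, hr]; (clear * - hm hL hc; field_simp)
  have hrc : r ≤ c * m / 2 := by
    have : 0 ≤ (n : ℝ) * r := mul_nonneg hn0 hr0.le
    linarith only [this, hcm]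
  obtain ⟨a0, h1, h2, h3⟩ := g1c_centre hc hm h hRv hRb hr0 hcm
  have hball : Metric.ball a0 ρ ⊆ TR k l u σ A As :=
    g1c_ball hL h hρ0.le (by rw [hρr]; linarith only [hr0]) hrc h1 h2 h3
  have hfin := TR.finite (A := A) (As := As) (k := k) (σ := σ) hL h.sd.wl h.sd.wu
  have hvol : (volume (Metric.ball a0 ρ)).toReal = (2 * ρ) ^ n := by
    rw [Real.volume_pi_ball a0 hρ0, ENNReal.toReal_ofReal (by (clear * - hc hm hL; positivity)), Fintype.card_fin]
  rw [hκ, ← hvol]
  exact ENNReal.toReal_mono hfin (measure_mono hball)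

end Vale.Agent.P209.Strong
end
end
end
end

section

section

section

section

namespace Vale.Agent.P209.Strong

open MeasureTheory

section
variable {n k : ℕ} {c L Rb As g : ℝ} {Rv A : Fin n → ℝ} {l u : Fin n → (Fin n → ℝ) → ℝ}
  {σ : (Fin n → ℝ) → ℝ}

/-- the wall at the fraction `f` between the walls `l j` and `u j` -/
noncomputable def g2_w (l u : Fin n → (Fin n → ℝ) → ℝ) (j : Fin n) (f : ℝ) : (Fin n → ℝ) → ℝ :=
  fun a => l j a + f * (u j a - l j a)

theorem g2_dep {L : ℝ} (hl : Walls L l) (hu : Walls L u) (j : Fin n) (f : ℝ) {y y' : Fin n → ℝ}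
    (h : ∀ i, i < j → y i = y' i) : g2_w l u j f y = g2_w l u j f y' := by
  simp only [g2_w]
  rw [hl.dep j y y' h, hu.dep j y y' h]

theorem g2_lip {L : ℝ} (hl : Walls L l) (hu : Walls L u) (j : Fin n) {f : ℝ} (hf0 : 0 ≤ f)
    (hf1 : f ≤ 1) (y y' : Fin n → ℝ) : |g2_w l u j f y - g2_w l u j f y'| ≤ L * dist y y' := by
  have h1 := abs_le.1 (hl.lip j y y')
  have h2 := abs_le.1 (hu.lip j y y')
  have e : g2_w l u j f y - g2_w l u j f y' =
      (1 - f) * (l j y - l j y') + f * (u j y - u j y') := by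
    simp only [g2_w]
    ring
  rw [e, abs_le]
  have h3 : 0 ≤ 1 - f := by linarith
  constructor
  · have h4 := mul_le_mul_of_nonneg_left h1.1 h3
    have h5 := mul_le_mul_of_nonneg_left h2.1 hf0
    linarith
  · have h4 := mul_le_mul_of_nonneg_left h1.2 h3
    have h5 := mul_le_mul_of_nonneg_left h2.2 hf0
    linarith

theorem g2_walls {L : ℝ} (hl : Walls L l) (hu : Walls L u) (j : Fin n) {f : ℝ} (hf0 : 0 ≤ f)
    (hf1 : f ≤ 1) {F : Fin n → (Fin n → ℝ) → ℝ} (hF : Walls L F) :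
    Walls L (Function.update F j (g2_w l u j f)) := by
  constructor
  · intro i y y' h
    by_cases hi : i = j
    · subst hi
      simp only [Function.update_self]
      exact g2_dep hl hu i f h
    · simp only [Function.update_of_ne hi]
      exact hF.dep i y y' h
  · intro i y y'
    by_cases hi : i = j
    · subst hi
      simp only [Function.update_self]
      exact g2_lip hl hu i hf0 hf1 y y'
    · simp only [Function.update_of_ne hi]
      exact hF.lip i y y'

/-- positivity of the width -/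
theorem g2_pos (hc : 0 < c) (h : SD c L Rv Rb k l u σ) {j : Fin n} (hj : (j : ℕ) < k)
    (hR : 0 < Rv j) {a : Fin n → ℝ} (ha : Pre l u j a) : 0 < u j a - l j a :=
  lt_of_lt_of_le (by positivity) (h.fat j a hj ha).1

/-- the new conditions imply the old ones -/
theorem g2_pre (hc : 0 < c) (h : SD c L Rv Rb k l u σ) {j : Fin n} (hj : (j : ℕ) < k)
    (hR : 0 < Rv j) {f₀ f₁ : ℝ} (hf0 : 0 ≤ f₀) (hf1 : f₁ ≤ 1) {p : ℕ} {a : Fin n → ℝ}
    (ha : Pre (Function.update l j (g2_w l u j f₀)) (Function.update u j (g2_w l u j f₁)) p a) :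
    Pre l u p a := by
  intro i hi
  have hne : ∀ i : Fin n, (i : ℕ) < p → i ≠ j → l i a < a i ∧ a i < u i a := by
    intro i hi hij
    have := ha i hi
    simp only [Function.update_of_ne hij] at this
    exact this
  by_cases hij : i = j
  · subst hij
    have hpre : Pre l u i a := fun i' hi' =>
      hne i' (hi'.trans hi) (fun e => by rw [e] at hi'; exact lt_irrefl _ hi')
    have hw := g2_pos hc h hj hR hpre
    have h1 := ha i hi
    simp only [Function.update_self, g2_w] at h1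
    have h2 := mul_nonneg hf0 hw.le
    have h3 : f₁ * (u i a - l i a) ≤ 1 * (u i a - l i a) :=
      mul_le_mul_of_nonneg_right hf1 hw.le
    constructor
    · linarith only [h1, h2]
    · linarith only [h1, h3]
  · exact hne i hi hij

/-- the sub-block between two fractions -/
def g2_sub (k : ℕ) (l u : Fin n → (Fin n → ℝ) → ℝ) (σ : (Fin n → ℝ) → ℝ) (A : Fin n → ℝ)
    (As : ℝ) (j : Fin n) (f₀ f₁ : ℝ) : Set (Fin n → ℝ) :=
  TR k (Function.update l j (g2_w l u j f₀)) (Function.update u j (g2_w l u j f₁)) σ A As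

theorem g2_mem (hc : 0 < c) (h : SD c L Rv Rb k l u σ) {j : Fin n} (hj : (j : ℕ) < k)
    (hR : 0 < Rv j) {f₀ f₁ : ℝ} (hf0 : 0 ≤ f₀) (hf1 : f₁ ≤ 1) {a : Fin n → ℝ} :
    a ∈ g2_sub k l u σ A As j f₀ f₁ ↔
      a ∈ TR k l u σ A As ∧ g2_w l u j f₀ a < a j ∧ a j < g2_w l u j f₁ a := by
  constructor
  · intro ha
    have h1 := ha.1 j hj
    simp only [Function.update_self] at h1
    exact ⟨⟨g2_pre hc h hj hR hf0 hf1 ha.1, ha.2⟩, h1⟩
  · rintro ⟨ha, h1⟩
    refine ⟨fun i hi => ?_, ha.2⟩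
    by_cases hij : i = j
    · subst hij
      simp only [Function.update_self]
      exact h1
    · simp only [Function.update_of_ne hij]
      exact ha.1 i hi

/-- data of the sub-block -/
theorem g2_data (hc : 0 < c) (h : TD c L Rv Rb k l u σ A As g) {j : Fin n}
    (hj : (j : ℕ) < k) (hR : 0 < Rv j) {f₀ f₁ : ℝ} (hf0 : 0 ≤ f₀) (hf : f₀ ≤ f₁) (hf1 : f₁ ≤ 1) :
    TD c L (Function.update Rv j ((f₁ - f₀) * Rv j)) Rb k
      (Function.update l j (g2_w l u j f₀)) (Function.update u j (g2_w l u j f₁)) σ A As g := by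
  have hp : ∀ {p : ℕ} {a : Fin n → ℝ},
      Pre (Function.update l j (g2_w l u j f₀)) (Function.update u j (g2_w l u j f₁)) p a →
      Pre l u p a := fun ha => g2_pre hc h.sd hj hR hf0 hf1 ha
  refine ⟨⟨g2_walls h.sd.wl h.sd.wu j hf0 (hf.trans hf1) h.sd.wl,
    g2_walls h.sd.wl h.sd.wu j (hf0.trans hf) hf1 h.sd.wu, h.sd.int, h.sd.lip, ?_,
    fun a ha => h.sd.size a (hp ha)⟩, h.cap, h.caps, fun a ha => h.pair a (hp ha),
    fun a ha => h.pairs a (hp ha), fun a ha => h.tot a (hp ha)⟩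
  intro i a hi ha
  have h1 := h.sd.fat i a hi (hp ha)
  by_cases hij : i = j
  · subst hij
    simp only [Function.update_self, g2_w]
    have e : l i a + f₁ * (u i a - l i a) - (l i a + f₀ * (u i a - l i a)) =
        (f₁ - f₀) * (u i a - l i a) := by ring
    rw [e]
    have h2 : 0 ≤ f₁ - f₀ := by linarith only [hf]
    constructor
    · have := mul_le_mul_of_nonneg_left h1.1 h2
      linarith only [this]
    · exact mul_le_mul_of_nonneg_left h1.2 h2
  · simp only [Function.update_of_ne hij]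
    exact h1

end

/-- Refinement: it suffices to fill the blocks whose outer widths are small. -/
theorem TD.refine {n : ℕ} (hn : 1 ≤ n) (c L δ : ℝ) (hc : 0 < c) (hL : 0 ≤ L) (hδ1 : δ ≤ 1) :
    ∃ M0 : ℝ, 0 < M0 ∧ ∀ (N : ℝ) (k : ℕ) (m η Rb : ℝ) (σ : (Fin n → ℝ) → ℝ) (A : Fin n → ℝ)
      (As g : ℝ), k ≤ n → M0 ≤ m → 4 * m ≤ η → m ≤ Rb →
      (∀ (Rv : Fin n → ℝ) (l u : Fin n → (Fin n → ℝ) → ℝ),
        (∀ j : Fin n, (j : ℕ) < k → m ≤ Rv j ∧ Rv j ≤ η) → TD c L Rv Rb k l u σ A As g →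
        Fill δ N (TR k l u σ A As)) →
      ∀ (Rv : Fin n → ℝ) (l u : Fin n → (Fin n → ℝ) → ℝ), (∀ j : Fin n, (j : ℕ) < k → m ≤ Rv j) →
        TD c L Rv Rb k l u σ A As g → Fill δ N (TR k l u σ A As) := by
  obtain ⟨κ, hκ, hvolge⟩ := TD.volume_ge (n := n) c L hc hL
  refine ⟨2 / κ, by positivity, ?_⟩
  intro N k m η Rb σ A As g hk hm hη hRb hsmall
  have hm0 : 0 < m := lt_of_lt_of_le (by positivity) hm
  have hκm : 2 ≤ κ * m := by
    rw [div_le_iff₀ hκ] at hm
    linarith only [hm]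
  have hfac : 1 / (n.factorial : ℝ) < (κ * m) ^ n := by
    have h1 : (1 : ℝ) / (n.factorial : ℝ) ≤ 1 := by
      rw [div_le_one (by positivity)]
      exact_mod_cast Nat.one_le_iff_ne_zero.2 (Nat.factorial_ne_zero n)
    have h2 : (2 : ℝ) ^ 1 ≤ (κ * m) ^ n :=
      (pow_le_pow_right₀ (by norm_num) hn).trans (pow_le_pow_left₀ (by norm_num) hκm n)
    linarith only [h1, h2]
  have key : ∀ (K : ℕ) (Rv : Fin n → ℝ) (l u : Fin n → (Fin n → ℝ) → ℝ),
      (∀ j : Fin n, (j : ℕ) < k → m ≤ Rv j) →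
      (∑ j : Fin n, if (j : ℕ) < k then Rv j else 0) ≤ K * m →
      TD c L Rv Rb k l u σ A As g → Fill δ N (TR k l u σ A As) := by
    intro K
    induction K with
    | zero =>
      intro Rv l u hRv hsum hTD
      refine hsmall Rv l u (fun j hj => ⟨hRv j hj, ?_⟩) hTD
      by_contra hcon
      rw [not_le] at hcon
      have h1 : Rv j ≤ ∑ j : Fin n, if (j : ℕ) < k then Rv j else 0 := by
        have h2 : (if (j : ℕ) < k then Rv j else 0) ≤
            ∑ j : Fin n, if (j : ℕ) < k then Rv j else 0 :=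
          Finset.single_le_sum (f := fun j : Fin n => if (j : ℕ) < k then Rv j else 0)
            (fun i _ => by
              show 0 ≤ (if (i : ℕ) < k then Rv i else 0)
              split_ifs with hi
              · exact hm0.le.trans (hRv i hi)
              · exact le_rfl) (Finset.mem_univ j)
        rwa [if_pos hj] at h2
      push_cast at hsum
      linarith only [hη, hm0, hcon, h1, hsum]
    | succ K ih =>
      intro Rv l u hRv hsum hTD
      by_cases hall : ∀ j : Fin n, (j : ℕ) < k → Rv j ≤ η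
      · exact hsmall Rv l u (fun j hj => ⟨hRv j hj, hall j hj⟩) hTD
      push Not at hall
      obtain ⟨j, hj, hjη⟩ := hall
      have hRj : 0 < Rv j := by linarith only [hη, hm0, hjη]
      have hwl := hTD.sd.wl
      have hwu := hTD.sd.wu
      have hσc : Continuous σ := SD.continuous hL hTD.sd
      have hfin : volume (TR k l u σ A As) ≠ ⊤ := TR.finite hL hwl hwu
      have hopen : IsOpen (TR k l u σ A As) := TR.isOpen hL hwl hwu hσc
      have hmem : ∀ {f₀ f₁ : ℝ}, 0 ≤ f₀ → f₁ ≤ 1 → ∀ {a : Fin n → ℝ},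
          (a ∈ g2_sub k l u σ A As j f₀ f₁ ↔
          a ∈ TR k l u σ A As ∧ g2_w l u j f₀ a < a j ∧ a j < g2_w l u j f₁ a) :=
        fun h0 h1 => g2_mem hc hTD.sd hj hRj h0 h1
      have hpos : ∀ a ∈ TR k l u σ A As, 0 < u j a - l j a := fun a ha =>
        g2_pos hc hTD.sd hj hRj (fun i hi => ha.1 i (hi.trans hj))
      have hsub : ∀ {f₀ f₁ : ℝ}, 0 ≤ f₀ → f₁ ≤ 1 →
          g2_sub k l u σ A As j f₀ f₁ ⊆ TR k l u σ A As :=
        fun h0 h1 a ha => ((hmem h0 h1).1 ha).1
      have hlc : Continuous (l j) := hwl.continuous hL j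
      have huc : Continuous (u j) := hwu.continuous hL j
      have hwc : ∀ f : ℝ, Continuous (g2_w l u j f) := fun f =>
        hlc.add (continuous_const.mul (huc.sub hlc))
      have hnull : ∀ f : ℝ, volume {a : Fin n → ℝ | a j = g2_w l u j f a} = 0 := fun f =>
        volume_graph_zero j _ (hwc f) (fun y y' hy =>
          g2_dep hwl hwu j f (fun i hi => hy i (ne_of_lt hi)))
      have hsplitsum : ∀ x : ℝ,
          (∑ i : Fin n, if (i : ℕ) < k then Function.update Rv j (x * Rv j) i else 0) =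
          (∑ i : Fin n, if (i : ℕ) < k then Rv i else 0) - (1 - x) * Rv j := by
        intro x
        have h1 : ∀ i : Fin n, (if (i : ℕ) < k then Function.update Rv j (x * Rv j) i else 0) =
            (if (i : ℕ) < k then Rv i else 0) - (if i = j then (1 - x) * Rv j else 0) := by
          intro i
          by_cases hij : i = j
          · subst hij
            rw [if_pos hj, if_pos hj, if_pos rfl, Function.update_self]
            ring
          · rw [if_neg hij, Function.update_of_ne hij, sub_zero]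
        rw [Finset.sum_congr rfl fun i _ => h1 i, Finset.sum_sub_distrib]
        congr 1
        simp only [Finset.sum_ite_eq', Finset.mem_univ, ↓reduceIte]
      have hfill : ∀ {f₀ f₁ : ℝ}, 0 ≤ f₀ → f₁ ≤ 1 → 1 / 4 ≤ f₁ - f₀ → f₁ - f₀ ≤ 3 / 4 →
          Fill δ N (g2_sub k l u σ A As j f₀ f₁) := by
        intro f₀ f₁ h0 h1 h2 h3
        refine ih (Function.update Rv j ((f₁ - f₀) * Rv j)) _ _ (fun i hi => ?_) ?_
          (g2_data hc hTD hj hRj h0 (by linarith only [h2]) h1)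
        · by_cases hij : i = j
          · subst hij
            rw [Function.update_self]
            have h4 : 1 / 4 * Rv i ≤ (f₁ - f₀) * Rv i := mul_le_mul_of_nonneg_right h2 hRj.le
            linarith only [hη, hjη, h4]
          · rw [Function.update_of_ne hij]
            exact hRv i hi
        · rw [hsplitsum]
          have h4 : 1 / 4 * Rv j ≤ (1 - (f₁ - f₀)) * Rv j :=
            mul_le_mul_of_nonneg_right (by linarith only [h3]) hRj.le
          push_cast at hsum
          linarith only [hη, hjη, h4, hsum]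
      refine Fill.split hn hδ1 hfin (fun f => g2_sub k l u σ A As j 0 f)
        (fun f => g2_sub k l u σ A As j f 1) (c₀ := 1 / 2) (c₁ := 3 / 4) (by norm_num)
        (fun f h0 h1 => hsub le_rfl (by linarith only [h1])) (fun f h0 h1 => hsub (by linarith only [h0]) le_rfl)
        ?_ ?_ ?_ ?_ ?_ ?_
      · intro f h0 h1
        rw [Set.disjoint_left]
        intro a ha ha'
        have h2 := ((hmem le_rfl (by linarith only [h1])).1 ha).2.2
        have h3 := ((hmem (by linarith only [h0]) le_rfl).1 ha').2.1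
        linarith only [h2, h3]
      · intro f h0 h1
        have hcov : TR k l u σ A As ⊆ (g2_sub k l u σ A As j 0 f ∪ g2_sub k l u σ A As j f 1) ∪
            {a : Fin n → ℝ | a j = g2_w l u j f a} := by
          intro a ha
          have hw := hpos a ha
          have hja := ha.1 j hj
          rcases lt_trichotomy (a j) (g2_w l u j f a) with h2 | h2 | h2
          · left; left
            refine (hmem le_rfl (by linarith only [h1])).2 ⟨ha, ?_, h2⟩
            simp only [g2_w]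
            linarith only [hja]
          · right
            exact h2
          · left; right
            refine (hmem (by linarith only [h0]) le_rfl).2 ⟨ha, h2, ?_⟩
            simp only [g2_w]
            linarith only [hja]
        have h2 : volume (TR k l u σ A As) ≤
            volume (g2_sub k l u σ A As j 0 f) + volume (g2_sub k l u σ A As j f 1) := by
          refine (measure_mono hcov).trans ((measure_union_le _ _).trans ?_)
          rw [hnull f, add_zero]
          exact measure_union_le _ _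
        have h3 : volume (g2_sub k l u σ A As j 0 f) ≠ ⊤ :=
          ne_top_of_le_ne_top hfin (measure_mono (hsub le_rfl (by linarith only [h1])))
        have h4 : volume (g2_sub k l u σ A As j f 1) ≠ ⊤ :=
          ne_top_of_le_ne_top hfin (measure_mono (hsub (by linarith only [h0]) le_rfl))
        rw [← ENNReal.toReal_add h3 h4]
        exact ENNReal.toReal_mono (ENNReal.add_ne_top.2 ⟨h3, h4⟩) h2
      · have h1 := volume_lt_continuous hfin hopen.measurableSet
          (f := fun a => a j - l j a) (g := fun a => u j a - l j a)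
          ((measurable_pi_apply j).sub hlc.measurable) (huc.sub hlc).measurable hpos
          (fun f => measure_mono_null (fun a ha => by
            have h2 : a j - l j a = f * (u j a - l j a) := ha.2
            show a j = l j a + f * (u j a - l j a)
            linarith only [h2]) (hnull f))
        refine h1.continuousOn.congr fun f hf => ?_
        have h2 : g2_sub k l u σ A As j 0 f =
            TR k l u σ A As ∩ {a | a j - l j a < f * (u j a - l j a)} := by
          ext a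
          rw [hmem le_rfl (by linarith only [hf.2])]
          constructor
          · rintro ⟨ha, -, h4⟩
            simp only [g2_w] at h4
            exact ⟨ha, by show a j - l j a < f * (u j a - l j a); linarith only [h4]⟩
          · rintro ⟨ha, h4⟩
            have h5 : a j - l j a < f * (u j a - l j a) := h4
            have hja := ha.1 j hj
            refine ⟨ha, ?_, ?_⟩
            · simp only [g2_w]
              linarith only [hja]
            · simp only [g2_w]
              linarith only [h5]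
        show (volume (g2_sub k l u σ A As j 0 f)).toReal = _
        rw [h2]
      · show (volume (g2_sub k l u σ A As j 0 (1 / 2))).toReal + 1 / (n.factorial : ℝ) <
          (volume (g2_sub k l u σ A As j 0 (3 / 4))).toReal
        have hdat := g2_data hc hTD hj hRj (f₀ := 1 / 2) (f₁ := 3 / 4) (by norm_num)
          (by norm_num) (by norm_num)
        have hmv : (κ * m) ^ n ≤ (volume (g2_sub k l u σ A As j (1 / 2) (3 / 4))).toReal := by
          refine hvolge k _ Rb m _ _ σ A As g hk hm0 (fun i hi => ?_) hRb hdat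
          by_cases hij : i = j
          · subst hij
            rw [Function.update_self]
            linarith only [hη, hjη]
          · rw [Function.update_of_ne hij]
            exact hRv i hi
        have hmid : IsOpen (g2_sub k l u σ A As j (1 / 2) (3 / 4)) :=
          TR.isOpen hL hdat.sd.wl hdat.sd.wu hσc
        have hdis : Disjoint (g2_sub k l u σ A As j 0 (1 / 2))
            (g2_sub k l u σ A As j (1 / 2) (3 / 4)) := by
          rw [Set.disjoint_left]
          intro a ha ha'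
          have h2 := ((hmem le_rfl (by norm_num)).1 ha).2.2
          have h3 := ((hmem (by norm_num) (by norm_num)).1 ha').2.1
          linarith only [h2, h3]
        have hss : g2_sub k l u σ A As j 0 (1 / 2) ∪ g2_sub k l u σ A As j (1 / 2) (3 / 4) ⊆
            g2_sub k l u σ A As j 0 (3 / 4) := by
          rintro a (ha | ha)
          · obtain ⟨h2, h3, h4⟩ := (hmem le_rfl (by norm_num)).1 ha
            have hw := hpos a h2
            refine (hmem le_rfl (by norm_num)).2 ⟨h2, h3, h4.trans ?_⟩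
            simp only [g2_w]
            linarith only [hw]
          · obtain ⟨h2, h3, h4⟩ := (hmem (by norm_num) (by norm_num)).1 ha
            have hw := hpos a h2
            refine (hmem le_rfl (by norm_num)).2 ⟨h2, ?_, h4⟩
            refine lt_trans ?_ h3
            simp only [g2_w]
            linarith only [hw]
        have h3 : ∀ {f₀ f₁ : ℝ}, 0 ≤ f₀ → f₁ ≤ 1 →
            volume (g2_sub k l u σ A As j f₀ f₁) ≠ ⊤ := fun h0 h1 =>
          ne_top_of_le_ne_top hfin (measure_mono (hsub h0 h1))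
        have h4 := ENNReal.toReal_mono (h3 le_rfl (by norm_num)) (measure_mono hss)
        rw [measure_union hdis hmid.measurableSet,
          ENNReal.toReal_add (h3 le_rfl (by norm_num)) (h3 (by norm_num) (by norm_num))] at h4
        linarith only [hfac, hmv, h4]
      · exact fun f h0 h1 => hfill le_rfl (by linarith only [h1]) (by linarith only [h0]) (by linarith only [h1])
      · exact fun f h0 h1 => hfill (by linarith only [h0]) le_rfl (by linarith only [h1]) (by linarith only [h0])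
  intro Rv l u hRv hTD
  obtain ⟨K, hK⟩ := exists_nat_ge ((∑ j : Fin n, if (j : ℕ) < k then Rv j else 0) / m)
  rw [div_le_iff₀ hm0] at hK
  exact key K Rv l u hRv hK hTD

end Vale.Agent.P209.Strong
end
end
end
end

section

section

section

section

namespace Vale.Agent.P209.Strong

open MeasureTheory

theorem g3_bsum {n : ℕ} (a : Fin n → ℝ) : bsum n n a = 0 := by
  unfold bsum
  refine Finset.sum_eq_zero fun i _ => ?_
  rw [if_neg]
  intro h
  exact absurd h.2 (not_lt.2 h.1)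

theorem g3_TR {n : ℕ} {l u : Fin n → (Fin n → ℝ) → ℝ} {A : Fin n → ℝ} {m : ℝ} (hm : 0 < m) :
    TR n l u (fun _ => m) A (2 * m) = boxSet l u := by
  ext a
  constructor
  · rintro ⟨h, -, -⟩ j
    exact h j j.2
  · intro h
    refine ⟨fun j _ => h j, fun j hj => absurd j.2 (not_lt.2 hj), ?_, ?_⟩
    · rw [g3_bsum, sub_zero]
      exact hm
    · rw [g3_bsum, sub_zero]
      linarith

theorem CA_all (n : ℕ) (hn : 2 ≤ n) : CA n := by
  intro c L δ N hc hL hδ hδ1 hN
  obtain ⟨M0, hM0, href⟩ := TD.refine (n := n) (by omega) c L δ hc hL hδ1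
  obtain ⟨R0, hR0, hcol⟩ := column_pre n hn (c / 4) L δ N (by positivity) hL hδ hδ1 hN
  obtain ⟨m, hm⟩ : ∃ m, m = max M0 R0 := ⟨_, rfl⟩
  have hmM : M0 ≤ m := hm ▸ le_max_left _ _
  have hmR : R0 ≤ m := hm ▸ le_max_right _ _
  have hm0 : 0 < m := hM0.trans_le hmM
  refine ⟨m, hm0, fun Rv hRv l u hl hu hf => ?_⟩
  have hc1 : c ≤ 1 := by
    have h1 := hf ⟨0, by omega⟩ 0 (fun i hi => absurd hi (Nat.not_lt_zero _))
    have h2 : 0 < Rv ⟨0, by omega⟩ := hm0.trans_le (hRv _)
    have h3 : c * Rv ⟨0, by omega⟩ ≤ 1 * Rv ⟨0, by omega⟩ := by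
      rw [one_mul]
      exact h1.1.trans h1.2
    exact le_of_mul_le_mul_right h3 h2
  have key := href N n m (4 * m) m (fun _ => m) (fun _ => 0) (2 * m) 0 le_rfl hmM le_rfl le_rfl
    (fun Rv' l' u' hRv' h => by
      rw [g3_TR hm0]
      refine hcol (4 * m) (by linarith only [hM0, hmM, hmR]) l' u' h.sd.wl h.sd.wu fun j a hj => ?_
      have h1 := h.sd.fat j a j.2 hj
      have h2 := hRv' j j.2
      have h3 : c * m ≤ c * Rv' j := mul_le_mul_of_nonneg_left h2.1 hc.le
      constructor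
      · linarith only [h1, h3]
      · linarith only [h1, h2]) Rv l u (fun j _ => hRv j)
    { sd :=
        { wl := hl
          wu := hu
          int := ⟨m, 0, fun _ _ => rfl, fun a => by simp only [Pi.zero_apply, Int.cast_zero, zero_mul, Finset.sum_const_zero, add_zero]⟩
          lip := fun y y' => by
            rw [sub_self, abs_zero]
            exact mul_nonneg hL dist_nonneg
          fat := fun j a _ hj => hf j a hj
          size := fun a _ => ⟨mul_le_of_le_one_left hm0.le hc1, le_rfl⟩ }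
      cap := fun j hj => absurd j.2 (not_lt.2 hj)
      caps := by
        have : c * m ≤ 1 * m := mul_le_mul_of_nonneg_right hc1 hm0.le
        linarith only [hM0, hmM, this]
      pair := fun a _ i j _ hi _ => absurd i.2 (not_lt.2 hi)
      pairs := fun a _ j hj => absurd j.2 (not_lt.2 hj)
      tot := fun a _ => by
        rw [g3_bsum]
        have : c * m ≤ 1 * m := mul_le_mul_of_nonneg_right hc1 hm0.le
        linarith only [this] }
  rwa [g3_TR hm0] at key

end Vale.Agent.P209.Strong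
end
end
end
end

section

section

section

section

namespace Vale.Agent.P209.Strong

open MeasureTheory

/-- walls of the box: lower wall -/
noncomputable def g4L {n : ℕ} (p : Fin n) (l : Fin n → (Fin n → ℝ) → ℝ) (σ : (Fin n → ℝ) → ℝ)
    (As : ℝ) : Fin n → (Fin n → ℝ) → ℝ :=
  Function.update l p (fun a => max 0 (σ a - As))

/-- walls of the box: upper wall -/
noncomputable def g4U {n : ℕ} (p : Fin n) (u : Fin n → (Fin n → ℝ) → ℝ) (σ : (Fin n → ℝ) → ℝ)
    (A : Fin n → ℝ) : Fin n → (Fin n → ℝ) → ℝ :=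
  Function.update u p (fun a => min (A p) (σ a))

theorem g4_walls {n : ℕ} {L : ℝ} {F : Fin n → (Fin n → ℝ) → ℝ} (hF : Walls L F) (p : Fin n)
    (f : (Fin n → ℝ) → ℝ) (hdep : ∀ y y' : Fin n → ℝ, (∀ i, i < p → y i = y' i) → f y = f y')
    (hlip : ∀ y y', |f y - f y'| ≤ L * dist y y') : Walls L (Function.update F p f) := by
  constructor
  · intro j y y' h
    by_cases hj : j = p
    · subst hj
      rw [Function.update_self]
      exact hdep y y' h
    · rw [Function.update_of_ne hj]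
      exact hF.dep j y y' h
  · intro j y y'
    by_cases hj : j = p
    · subst hj
      rw [Function.update_self]
      exact hlip y y'
    · rw [Function.update_of_ne hj]
      exact hF.lip j y y'

theorem g4_bsum {n : ℕ} (p : Fin n) (hp : (p : ℕ) = n - 1) (a : Fin n → ℝ) :
    bsum (n - 1) n a = a p := by
  unfold bsum
  rw [Finset.sum_eq_single p]
  · rw [if_pos ⟨hp.ge, p.2⟩]
  · intro b _ hb
    rw [if_neg]
    rintro ⟨h1, h2⟩
    exact hb (Fin.ext (by omega))
  · intro h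
    exact absurd (Finset.mem_univ p) h

theorem TS_base (n : ℕ) (hn : 2 ≤ n) (h : CA n) : TS n (n - 1) := by
  intro c L δ N hc hL hδ hδ1 hN
  obtain ⟨R0, hR0, H⟩ := h c L δ N hc hL hδ hδ1 hN
  refine ⟨R0, hR0, fun Rv Rb hRv hRb l u σ A As hTD => ?_⟩
  obtain ⟨p, hp⟩ : ∃ p : Fin n, (p : ℕ) = n - 1 := ⟨⟨n - 1, by omega⟩, rfl⟩
  have hlt : ∀ j : Fin n, j ≠ p ↔ (j : ℕ) < n - 1 := by
    intro j
    constructor
    · intro hj
      have := j.2
      by_contra hcon
      exact hj (Fin.ext (by omega))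
    · rintro hj rfl
      omega
  have hdep : ∀ y y' : Fin n → ℝ, (∀ i, i < p → y i = y' i) → σ y = σ y' := by
    intro y y' hy
    refine hTD.sd.dep fun i hi => hy i ?_
    rw [Fin.lt_def]
    omega
  have hset : TR (n - 1) l u σ A As = boxSet (g4L p l σ As) (g4U p u σ A) := by
    ext a
    simp only [TR, boxSet, Set.mem_ofPred_eq, g4_bsum p hp a]
    constructor
    · rintro ⟨h1, h2, h3, h4⟩ j
      by_cases hj : j = p
      · subst hj
        simp only [g4L, g4U, Function.update_self]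
        obtain ⟨h5, h6⟩ := h2 j hp.ge
        exact ⟨max_lt h5 (by linarith only [h4]), lt_min h6 (by linarith only [h3])⟩
      · simp only [g4L, g4U, Function.update_of_ne hj]
        exact h1 j ((hlt j).1 hj)
    · intro h1
      have h2 := h1 p
      simp only [g4L, g4U, Function.update_self] at h2
      obtain ⟨h3, h4⟩ := h2
      obtain ⟨h5, h6⟩ := max_lt_iff.1 h3
      obtain ⟨h7, h8⟩ := lt_min_iff.1 h4
      refine ⟨fun j hj => ?_, fun j hj => ?_, by linarith only [h8], by linarith only [h6]⟩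
      · have hjp := (hlt j).2 hj
        have h9 := h1 j
        simp only [g4L, g4U, Function.update_of_ne hjp] at h9
        exact h9
      · have hjp : j = p := by
          by_contra hcon
          have := (hlt j).1 hcon
          omega
        subst hjp
        exact ⟨h5, h7⟩
  have hpre : ∀ (j : ℕ) (a : Fin n → ℝ), j ≤ n - 1 → Pre (g4L p l σ As) (g4U p u σ A) j a →
      Pre l u j a := by
    intro j a hj ha i hi
    have hip : i ≠ p := (hlt i).2 (by omega)
    have h1 := ha i hi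
    simp only [g4L, g4U, Function.update_of_ne hip] at h1
    exact h1
  rw [hset]
  refine H (Function.update Rv p Rb) ?_ _ _ ?_ ?_ ?_
  · intro j
    by_cases hj : j = p
    · subst hj
      rw [Function.update_self]
      exact hRb
    · rw [Function.update_of_ne hj]
      exact hRv j ((hlt j).1 hj)
  · refine g4_walls hTD.sd.wl p _ (fun y y' hy => ?_) fun y y' => ?_
    · simp only [hdep y y' hy]
    · refine le_trans ?_ (hTD.sd.lip y y')
      refine (abs_max_sub_max_le_max _ _ _ _).trans ?_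
      rw [sub_self, abs_zero, sub_sub_sub_cancel_right]
      exact max_le (abs_nonneg _) le_rfl
  · refine g4_walls hTD.sd.wu p _ (fun y y' hy => ?_) fun y y' => ?_
    · simp only [hdep y y' hy]
    · refine le_trans ?_ (hTD.sd.lip y y')
      refine (abs_min_sub_min_le_max _ _ _ _).trans ?_
      rw [sub_self, abs_zero]
      exact max_le (abs_nonneg _) le_rfl
  · intro j a ha
    by_cases hj : j = p
    · subst hj
      have hpa := hpre j a hp.le ha
      rw [hp] at hpa
      simp only [g4L, g4U, Function.update_self]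
      obtain ⟨h1, h2⟩ := hTD.sd.size a hpa
      have h3 := hTD.cap j hp.ge
      have h4 := hTD.caps
      have h5 := hTD.pairs a hpa j hp.ge
      rcases le_total (A j) (σ a) with h6 | h6 <;> rcases le_total 0 (σ a - As) with h7 | h7 <;>
        simp only [min_eq_left h6, min_eq_right h6, max_eq_right h7, max_eq_left h7] <;>
        constructor <;> linarith only [h1, h2, h6, h7, h3, h4, h5]
    · simp only [g4L, g4U, Function.update_of_ne hj]
      have hjl := (hlt j).1 hj
      exact hTD.sd.fat j a hjl (hpre j a hjl.le ha)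

end Vale.Agent.P209.Strong
end
end
end
end

section

section

section

section

namespace Vale.Agent.P209.Strong

open MeasureTheory

/-! G1g. Peeling off the first block coordinate. -/

/-- split off the first coordinate of a block -/
theorem g1g_bsum {n k : ℕ} (hk : k < n) (a : Fin n → ℝ) :
    bsum k n a = a ⟨k, hk⟩ + bsum (k + 1) n a := by
  have h1 := HM.bsum_split (k := k) (m := k + 1) (j := n) (by omega) (by omega) a
  have h2 := HM.bsum_succ (k := k) (⟨k, hk⟩ : Fin n) le_rfl a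
  have h3 := HM.bsum_self (k := k) a
  simp only at h2
  rw [h1, h2, h3]
  ring

/-- one coordinate is at most the block sum -/
theorem g1g_single {n k : ℕ} {A : Fin n → ℝ} (i : Fin n) (hi : k ≤ (i : ℕ))
    (hA : ∀ j : Fin n, k ≤ (j : ℕ) → 0 ≤ A j) : A i ≤ bsum k n A := by
  unfold bsum
  have h1 : A i = (if k ≤ (i : ℕ) ∧ (i : ℕ) < n then A i else 0) := by
    rw [if_pos ⟨hi, i.2⟩]
  rw [h1]
  refine Finset.single_le_sum (f := fun j : Fin n => if k ≤ (j : ℕ) ∧ (j : ℕ) < n then A j else 0)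
    (fun j _ => ?_) (Finset.mem_univ i)
  split_ifs with h2
  · exact hA j h2.1
  · exact le_rfl

/-- the first two coordinates are at most the block sum -/
theorem g1g_two {n k : ℕ} {A : Fin n → ℝ} (hk : k < n) (hk1 : k + 1 < n)
    (hA : ∀ j : Fin n, k ≤ (j : ℕ) → 0 ≤ A j) :
    A ⟨k, hk⟩ + A ⟨k + 1, hk1⟩ ≤ bsum k n A := by
  rw [g1g_bsum hk]
  have := g1g_single (k := k + 1) (A := A) ⟨k + 1, hk1⟩ le_rfl (fun j hj => hA j (by omega))
  linarith only [this]

theorem g1g_upd {n k : ℕ} (hk : k < n) (F : Fin n → (Fin n → ℝ) → ℝ) (x : ℝ) (j : Fin n)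
    (hj : (j : ℕ) < k) (a : Fin n → ℝ) :
    Function.update F ⟨k, hk⟩ (fun _ => x) j a = F j a := by
  rw [Function.update_of_ne]
  intro h
  rw [h] at hj
  exact absurd hj (lt_irrefl _)

theorem g1g_updk {n k : ℕ} (hk : k < n) (F : Fin n → (Fin n → ℝ) → ℝ) (x : ℝ)
    (a : Fin n → ℝ) :
    Function.update F ⟨k, hk⟩ (fun _ => x) ⟨k, hk⟩ a = x := by
  rw [Function.update_self]

theorem g1g_walls {n k : ℕ} {L : ℝ} (hk : k < n) (hL : 0 ≤ L) {F : Fin n → (Fin n → ℝ) → ℝ}
    (hF : Walls L F) (x : ℝ) : Walls (L + 1) (Function.update F ⟨k, hk⟩ fun _ => x) := by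
  constructor
  · intro j y y' h
    by_cases hj : j = ⟨k, hk⟩
    · subst hj
      rw [g1g_updk, g1g_updk]
    · rw [Function.update_of_ne hj]
      exact hF.dep j y y' h
  · intro j y y'
    by_cases hj : j = ⟨k, hk⟩
    · subst hj
      rw [g1g_updk, g1g_updk, sub_self, abs_zero]
      exact mul_nonneg (by linarith only [hL]) dist_nonneg
    · rw [Function.update_of_ne hj]
      refine (hF.lip j y y').trans ?_
      have : 0 ≤ dist y y' := dist_nonneg
      linarith only [this]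

theorem g1g_pre {n k : ℕ} (hk : k < n) {l u : Fin n → (Fin n → ℝ) → ℝ} {x0 x1 : ℝ}
    {j : ℕ} (hj : j ≤ k) {a : Fin n → ℝ}
    (h : Pre (Function.update l ⟨k, hk⟩ fun _ => x0) (Function.update u ⟨k, hk⟩ fun _ => x1) j a) :
    Pre l u j a := by
  intro i hi
  have h1 := h i hi
  rw [g1g_upd hk l x0 i (by omega), g1g_upd hk u x1 i (by omega)] at h1
  exact h1

theorem g1g_prek {n k : ℕ} (hk : k < n) {l u : Fin n → (Fin n → ℝ) → ℝ} {x0 x1 : ℝ}
    {a : Fin n → ℝ}
    (h : Pre (Function.update l ⟨k, hk⟩ fun _ => x0) (Function.update u ⟨k, hk⟩ fun _ => x1)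
      (k + 1) a) :
    Pre l u k a ∧ x0 < a ⟨k, hk⟩ ∧ a ⟨k, hk⟩ < x1 := by
  refine ⟨g1g_pre hk le_rfl (fun i hi => h i (by omega)), ?_⟩
  have h1 := h ⟨k, hk⟩ (Nat.lt_succ_self k)
  rw [g1g_updk, g1g_updk] at h1
  exact h1

section
variable {n k : ℕ} {c L Rb As g : ℝ} {Rv A : Fin n → ℝ} {l u : Fin n → (Fin n → ℝ) → ℝ}
  {σ : (Fin n → ℝ) → ℝ}

theorem TR.peel_eq (hk : k < n) {x0 x1 : ℝ} (hx0 : 0 ≤ x0)
    (hx1 : x1 ≤ A ⟨k, hk⟩) :
    TR k l u σ A As ∩ {a | x0 < a ⟨k, hk⟩ ∧ a ⟨k, hk⟩ < x1} =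
      TR (k + 1) (Function.update l ⟨k, hk⟩ fun _ => x0) (Function.update u ⟨k, hk⟩ fun _ => x1)
        (fun a => σ a - a ⟨k, hk⟩) A As := by
  ext a
  have hb := g1g_bsum hk a
  constructor
  · rintro ⟨⟨h1, h2, h3, h4⟩, h5, h6⟩
    refine ⟨?_, ?_, ?_, ?_⟩
    · intro j hj
      rcases Nat.lt_succ_iff_lt_or_eq.1 hj with hj | hj
      · rw [g1g_upd hk l x0 j hj, g1g_upd hk u x1 j hj]
        exact h1 j hj
      · have hjk : j = ⟨k, hk⟩ := Fin.ext hj
        subst hjk
        rw [g1g_updk, g1g_updk]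
        exact ⟨h5, h6⟩
    · intro j hj
      exact h2 j (by omega)
    · linarith only [hb, h3]
    · linarith
  · rintro ⟨h1, h2, h3, h4⟩
    have hkk := h1 ⟨k, hk⟩ (Nat.lt_succ_self k)
    rw [g1g_updk, g1g_updk] at hkk
    refine ⟨⟨?_, ?_, ?_, ?_⟩, hkk.1, hkk.2⟩
    · intro j hj
      have h5 := h1 j (by omega)
      rw [g1g_upd hk l x0 j hj, g1g_upd hk u x1 j hj] at h5
      exact h5
    · intro j hj
      by_cases hjk : j = ⟨k, hk⟩
      · subst hjk
        exact ⟨lt_of_le_of_lt hx0 hkk.1, lt_of_lt_of_le hkk.2 hx1⟩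
      · refine h2 j ?_
        have : (j : ℕ) ≠ k := fun h => hjk (Fin.ext h)
        omega
    · dsimp only at h3
      linarith only [hb, h3]
    · dsimp only at h4
      linarith

theorem TD.peel (hk : k < n) (hL : 0 ≤ L) (hRb : 0 < Rb)
    (hRv : ∀ j : Fin n, (j : ℕ) < k → 0 ≤ Rv j) (h : TD c L Rv Rb k l u σ A As g)
    {c' x0 x1 g1 g' : ℝ} (hc' : 0 < c') (hcc : c' ≤ c) (hx0 : 0 ≤ x0) (hw : c' * Rb ≤ x1 - x0)
    (hw2 : x1 - x0 ≤ Rb) (hs : ∀ a, Pre l u k a → x1 + c' * Rb ≤ σ a) (hg1 : 0 ≤ g1)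
    (hp : ∀ a, Pre l u k a → ∀ i j : Fin n, i ≠ j → k + 1 ≤ (i : ℕ) → k + 1 ≤ (j : ℕ) →
      σ a + g1 ≤ A i + A j)
    (hps : ∀ a, Pre l u k a → ∀ j : Fin n, k + 1 ≤ (j : ℕ) → σ a + g1 ≤ A j + As)
    (hg' : g' ≤ g1 + x0) (htot : k + 3 ≤ n ∨ (k + 2 ≤ n ∧ c' * Rb ≤ g')) :
    TD c' (L + 1) (Function.update Rv ⟨k, hk⟩ Rb) Rb (k + 1)
      (Function.update l ⟨k, hk⟩ fun _ => x0) (Function.update u ⟨k, hk⟩ fun _ => x1)
      (fun a => σ a - a ⟨k, hk⟩) A As g' := by
  have hcR : c' * Rb ≤ c * Rb := mul_le_mul_of_nonneg_right hcc hRb.le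
  have hcR0 : 0 < c' * Rb := mul_pos hc' hRb
  have hA0 : ∀ j : Fin n, k + 1 ≤ (j : ℕ) → 0 ≤ A j := fun j hj => by
    have := h.cap j (by omega)
    linarith only [hcR, hcR0, this]
  refine ⟨⟨g1g_walls hk hL h.sd.wl x0, g1g_walls hk hL h.sd.wu x1, ?_, ?_, ?_, ?_⟩, ?_, ?_, ?_,
    ?_, ?_⟩
  · obtain ⟨s, m, hm, hσ⟩ := h.sd.int
    refine ⟨s, fun j => m j - if j = ⟨k, hk⟩ then 1 else 0, ?_, ?_⟩
    · intro j hj
      have hjk : j ≠ ⟨k, hk⟩ := by
        intro h
        rw [h] at hj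
        simp only at hj
        omega
      change m j - (if j = ⟨k, hk⟩ then 1 else 0) = 0
      rw [hm j (by omega), if_neg hjk, sub_zero]
    · intro a
      change σ a - a ⟨k, hk⟩ =
        s + ∑ j : Fin n, ((m j - if j = ⟨k, hk⟩ then 1 else 0 : ℤ) : ℝ) * a j
      rw [hσ a]
      have : ∀ j : Fin n, (((m j - if j = ⟨k, hk⟩ then 1 else 0 : ℤ)) : ℝ) * a j
          = (m j : ℝ) * a j - if j = ⟨k, hk⟩ then a j else 0 := by
        intro j
        split_ifs with hj
        · push_cast; ring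
        · push_cast; ring
      rw [Finset.sum_congr rfl fun j _ => this j, Finset.sum_sub_distrib, Finset.sum_ite_eq']
      simp only [Finset.mem_univ, ↓reduceIte]
      ring
  · intro y y'
    have h1 := h.sd.lip y y'
    have h2 : |y ⟨k, hk⟩ - y' ⟨k, hk⟩| ≤ dist y y' := by
      rw [← Real.dist_eq]
      exact dist_le_pi_dist y y' _
    have h3 : (σ y - y ⟨k, hk⟩) - (σ y' - y' ⟨k, hk⟩)
        = (σ y - σ y') - (y ⟨k, hk⟩ - y' ⟨k, hk⟩) := by ring
    rw [h3]
    refine (abs_sub _ _).trans ?_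
    linarith only [h1, h2]
  · intro j a hj hpre
    rcases Nat.lt_succ_iff_lt_or_eq.1 hj with hj | hj
    · have hjk : j ≠ ⟨k, hk⟩ := by
        intro h
        rw [h] at hj
        exact absurd hj (lt_irrefl _)
      rw [g1g_upd hk l x0 j hj, g1g_upd hk u x1 j hj, Function.update_of_ne hjk]
      have h1 := h.sd.fat j a hj (g1g_pre hk hj.le hpre)
      exact ⟨(mul_le_mul_of_nonneg_right hcc (hRv j hj)).trans h1.1, h1.2⟩
    · have hjk : j = ⟨k, hk⟩ := Fin.ext hj
      subst hjk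
      rw [g1g_updk, g1g_updk, Function.update_self]
      exact ⟨hw, hw2⟩
  · intro a hpre
    obtain ⟨h1, h2, h3⟩ := g1g_prek hk hpre
    have h4 := hs a h1
    have h5 := (h.sd.size a h1).2
    constructor <;> linarith only [h3, h4, hx0, h2, h5]
  · intro j hj
    exact hcR.trans (h.cap j (by omega))
  · exact hcR.trans h.caps
  · intro a hpre i j hij hi hj
    obtain ⟨h1, h2, h3⟩ := g1g_prek hk hpre
    have h4 := hp a h1 i j hij hi hj
    linarith only [hg', h2, h4]
  · intro a hpre j hj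
    obtain ⟨h1, h2, h3⟩ := g1g_prek hk hpre
    have h4 := hps a h1 j hj
    linarith only [hg', h2, h4]
  · intro a hpre
    obtain ⟨h1, h2, h3⟩ := g1g_prek hk hpre
    rcases htot with hn | ⟨hn, hg⟩
    · have h4 := hp a h1 ⟨k + 1, by omega⟩ ⟨k + 1 + 1, by omega⟩
        (by intro h; have := congrArg Fin.val h; simp at this) (by simp) (by simp only [le_add_iff_nonneg_right, zero_le])
      have h5 := g1g_two (k := k + 1) (A := A) (by omega) (by omega) hA0
      have h6 := h.caps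
      linarith only [hx0, hg1, hcR, h2, h4, h5, h6]
    · have h4 := hps a h1 ⟨k + 1, by omega⟩ (by simp)
      have h5 := g1g_single (k := k + 1) (A := A) ⟨k + 1, by omega⟩ (by simp) hA0
      linarith only [hg', h2, hg, h4, h5]

end

end Vale.Agent.P209.Strong
end
end
end
end

section

section

section

section

namespace Vale.Agent.P209.Strong

open MeasureTheory

theorem TSA_of (n k : ℕ) (hk : k + 2 ≤ n) (h : TS n (k + 1)) : TSA n k := by
  intro c L δ N hc hL hδ hδ1 hN
  obtain ⟨R0, hR0, H⟩ := h c (L + 1) δ N hc (by linarith only [hL]) hδ hδ1 hN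
  refine ⟨R0, hR0, fun Rv Rb hRv hRb l u σ A As hTD hA => ?_⟩
  have hkn : k < n := by omega
  have hRb0 : 0 < Rb := hR0.trans_le hRb
  have hcR : 0 < c * Rb := mul_pos hc hRb0
  have hRv0 : ∀ j : Fin n, (j : ℕ) < k → 0 ≤ Rv j := fun j hj => hR0.le.trans (hRv j hj)
  rcases (TR k l u σ A As).eq_empty_or_nonempty with he | ⟨a0, ha0⟩
  · rw [he]
    intro ι _ r J hr _ _ hv
    exfalso
    rw [measure_empty, ENNReal.toReal_zero] at hv
    have : 0 ≤ ∑ i, r i ^ n / (n.factorial : ℝ) :=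
      Finset.sum_nonneg fun i _ => div_nonneg (pow_nonneg (hr i).1.le _) (Nat.cast_nonneg _)
    linarith only [hv, this]
  have hpre : Pre l u k a0 := fun i hi => ha0.1 i hi
  have hx1 : A ⟨k, hkn⟩ ≤ Rb := by
    have h1 := hA a0 hpre ⟨k, hkn⟩ rfl
    have h2 := (hTD.sd.size a0 hpre).2
    linarith only [hcR, h1, h2]
  have hTR : TR k l u σ A As =
      TR k l u σ A As ∩ {a | 0 < a ⟨k, hkn⟩ ∧ a ⟨k, hkn⟩ < A ⟨k, hkn⟩} := by
    ext a
    constructor
    · intro ha
      exact ⟨ha, ha.2.1 ⟨k, hkn⟩ le_rfl⟩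
    · intro ha
      exact ha.1
  rw [hTR, TR.peel_eq hkn le_rfl le_rfl]
  have hD := TD.peel hkn hL hRb0 hRv0 hTD (c' := c) (x0 := 0) (x1 := A ⟨k, hkn⟩) (g1 := c * Rb)
    (g' := c * Rb) hc le_rfl le_rfl (by
      rw [sub_zero]
      exact hTD.cap ⟨k, hkn⟩ le_rfl) (by rw [sub_zero]; exact hx1)
    (fun a ha => hA a ha ⟨k, hkn⟩ rfl) hcR.le
    (fun a ha i j hij hi hj => hTD.pair a ha i j hij (by omega) (by omega))
    (fun a ha j hj => hTD.pairs a ha j (by omega)) (by linarith only []) (Or.inr ⟨hk, le_rfl⟩)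
  refine H (Function.update Rv ⟨k, hkn⟩ Rb) Rb ?_ hRb _ _ _ A As hD
  intro j hj
  by_cases hjk : j = ⟨k, hkn⟩
  · rw [hjk, Function.update_self]
    exact hRb
  · rw [Function.update_of_ne hjk]
    refine hRv j ?_
    have : (j : ℕ) ≠ k := fun h => hjk (Fin.ext h)
    omega

end Vale.Agent.P209.Strong
end
end
end
end

section

section

section

section

namespace Vale.Agent.P209.Strong

open MeasureTheory

/-! G1d. Translation of the first block coordinate, and permutation of block coordinates. -/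

section
variable {n k : ℕ} {c L Rb As g δ N : ℝ} {Rv A : Fin n → ℝ} {l u : Fin n → (Fin n → ℝ) → ℝ}
  {σ : (Fin n → ℝ) → ℝ}

/-- the walls before `k` only see the coordinates before `k` -/
theorem g1d_wall {F : Fin n → (Fin n → ℝ) → ℝ} (hF : Walls L F) {y y' : Fin n → ℝ}
    (hy : ∀ i : Fin n, (i : ℕ) < k → y i = y' i) (j : Fin n) (hj : (j : ℕ) < k) :
    F j y = F j y' :=
  hF.dep j y y' fun i hi => hy i (lt_trans (Fin.lt_def.mp hi) hj)

theorem g1d_single_int (i j : Fin n) : ∃ z : ℤ, (Pi.single i (1 : ℝ) : Fin n → ℝ) j = z := by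
  by_cases hij : j = i
  · subst hij
    exact ⟨1, by simp⟩
  · exact ⟨0, by simp [hij]⟩

theorem TR.fill_gt (hsd : SD c L Rv Rb k l u σ) {p : Fin n} (hp : k ≤ (p : ℕ)) {x : ℝ}
    (hx : 0 ≤ x)
    (h : Fill δ N (TR k l u (fun a => σ a - x) (Function.update A p (A p - x)) As)) :
    Fill δ N (TR k l u σ A As ∩ {a | x < a p}) := by
  refine Fill.image (LinearEquiv.refl ℝ (Fin n → ℝ)) (fun i j => g1d_single_int i j)
    (fun i j => g1d_single_int i j) (Pi.single p (-x)) ?_
  have hT : ∀ a : Fin n → ℝ, (LinearEquiv.refl ℝ (Fin n → ℝ)) a + (Pi.single p (-x) : Fin n → ℝ) =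
      Function.update a p (a p - x) := by
    intro a
    funext j
    rw [Pi.add_apply, LinearEquiv.refl_apply]
    by_cases hj : j = p
    · subst hj
      rw [Function.update_self, Pi.single_eq_same]
      ring
    · rw [Function.update_of_ne hj, Pi.single_eq_of_ne hj, add_zero]
  have hlow : ∀ (a : Fin n → ℝ) (t : ℝ) (i : Fin n), (i : ℕ) < k →
      Function.update a p t i = a i := by
    intro a t i hi
    have : i ≠ p := by
      rintro rfl
      omega
    rw [Function.update_of_ne this]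
  have e : (fun a => (LinearEquiv.refl ℝ (Fin n → ℝ)) a + (Pi.single p (-x) : Fin n → ℝ)) ''
      (TR k l u σ A As ∩ {a | x < a p}) =
      TR k l u (fun a => σ a - x) (Function.update A p (A p - x)) As := by
    ext y
    constructor
    · rintro ⟨a, ⟨⟨h1, h2, h3, h4⟩, h5⟩, rfl⟩
      have h5' : x < a p := h5
      simp only [hT]
      refine ⟨fun j hj => ?_, fun j hj => ?_, ?_, ?_⟩
      · rw [g1d_wall hsd.wl (hlow a _) j hj, g1d_wall hsd.wu (hlow a _) j hj, hlow a _ j hj]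
        exact h1 j hj
      · by_cases hjp : j = p
        · subst hjp
          rw [Function.update_self, Function.update_self]
          have := (h2 j hj).2
          constructor
          · linarith only [h5']
          · linarith only [this]
        · rw [Function.update_of_ne hjp, Function.update_of_ne hjp]
          exact h2 j hj
      · show 0 < σ _ - x - bsum k n _
        rw [hsd.dep (hlow a _), HM.bsum_update _ _ ⟨hp, p.2⟩]
        linarith only [h3]
      · show σ _ - x - bsum k n _ < As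
        rw [hsd.dep (hlow a _), HM.bsum_update _ _ ⟨hp, p.2⟩]
        linarith only [h4]
    · rintro ⟨h1, h2, h3, h4⟩
      have h3' : 0 < σ y - x - bsum k n y := h3
      have h4' : σ y - x - bsum k n y < As := h4
      have h6 := h2 p hp
      rw [Function.update_self] at h6
      refine ⟨Function.update y p (y p + x), ⟨⟨fun j hj => ?_, fun j hj => ?_, ?_, ?_⟩, ?_⟩, ?_⟩
      · rw [g1d_wall hsd.wl (hlow y _) j hj, g1d_wall hsd.wu (hlow y _) j hj, hlow y _ j hj]
        exact h1 j hj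
      · by_cases hjp : j = p
        · subst hjp
          rw [Function.update_self]
          constructor
          · linarith only [hx, h6]
          · linarith only [h6]
        · have h7 := h2 j hj
          rw [Function.update_of_ne hjp] at h7
          rw [Function.update_of_ne hjp]
          exact h7
      · rw [hsd.dep (hlow y _), HM.bsum_update _ _ ⟨hp, p.2⟩]
        linarith only [h3]
      · rw [hsd.dep (hlow y _), HM.bsum_update _ _ ⟨hp, p.2⟩]
        linarith only [h4]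
      · show x < Function.update y p (y p + x) p
        rw [Function.update_self]
        linarith only [h6]
      · simp only [hT]
        rw [Function.update_idem, Function.update_self]
        have : y p + x - x = y p := by ring
        rw [this, Function.update_eq_self]
  rw [e]
  exact h

/-- swapping two block coordinates preserves the block sum -/
theorem g1d_bsum_swap {p q : Fin n} (hp : k ≤ (p : ℕ)) (hq : k ≤ (q : ℕ)) (a : Fin n → ℝ) :
    bsum k n (fun j => a (Equiv.swap p q j)) = bsum k n a := by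
  unfold bsum
  rw [← Equiv.sum_comp (Equiv.swap p q)
    (fun i : Fin n => if k ≤ (i : ℕ) ∧ (i : ℕ) < n then a i else 0)]
  refine Finset.sum_congr rfl fun i _ => ?_
  have h2 : (k ≤ (i : ℕ) ∧ (i : ℕ) < n) ↔
      (k ≤ ((Equiv.swap p q i : Fin n) : ℕ) ∧ ((Equiv.swap p q i : Fin n) : ℕ) < n) := by
    by_cases h3 : i = p
    · subst h3
      rw [Equiv.swap_apply_left]
      exact ⟨fun _ => ⟨hq, q.2⟩, fun _ => ⟨hp, i.2⟩⟩
    · by_cases h4 : i = q
      · subst h4
        rw [Equiv.swap_apply_right]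
        exact ⟨fun _ => ⟨hp, p.2⟩, fun _ => ⟨hq, i.2⟩⟩
      · rw [Equiv.swap_apply_of_ne_of_ne h3 h4]
  by_cases h3 : k ≤ (i : ℕ) ∧ (i : ℕ) < n
  · rw [if_pos h3, if_pos (h2.1 h3)]
  · rw [if_neg h3, if_neg (fun h4 => h3 (h2.2 h4))]

theorem g1d_swap_low {p q : Fin n} (hp : k ≤ (p : ℕ)) (hq : k ≤ (q : ℕ)) (a : Fin n → ℝ)
    (i : Fin n) (hi : (i : ℕ) < k) : (fun j => a (Equiv.swap p q j)) i = a i := by
  have h1 : i ≠ p := by
    rintro rfl
    omega
  have h2 : i ≠ q := by
    rintro rfl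
    omega
  show a (Equiv.swap p q i) = a i
  rw [Equiv.swap_apply_of_ne_of_ne h1 h2]

theorem g1d_swap_ge {p q : Fin n} (hp : k ≤ (p : ℕ)) (hq : k ≤ (q : ℕ)) {j : Fin n}
    (hj : k ≤ (j : ℕ)) : k ≤ ((Equiv.swap p q j : Fin n) : ℕ) := by
  by_cases h3 : j = p
  · subst h3
    rw [Equiv.swap_apply_left]
    exact hq
  · by_cases h4 : j = q
    · subst h4
      rw [Equiv.swap_apply_right]
      exact hp
    · rw [Equiv.swap_apply_of_ne_of_ne h3 h4]
      exact hj

theorem g1d_swap_mem (hsd : SD c L Rv Rb k l u σ) {p q : Fin n} (hp : k ≤ (p : ℕ))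
    (hq : k ≤ (q : ℕ)) {a : Fin n → ℝ} (ha : a ∈ TR k l u σ A As) :
    (fun j => a (Equiv.swap p q j)) ∈ TR k l u σ (fun j => A (Equiv.swap p q j)) As := by
  obtain ⟨h1, h2, h3, h4⟩ := ha
  have hlow := g1d_swap_low hp hq a
  refine ⟨fun j hj => ?_, fun j hj => ?_, ?_, ?_⟩
  · rw [g1d_wall hsd.wl hlow j hj, g1d_wall hsd.wu hlow j hj, hlow j hj]
    exact h1 j hj
  · exact h2 _ (g1d_swap_ge hp hq hj)
  · rw [hsd.dep hlow, g1d_bsum_swap hp hq]
    exact h3
  · rw [hsd.dep hlow, g1d_bsum_swap hp hq]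
    exact h4

theorem TR.fill_swap (hsd : SD c L Rv Rb k l u σ) {p q : Fin n} (hp : k ≤ (p : ℕ))
    (hq : k ≤ (q : ℕ)) (h : Fill δ N (TR k l u σ (fun j => A (Equiv.swap p q j)) As)) :
    Fill δ N (TR k l u σ A As) := by
  let S : (Fin n → ℝ) ≃ₗ[ℝ] (Fin n → ℝ) := LinearEquiv.funCongrLeft ℝ ℝ (Equiv.swap p q)
  have hSa : ∀ a, S a = fun j => a (Equiv.swap p q j) := fun a => rfl
  have hSa' : ∀ a, S.symm a = fun j => a (Equiv.swap p q j) := by
    intro a
    funext j
    show a ((Equiv.swap p q).symm j) = a (Equiv.swap p q j)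
    rw [Equiv.symm_swap]
  refine Fill.image S ?_ ?_ 0 ?_
  · intro i j
    rw [hSa]
    exact g1d_single_int _ _
  · intro i j
    rw [hSa']
    exact g1d_single_int _ _
  · have e : (fun a => S a + (0 : Fin n → ℝ)) '' TR k l u σ A As =
        TR k l u σ (fun j => A (Equiv.swap p q j)) As := by
      ext y
      constructor
      · rintro ⟨a, ha, rfl⟩
        simp only [add_zero, hSa]
        exact g1d_swap_mem hsd hp hq ha
      · intro hy
        refine ⟨fun j => y (Equiv.swap p q j), ?_, ?_⟩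
        · have h1 := g1d_swap_mem hsd hp hq hy
          have h2 : (fun j => (fun j => A (Equiv.swap p q j)) (Equiv.swap p q j)) = A := by
            funext j
            simp only [Equiv.swap_apply_self]
          rw [h2] at h1
          exact h1
        · simp only [add_zero, hSa, Equiv.swap_apply_self]
    rw [e]
    exact h

theorem TD.swap (h : TD c L Rv Rb k l u σ A As g) {p q : Fin n} (hp : k ≤ (p : ℕ))
    (hq : k ≤ (q : ℕ)) : TD c L Rv Rb k l u σ (fun j => A (Equiv.swap p q j)) As g where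
  sd := h.sd
  cap := fun j hj => h.cap _ (g1d_swap_ge hp hq hj)
  caps := h.caps
  pair := fun a ha i j hij hi hj => h.pair a ha _ _
    (fun e => hij ((Equiv.swap p q).injective e)) (g1d_swap_ge hp hq hi) (g1d_swap_ge hp hq hj)
  pairs := fun a ha j hj => h.pairs a ha _ (g1d_swap_ge hp hq hj)
  tot := fun a ha => by
    rw [g1d_bsum_swap hp hq]
    exact h.tot a ha

end

end Vale.Agent.P209.Strong
end
end
end
end

section

section

section

section

namespace Vale.Agent.P209.Strong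

open MeasureTheory

/-! G1e. Exchanging a block coordinate with the slack; reflection of a triangle. -/

section
variable {n k : ℕ} {c L Rb As g δ N : ℝ} {Rv A : Fin n → ℝ} {l u : Fin n → (Fin n → ℝ) → ℝ}
  {σ : (Fin n → ℝ) → ℝ}

/-- the walls before `k` only see the coordinates before `k` -/
theorem g1e_wall {F : Fin n → (Fin n → ℝ) → ℝ} (hF : Walls L F) {y y' : Fin n → ℝ}
    (hy : ∀ i : Fin n, (i : ℕ) < k → y i = y' i) (j : Fin n) (hj : (j : ℕ) < k) :
    F j y = F j y' :=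
  hF.dep j y y' fun i hi => hy i (lt_trans (Fin.lt_def.mp hi) hj)

theorem g1e_mem (hsd : SD c L Rv Rb k l u σ) {p : Fin n} (hp : k ≤ (p : ℕ)) {a : Fin n → ℝ}
    (ha : a ∈ TR k l u σ A As) :
    Function.update a p (σ a - bsum k n a) ∈ TR k l u σ (Function.update A p As) (A p) := by
  have hlow : ∀ i : Fin n, (i : ℕ) < k → Function.update a p (σ a - bsum k n a) i = a i := by
    intro i hi
    have : i ≠ p := by
      rintro rfl
      omega
    rw [Function.update_of_ne this]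
  have hσ : σ (Function.update a p (σ a - bsum k n a)) = σ a := hsd.dep hlow
  have hb : bsum k n (Function.update a p (σ a - bsum k n a)) = σ a - a p := by
    rw [HM.bsum_update _ _ ⟨hp, p.2⟩]
    ring
  obtain ⟨h1, h2, h3, h4⟩ := ha
  refine ⟨fun j hj => ?_, fun j hj => ?_, ?_, ?_⟩
  · rw [g1e_wall hsd.wl hlow j hj, g1e_wall hsd.wu hlow j hj, hlow j hj]
    exact h1 j hj
  · by_cases hjp : j = p
    · subst hjp
      rw [Function.update_self, Function.update_self]
      exact ⟨h3, h4⟩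
    · rw [Function.update_of_ne hjp, Function.update_of_ne hjp]
      exact h2 j hj
  · rw [hσ, hb]
    have := (h2 p hp).1
    linarith only [this]
  · rw [hσ, hb]
    have := (h2 p hp).2
    linarith only [this]

theorem g1e_invol (hsd : SD c L Rv Rb k l u σ) {p : Fin n} (hp : k ≤ (p : ℕ)) (a : Fin n → ℝ) :
    Function.update (Function.update a p (σ a - bsum k n a)) p
      (σ (Function.update a p (σ a - bsum k n a)) -
        bsum k n (Function.update a p (σ a - bsum k n a))) = a := by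
  have hlow : ∀ i : Fin n, (i : ℕ) < k → Function.update a p (σ a - bsum k n a) i = a i := by
    intro i hi
    have : i ≠ p := by
      rintro rfl
      omega
    rw [Function.update_of_ne this]
  have hσ : σ (Function.update a p (σ a - bsum k n a)) = σ a := hsd.dep hlow
  have hb : bsum k n (Function.update a p (σ a - bsum k n a)) = σ a - a p := by
    rw [HM.bsum_update _ _ ⟨hp, p.2⟩]
    ring
  rw [hσ, hb, Function.update_idem]
  have : σ a - (σ a - a p) = a p := by ring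
  rw [this, Function.update_eq_self]

theorem g1e_single_int (i j : Fin n) : ∃ z : ℤ, (Pi.single i (1 : ℝ) : Fin n → ℝ) j = z := by
  by_cases hij : j = i
  · subst hij
    exact ⟨1, by simp⟩
  · exact ⟨0, by simp [hij]⟩

theorem TR.fill_slack (hsd : SD c L Rv Rb k l u σ) {p : Fin n} (hp : k ≤ (p : ℕ))
    (h : Fill δ N (TR k l u σ (Function.update A p As) (A p))) : Fill δ N (TR k l u σ A As) := by
  obtain ⟨s, m, hm, hs⟩ := hsd.int
  have hkn : k + (n - k) = n := by
    have := p.2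
    omega
  have hpb : k ≤ (p : ℕ) ∧ (p : ℕ) < k + (n - k) := by
    rw [hkn]
    exact ⟨hp, p.2⟩
  have hS := HM.SL_inv k (n - k) m p hpb (hm p hp)
  let S : (Fin n → ℝ) ≃ₗ[ℝ] (Fin n → ℝ) := LinearEquiv.ofInvolutive _ hS
  have hSa : ∀ a, S a = HM.SL k (n - k) m p a := fun a => rfl
  have hSa' : ∀ a, S.symm a = HM.SL k (n - k) m p a := fun a => rfl
  refine Fill.image S ?_ ?_ (Pi.single p s) ?_
  · intro i j
    rw [hSa]
    exact HM.SL_int k (n - k) m p _ (fun i' => g1e_single_int i i') j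
  · intro i j
    rw [hSa']
    exact HM.SL_int k (n - k) m p _ (fun i' => g1e_single_int i i') j
  · have hT : ∀ a : Fin n → ℝ, S a + (Pi.single p s : Fin n → ℝ) =
        Function.update a p (σ a - bsum k n a) := by
      intro a
      funext j
      rw [Pi.add_apply, hSa, HM.SL_apply, HM.eL_apply, hkn, hs a]
      by_cases hj : j = p
      · subst hj
        rw [Function.update_self, Function.update_self, Pi.single_eq_same]
        ring
      · rw [Function.update_of_ne hj, Function.update_of_ne hj, Pi.single_eq_of_ne hj, add_zero]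
    have e : (fun a => S a + (Pi.single p s : Fin n → ℝ)) '' TR k l u σ A As =
        TR k l u σ (Function.update A p As) (A p) := by
      ext y
      constructor
      · rintro ⟨a, ha, rfl⟩
        simp only [hT]
        exact g1e_mem hsd hp ha
      · intro hy
        refine ⟨Function.update y p (σ y - bsum k n y), ?_, ?_⟩
        · have h1 := g1e_mem hsd hp hy
          rwa [Function.update_idem, Function.update_eq_self, Function.update_self] at h1
        · simp only [hT]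
          exact g1e_invol hsd hp y
    rw [e]
    exact h

theorem TD.slack (h : TD c L Rv Rb k l u σ A As g) {p : Fin n} (hp : k ≤ (p : ℕ)) :
    TD c L Rv Rb k l u σ (Function.update A p As) (A p) g where
  sd := h.sd
  cap := fun j hj => by
    by_cases hjp : j = p
    · subst hjp
      rw [Function.update_self]
      exact h.caps
    · rw [Function.update_of_ne hjp]
      exact h.cap j hj
  caps := h.cap p hp
  pair := fun a ha i j hij hi hj => by
    by_cases hip : i = p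
    · subst hip
      rw [Function.update_self, Function.update_of_ne (Ne.symm hij)]
      have := h.pairs a ha j hj
      linarith only [this]
    · by_cases hjp : j = p
      · subst hjp
        rw [Function.update_self, Function.update_of_ne hip]
        exact h.pairs a ha i hi
      · rw [Function.update_of_ne hip, Function.update_of_ne hjp]
        exact h.pair a ha i j hij hi hj
  pairs := fun a ha j hj => by
    by_cases hjp : j = p
    · subst hjp
      rw [Function.update_self]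
      have := h.pairs a ha j hj
      linarith only [this]
    · rw [Function.update_of_ne hjp]
      exact h.pair a ha j p hjp hj hp
  tot := fun a ha => by
    have h1 := h.tot a ha
    rw [HM.bsum_update _ _ ⟨hp, p.2⟩]
    linarith

/-- the linear part of the reflection of the block -/
def g1e_R (n k : ℕ) : (Fin n → ℝ) →ₗ[ℝ] (Fin n → ℝ) :=
  LinearMap.pi fun j => if k ≤ (j : ℕ) then -LinearMap.proj j else LinearMap.proj j

theorem g1e_R_apply (a : Fin n → ℝ) (j : Fin n) :
    g1e_R n k a j = if k ≤ (j : ℕ) then -a j else a j := by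
  unfold g1e_R
  rw [LinearMap.pi_apply]
  split_ifs
  · rfl
  · rfl

theorem g1e_R_inv : Function.Involutive (g1e_R n k) := by
  intro a
  funext j
  rw [g1e_R_apply, g1e_R_apply]
  split_ifs
  · ring
  · rfl

theorem g1e_R_int (a : Fin n → ℝ) (ha : ∀ i, ∃ z : ℤ, a i = z) (j : Fin n) :
    ∃ z : ℤ, g1e_R n k a j = z := by
  rw [g1e_R_apply]
  obtain ⟨z, hz⟩ := ha j
  split_ifs
  · exact ⟨-z, by rw [hz]; push_cast; ring⟩
  · exact ⟨z, hz⟩

/-- reflection of the block -/
theorem g1e_bsum (a : Fin n → ℝ) :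
    bsum k n (fun j => if k ≤ (j : ℕ) then A j - a j else a j) = bsum k n A - bsum k n a := by
  unfold bsum
  rw [← Finset.sum_sub_distrib]
  refine Finset.sum_congr rfl fun i _ => ?_
  by_cases hi : k ≤ (i : ℕ)
  · have h1 : k ≤ (i : ℕ) ∧ (i : ℕ) < n := ⟨hi, i.2⟩
    simp only [if_pos h1, if_pos hi]
  · have h1 : ¬ (k ≤ (i : ℕ) ∧ (i : ℕ) < n) := fun h => hi h.1
    simp only [if_neg h1, sub_zero]

theorem g1e_refl_mem (hsd : SD c L Rv Rb k l u σ) (τ : (Fin n → ℝ) → ℝ)
    (hτ : ∀ a, τ a = bsum k n A + As - σ a) {a : Fin n → ℝ} (ha : a ∈ TR k l u σ A As) :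
    (fun j : Fin n => if k ≤ (j : ℕ) then A j - a j else a j) ∈ TR k l u τ A As := by
  have hlow : ∀ i : Fin n, (i : ℕ) < k →
      (fun j : Fin n => if k ≤ (j : ℕ) then A j - a j else a j) i = a i := by
    intro i hi
    exact if_neg (by omega)
  have hσ : σ (fun j : Fin n => if k ≤ (j : ℕ) then A j - a j else a j) = σ a := hsd.dep hlow
  obtain ⟨h1, h2, h3, h4⟩ := ha
  refine ⟨fun j hj => ?_, fun j hj => ?_, ?_, ?_⟩
  · rw [g1e_wall hsd.wl hlow j hj, g1e_wall hsd.wu hlow j hj, hlow j hj]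
    exact h1 j hj
  · have h5 := h2 j hj
    simp only [if_pos hj]
    constructor
    · linarith only [h5]
    · linarith
  · rw [hτ, g1e_bsum, hσ]
    linarith
  · rw [hτ, g1e_bsum, hσ]
    linarith

theorem g1e_refl_invol (a : Fin n → ℝ) :
    (fun j : Fin n => if k ≤ (j : ℕ) then A j -
      (fun j : Fin n => if k ≤ (j : ℕ) then A j - a j else a j) j else
      (fun j : Fin n => if k ≤ (j : ℕ) then A j - a j else a j) j) = a := by
  funext j
  by_cases hj : k ≤ (j : ℕ)
  · simp only [if_pos hj]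
    ring
  · simp only [if_neg hj]

/-- Reflection of a triangular block: `a ↦ A - a` in both coordinates (and in the slack). -/
theorem TR.fill_reflect (hsd : SD c L Rv Rb k l u σ) (hk : k + 2 = n)
    (h : Fill δ N (TR k l u (fun a => bsum k n A + As - σ a) A As)) :
    Fill δ N (TR k l u σ A As) := by
  have hkn : k < n := by omega
  let S : (Fin n → ℝ) ≃ₗ[ℝ] (Fin n → ℝ) := LinearEquiv.ofInvolutive _ (g1e_R_inv (n := n) (k := k))
  have hSa : ∀ a, S a = g1e_R n k a := fun a => rfl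
  have hSa' : ∀ a, S.symm a = g1e_R n k a := fun a => rfl
  refine Fill.image S ?_ ?_ (fun j => if k ≤ (j : ℕ) then A j else 0) ?_
  · intro i j
    rw [hSa]
    exact g1e_R_int _ (fun i' => g1e_single_int i i') j
  · intro i j
    rw [hSa']
    exact g1e_R_int _ (fun i' => g1e_single_int i i') j
  · have hT : ∀ a : Fin n → ℝ, S a + (fun j : Fin n => if k ≤ (j : ℕ) then A j else 0) =
        fun j : Fin n => if k ≤ (j : ℕ) then A j - a j else a j := by
      intro a
      funext j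
      rw [Pi.add_apply, hSa, g1e_R_apply]
      by_cases hj : k ≤ (j : ℕ)
      · simp only [if_pos hj]
        ring
      · simp only [if_neg hj, add_zero]
    have e : (fun a => S a + (fun j : Fin n => if k ≤ (j : ℕ) then A j else 0)) ''
        TR k l u σ A As = TR k l u (fun a => bsum k n A + As - σ a) A As := by
      ext y
      constructor
      · rintro ⟨a, ha, rfl⟩
        simp only [hT]
        exact g1e_refl_mem hsd _ (fun _ => rfl) ha
      · intro hy
        refine ⟨fun j : Fin n => if k ≤ (j : ℕ) then A j - y j else y j, ?_, ?_⟩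
        · obtain ⟨h1, h2, h3, h4⟩ := hy
          have hlow : ∀ i : Fin n, (i : ℕ) < k →
              (fun j : Fin n => if k ≤ (j : ℕ) then A j - y j else y j) i = y i := by
            intro i hi
            exact if_neg (by omega)
          have hσ : σ (fun j : Fin n => if k ≤ (j : ℕ) then A j - y j else y j) = σ y :=
            hsd.dep hlow
          refine ⟨fun j hj => ?_, fun j hj => ?_, ?_, ?_⟩
          · rw [g1e_wall hsd.wl hlow j hj, g1e_wall hsd.wu hlow j hj, hlow j hj]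
            exact h1 j hj
          · have h5 := h2 j hj
            simp only [if_pos hj]
            constructor
            · linarith only [h5]
            · linarith only [h5]
          · rw [g1e_bsum, hσ]
            linarith only [h4]
          · rw [g1e_bsum, hσ]
            linarith only [h3]
        · simp only [hT]
          exact g1e_refl_invol y
    rw [e]
    exact h

end

end Vale.Agent.P209.Strong
end
end
end
end

section

section

section

section

namespace Vale.Agent.P209.Strong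

open MeasureTheory

theorem TSI_of (n k : ℕ) (hk : k + 2 ≤ n) (h : TSA n k) : TSI n k := by
  intro c L δ N hc hL hδ hδ1 hN
  obtain ⟨R0, hR0, H⟩ := h c L δ N hc hL hδ hδ1 hN
  refine ⟨R0, hR0, fun Rv Rb hRv hRb l u σ A As hTD hor => ?_⟩
  have hkn : k < n := by omega
  rcases hor with ⟨j, hj, hlarge⟩ | hlarge
  · refine TR.fill_swap hTD.sd (p := ⟨k, hkn⟩) (q := j) le_rfl hj
      (H Rv Rb hRv hRb l u σ _ As (hTD.swap (p := ⟨k, hkn⟩) (q := j) le_rfl hj)
        (fun a ha i hi => ?_))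
    have hi' : i = ⟨k, hkn⟩ := Fin.ext hi
    rw [hi', Equiv.swap_apply_left]
    exact hlarge a ha
  · refine TR.fill_slack hTD.sd (p := ⟨k, hkn⟩) le_rfl
      (H Rv Rb hRv hRb l u σ _ _ (hTD.slack (p := ⟨k, hkn⟩) le_rfl) (fun a ha i hi => ?_))
    have hi' : i = ⟨k, hkn⟩ := Fin.ext hi
    rw [hi', Function.update_self]
    exact hlarge a ha

end Vale.Agent.P209.Strong
end
end
end
end

section

section

section

section

namespace Vale.Agent.P209.Strong

open MeasureTheory

/-! G1h. Cutting along the first block coordinate with a movable wall. -/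

section
variable {n k : ℕ} {c L Rb As g δ N : ℝ} {Rv A : Fin n → ℝ} {l u : Fin n → (Fin n → ℝ) → ℝ}
  {σ : (Fin n → ℝ) → ℝ}

theorem g1h_null (j : Fin n) (x : ℝ) : volume {a : Fin n → ℝ | a j = x} = 0 :=
  volume_graph_zero j (fun _ => x) continuous_const (fun _ _ _ => rfl)

theorem TR.cut (hn : 1 ≤ n) (hδ1 : δ ≤ 1) (hL : 0 ≤ L) (hsd : SD c L Rv Rb k l u σ)
    (hk : k < n) {x0 x1 : ℝ} (hx : x0 ≤ x1)
    (hmid : 1 / (n.factorial : ℝ) <
      (volume (TR k l u σ A As ∩ {a | x0 < a ⟨k, hk⟩ ∧ a ⟨k, hk⟩ < x1})).toReal)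
    (hU : ∀ x, x0 ≤ x → x ≤ x1 → Fill δ N (TR k l u σ A As ∩ {a | a ⟨k, hk⟩ < x}))
    (hV : ∀ x, x0 ≤ x → x ≤ x1 → Fill δ N (TR k l u σ A As ∩ {a | x < a ⟨k, hk⟩})) :
    Fill δ N (TR k l u σ A As) := by
  have hfin : volume (TR k l u σ A As) ≠ ⊤ := TR.finite hL hsd.wl hsd.wu
  have hmeas : MeasurableSet (TR k l u σ A As) :=
    (TR.isOpen hL hsd.wl hsd.wu (SD.continuous hL hsd)).measurableSet
  have hproj : Measurable fun a : Fin n → ℝ => a ⟨k, hk⟩ := measurable_pi_apply _
  have hfs : ∀ S : Set (Fin n → ℝ), volume (TR k l u σ A As ∩ S) ≠ ⊤ := fun S =>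
    ne_top_of_le_ne_top hfin (measure_mono Set.inter_subset_left)
  refine Fill.split hn hδ1 hfin (fun x => TR k l u σ A As ∩ {a | a ⟨k, hk⟩ < x})
    (fun x => TR k l u σ A As ∩ {a | x < a ⟨k, hk⟩}) hx (fun _ _ _ => Set.inter_subset_left)
    (fun _ _ _ => Set.inter_subset_left) ?_ ?_ ?_ ?_ hU hV
  · intro x _ _
    rw [Set.disjoint_left]
    rintro a ⟨_, h1⟩ ⟨_, h2⟩
    have h3 : a ⟨k, hk⟩ < x := h1
    have h4 : x < a ⟨k, hk⟩ := h2
    exact lt_asymm h3 h4
  · intro x _ _
    have h1 : volume (TR k l u σ A As) ≤ volume (TR k l u σ A As ∩ {a | a ⟨k, hk⟩ < x}) +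
        volume (TR k l u σ A As ∩ {a | x < a ⟨k, hk⟩}) := by
      calc volume (TR k l u σ A As) ≤ volume (((TR k l u σ A As ∩ {a | a ⟨k, hk⟩ < x}) ∪
            (TR k l u σ A As ∩ {a | x < a ⟨k, hk⟩})) ∪ {a : Fin n → ℝ | a ⟨k, hk⟩ = x}) := by
            refine measure_mono ?_
            intro a ha
            rcases lt_trichotomy (a ⟨k, hk⟩) x with h | h | h
            · exact Or.inl (Or.inl ⟨ha, h⟩)
            · exact Or.inr h
            · exact Or.inl (Or.inr ⟨ha, h⟩)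
        _ ≤ volume ((TR k l u σ A As ∩ {a | a ⟨k, hk⟩ < x}) ∪
            (TR k l u σ A As ∩ {a | x < a ⟨k, hk⟩})) + volume {a : Fin n → ℝ | a ⟨k, hk⟩ = x} :=
            measure_union_le _ _
        _ = volume ((TR k l u σ A As ∩ {a | a ⟨k, hk⟩ < x}) ∪
            (TR k l u σ A As ∩ {a | x < a ⟨k, hk⟩})) := by
            rw [g1h_null, add_zero]
        _ ≤ _ := measure_union_le _ _
    rw [← ENNReal.toReal_add (hfs _) (hfs _)]
    exact ENNReal.toReal_mono (ENNReal.add_ne_top.2 ⟨hfs _, hfs _⟩) h1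
  · have h1 := volume_lt_continuous hfin hmeas (f := fun a : Fin n → ℝ => a ⟨k, hk⟩)
      (g := fun _ => (1 : ℝ)) hproj measurable_const (fun _ _ => one_pos) (fun x =>
        measure_mono_null (Set.inter_subset_right.trans (fun a ha => by
          have h2 : a ⟨k, hk⟩ = x * 1 := ha
          rw [mul_one] at h2
          exact h2)) (g1h_null ⟨k, hk⟩ x))
    simp only [mul_one] at h1
    exact h1.continuousOn
  · have hms : MeasurableSet (TR k l u σ A As ∩ {a | x0 < a ⟨k, hk⟩ ∧ a ⟨k, hk⟩ < x1}) :=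
      hmeas.inter ((measurableSet_lt measurable_const hproj).inter
        (measurableSet_lt hproj measurable_const))
    have hdis : Disjoint (TR k l u σ A As ∩ {a | a ⟨k, hk⟩ < x0})
        (TR k l u σ A As ∩ {a | x0 < a ⟨k, hk⟩ ∧ a ⟨k, hk⟩ < x1}) := by
      rw [Set.disjoint_left]
      rintro a ⟨_, h1⟩ ⟨_, h2⟩
      have h3 : a ⟨k, hk⟩ < x0 := h1
      have h4 : x0 < a ⟨k, hk⟩ := h2.1
      exact lt_asymm h3 h4
    have h1 : volume (TR k l u σ A As ∩ {a | a ⟨k, hk⟩ < x0}) +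
        volume (TR k l u σ A As ∩ {a | x0 < a ⟨k, hk⟩ ∧ a ⟨k, hk⟩ < x1}) ≤
        volume (TR k l u σ A As ∩ {a | a ⟨k, hk⟩ < x1}) := by
      rw [← measure_union hdis hms]
      refine measure_mono ?_
      rintro a (⟨ha, h2⟩ | ⟨ha, h2⟩)
      · exact ⟨ha, lt_of_lt_of_le h2 hx⟩
      · exact ⟨ha, h2.2⟩
    have h2 := ENNReal.toReal_mono (hfs _) h1
    rw [ENNReal.toReal_add (hfs _) (hfs _)] at h2
    show (volume (TR k l u σ A As ∩ {a | a ⟨k, hk⟩ < x0})).toReal + _ <
      (volume (TR k l u σ A As ∩ {a | a ⟨k, hk⟩ < x1})).toReal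
    linarith only [h2, hmid]

/-- The middle part has large volume (`c'` is the fatness of the middle part). -/
theorem TD.mid_ge (c' L' : ℝ) (n : ℕ) (hc' : 0 < c') (hL' : 0 ≤ L') : ∃ M : ℝ, 0 < M ∧
    ∀ (k : ℕ) (hk : k < n) (c L Rb m : ℝ) (Rv : Fin n → ℝ) (l u : Fin n → (Fin n → ℝ) → ℝ)
      (σ : (Fin n → ℝ) → ℝ) (A : Fin n → ℝ) (As g x0 x1 : ℝ), 0 ≤ L → L ≤ L' → k + 2 ≤ n →
      c' ≤ c → M ≤ m → m ≤ Rb → (∀ j : Fin n, (j : ℕ) < k → m ≤ Rv j) →
      TD c L Rv Rb k l u σ A As g → 0 ≤ x0 → x1 ≤ A ⟨k, hk⟩ → c' * Rb ≤ x1 - x0 →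
      x1 - x0 ≤ Rb → (∀ a, Pre l u k a → x1 + c' * Rb ≤ σ a) →
      (c' * Rb ≤ g ∨ (0 ≤ g ∧ (k + 3 ≤ n ∨ c' * Rb ≤ x0))) →
      1 / (n.factorial : ℝ) <
        (volume (TR k l u σ A As ∩ {a | x0 < a ⟨k, hk⟩ ∧ a ⟨k, hk⟩ < x1})).toReal := by
  obtain ⟨κ, hκ, H⟩ := TD.volume_ge (n := n) c' (L' + 1) hc' (by linarith only [hL'])
  refine ⟨2 / κ, by positivity, ?_⟩
  intro k hk c L Rb m Rv l u σ A As g x0 x1 hL hLL hkn hcc hM hmR hRv hT hx0 hx1 hw hw2 hs hg
  have hm : 0 < m := lt_of_lt_of_le (by positivity) hM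
  have hRb : 0 < Rb := lt_of_lt_of_le hm hmR
  have hcR : 0 < c' * Rb := mul_pos hc' hRb
  have hg0 : 0 ≤ g := by
    rcases hg with h | h
    · exact hcR.le.trans h
    · exact h.1
  obtain ⟨g', hg1, hg2⟩ : ∃ g', g' ≤ g + x0 ∧ (k + 3 ≤ n ∨ (k + 2 ≤ n ∧ c' * Rb ≤ g')) := by
    rcases hg with h | ⟨_, h | h⟩
    · exact ⟨g, by linarith only [hx0], Or.inr ⟨hkn, h⟩⟩
    · exact ⟨g, by linarith only [hx0], Or.inl h⟩
    · exact ⟨x0, by linarith only [hg0], Or.inr ⟨hkn, h⟩⟩
  have h1 := TD.peel hk hL hRb (fun j hj => hm.le.trans (hRv j hj)) hT hc' hcc hx0 hw hw2 hs hg0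
    (fun a ha i j hij hi hj => hT.pair a ha i j hij (by omega) (by omega))
    (fun a ha j hj => hT.pairs a ha j (by omega)) hg1 hg2
  have hRv' : ∀ j : Fin n, (j : ℕ) < k + 1 → m ≤ Function.update Rv ⟨k, hk⟩ Rb j := by
    intro j hj
    by_cases hjk : j = ⟨k, hk⟩
    · rw [hjk, Function.update_self]
      exact hmR
    · rw [Function.update_of_ne hjk]
      refine hRv j ?_
      have h2 : (j : ℕ) ≠ k := fun h => hjk (Fin.ext h)
      omega
  have h2 := TD.mono h1 le_rfl (show L + 1 ≤ L' + 1 by linarith only [hLL]) le_rfl hRb.le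
    (fun j hj => hm.le.trans (hRv' j hj))
  have h3 := H (k + 1) _ Rb m _ _ _ A As g' hk hm hRv' hmR h2
  rw [TR.peel_eq hk hx0 hx1]
  refine lt_of_lt_of_le ?_ h3
  have h4 : 2 ≤ κ * m := by
    have h5 : κ * (2 / κ) = 2 := by
      field_simp
    have h6 := mul_le_mul_of_nonneg_left hM hκ.le
    linarith only [h5, h6]
  have h5 : (1 : ℝ) < (κ * m) ^ n := one_lt_pow₀ (by linarith only [h4]) (by omega)
  refine lt_of_le_of_lt ?_ h5
  rw [div_le_one (by positivity)]
  exact_mod_cast Nat.succ_le_of_lt (Nat.factorial_pos n)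

end

end Vale.Agent.P209.Strong
end
end
end
end

section

section

section

section

namespace Vale.Agent.P209.Strong

open MeasureTheory

/-- truncation of a point: the coordinates `≥ j` are replaced by `0` -/
noncomputable def g1i_tr {n : ℕ} (j : ℕ) (a : Fin n → ℝ) : Fin n → ℝ :=
  fun i => if (i : ℕ) < j then a i else 0

theorem g1i_tr_eq {n : ℕ} (j : ℕ) (a : Fin n → ℝ) (i : Fin n) (hi : (i : ℕ) < j) :
    a i = g1i_tr j a i := by
  simp only [g1i_tr, if_pos hi]

theorem g1i_dist {n : ℕ} (j : ℕ) (a a' : Fin n → ℝ) {D : ℝ} (hD : 0 ≤ D)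
    (h : ∀ i : Fin n, (i : ℕ) < j → |a i - a' i| ≤ D) :
    dist (g1i_tr j a) (g1i_tr j a') ≤ D := by
  rw [dist_pi_le_iff hD]
  intro i
  simp only [g1i_tr]
  split_ifs with hi
  · rw [Real.dist_eq]
    exact h i hi
  · rw [dist_self]
    exact hD

theorem g1i_main {n k : ℕ} {L η : ℝ} (hL : 0 ≤ L) (hη : 0 ≤ η)
    {l u : Fin n → (Fin n → ℝ) → ℝ} (hl : Walls L l)
    (hw : ∀ (j : Fin n) (a : Fin n → ℝ), (j : ℕ) < k → Pre l u j a → u j a - l j a ≤ η)
    {a a' : Fin n → ℝ} (ha : Pre l u k a) (ha' : Pre l u k a') (j : ℕ) (hj : j ≤ k) :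
    ∀ i : Fin n, (i : ℕ) < j → |a i - a' i| ≤ j * (1 + L) ^ j * η := by
  induction j with
  | zero => exact fun i hi => absurd hi (Nat.not_lt_zero _)
  | succ j ih =>
    have ih' := ih (by omega)
    have hL1 : 1 ≤ 1 + L := by linarith only [hL]
    have hp : 1 ≤ (1 + L) ^ j := one_le_pow₀ hL1
    have hD : 0 ≤ (j : ℝ) * (1 + L) ^ j * η :=
      mul_nonneg (mul_nonneg (Nat.cast_nonneg j) (by linarith only [hp])) hη
    have key : η + L * ((j : ℝ) * (1 + L) ^ j * η) ≤ ((j + 1 : ℕ) : ℝ) * (1 + L) ^ (j + 1) * η := by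
      have e : ((j + 1 : ℕ) : ℝ) * (1 + L) ^ (j + 1) * η - (η + L * ((j : ℝ) * (1 + L) ^ j * η))
          = (j : ℝ) * (1 + L) ^ j * η + (((1 + L) ^ j - 1) * η + L * (1 + L) ^ j * η) := by
        push_cast
        ring
      have h1 : 0 ≤ ((1 + L) ^ j - 1) * η := mul_nonneg (by linarith only [hp]) hη
      have h2 : 0 ≤ L * (1 + L) ^ j * η := mul_nonneg (mul_nonneg hL (by linarith only [hp])) hη
      linarith only [hD, e, h1, h2]
    have hLD : 0 ≤ L * ((j : ℝ) * (1 + L) ^ j * η) := mul_nonneg hL hD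
    intro i hi
    by_cases hij : (i : ℕ) < j
    · have h3 : (j : ℝ) * (1 + L) ^ j * η ≤ ((j + 1 : ℕ) : ℝ) * (1 + L) ^ (j + 1) * η := by
        have e : ((j + 1 : ℕ) : ℝ) * (1 + L) ^ (j + 1) * η - (j : ℝ) * (1 + L) ^ j * η
            = L * ((j : ℝ) * (1 + L) ^ j * η) + (1 + L) ^ j * η + L * (1 + L) ^ j * η := by
          push_cast
          ring
        have h1 : 0 ≤ (1 + L) ^ j * η := mul_nonneg (by linarith only [hp]) hη
        have h2 : 0 ≤ L * (1 + L) ^ j * η := mul_nonneg (mul_nonneg hL (by (clear * - hp; linarith))) hη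
        linarith only [hLD, e, h1, h2]
      exact (ih' i hij).trans h3
    · have hik : (i : ℕ) < k := by omega
      have hd := g1i_dist j a a' hD ih'
      have hdl : L * dist (g1i_tr j a) (g1i_tr j a') ≤ L * ((j : ℝ) * (1 + L) ^ j * η) :=
        mul_le_mul_of_nonneg_left hd hL
      have e1 : l i a = l i (g1i_tr j a) := hl.dep i a _ fun i' hi' => g1i_tr_eq j a i' (by
        have := Fin.lt_def.mp hi'
        omega)
      have e2 : l i a' = l i (g1i_tr j a') := hl.dep i a' _ fun i' hi' => g1i_tr_eq j a' i' (by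
        have := Fin.lt_def.mp hi'
        omega)
      have h4 : |l i a - l i a'| ≤ L * ((j : ℝ) * (1 + L) ^ j * η) := by
        rw [e1, e2]
        exact (hl.lip i _ _).trans hdl
      have h5 := abs_le.1 h4
      have h6 := ha i hik
      have h7 := ha' i hik
      have h8 := hw i a hik fun i' hi' => ha i' (by omega)
      have h9 := hw i a' hik fun i' hi' => ha' i' (by omega)
      refine le_trans ?_ key
      rw [abs_le]
      constructor
      · linarith only [h5, h6, h7, h9]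
      · linarith only [h5, h6, h7, h8]

/-- Oscillation of a function of the outer coordinates, when the outer widths are at most `η`. -/
theorem Pre.osc {n k : ℕ} {L η : ℝ} (hL : 0 ≤ L) (hη : 0 ≤ η) (hk : k ≤ n)
    {l u : Fin n → (Fin n → ℝ) → ℝ} (hl : Walls L l) (hu : Walls L u)
    (hw : ∀ (j : Fin n) (a : Fin n → ℝ), (j : ℕ) < k → Pre l u j a → u j a - l j a ≤ η)
    {σ : (Fin n → ℝ) → ℝ} (hσ : ∀ y y', |σ y - σ y'| ≤ L * dist y y')
    (hdep : ∀ y y' : Fin n → ℝ, (∀ i : Fin n, (i : ℕ) < k → y i = y' i) → σ y = σ y')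
    {a a' : Fin n → ℝ} (ha : Pre l u k a) (ha' : Pre l u k a') :
    |σ a - σ a'| ≤ L * (n * (1 + L) ^ n) * η := by
  have hL1 : 1 ≤ 1 + L := by linarith only [hL]
  have hD : 0 ≤ (k : ℝ) * (1 + L) ^ k * η :=
    mul_nonneg (mul_nonneg (Nat.cast_nonneg k) (by positivity)) hη
  have hd := g1i_dist k a a' hD (g1i_main hL hη hl hw ha ha' k le_rfl)
  have e1 : σ a = σ (g1i_tr k a) := hdep a _ (g1i_tr_eq k a)
  have e2 : σ a' = σ (g1i_tr k a') := hdep a' _ (g1i_tr_eq k a')
  rw [e1, e2]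
  refine (hσ _ _).trans ((mul_le_mul_of_nonneg_left hd hL).trans ?_)
  rw [mul_assoc L]
  refine mul_le_mul_of_nonneg_left (mul_le_mul_of_nonneg_right ?_ hη) hL
  exact mul_le_mul (Nat.cast_le.2 hk) (pow_le_pow_right₀ hL1 hk) (by positivity)
    (Nat.cast_nonneg n)

end Vale.Agent.P209.Strong
end
end
end
end

section

section

section

section

namespace Vale.Agent.P209.Strong

open MeasureTheory

/-- the empty set is filled -/
theorem g5c_fill_empty {n : ℕ} {δ N : ℝ} : Fill δ N (∅ : Set (Fin n → ℝ)) := by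
  intro ι _ r J hr _ _ hv
  exfalso
  rw [measure_empty, ENNReal.toReal_zero] at hv
  have : 0 ≤ ∑ i, r i ^ n / (n.factorial : ℝ) :=
    Finset.sum_nonneg fun i _ => div_nonneg (pow_nonneg (hr i).1.le _) (Nat.cast_nonneg _)
  linarith only [hv, this]

/-- a lower bound for the sum of the caps -/
theorem g5c_bsum_ge {n k : ℕ} (hk : k < n) {A : Fin n → ℝ}
    (hA : ∀ j : Fin n, k ≤ (j : ℕ) → 0 ≤ A j) : A ⟨k, hk⟩ ≤ bsum k n A := by
  unfold bsum
  have h1 : ∀ i ∈ (Finset.univ : Finset (Fin n)),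
      0 ≤ (if k ≤ (i : ℕ) ∧ (i : ℕ) < n then A i else 0) := by
    intro i _
    split_ifs with h
    · exact hA i h.1
    · exact le_rfl
  have h2 := Finset.single_le_sum h1 (Finset.mem_univ (⟨k, hk⟩ : Fin n))
  simp only [le_refl, hk, and_self, if_true] at h2
  exact h2

/-- shifting the size -/
theorem g5c_int {n k : ℕ} {σ : (Fin n → ℝ) → ℝ} (h : IntAff k σ) (x : ℝ) :
    IntAff k (fun a => σ a - x) := by
  obtain ⟨s, m, h1, h2⟩ := h
  refine ⟨s - x, m, h1, fun a => ?_⟩
  show σ a - x = _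
  rw [h2]
  ring

section
variable {n k : ℕ} {c L Rb As σ0 w x : ℝ} {Rv A : Fin n → ℝ} {l u : Fin n → (Fin n → ℝ) → ℝ}
  {σ : (Fin n → ℝ) → ℝ}

/-- data of the lower part -/
theorem g5c_TD (hk : k < n) (hc : 0 < c)
    (hRb : 0 < Rb) (hRv : ∀ j : Fin n, (j : ℕ) < k → 0 ≤ Rv j)
    (h : TD c L Rv Rb k l u σ A As (c * Rb)) (hw : w = c * Rb / 100)
    (hosc : ∀ a, Pre l u k a → |σ a - σ0| ≤ w / 10) (hσ0 : 100 * w ≤ σ0)
    (hx0 : σ0 - w ≤ x) :
    TD (c / 1000) L Rv Rb k l u σ (Function.update A ⟨k, hk⟩ x) As (c / 1000 * Rb) := by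
  have hcR : 0 < c * Rb := mul_pos hc hRb
  have hw0 : 0 < w := by rw [hw]; linarith only [hcR]
  have e1 : c * Rb = 100 * w := by rw [hw]; ring
  have e2 : c / 1000 * Rb = w / 10 := by rw [hw]; ring
  have hA0 : ∀ j : Fin n, k ≤ (j : ℕ) → 100 * w ≤ A j := fun j hj => by
    rw [← e1]; exact h.cap j hj
  have hAs0 : 100 * w ≤ As := by rw [← e1]; exact h.caps
  have hcap : ∀ j : Fin n, k ≤ (j : ℕ) → 99 * w ≤ Function.update A ⟨k, hk⟩ x j := by
    intro j hj
    by_cases hjk : j = ⟨k, hk⟩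
    · rw [hjk, Function.update_self]; linarith only [hσ0, hx0]
    · rw [Function.update_of_ne hjk]
      have := hA0 j hj
      linarith only [hw0, this]
  refine ⟨h.sd.mono (by linarith only [hc]) le_rfl hRb.le hRv, ?_, ?_, ?_, ?_, ?_⟩
  · intro j hj
    rw [e2]
    have := hcap j hj
    linarith only [hw0, this]
  · rw [e2]; linarith only [hw0, hAs0]
  · intro a ha i j hij hi hj
    have h1 := abs_le.1 (hosc a ha)
    rw [e2]
    by_cases hik : i = ⟨k, hk⟩
    · have hjk : j ≠ ⟨k, hk⟩ := fun hh => hij (hik.trans hh.symm)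
      rw [hik, Function.update_self, Function.update_of_ne hjk]
      have := hA0 j hj
      linarith only [hx0, h1, this]
    · by_cases hjk : j = ⟨k, hk⟩
      · rw [hjk, Function.update_self, Function.update_of_ne hik]
        have := hA0 i hi
        linarith only [hx0, h1, this]
      · rw [Function.update_of_ne hik, Function.update_of_ne hjk]
        have h2 := h.pair a ha i j hij hi hj
        rw [e1] at h2
        linarith only [hw0, h2]
  · intro a ha j hj
    have h1 := abs_le.1 (hosc a ha)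
    rw [e2]
    by_cases hjk : j = ⟨k, hk⟩
    · rw [hjk, Function.update_self]
      linarith only [hx0, hAs0, h1]
    · rw [Function.update_of_ne hjk]
      have h2 := h.pairs a ha j hj
      rw [e1] at h2
      linarith only [hw0, h2]
  · intro a ha
    have h1 := abs_le.1 (hosc a ha)
    rw [e2]
    have h2 := g5c_bsum_ge (A := Function.update A ⟨k, hk⟩ x) hk (fun j hj => by
      have := hcap j hj
      linarith only [hw0, this])
    rw [Function.update_self] at h2
    linarith only [hx0, hAs0, h1, h2]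

/-- data of the upper part -/
theorem g5c_SD (hc : 0 < c) (hc1 : c ≤ 1)
    (hRb : 0 < Rb) (hRv : ∀ j : Fin n, (j : ℕ) < k → 0 ≤ Rv j)
    (h : SD c L Rv Rb k l u σ) (hw : w = c * Rb / 100)
    (hosc : ∀ a, Pre l u k a → |σ a - σ0| ≤ w / 10)
    (hx0 : σ0 - w ≤ x) (hx1 : x ≤ σ0 - w / 2) :
    SD (c / 1000) L Rv Rb k l u (fun a => σ a - x) := by
  have hcR : 0 < c * Rb := mul_pos hc hRb
  have hw0 : 0 < w := by rw [hw]; linarith only [hcR]
  have e2 : c / 1000 * Rb = w / 10 := by rw [hw]; ring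
  have hcR1 : c * Rb ≤ Rb := by
    calc c * Rb ≤ 1 * Rb := by gcongr
      _ = Rb := one_mul _
  have h' : SD (c / 1000) L Rv Rb k l u σ := h.mono (by linarith only [hc]) le_rfl hRb.le hRv
  refine ⟨h.wl, h.wu, g5c_int h.int x, ?_, h'.fat, ?_⟩
  · intro y y'
    have := h.lip y y'
    rwa [sub_sub_sub_cancel_right]
  · intro a ha
    have h1 := abs_le.1 (hosc a ha)
    rw [e2]
    constructor
    · linarith only [hx1, h1]
    · have h2 : 100 * w ≤ Rb := by rw [hw]; linarith only [hcR1]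
      linarith only [hw, hx0, hcR1, h1]

/-- the case of small outer widths -/
theorem g5c_small (hn : 1 ≤ n) (hk2 : k + 2 ≤ n) (hk : k < n) {δ N m M : ℝ} (hδ1 : δ ≤ 1)
    (hc : 0 < c) (hL : 0 ≤ L)
    (hM : ∀ (k : ℕ) (hk : k < n) (c₁ L₁ Rb m : ℝ) (Rv : Fin n → ℝ)
      (l u : Fin n → (Fin n → ℝ) → ℝ)
      (σ : (Fin n → ℝ) → ℝ) (A : Fin n → ℝ) (As g x0 x1 : ℝ), 0 ≤ L₁ → L₁ ≤ L → k + 2 ≤ n →
      c / 1000 ≤ c₁ → M ≤ m → m ≤ Rb → (∀ j : Fin n, (j : ℕ) < k → m ≤ Rv j) →
      TD c₁ L₁ Rv Rb k l u σ A As g → 0 ≤ x0 → x1 ≤ A ⟨k, hk⟩ → c / 1000 * Rb ≤ x1 - x0 →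
      x1 - x0 ≤ Rb → (∀ a, Pre l u k a → x1 + c / 1000 * Rb ≤ σ a) →
      (c / 1000 * Rb ≤ g ∨ (0 ≤ g ∧ (k + 3 ≤ n ∨ c / 1000 * Rb ≤ x0))) →
      1 / (n.factorial : ℝ) <
        (volume (TR k l u σ A As ∩ {a | x0 < a ⟨k, hk⟩ ∧ a ⟨k, hk⟩ < x1})).toReal)
    (hMm : M ≤ m) (hm0 : 0 < m) (hmRb : m ≤ Rb)
    (hRv : ∀ j : Fin n, (j : ℕ) < k → m ≤ Rv j)
    (hA : ∀ (Rv : Fin n → ℝ) (Rb : ℝ), (∀ j : Fin n, (j : ℕ) < k → m ≤ Rv j) → m ≤ Rb →
      ∀ (l u : Fin n → (Fin n → ℝ) → ℝ) (σ : (Fin n → ℝ) → ℝ) (A : Fin n → ℝ) (As : ℝ),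
        TD (c / 1000) L Rv Rb k l u σ A As (c / 1000 * Rb) →
        (∀ a, Pre l u k a → ∀ j : Fin n, (j : ℕ) = k → A j + c / 1000 * Rb ≤ σ a) →
        Fill δ N (TR k l u σ A As))
    (hP : ∀ (Rv : Fin n → ℝ) (Rb : ℝ), (∀ j : Fin n, (j : ℕ) < k → m ≤ Rv j) → m ≤ Rb →
      ∀ (l u : Fin n → (Fin n → ℝ) → ℝ) (σ : (Fin n → ℝ) → ℝ),
        SD (c / 1000) L Rv Rb k l u σ → Fill δ N (SR k l u σ))
    (h : TD c L Rv Rb k l u σ A As (c * Rb)) (hw : w = c * Rb / 100)
    (hosc : ∀ a, Pre l u k a → ∀ a', Pre l u k a' → |σ a - σ a'| ≤ w / 10)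
    (hcap : ∀ j : Fin n, k ≤ (j : ℕ) → (j : ℕ) ≠ k + 1 → Rb ≤ A j) (hcaps : Rb ≤ As) :
    Fill δ N (TR k l u σ A As) := by
  rcases (TR k l u σ A As).eq_empty_or_nonempty with he | ⟨a0, ha0⟩
  · rw [he]; exact g5c_fill_empty
  have hRb : 0 < Rb := lt_of_lt_of_le hm0 hmRb
  have hRv0 : ∀ j : Fin n, (j : ℕ) < k → 0 ≤ Rv j := fun j hj => hm0.le.trans (hRv j hj)
  have hp0 : Pre l u k a0 := TR.pre ha0
  obtain ⟨hs0, hs1⟩ := h.sd.size a0 hp0
  have hc1 : c ≤ 1 := by
    have h1 : c * Rb ≤ 1 * Rb := by linarith only [hs0, hs1]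
    exact le_of_mul_le_mul_right h1 hRb
  have hcR : 0 < c * Rb := mul_pos hc hRb
  have hw0 : 0 < w := by rw [hw]; linarith only [hcR]
  have e1 : c * Rb = 100 * w := by rw [hw]; ring
  have e2 : c / 1000 * Rb = w / 10 := by rw [hw]; ring
  have hwRb : 100 * w ≤ Rb := by rw [← e1]; linarith only [hs0, hs1]
  have hosc' : ∀ a, Pre l u k a → |σ a - σ a0| ≤ w / 10 := fun a ha => hosc a ha a0 hp0
  rw [e1] at hs0
  have hAk : Rb ≤ A ⟨k, hk⟩ := hcap ⟨k, hk⟩ le_rfl (by simp)
  refine TR.cut hn hδ1 hL h.sd hk (x0 := σ a0 - w) (x1 := σ a0 - w / 2) (by linarith only [hw0]) ?_ ?_ ?_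
  · -- the middle part
    refine hM k hk c L Rb m Rv l u σ A As (c * Rb) _ _ hL le_rfl hk2 (by linarith only [hc]) hMm hmRb hRv h
      (by linarith only [hs0, hw0]) (by linarith only [hs1, hw0, hAk]) ?_ (by linarith only [hs0, hs1, hw0]) ?_ (Or.inl ?_)
    · rw [e2]; linarith only [hw0]
    · intro a ha
      have h1 := abs_le.1 (hosc' a ha)
      rw [e2]
      linarith only [h1]
    · rw [e1, e2]; linarith only [hw0]
  · -- the lower part
    intro x hx0 hx1
    rw [TR.inter_lt (p := ⟨k, hk⟩) le_rfl (by linarith only [hs1, hw0, hAk, hx1])]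
    refine hA Rv Rb hRv hmRb l u σ _ As
      (g5c_TD hk hc hRb hRv0 h hw hosc' hs0 hx0) ?_
    intro a ha j hj
    have hjk : j = ⟨k, hk⟩ := Fin.ext hj
    have h1 := abs_le.1 (hosc' a ha)
    rw [hjk, Function.update_self, e2]
    linarith only [hx1, h1]
  · -- the upper part
    intro x hx0 hx1
    refine TR.fill_gt h.sd (p := ⟨k, hk⟩) le_rfl (by linarith only [hs0, hw0, hx0]) ?_
    rw [TR_eq_SR hk]
    · exact hP Rv Rb hRv hmRb l u _ (g5c_SD hc hc1 hRb hRv0 h.sd hw hosc' hx0 hx1)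
    · intro a ha j hj
      have h1 := abs_le.1 (hosc' a ha)
      by_cases hjk : j = ⟨k, hk⟩
      · rw [hjk, Function.update_self]
        have := (h.sd.size a ha).2
        linarith only [hAk, this]
      · rw [Function.update_of_ne hjk]
        have h2 := h.cap j hj
        rw [e1] at h2
        linarith only [hx0, h1, h2]
    · intro a ha
      have h1 := abs_le.1 (hosc' a ha)
      linarith only [hcaps, hs0, hs1, hx0, h1]

end

theorem TSC_of (n k : ℕ) (hk : k + 2 ≤ n) (hA : TSA n k) (hP : PS n k) : TSC n k := by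
  intro c L δ N hc hL hδ hδ1 hN
  have hn : 1 ≤ n := by omega
  have hkn : k < n := by omega
  have hc' : 0 < c / 1000 := by linarith only [hc]
  obtain ⟨M0, hM0, href⟩ := TD.refine hn c L δ hc hL hδ1
  obtain ⟨R1, hR1, hA1⟩ := hA (c / 1000) L δ N hc' hL hδ hδ1 hN
  obtain ⟨R2, hR2, hP1⟩ := hP (c / 1000) L δ N hc' hL hδ hδ1 hN
  obtain ⟨M, hM, hmid⟩ := TD.mid_ge (c / 1000) L n hc' hL
  set K : ℝ := L * (n * (1 + L) ^ n) with hK
  have hK0 : 0 ≤ K := by rw [hK]; (clear * - hL hn; positivity)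
  set θ : ℝ := c / (1000 * (K + 1)) with hθ
  have hθ0 : 0 < θ := by rw [hθ]; (clear * - hc hL hn; positivity)
  obtain ⟨m, hm0, hmM0, hmR1, hmR2, hmM⟩ : ∃ m : ℝ, 0 < m ∧ M0 ≤ m ∧ R1 ≤ m ∧ R2 ≤ m ∧ M ≤ m :=
    ⟨M0 + R1 + R2 + M, by linarith only [hM0, hR1, hR2, hM], by linarith only [hR1, hR2, hM], by linarith only [hM0, hR2, hM], by linarith only [hM0, hR1, hM], by linarith only [hM0, hR1, hR2]⟩
  refine ⟨m + 4 * m / θ, by (clear * - hm0 hc hL hn; positivity), ?_⟩
  intro Rv Rb hRv hRb l u σ A As hTD hcap hcaps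
  have h4 : 0 < 4 * m / θ := by (clear * - hm0 hc hL hn; positivity)
  have hmRb : m ≤ Rb := by linarith only [hRb, h4]
  have hη : 4 * m ≤ θ * Rb := by
    have h5 : 4 * m / θ ≤ Rb := by linarith only [hm0, hRb]
    rw [div_le_iff₀ hθ0] at h5
    linarith only [h5]
  refine href N k m (θ * Rb) Rb σ A As (c * Rb) (by omega) hmM0 hη hmRb ?_ Rv l u
    (fun j hj => by
      have := hRv j hj
      linarith only [h4, this]) hTD
  intro Rv' l' u' hRv' hTD'
  have hRb0 : 0 < Rb := lt_of_lt_of_le hm0 hmRb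
  refine g5c_small hn hk hkn hδ1 hc hL hmid hmM hm0 hmRb (fun j hj => (hRv' j hj).1)
    (fun Rv Rb h1 h2 => hA1 Rv Rb (fun j hj => hmR1.trans (h1 j hj)) (hmR1.trans h2))
    (fun Rv Rb h1 h2 => hP1 Rv Rb (fun j hj => hmR2.trans (h1 j hj)) (hmR2.trans h2))
    hTD' rfl ?_ hcap hcaps
  intro a ha a' ha'
  have h6 := Pre.osc hL (η := θ * Rb) (by (clear * - hc hL hn hRb0; positivity)) (by omega) hTD'.sd.wl hTD'.sd.wu
    (fun j a hj haj => (hTD'.sd.fat j a hj haj).2.trans (hRv' j hj).2) hTD'.sd.lip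
    (fun y y' hy => hTD'.sd.dep hy) ha ha'
  refine h6.trans ?_
  rw [← hK, hθ]
  have h7 : K / (K + 1) ≤ 1 := by
    rw [div_le_one (by (clear * - hL hn; positivity))]; linarith only []
  calc K * (c / (1000 * (K + 1)) * Rb) = K / (K + 1) * (c * Rb / 1000) := by
        (clear * - hRb0 hK0 hc; field_simp)
    _ ≤ 1 * (c * Rb / 1000) := by
        have : 0 ≤ c * Rb / 1000 := by positivity
        (clear * - h7 hc hRb0; gcongr)
    _ = c * Rb / 100 / 10 := by ring

end Vale.Agent.P209.Strong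
end
end
end
end

section

section

section

section

namespace Vale.Agent.P209.Strong

open MeasureTheory

/-- an empty set is filled -/
theorem g5d_fill_empty {n : ℕ} {δ N : ℝ} {Ω : Set (Fin n → ℝ)} (h : Ω = ∅) : Fill δ N Ω := by
  subst h
  intro ι _ r J hr hJ hN hlt
  exfalso
  rw [measure_empty, ENNReal.toReal_zero] at hlt
  refine absurd hlt (not_lt.2 (Finset.sum_nonneg fun i _ => ?_))
  have := (hr i).1
  positivity

theorem g5d_le_bsum {n k : ℕ} (A : Fin n → ℝ) (hA : ∀ j : Fin n, k ≤ (j : ℕ) → 0 ≤ A j)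
    (p : Fin n) (hp : k ≤ (p : ℕ)) : A p ≤ bsum k n A := by
  unfold bsum
  have h := Finset.single_le_sum
    (f := fun i : Fin n => if k ≤ (i : ℕ) ∧ (i : ℕ) < n then A i else 0) (s := Finset.univ)
    (fun i _ => by
      by_cases hi : k ≤ (i : ℕ) ∧ (i : ℕ) < n
      · rw [if_pos hi]
        exact hA i hi.1
      · rw [if_neg hi]) (Finset.mem_univ p)
  simpa only [Fin.is_lt, and_true, ge_iff_le, hp, p.2, and_self, ↓reduceIte] using h

section

variable {n k : ℕ} {c L Rb As w s0 : ℝ} {Rv A : Fin n → ℝ} {l u : Fin n → (Fin n → ℝ) → ℝ}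
  {σ : (Fin n → ℝ) → ℝ}

/-- the lower part: the cap of the coordinate `p` is lowered to `x` -/
theorem g5d_low (hc : 0 < c) (hRb : 0 < Rb) (hw : w = c / 100 * Rb)
    (hRv : ∀ j : Fin n, (j : ℕ) < k → 0 ≤ Rv j)
    (h : TD c L Rv Rb k l u σ A As (c * Rb)) (hs0 : 100 * w ≤ s0)
    (hosc : ∀ a, Pre l u k a → σ a ≤ s0 + w / 10)
    (hA : ∀ j : Fin n, k ≤ (j : ℕ) → s0 ≤ A j + 31 / 10 * w) (hAs : s0 ≤ As + 31 / 10 * w)
    {p : Fin n} (hp : k ≤ (p : ℕ)) {x : ℝ} (hx : s0 - 6 * w ≤ x) :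
    TD (c / 100) L Rv Rb k l u σ (Function.update A p x) As (c / 100 * Rb) := by
  have hw0 : 0 < w := by rw [hw]; positivity
  have hcR : c * Rb = 100 * w := by rw [hw]; ring
  have hcap : ∀ j : Fin n, k ≤ (j : ℕ) → s0 - 6 * w ≤ Function.update A p x j := by
    intro j hj
    by_cases hjp : j = p
    · subst hjp
      rw [Function.update_self]
      exact hx
    · rw [Function.update_of_ne hjp]
      have := hA j hj
      linarith only [hw0, this]
  refine ⟨h.sd.mono (by linarith only [hc]) le_rfl hRb.le hRv, ?_, ?_, ?_, ?_, ?_⟩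
  · intro j hj
    have := hcap j hj
    rw [← hw]
    linarith only [hs0, hw0, this]
  · have := h.caps
    rw [← hw]
    linarith only [hw, hw0, this]
  · intro a ha i j hij hi hj
    have h1 := hosc a ha
    rw [← hw]
    by_cases hip : i = p
    · have hjp : j ≠ p := fun e => hij (hip.trans e.symm)
      have h2 := hcap i hi
      have h3 : Function.update A p x j = A j := Function.update_of_ne hjp _ _
      have h4 := hA j hj
      rw [h3]
      linarith only [hs0, hw0, h1, h2, h4]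
    · by_cases hjp : j = p
      · have h2 := hcap j hj
        have h3 : Function.update A p x i = A i := Function.update_of_ne hip _ _
        have h4 := hA i hi
        rw [h3]
        linarith only [hs0, hw0, h1, h2, h4]
      · rw [Function.update_of_ne hip, Function.update_of_ne hjp]
        have := h.pair a ha i j hij hi hj
        linarith only [hw, hw0, this]
  · intro a ha j hj
    have h1 := hosc a ha
    have h2 := hcap j hj
    rw [← hw]
    linarith only [hs0, hAs, hw0, h1, h2]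
  · intro a ha
    have h1 := hosc a ha
    have h2 := hcap p hp
    have h3 := g5d_le_bsum (Function.update A p x) (k := k) (fun j hj => by
      have := hcap j hj
      linarith only [hs0, hw0, this]) p hp
    rw [← hw]
    linarith only [hs0, hAs, hw0, h1, h2, h3]

/-- the upper part: only one active cap -/
theorem g5d_high {c2 : ℝ} (hc : 0 < c) (hRb : 0 < Rb) (hw : w = c / 100 * Rb)
    (hc2c : c2 ≤ c) (hc21 : c2 ≤ 1 / 10)
    (hRv : ∀ j : Fin n, (j : ℕ) < k → 0 ≤ Rv j)
    (h : SD c L Rv Rb k l u σ) (hs0 : 100 * w ≤ s0)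
    (hosc : ∀ a, Pre l u k a → s0 - w / 10 ≤ σ a ∧ σ a ≤ s0 + w / 10)
    {A' : Fin n → ℝ} (hAs : s0 ≤ As + 31 / 10 * w) {q : Fin n}
    (hA : ∀ j : Fin n, k ≤ (j : ℕ) → j ≠ q → s0 ≤ A' j + 31 / 10 * w) (hAq : w ≤ A' q)
    {x : ℝ} (hx : s0 - 6 * w ≤ x) (hx1 : x ≤ s0 - 5 * w) :
    TD c2 L Rv (7 * w) k l u (fun a => σ a - x) A' As (c2 * (7 * w)) := by
  have hw0 : 0 < w := by rw [hw]; positivity
  have hc7 : c2 * (7 * w) ≤ 7 / 10 * w := by
    have h1 := mul_le_mul_of_nonneg_right hc21 (by positivity : 0 ≤ 7 * w)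
    linarith only [h1]
  have hcap : ∀ j : Fin n, k ≤ (j : ℕ) → w ≤ A' j := by
    intro j hj
    by_cases hjq : j = q
    · rw [hjq]
      exact hAq
    · have := hA j hj hjq
      linarith only [hs0, hw0, this]
  refine ⟨⟨h.wl, h.wu, ?_, ?_, ?_, ?_⟩, ?_, ?_, ?_, ?_, ?_⟩
  · obtain ⟨s, m, hm, hs⟩ := h.int
    exact ⟨s - x, m, hm, fun a => by simp only [hs a]; ring⟩
  · intro y y'
    have := h.lip y y'
    rwa [sub_sub_sub_cancel_right]
  · intro j a hj ha
    have h1 := h.fat j a hj ha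
    have h2 := mul_le_mul_of_nonneg_right hc2c (hRv j hj)
    exact ⟨h2.trans h1.1, h1.2⟩
  · intro a ha
    have h1 := hosc a ha
    constructor <;> linarith only [hx, h1, hx1, hc7]
  · intro j hj
    have := hcap j hj
    linarith only [hw0, hc7, this]
  · linarith only [hs0, hAs, hw0, hc7]
  · intro a ha i j hij hi hj
    have h1 := hosc a ha
    by_cases hiq : i = q
    · have hjq : j ≠ q := fun e => hij (hiq.trans e.symm)
      have h2 := hA j hj hjq
      have h3 := hcap i hi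
      linarith only [hs0, hx, hc7, h1, h2, h3]
    · have h2 := hA i hi hiq
      have h3 := hcap j hj
      linarith only [hs0, hx, hc7, h1, h2, h3]
  · intro a ha j hj
    have h1 := hosc a ha
    have h3 := hcap j hj
    linarith only [hs0, hAs, hx, hc7, h1, h3]
  · intro a ha
    have h1 := hosc a ha
    have h3 := g5d_le_bsum A' (k := k) (fun j hj => hw0.le.trans (hcap j hj)) q
    by_cases hq : k ≤ (q : ℕ)
    · have := h3 hq
      linarith only [hs0, hAs, hAq, hx, hc7, h1, this]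
    · have h4 : 0 ≤ bsum k n A' := by
        unfold bsum
        refine Finset.sum_nonneg fun i _ => ?_
        by_cases hi : k ≤ (i : ℕ) ∧ (i : ℕ) < n
        · rw [if_pos hi]
          exact hw0.le.trans (hcap i hi.1)
        · rw [if_neg hi]
      linarith only [hs0, hAs, hx, hc7, h1, h4]

end

theorem TSB_of (n k : ℕ) (hk : k + 2 ≤ n) (hA : TSA n k) (hC : TSC n k) : TSB n k := by
  have hI := TSI_of n k hk hA
  intro c L δ N hc hL hδ hδ1 hN
  have hn : 1 ≤ n := by omega
  have hkn : k < n := by omega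
  set K : ℝ := L * (n * (1 + L) ^ n) with hK
  have hK0 : 0 ≤ K := by (clear * - hL hn; positivity)
  set θ : ℝ := c / (1000 * (K + 1)) with hθ
  have hθ0 : 0 < θ := by positivity
  set c2 : ℝ := min c (1 / 10) with hc2
  have hc20 : 0 < c2 := lt_min hc (by norm_num)
  obtain ⟨M0, hM0, HR⟩ := TD.refine hn c L δ hc hL hδ1
  obtain ⟨RA, hRA, HA⟩ := hA (c / 100) L δ N (by positivity) hL hδ hδ1 hN
  obtain ⟨RI, hRI, HI⟩ := hI (c / 100) L δ N (by positivity) hL hδ hδ1 hN
  obtain ⟨RC, hRC, HC⟩ := hC c2 L δ N hc20 hL hδ hδ1 hN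
  obtain ⟨M, hM, HM⟩ := TD.mid_ge (c / 100) L n (by positivity) hL
  set m : ℝ := max M0 (max RA (max RI (max RC M))) with hm
  have hmM0 : M0 ≤ m := le_max_left _ _
  have hmRA : RA ≤ m := (le_max_left _ _).trans (le_max_right _ _)
  have hmRI : RI ≤ m := ((le_max_left _ _).trans (le_max_right _ _)).trans (le_max_right _ _)
  have hmRC : RC ≤ m := (((le_max_left _ _).trans (le_max_right _ _)).trans
    (le_max_right _ _)).trans (le_max_right _ _)
  have hmM : M ≤ m := (((le_max_right _ _).trans (le_max_right _ _)).trans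
    (le_max_right _ _)).trans (le_max_right _ _)
  have hm0 : 0 < m := hM0.trans_le hmM0
  refine ⟨max m (max (4 * m / θ) (100 * m / (7 * c))), lt_max_of_lt_left hm0, ?_⟩
  intro Rv Rb hRv hRb l u σ A As h hx1 hx2
  clear hx1 hx2
  have hmRb : m ≤ Rb := (le_max_left _ _).trans hRb
  have hRb0 : 0 < Rb := hm0.trans_le hmRb
  have h4 : 4 * m ≤ θ * Rb := by
    have h5 : 4 * m / θ ≤ Rb := ((le_max_left _ _).trans (le_max_right _ _)).trans hRb
    rw [div_le_iff₀ hθ0] at h5
    linarith only [h5]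
  have h7 : m ≤ 7 * (c / 100 * Rb) := by
    have h5 : 100 * m / (7 * c) ≤ Rb := ((le_max_right _ _).trans (le_max_right _ _)).trans hRb
    rw [div_le_iff₀ (by positivity)] at h5
    linarith only [h5]
  refine HR N k m (θ * Rb) Rb σ A As (c * Rb) (by omega) hmM0 h4 hmRb ?_ Rv l u
    (fun j hj => (le_max_left _ _).trans (hRv j hj)) h
  clear h hRv l u Rv
  intro Rv l u hRv h
  have hRv0 : ∀ j : Fin n, (j : ℕ) < k → 0 ≤ Rv j := fun j hj => hm0.le.trans (hRv j hj).1
  by_cases hne : ∃ a0, Pre l u k a0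
  swap
  · refine g5d_fill_empty ?_
    refine Set.eq_empty_of_forall_notMem fun a ha => ?_
    exact hne ⟨a, ha.1⟩
  obtain ⟨a0, ha0⟩ := hne
  set w : ℝ := c / 100 * Rb with hw
  have hw0 : 0 < w := by (clear * - hc hRb0; positivity)
  set s0 : ℝ := σ a0 with hs0
  have hsz := h.sd.size a0 ha0
  have hc1 : c ≤ 1 := by
    have h1 : c * Rb ≤ 1 * Rb := by linarith only [hsz]
    exact le_of_mul_le_mul_right h1 hRb0
  have hs100 : 100 * w ≤ s0 := by
    have h1 : 100 * w = c * Rb := by rw [hw]; ring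
    rw [h1]
    exact hsz.1
  have hcw : c * Rb = 100 * w := by rw [hw]; ring
  have hwg : c / 100 * Rb ≤ c * Rb := by
    rw [hcw, ← hw]
    linarith only [hw0]
  have hosc0 : ∀ a, Pre l u k a → |σ a - s0| ≤ w / 10 := by
    intro a ha
    have h1 := Pre.osc (η := θ * Rb) hL (by (clear * - hc hL hn hRb0; positivity)) (by omega : k ≤ n) h.sd.wl h.sd.wu
      (fun j a hj hja => (h.sd.fat j a hj hja).2.trans (hRv j hj).2) h.sd.lip
      (fun y y' hy => h.sd.dep hy) ha ha0
    refine h1.trans ?_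
    rw [← hK]
    have h2 : K * (θ * Rb) = (K / (K + 1)) * (w / 10) := by
      rw [hθ, hw]
      field_simp
      ring
    rw [h2]
    have h3 : K / (K + 1) ≤ 1 := by
      rw [div_le_one (by (clear * - hL hn; positivity))]
      linarith only []
    exact mul_le_of_le_one_left (by (clear * - hc hRb0; positivity)) h3
  have hosc : ∀ a, Pre l u k a → s0 - w / 10 ≤ σ a ∧ σ a ≤ s0 + w / 10 := by
    intro a ha
    have h1 := abs_le.1 (hosc0 a ha)
    constructor <;> linarith only [h1]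
  -- large corners
  by_cases hcA : ∀ j : Fin n, k ≤ (j : ℕ) → s0 ≤ A j + 31 / 10 * w
  swap
  · push Not at hcA
    obtain ⟨j, hj, hj2⟩ := hcA
    refine HI Rv Rb (fun j hj => hmRI.trans (hRv j hj).1) (hmRI.trans hmRb) l u σ A As
      (h.mono (by linarith only [hc]) le_rfl hwg hRb0.le hRv0) (Or.inl ⟨j, hj, fun a ha => ?_⟩)
    rw [← hw]
    have := (hosc a ha).1
    linarith only [hw0, hj2, this]
  by_cases hcs : s0 ≤ As + 31 / 10 * w
  swap
  · rw [not_le] at hcs
    refine HI Rv Rb (fun j hj => hmRI.trans (hRv j hj).1) (hmRI.trans hmRb) l u σ A As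
      (h.mono (by linarith only [hc]) le_rfl hwg hRb0.le hRv0) (Or.inr fun a ha => ?_)
    rw [← hw]
    have := (hosc a ha).1
    linarith only [hw0, hcs, this]
  -- small corners
  have hAk := hcA ⟨k, hkn⟩ le_rfl
  have hwRb : w ≤ Rb := by
    have h1 := hsz.2
    linarith only [hM0, hmM0, hmRb, hw, hsz]
  refine TR.cut hn hδ1 hL h.sd hkn (x0 := s0 - 6 * w) (x1 := s0 - 5 * w) (by linarith only [hw0]) ?_ ?_ ?_
  · refine HM k hkn c L Rb m Rv l u σ A As (c * Rb) (s0 - 6 * w) (s0 - 5 * w) hL le_rfl hk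
      (by linarith only [hc]) hmM hmRb (fun j hj => (hRv j hj).1) h (by linarith only [hw, hw0, hsz]) (by linarith only [hw0, hAk])
      (by rw [← hw]; linarith only []) (by linarith only [hM0, hmM0, hmRb, hw, hsz]) (fun a ha => ?_) (Or.inl hwg)
    rw [← hw]
    have := (hosc a ha).1
    linarith only [hw0, this]
  · intro x hx0 hx1
    rw [TR.inter_lt (p := ⟨k, hkn⟩) le_rfl (by linarith only [hw0, hAk, hx1])]
    refine HA Rv Rb (fun j hj => hmRA.trans (hRv j hj).1) (hmRA.trans hmRb) l u σ _ As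
      (g5d_low hc hRb0 hw hRv0 h hs100 (fun a ha => (hosc a ha).2) hcA hcs le_rfl hx0) ?_
    intro a ha j hj
    have hjk : j = ⟨k, hkn⟩ := Fin.ext hj
    rw [hjk, Function.update_self, ← hw]
    have := (hosc a ha).1
    linarith only [hw0, hx1, this]
  · intro x hx0 hx1
    refine TR.fill_gt h.sd le_rfl (by linarith only [hw, hw0, hsz, hx0]) ?_
    set p : Fin n := ⟨k, hkn⟩ with hp
    set q : Fin n := ⟨k + 1, by (clear * - hk hkn; omega)⟩ with hq
    have hpq : p ≠ q := by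
      intro e
      have := congrArg Fin.val e
      simp [hp, hq] at this
    set A' : Fin n → ℝ := fun j => Function.update A p (A p - x) (Equiv.swap p q j) with hA'
    have hA'q : A' q = A p - x := by
      simp only [hA', Equiv.swap_apply_right, Function.update_self]
    have hA'j : ∀ j : Fin n, k ≤ (j : ℕ) → j ≠ q → s0 ≤ A' j + 31 / 10 * w := by
      intro j hj hjq
      by_cases hjp : j = p
      · have : A' j = A q := by
          simp only [hA', hjp, Equiv.swap_apply_left]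
          exact Function.update_of_ne hpq.symm _ _
        rw [this]
        exact hcA q (by simp only [hq, le_add_iff_nonneg_right, zero_le])
      · have : A' j = A j := by
          simp only [hA', Equiv.swap_apply_of_ne_of_ne hjp hjq]
          exact Function.update_of_ne hjp _ _
        rw [this]
        exact hcA j hj
    have htd : TD c2 L Rv (7 * w) k l u (fun a => σ a - x) A' As (c2 * (7 * w)) :=
      g5d_high hc hRb0 hw (min_le_left _ _) (min_le_right _ _) hRv0 h.sd hs100 hosc hcs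
        hA'j (by rw [hA'q]; linarith only [hw0, hx1, hAk]) hx0 hx1
    refine TR.fill_swap (p := p) (q := q) htd.sd le_rfl (by simp only [hq, le_add_iff_nonneg_right, zero_le]) ?_
    refine HC Rv (7 * w) (fun j hj => hmRC.trans (hRv j hj).1) (hmRC.trans h7) l u _ A' As htd
      ?_ ?_
    · intro j hj hjk
      have := hA'j j hj (fun e => hjk (by rw [e]))
      linarith only [hw, hw0, hsz, this]
    · linarith only [hw, hw0, hsz, hcs]

end Vale.Agent.P209.Strong
end
end
end
end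

section

section

section

section

namespace Vale.Agent.P209.Strong

open MeasureTheory

theorem g5e_fill_empty {n : ℕ} {δ N : ℝ} {Ω : Set (Fin n → ℝ)} (h : Ω = ∅) : Fill δ N Ω := by
  intro ι _ r J hr _ _ hsum
  exfalso
  rw [h, measure_empty, ENNReal.toReal_zero] at hsum
  have h1 : 0 ≤ ∑ i, r i ^ n / (n.factorial : ℝ) :=
    Finset.sum_nonneg fun i _ => div_nonneg (pow_nonneg (hr i).1.le _) (Nat.cast_nonneg _)
  exact absurd hsum (not_lt.2 h1)

theorem TS_of (n k : ℕ) (hk : k + 2 ≤ n) (hI : TSI n k) (hB : TSB n k) : TS n k := by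
  intro c L δ N hc hL hδ hδ1 hN
  obtain ⟨R1, hR1, hI⟩ := hI (c / 100) L δ N (by positivity) hL hδ hδ1 hN
  obtain ⟨R2, hR2, hB⟩ := hB c L δ N hc hL hδ hδ1 hN
  obtain ⟨M0, hM0, href⟩ := TD.refine (n := n) (by omega) c L δ hc hL hδ1
  set K : ℝ := L * (n * (1 + L) ^ n) with hK
  have hK0 : 0 ≤ K := by (clear * - hL; positivity)
  set θ : ℝ := c / (1000 * (K + 1)) with hθ
  have hθ0 : 0 < θ := by (clear * - hc hL; positivity)
  have hKθ : K * θ ≤ c / 1000 := by
    rw [hθ, mul_div_assoc', div_le_div_iff₀ (by (clear * - hL; positivity)) (by norm_num)]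
    nlinarith only [hc]
  set m : ℝ := max M0 (max R1 R2) with hm
  have hm0 : 0 < m := lt_max_of_lt_left hM0
  have hmM : M0 ≤ m := le_max_left _ _
  have hm1 : R1 ≤ m := (le_max_left _ _).trans (le_max_right _ _)
  have hm2 : R2 ≤ m := (le_max_right _ _).trans (le_max_right _ _)
  refine ⟨max m (4 * m / θ), lt_max_of_lt_left hm0, ?_⟩
  intro Rv Rb hRv hRb l u σ A As hTD
  have hmRb : m ≤ Rb := (le_max_left _ _).trans hRb
  have hRb0 : 0 < Rb := hm0.trans_le hmRb
  have h4 : 4 * m ≤ θ * Rb := by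
    have h5 := (le_max_right m (4 * m / θ)).trans hRb
    rw [div_le_iff₀ hθ0] at h5
    linarith only [h5]
  refine href N k m (θ * Rb) Rb σ A As (c * Rb) (by omega) hmM h4 hmRb ?_ Rv l u
    (fun j hj => (le_max_left _ _).trans (hRv j hj)) hTD
  clear hTD hRv l u Rv
  intro Rv l u hRv hTD
  by_cases hne : ∃ a, Pre l u k a
  swap
  · refine g5e_fill_empty ?_
    ext a
    simp only [Set.mem_empty_iff_false, iff_false]
    exact fun ha => hne ⟨a, ha.1⟩
  obtain ⟨a0, ha0⟩ := hne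
  have hosc : ∀ a, Pre l u k a → |σ a - σ a0| ≤ c * Rb / 1000 := by
    intro a ha
    have h6 := Pre.osc (η := θ * Rb) hL (by (clear * - hc hL hRb0; positivity)) (by omega) hTD.sd.wl hTD.sd.wu
      (fun j a hj hp => (hTD.sd.fat j a hj hp).2.trans (hRv j hj).2) hTD.sd.lip
      (fun y y' hy => hTD.sd.dep hy) ha ha0
    refine h6.trans ?_
    calc L * (n * (1 + L) ^ n) * (θ * Rb) = (K * θ) * Rb := by rw [hK]; ring
      _ ≤ c / 1000 * Rb := mul_le_mul_of_nonneg_right hKθ hRb0.le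
      _ = c * Rb / 1000 := by ring
  have hcR : 0 < c * Rb := by positivity
  have hRv0 : ∀ j : Fin n, (j : ℕ) < k → 0 ≤ Rv j := fun j hj => hm0.le.trans (hRv j hj).1
  have hw : c / 100 * Rb = c * Rb / 100 := by ring
  have hmono : TD (c / 100) L Rv Rb k l u σ A As (c / 100 * Rb) :=
    hTD.mono (by linarith only [hc]) le_rfl (by rw [hw]; linarith only [hcR]) hRb0.le hRv0
  by_cases h1 : ∃ j : Fin n, k ≤ (j : ℕ) ∧ A j + 2 * (c * Rb / 100) ≤ σ a0
  · obtain ⟨j, hj, h2⟩ := h1
    refine hI Rv Rb (fun j hj => hm1.trans (hRv j hj).1) (hm1.trans hmRb) l u σ A As hmono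
      (Or.inl ⟨j, hj, fun a ha => ?_⟩)
    have h3 := (abs_le.1 (hosc a ha)).1
    rw [hw]
    linarith only [hcR, h2, h3]
  by_cases h2 : As + 2 * (c * Rb / 100) ≤ σ a0
  · refine hI Rv Rb (fun j hj => hm1.trans (hRv j hj).1) (hm1.trans hmRb) l u σ A As hmono
      (Or.inr fun a ha => ?_)
    have h3 := (abs_le.1 (hosc a ha)).1
    rw [hw]
    linarith only [hcR, h2, h3]
  refine hB Rv Rb (fun j hj => hm2.trans (hRv j hj).1) (hm2.trans hmRb) l u σ A As hTD ?_ ?_
  · intro a ha j hj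
    have h3 := (abs_le.1 (hosc a ha)).2
    have h4 : σ a0 < A j + 2 * (c * Rb / 100) := not_le.1 fun h => h1 ⟨j, hj, h⟩
    rw [hw]
    linarith only [hcR, h3, h4]
  · intro a ha
    have h3 := (abs_le.1 (hosc a ha)).2
    have h4 : σ a0 < As + 2 * (c * Rb / 100) := not_le.1 h2
    rw [hw]
    linarith only [hcR, h2, h3]

end Vale.Agent.P209.Strong
end
end
end
end

section

section

section

section

namespace Vale.Agent.P209.Strong

open MeasureTheory

/-- lower walls of the block as an iterated box -/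
noncomputable def g5f_l {n : ℕ} (k : ℕ) (l : Fin n → (Fin n → ℝ) → ℝ) :
    Fin n → (Fin n → ℝ) → ℝ :=
  fun j a => if (j : ℕ) < k then l j a else 0

/-- upper walls of the block as an iterated box -/
noncomputable def g5f_u {n : ℕ} (k : ℕ) (u : Fin n → (Fin n → ℝ) → ℝ) (σ : (Fin n → ℝ) → ℝ) :
    Fin n → (Fin n → ℝ) → ℝ :=
  fun j a => if (j : ℕ) < k then u j a else σ a - bsum k j a

section
variable {n k : ℕ} {c L Rb : ℝ} {Rv : Fin n → ℝ} {l u : Fin n → (Fin n → ℝ) → ℝ}
  {σ : (Fin n → ℝ) → ℝ}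

theorem g5f_pre {j : ℕ} (hj : j ≤ k) (a : Fin n → ℝ) :
    Pre (g5f_l k l) (g5f_u k u σ) j a ↔ Pre l u j a := by
  have h : ∀ i : Fin n, (i : ℕ) < j → g5f_l k l i a = l i a ∧ g5f_u k u σ i a = u i a := by
    intro i hi
    have hik : (i : ℕ) < k := lt_of_lt_of_le hi hj
    exact ⟨if_pos hik, if_pos hik⟩
  constructor
  · intro hp i hi
    obtain ⟨h1, h2⟩ := h i hi
    have h3 := hp i hi
    rwa [h1, h2] at h3
  · intro hp i hi
    obtain ⟨h1, h2⟩ := h i hi
    rw [h1, h2]
    exact hp i hi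

theorem g5f_walls_l (hL : 0 ≤ L) (h : Walls L l) : Walls (L + n) (g5f_l k l) := by
  have hn : (0 : ℝ) ≤ n := Nat.cast_nonneg n
  constructor
  · intro j y y' hy
    unfold g5f_l
    split_ifs with hj
    · exact h.dep j y y' hy
    · rfl
  · intro j y y'
    have hd : 0 ≤ dist y y' := dist_nonneg
    unfold g5f_l
    split_ifs with hj
    · refine (h.lip j y y').trans (mul_le_mul_of_nonneg_right (by linarith only []) hd)
    · rw [sub_self, abs_zero]
      exact mul_nonneg (by linarith only [hL]) hd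

theorem g5f_walls_u (h : SD c L Rv Rb k l u σ) :
    Walls (L + n) (g5f_u k u σ) := by
  have hn : (0 : ℝ) ≤ n := Nat.cast_nonneg n
  constructor
  · intro j y y' hy
    unfold g5f_u
    split_ifs with hj
    · exact h.wu.dep j y y' hy
    · have h1 : σ y = σ y' := HM.intAff_congr h.int fun i hi => hy i (Fin.lt_def.2 (by omega))
      have h2 : bsum k j y = bsum k j y' :=
        HM.bsum_congr fun i _ hi => hy i (Fin.lt_def.2 hi)
      rw [h1, h2]
  · intro j y y'
    have hd : 0 ≤ dist y y' := dist_nonneg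
    unfold g5f_u
    split_ifs with hj
    · refine (h.wu.lip j y y').trans (mul_le_mul_of_nonneg_right (by linarith only []) hd)
    · have h1 := abs_le.1 (h.lip y y')
      have h2 := abs_le.1 (HM.bsum_lip (k := k) (j := (j : ℕ)) y y')
      rw [abs_le, add_mul]
      constructor
      · linarith only [h1, h2]
      · linarith only [h1, h2]

theorem g5f_box (hk : k ≤ n) (hc : 0 < c) (hRb : 0 < Rb) (h : SD c L Rv Rb k l u σ) :
    boxSet (g5f_l k l) (g5f_u k u σ) = SR k l u σ := by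
  ext a
  have hlt : ∀ j : Fin n, (j : ℕ) < k → g5f_l k l j a = l j a ∧ g5f_u k u σ j a = u j a :=
    fun j hj => ⟨if_pos hj, if_pos hj⟩
  have hge : ∀ j : Fin n, k ≤ (j : ℕ) →
      g5f_l k l j a = 0 ∧ g5f_u k u σ j a = σ a - bsum k j a :=
    fun j hj => ⟨if_neg (not_lt.2 hj), if_neg (not_lt.2 hj)⟩
  have hout : (∀ j : Fin n, g5f_l k l j a < a j ∧ a j < g5f_u k u σ j a) ↔
      (∀ j : Fin n, (j : ℕ) < k → l j a < a j ∧ a j < u j a) ∧
        ∀ j : Fin n, k ≤ (j : ℕ) → 0 < a j ∧ a j < σ a - bsum k j a := by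
    constructor
    · intro h1
      refine ⟨fun j hj => ?_, fun j hj => ?_⟩
      · have h2 := h1 j
        rwa [(hlt j hj).1, (hlt j hj).2] at h2
      · have h2 := h1 j
        rwa [(hge j hj).1, (hge j hj).2] at h2
    · rintro ⟨h1, h2⟩ j
      by_cases hj : (j : ℕ) < k
      · rw [(hlt j hj).1, (hlt j hj).2]
        exact h1 j hj
      · rw [(hge j (not_lt.1 hj)).1, (hge j (not_lt.1 hj)).2]
        exact h2 j (not_lt.1 hj)
  show (∀ j : Fin n, g5f_l k l j a < a j ∧ a j < g5f_u k u σ j a) ↔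
    (∀ j : Fin n, (j : ℕ) < k → l j a < a j ∧ a j < u j a) ∧
      (∀ j : Fin n, k ≤ (j : ℕ) → 0 < a j) ∧ bsum k n a < σ a
  rw [hout]
  refine and_congr_right fun hp => ?_
  rcases Nat.eq_or_lt_of_le hk with rfl | hkn
  · constructor
    · intro _
      refine ⟨fun j hj => absurd j.2 (not_lt.2 hj), ?_⟩
      rw [HM.bsum_self]
      have h1 := (h.size a hp).1
      have h2 : 0 < c * Rb := mul_pos hc hRb
      linarith only [h1, h2]
    · intro _ j hj
      exact absurd j.2 (not_lt.2 hj)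
  · have h1 := HM.block_iff (n := n) (k := k) (b := n - k) (by omega) (by omega) a (σ a)
    have h2 : k + (n - k) = n := by omega
    rw [h2] at h1
    constructor
    · intro h3
      obtain ⟨h4, h5⟩ := h1.1 fun j hj _ => h3 j hj
      exact ⟨fun j hj => h4 j hj j.2, h5⟩
    · rintro ⟨h3, h4⟩ j hj
      exact h1.2 ⟨fun j hj _ => h3 j hj, h4⟩ j hj j.2

theorem g5f_geo {m M : ℝ} (hk : k ≤ n) (hc : 0 < c) (hL : 0 ≤ L) (hM : 1 ≤ M)
    (hRv : ∀ j : Fin n, (j : ℕ) < k → m ≤ Rv j ∧ Rv j ≤ M * m) (hRb : m ≤ Rb)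
    (hRb' : Rb ≤ M * m) (h : SD c L Rv Rb k l u σ) :
    Geo1 (c / M) (L + n) (M * m) (g5f_l k l) (g5f_u k u σ) k (n - k) σ := by
  have hM0 : M ≠ 0 := by positivity
  have hcm : c / M * (M * m) = c * m := by field_simp
  refine ⟨g5f_walls_l hL h.wl, g5f_walls_u h, by omega, h.int, ?_, ?_, ?_⟩
  · intro j hj _
    exact ⟨fun a => if_neg (not_lt.2 hj), fun a => if_neg (not_lt.2 hj)⟩
  · intro j a hj hp
    have hjk : (j : ℕ) < k := by
      rcases hj with hj | hj
      · exact hj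
      · exact absurd j.2 (by omega)
    have h1 := h.fat j a hjk ((g5f_pre hjk.le a).1 hp)
    have h2 : g5f_l k l j a = l j a := if_pos hjk
    have h3 : g5f_u k u σ j a = u j a := if_pos hjk
    have h4 := hRv j hjk
    have h5 : c * m ≤ c * Rv j := mul_le_mul_of_nonneg_left h4.1 hc.le
    rw [h2, h3, hcm]
    exact ⟨by linarith only [h1, h5], by linarith only [h1, h4]⟩
  · intro a hp
    have h1 := h.size a ((g5f_pre le_rfl a).1 hp)
    have h5 : c * m ≤ c * Rb := mul_le_mul_of_nonneg_left hRb hc.le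
    rw [hcm]
    exact ⟨by linarith only [h1, h5], by linarith only [hRb', h1]⟩

end

/-- Isotropic simplex blocks, from `S1`. -/
theorem PS_iso (n k : ℕ) (hk : k ≤ n) (hS : S1 n (n - k)) (c L δ N M : ℝ) (hc : 0 < c)
    (hL : 0 ≤ L) (hδ : 0 < δ) (hδ1 : δ ≤ 1) (hN : 0 ≤ N) (hM : 1 ≤ M) : ∃ m0 : ℝ, 0 < m0 ∧
    ∀ (m : ℝ) (Rv : Fin n → ℝ) (Rb : ℝ), m0 ≤ m →
      (∀ j : Fin n, (j : ℕ) < k → m ≤ Rv j ∧ Rv j ≤ M * m) → m ≤ Rb → Rb ≤ M * m →
      ∀ (l u : Fin n → (Fin n → ℝ) → ℝ) (σ : (Fin n → ℝ) → ℝ),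
        SD c L Rv Rb k l u σ → Fill δ N (SR k l u σ) := by
  have hn : (0 : ℝ) ≤ n := Nat.cast_nonneg n
  obtain ⟨R0, hR0, H⟩ := hS (c / M) (L + n) δ N (div_pos hc (by linarith only [hM])) (by linarith only [hL]) hδ hδ1 hN
  refine ⟨R0, hR0, fun m Rv Rb hm hRv hRb hRb' l u σ h => ?_⟩
  have hm0 : 0 < m := by linarith only [hR0, hm]
  have hRm : R0 ≤ M * m := by
    have := mul_le_mul_of_nonneg_right hM hm0.le
    linarith only [hm, hRb, hRb']
  rw [← g5f_box hk hc (by linarith only [hR0, hm, hRb]) h]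
  exact H (M * m) hRm _ _ k σ (g5f_geo hk hc hL hM hRv hRb hRb' h)

end Vale.Agent.P209.Strong
end
end
end
end

section

section

section

section

namespace Vale.Agent.P209.Strong

open MeasureTheory

theorem g5g_fill_empty {n : ℕ} {δ N : ℝ} {Ω : Set (Fin n → ℝ)} (h : Ω = ∅) : Fill δ N Ω := by
  intro ι _ r J hr _ _ hlt
  rw [h, measure_empty, ENNReal.toReal_zero] at hlt
  exact absurd hlt (not_lt.2 (Finset.sum_nonneg fun i _ =>
    div_nonneg (pow_nonneg (hr i).1.le _) (Nat.cast_nonneg _)))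

theorem g5g_bsum_nonneg {n k j : ℕ} {A : Fin n → ℝ} (hA : ∀ i, 0 ≤ A i) : 0 ≤ bsum k j A := by
  unfold bsum
  refine Finset.sum_nonneg fun i _ => ?_
  split_ifs
  · exact hA i
  · exact le_rfl

/-- simplex block data give truncated data with large caps -/
theorem g5g_td {n k : ℕ} {c c' L Rb x : ℝ} {Rv : Fin n → ℝ} {l u : Fin n → (Fin n → ℝ) → ℝ}
    {σ : (Fin n → ℝ) → ℝ} (h : SD c L Rv Rb k l u σ) (hc : 0 < c) (hc1 : c ≤ 1 / 2)
    (hRb : 0 < Rb) (hRv : ∀ j : Fin n, (j : ℕ) < k → 0 ≤ Rv j) (p : Fin n)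
    (hc' : 0 ≤ c') (hcc : c' ≤ c) (hx0 : c' * Rb ≤ x) :
    TD c' L Rv Rb k l u σ (Function.update (fun _ => 2 * Rb) p x) (2 * Rb) (c' * Rb) := by
  have hc'R : c' * Rb ≤ Rb := by (by_contra nlg; linarith [mul_nonneg (le_of_lt (sub_pos.2 hRb)) (sub_nonneg.2 hcc), mul_nonneg (le_of_lt (sub_pos.2 hRb)) (sub_nonneg.2 hc1), mul_nonneg (mul_self_nonneg (1 : ℝ)) (le_of_lt (sub_pos.2 (not_le.1 nlg))), hRb])
  have hc'0 : 0 ≤ c' * Rb := by positivity
  have hA0 : ∀ i, c' * Rb ≤ Function.update (fun _ : Fin n => 2 * Rb) p x i := by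
    intro i
    by_cases hi : i = p
    · subst hi; rw [Function.update_self]; exact hx0
    · rw [Function.update_of_ne hi]; linarith only [hRb, hc'R]
  refine ⟨h.mono hcc le_rfl hRb.le hRv, fun j _ => hA0 j, by linarith only [hRb, hc'R], ?_, ?_, ?_⟩
  · intro a ha i j hij _ _
    have hs := (h.size a ha).2
    by_cases hi : i = p
    · have hj : j ≠ p := fun hj => hij (hi.trans hj.symm)
      rw [Function.update_of_ne hj]
      have := hA0 i
      linarith only [hRb, hs, this]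
    · rw [Function.update_of_ne hi]
      have := hA0 j
      linarith only [hRb, hs, this]
  · intro a ha j _
    have hs := (h.size a ha).2
    have := hA0 j
    linarith only [hRb, hs, this]
  · intro a ha
    have hs := (h.size a ha).2
    have : 0 ≤ bsum k n (Function.update (fun _ : Fin n => 2 * Rb) p x) :=
      g5g_bsum_nonneg fun i => hc'0.trans (hA0 i)
    linarith only [hc'R, hs, this]

theorem g5g_intAff_sub {n k : ℕ} {σ : (Fin n → ℝ) → ℝ} (h : IntAff k σ) (x : ℝ) :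
    IntAff k (fun a => σ a - x) := by
  obtain ⟨s, m, hm, h⟩ := h
  exact ⟨s - x, m, hm, fun a => by simp only [h a]; ring⟩

theorem g5g_sd_sub {n k : ℕ} {c L Rb Rb' x : ℝ} {Rv : Fin n → ℝ}
    {l u : Fin n → (Fin n → ℝ) → ℝ} {σ : (Fin n → ℝ) → ℝ} (h : SD c L Rv Rb k l u σ)
    (hs : ∀ a, Pre l u k a → c * Rb' ≤ σ a - x ∧ σ a - x ≤ Rb') :
    SD c L Rv Rb' k l u (fun a => σ a - x) := by
  refine ⟨h.wl, h.wu, g5g_intAff_sub h.int x, fun y y' => ?_, h.fat, hs⟩
  have := h.lip y y'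
  simpa only [sub_sub_sub_cancel_right, ge_iff_le] using this

/-- one step of the scale induction: the data are refined -/
theorem g5g_step {n k : ℕ} (hk : k + 2 ≤ n) {c L δ N m Rb : ℝ} (hc : 0 < c) (hc1 : c ≤ 1 / 2)
    (hL : 0 ≤ L) (hδ1 : δ ≤ 1) {M1 RA : ℝ} (hRA : RA ≤ m) (hM1 : M1 ≤ m) (hm : 0 < m)
    (hmid : ∀ (k : ℕ) (hk : k < n) (c_ L_ Rb m : ℝ) (Rv : Fin n → ℝ) (l u : Fin n → (Fin n → ℝ) → ℝ)
      (σ : (Fin n → ℝ) → ℝ) (A : Fin n → ℝ) (As g x0 x1 : ℝ), 0 ≤ L_ → L_ ≤ L → k + 2 ≤ n →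
      c / 100 ≤ c_ → M1 ≤ m → m ≤ Rb → (∀ j : Fin n, (j : ℕ) < k → m ≤ Rv j) →
      TD c_ L_ Rv Rb k l u σ A As g → 0 ≤ x0 → x1 ≤ A ⟨k, hk⟩ → c / 100 * Rb ≤ x1 - x0 →
      x1 - x0 ≤ Rb → (∀ a, Pre l u k a → x1 + c / 100 * Rb ≤ σ a) →
      (c / 100 * Rb ≤ g ∨ (0 ≤ g ∧ (k + 3 ≤ n ∨ c / 100 * Rb ≤ x0))) →
      1 / (n.factorial : ℝ) <
        (volume (TR k l u σ A As ∩ {a | x0 < a ⟨k, hk⟩ ∧ a ⟨k, hk⟩ < x1})).toReal)
    (hA : ∀ (Rv : Fin n → ℝ) (Rb : ℝ), (∀ j : Fin n, (j : ℕ) < k → RA ≤ Rv j) → RA ≤ Rb →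
      ∀ (l u : Fin n → (Fin n → ℝ) → ℝ) (σ : (Fin n → ℝ) → ℝ) (A : Fin n → ℝ) (As : ℝ),
        TD (c / 100) L Rv Rb k l u σ A As (c / 100 * Rb) →
        (∀ a, Pre l u k a → ∀ j : Fin n, (j : ℕ) = k → A j + c / 100 * Rb ≤ σ a) →
        Fill δ N (TR k l u σ A As))
    (hmRb : m ≤ Rb) (hmRb2 : m ≤ 7 / 100 * (c * Rb))
    (hind : ∀ (Rv : Fin n → ℝ) (Rb' : ℝ) (l u : Fin n → (Fin n → ℝ) → ℝ) (σ : (Fin n → ℝ) → ℝ),
      (∀ j : Fin n, (j : ℕ) < k → m ≤ Rv j) → m ≤ Rb' → Rb' ≤ Rb / 2 →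
      SD c L Rv Rb' k l u σ → Fill δ N (SR k l u σ))
    {η : ℝ} (hη0 : 0 ≤ η) (hη : L * (n * (1 + L) ^ n) * η ≤ c * Rb / 1000)
    {Rv : Fin n → ℝ} {l u : Fin n → (Fin n → ℝ) → ℝ} {σ : (Fin n → ℝ) → ℝ}
    (hRv : ∀ j : Fin n, (j : ℕ) < k → m ≤ Rv j ∧ Rv j ≤ η) (h : SD c L Rv Rb k l u σ) :
    Fill δ N (SR k l u σ) := by
  by_cases hne : ∃ a0, Pre l u k a0
  swap
  · refine g5g_fill_empty (Set.eq_empty_iff_forall_notMem.2 fun a ha => hne ⟨a, ha.1⟩)
  obtain ⟨a0, ha0⟩ := hne
  have hRb : 0 < Rb := hm.trans_le hmRb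
  have hkn : k < n := by omega
  set p : Fin n := ⟨k, hkn⟩ with hp
  have hRv0 : ∀ j : Fin n, (j : ℕ) < k → 0 ≤ Rv j := fun j hj => hm.le.trans (hRv j hj).1
  set σ0 := σ a0 with hσ0
  have hs0 := h.size a0 ha0
  rw [← hσ0] at hs0
  have hcR : 0 < c * Rb := by positivity
  have hcR2 : c * Rb ≤ Rb / 2 := by nlinarith only [hc1, hm, hmRb]
  have hosc : ∀ a, Pre l u k a → |σ a - σ0| ≤ c * Rb / 1000 := by
    intro a ha
    refine (Pre.osc hL hη0 (by omega) h.wl h.wu (fun j a hj hp => ?_) h.lip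
      (fun y y' hy => h.dep hy) ha ha0).trans hη
    exact (h.fat j a hj hp).2.trans (hRv j hj).2
  have hlo : ∀ a, Pre l u k a → σ0 - c * Rb / 1000 ≤ σ a := fun a ha => by
    have := (abs_le.1 (hosc a ha)).1; linarith only [this]
  have hhi : ∀ a, Pre l u k a → σ a ≤ σ0 + c * Rb / 1000 := fun a ha => by
    have := (abs_le.1 (hosc a ha)).2; linarith only [this]
  have hupd : Function.update (fun _ : Fin n => 2 * Rb) p (2 * Rb) = fun _ => 2 * Rb := by
    funext i
    by_cases hi : i = p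
    · subst hi; rw [Function.update_self]
    · rw [Function.update_of_ne hi]
  have hTR : TR k l u σ (fun _ => 2 * Rb) (2 * Rb) = SR k l u σ :=
    TR_eq_SR hkn (fun a ha j _ => by linarith only [hm, hmRb2, hcR2, (h.size a ha).2])
      (fun a ha => by linarith only [hm, hmRb2, hcR2, (h.size a ha).2])
  rw [← hTR]
  have hTD : TD (c / 100) L Rv Rb k l u σ (fun _ => 2 * Rb) (2 * Rb) (c / 100 * Rb) := by
    have := g5g_td (c' := c / 100) (x := 2 * Rb) h hc hc1 hRb hRv0 p (by positivity)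
      (by linarith only [hc]) (by linarith only [hcR2, hmRb2, hm])
    rwa [hupd] at this
  refine TR.cut (x0 := σ0 - 6 * (σ0 / 100)) (x1 := σ0 - 5 * (σ0 / 100)) (by omega) hδ1 hL h hkn
    (by linarith only [hm, hmRb2, hs0]) ?_ ?_ ?_
  · refine hmid k hkn (c / 100) L Rb m Rv l u σ _ _ _ _ _ hL le_rfl hk le_rfl hM1 hmRb
      (fun j hj => (hRv j hj).1) hTD (by linarith only [hm, hmRb2, hs0]) (by linarith only [hm, hmRb2, hs0]) (by linarith only [hs0]) (by linarith only [hm, hmRb2, hs0])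
      (fun a ha => ?_) (Or.inl le_rfl)
    have := hlo a ha
    linarith only [hm, hmRb2, hs0, this]
  · intro x hx0 hx1
    rw [TR.inter_lt (p := ⟨k, hkn⟩) le_rfl (by linarith only [hm, hmRb2, hs0, hx1] : x ≤ 2 * Rb)]
    refine hA Rv Rb (fun j hj => hRA.trans (hRv j hj).1) (hRA.trans hmRb) l u σ _ _
      (g5g_td (c' := c / 100) h hc hc1 hRb hRv0 _ (by positivity) (by linarith only [hc])
        (by linarith only [hm, hmRb2, hs0, hx0])) ?_
    intro a ha j hj
    have hjp : j = ⟨k, hkn⟩ := Fin.ext hj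
    rw [hjp, Function.update_self]
    have := hlo a ha
    linarith only [hm, hmRb2, hs0, hx1, this]
  · intro x hx0 hx1
    refine TR.fill_gt h (p := ⟨k, hkn⟩) le_rfl (by linarith only [hm, hmRb2, hs0, hx0]) ?_
    have e : TR k l u (fun a => σ a - x) (Function.update (fun _ : Fin n => 2 * Rb) ⟨k, hkn⟩
        (2 * Rb - x)) (2 * Rb) = SR k l u (fun a => σ a - x) := by
      refine TR_eq_SR hkn (fun a ha j _ => ?_) (fun a ha => by linarith only [hm, hmRb2, hs0, hx0, (h.size a ha).2])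
      by_cases hj : j = ⟨k, hkn⟩
      · rw [hj, Function.update_self]
        linarith only [hm, hmRb2, hcR2, (h.size a ha).2]
      · rw [Function.update_of_ne hj]
        linarith only [hm, hmRb2, hs0, hx0, (h.size a ha).2]
    rw [e]
    refine hind Rv (7 / 100 * σ0) l u _ (fun j hj => (hRv j hj).1) (by linarith only [hmRb2, hs0]) (by linarith only [hm, hmRb2, hs0])
      (g5g_sd_sub h fun a ha => ?_)
    have h1 := hlo a ha
    have h2 := hhi a ha
    have h3 : c * (7 / 100 * σ0) ≤ 1 / 2 * (7 / 100 * σ0) :=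
      mul_le_mul_of_nonneg_right hc1 (by linarith only [hm, hmRb2, hs0])
    constructor <;> linarith only [hm, hmRb2, hs0, hx0, h2, hx1, h1, h3]

/-- The scale induction. -/
theorem g5g_claim {n k : ℕ} (hk : k + 2 ≤ n) (hS : S1 n (n - k)) (hA : TSA n k) {c L δ N : ℝ}
    (hc : 0 < c) (hc1 : c ≤ 1 / 2) (hL : 0 ≤ L) (hδ : 0 < δ) (hδ1 : δ ≤ 1) (hN : 0 ≤ N) :
    ∃ m M : ℝ, 0 < m ∧ 0 < M ∧ ∀ (Q : ℕ) (Rv : Fin n → ℝ) (Rb : ℝ)
      (l u : Fin n → (Fin n → ℝ) → ℝ) (σ : (Fin n → ℝ) → ℝ),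
      (∀ j : Fin n, (j : ℕ) < k → m ≤ Rv j) → m ≤ Rb → Rb ≤ 2 ^ Q * (M * m) →
      SD c L Rv Rb k l u σ → Fill δ N (SR k l u σ) := by
  have hkn : k < n := by omega
  set K : ℝ := L * (n * (1 + L) ^ n) with hK
  have hK0 : 0 ≤ K := by (clear * - hL; positivity)
  set M : ℝ := 4000 * (K + 1) / c with hM
  have hMc : c * M = 4000 * (K + 1) := by rw [hM]; field_simp
  have hM0 : 0 < M := by (clear * - hL hc; positivity)
  have hM8000 : 8000 ≤ M := by
    rw [hM, le_div_iff₀ hc]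
    linarith only [hK0, hc1]
  obtain ⟨M0, hM00, hrefine⟩ := TD.refine (n := n) (by omega) c L δ hc hL hδ1
  obtain ⟨mi, hmi0, hiso⟩ := PS_iso n k (by omega) hS c L δ N M hc hL hδ hδ1 hN (by linarith only [hM8000])
  obtain ⟨RA, hRA0, hTSA⟩ := hA (c / 100) L δ N (by positivity) hL hδ hδ1 hN
  obtain ⟨M1, hM10, hmid⟩ := TD.mid_ge (c / 100) L n (by positivity) hL
  set m : ℝ := max (max M0 mi) (max RA M1) with hm
  have hm1 : M0 ≤ m := (le_max_left _ _).trans (le_max_left _ _)
  have hm2 : mi ≤ m := (le_max_right _ _).trans (le_max_left _ _)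
  have hm3 : RA ≤ m := (le_max_left _ _).trans (le_max_right _ _)
  have hm4 : M1 ≤ m := (le_max_right _ _).trans (le_max_right _ _)
  have hm0 : 0 < m := hM00.trans_le hm1
  refine ⟨m, M, hm0, hM0, ?_⟩
  -- common part: refinement
  have href : ∀ (η : ℝ), 4 * m ≤ η → ∀ (Rb : ℝ), m ≤ Rb → ∀ σ : (Fin n → ℝ) → ℝ,
      (∀ (Rv : Fin n → ℝ) (l u : Fin n → (Fin n → ℝ) → ℝ),
        (∀ j : Fin n, (j : ℕ) < k → m ≤ Rv j ∧ Rv j ≤ η) → SD c L Rv Rb k l u σ →
        Fill δ N (SR k l u σ)) →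
      ∀ (Rv : Fin n → ℝ) (l u : Fin n → (Fin n → ℝ) → ℝ),
        (∀ j : Fin n, (j : ℕ) < k → m ≤ Rv j) → SD c L Rv Rb k l u σ →
        Fill δ N (SR k l u σ) := by
    intro η hη Rb hmRb σ hin Rv l u hRv h
    have hRb : 0 < Rb := hm0.trans_le hmRb
    have hupd : Function.update (fun _ : Fin n => 2 * Rb) ⟨k, hkn⟩ (2 * Rb)
        = fun _ => 2 * Rb := by
      funext i
      by_cases hi : i = ⟨k, hkn⟩
      · subst hi; rw [Function.update_self]
      · rw [Function.update_of_ne hi]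
    have hTR : ∀ {l u : Fin n → (Fin n → ℝ) → ℝ}, (∀ a, Pre l u k a → σ a ≤ Rb) →
        TR k l u σ (fun _ => 2 * Rb) (2 * Rb) = SR k l u σ := fun hs =>
      TR_eq_SR hkn (fun a ha j _ => by linarith only [hM00, hm1, hmRb, hs a ha]) (fun a ha => by linarith only [hM00, hm1, hmRb, hs a ha])
    rw [← hTR fun a ha => (h.size a ha).2]
    refine hrefine N k m η Rb σ (fun _ => 2 * Rb) (2 * Rb) (c * Rb) (by omega) hm1 hη hmRb ?_
      Rv l u hRv ?_
    · intro Rv' l' u' hRv' h'
      rw [hTR fun a ha => (h'.sd.size a ha).2]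
      exact hin Rv' l' u' hRv' h'.sd
    · have := g5g_td (c' := c) (x := 2 * Rb) h hc hc1 hRb
        (fun j hj => hm0.le.trans (hRv j hj)) ⟨k, hkn⟩ hc.le le_rfl (by nlinarith only [hm1, hmRb, hM00, hc1])
      rwa [hupd] at this
  -- small scales
  have hsmall : ∀ (Rv : Fin n → ℝ) (Rb : ℝ) (l u : Fin n → (Fin n → ℝ) → ℝ)
      (σ : (Fin n → ℝ) → ℝ), (∀ j : Fin n, (j : ℕ) < k → m ≤ Rv j) → m ≤ Rb → Rb ≤ M * m →
      SD c L Rv Rb k l u σ → Fill δ N (SR k l u σ) := by
    intro Rv Rb l u σ hRv hmRb hRbM h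
    refine href (4 * m) le_rfl Rb hmRb σ ?_ Rv l u hRv h
    intro Rv' l' u' hRv' h'
    refine hiso m Rv' Rb hm2 (fun j hj => ⟨(hRv' j hj).1, (hRv' j hj).2.trans ?_⟩) hmRb hRbM
      l' u' σ h'
    exact mul_le_mul_of_nonneg_right (by linarith only [hM8000]) hm0.le
  intro Q
  induction Q with
  | zero =>
    intro Rv Rb l u σ hRv hmRb hRbM h
    exact hsmall Rv Rb l u σ hRv hmRb (by simpa only [pow_zero, one_mul] using hRbM) h
  | succ Q ih =>
    intro Rv Rb l u σ hRv hmRb hRbM h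
    by_cases hcase : Rb ≤ M * m
    · exact hsmall Rv Rb l u σ hRv hmRb hcase h
    · push Not at hcase
      have hRb : 0 < Rb := hm0.trans_le hmRb
      have hcRb : 4000 * (K + 1) * m ≤ c * Rb := by
        rw [← hMc, mul_assoc]
        exact mul_le_mul_of_nonneg_left hcase.le hc.le
      refine href (c * Rb / (1000 * (K + 1))) ?_ Rb hmRb σ ?_ Rv l u hRv h
      · rw [le_div_iff₀ (by (clear * - hL; positivity))]
        linarith only [hcRb]
      · intro Rv' l' u' hRv' h'
        refine g5g_step hk hc hc1 hL hδ1 hm3 hm4 hm0 hmid hTSA hmRb ?_ ?_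
          (η := c * Rb / (1000 * (K + 1))) (by (clear * - hc hRb hL; positivity)) ?_ hRv' h'
        · linarith only [mul_nonneg (le_of_lt (sub_pos.2 hM00)) (sub_nonneg.2 hK0), mul_nonneg (sub_nonneg.2 hm1) (sub_nonneg.2 hK0), hM00, hcRb, hm1]
        · intro Rv'' Rb'' l'' u'' σ'' hRv'' hm'' hRb'' h''
          refine ih Rv'' Rb'' l'' u'' σ'' hRv'' hm'' ?_ h''
          rw [pow_succ] at hRbM
          linarith only [hRbM, hRb'']
        · rw [← hK, mul_div_assoc', div_le_div_iff₀ (by (clear * - hL; positivity)) (by norm_num)]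
          have : 0 < c * Rb := by (clear * - hc hRb; positivity)
          nlinarith only [this]

theorem PS_of (n k : ℕ) (hk : k + 2 ≤ n) (hS : S1 n (n - k)) (hA : TSA n k) : PS n k := by
  intro c L δ N hc hL hδ hδ1 hN
  obtain ⟨m, M, hm, hM, hcl⟩ := g5g_claim hk hS hA (c := min c (1 / 2)) (L := L)
    (lt_min hc (by norm_num)) (min_le_right _ _) hL hδ hδ1 hN
  refine ⟨m, hm, fun Rv Rb hRv hRb l u σ h => ?_⟩
  obtain ⟨Q, hQ⟩ := pow_unbounded_of_one_lt (Rb / (M * m)) (one_lt_two (α := ℝ))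
  refine hcl Q Rv Rb l u σ hRv hRb ?_ (h.mono (min_le_left _ _) le_rfl (hm.le.trans hRb)
    fun j hj => hm.le.trans (hRv j hj))
  rw [div_lt_iff₀ (by positivity)] at hQ
  exact hQ.le

end Vale.Agent.P209.Strong
end
end
end
end

section

section

section

section

namespace Vale.Agent.P209.Strong

open MeasureTheory

/-- The block sum over the last two coordinates. -/
theorem g6a_bsum (k : ℕ) (A : Fin (k + 2) → ℝ) :
    bsum k (k + 2) A = A ⟨k, by omega⟩ + A ⟨k + 1, by omega⟩ := by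
  unfold bsum
  rw [Fin.sum_univ_castSucc, Fin.sum_univ_castSucc]
  have h0 : ∑ i : Fin k, (if k ≤ ((i.castSucc.castSucc : Fin (k + 2)) : ℕ) ∧
      ((i.castSucc.castSucc : Fin (k + 2)) : ℕ) < k + 2 then A i.castSucc.castSucc else 0) = 0 := by
    refine Finset.sum_eq_zero fun i _ => ?_
    rw [if_neg]
    intro h
    have h1 : k ≤ (i : ℕ) := h.1
    have := i.2
    omega
  rw [h0, zero_add, if_pos, if_pos]
  · rfl
  · constructor <;> simp
  · constructor <;> simp

/-- The empty set is filled. -/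
theorem g6a_empty {n : ℕ} {δ N : ℝ} {Ω : Set (Fin n → ℝ)} (h : Ω = ∅) : Fill δ N Ω := by
  intro ι _ r J hr _ _ hlt
  exfalso
  rw [h, measure_empty, ENNReal.toReal_zero] at hlt
  have : 0 ≤ ∑ i, r i ^ n / (n.factorial : ℝ) :=
    Finset.sum_nonneg fun i _ => by
      have := (hr i).1
      positivity
  linarith only [hlt, this]

/-- Full peel of the first block coordinate. -/
theorem g6a_peel {k : ℕ} {c L δ N R1 Rb s0 : ℝ} (hc : 0 < c) (hL : 0 ≤ L) (hR1 : 0 < R1)
    (h2 : ∀ (Rv : Fin (k + 2) → ℝ) (Rb : ℝ), (∀ j : Fin (k + 2), (j : ℕ) < k + 1 → R1 ≤ Rv j) →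
      R1 ≤ Rb → ∀ (l u : Fin (k + 2) → (Fin (k + 2) → ℝ) → ℝ) (σ : (Fin (k + 2) → ℝ) → ℝ)
        (A : Fin (k + 2) → ℝ) (As : ℝ),
        TD (c / 10) (L + 1) Rv Rb (k + 1) l u σ A As (c / 10 * Rb) →
          Fill δ N (TR (k + 1) l u σ A As))
    {Rv : Fin (k + 2) → ℝ} {l u : Fin (k + 2) → (Fin (k + 2) → ℝ) → ℝ}
    {σ : (Fin (k + 2) → ℝ) → ℝ} {A : Fin (k + 2) → ℝ} {As : ℝ} (hRb : R1 ≤ Rb)
    (hRv : ∀ j : Fin (k + 2), (j : ℕ) < k → R1 ≤ Rv j)
    (h : TD c L Rv Rb k l u σ A As 0)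
    (hs0 : s0 ≤ Rb)
    (hosc : ∀ a, Pre l u k a → s0 - c / 10 * Rb ≤ σ a ∧ σ a ≤ s0 + c / 10 * Rb)
    (hA : A ⟨k, by omega⟩ + 8 * (c / 10 * Rb) ≤ s0)
    (hp : s0 + 2 * (c / 10 * Rb) ≤ A ⟨k + 1, by omega⟩ + As) :
    Fill δ N (TR k l u σ A As) := by
  have hkn : k < k + 2 := by omega
  have hRb0 : 0 < Rb := lt_of_lt_of_le hR1 hRb
  have hZ : 0 < c / 10 * Rb := by positivity
  have hcap := h.cap ⟨k, hkn⟩ le_rfl
  have e10 : c * Rb = 10 * (c / 10 * Rb) := by ring
  have e1 : TR k l u σ A As =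
      TR k l u σ A As ∩ {a | 0 < a ⟨k, hkn⟩ ∧ a ⟨k, hkn⟩ < A ⟨k, hkn⟩} := by
    refine (Set.inter_eq_left.2 ?_).symm
    intro a ha
    exact ha.2.1 ⟨k, hkn⟩ le_rfl
  rw [e1, TR.peel_eq hkn le_rfl le_rfl]
  refine h2 (Function.update Rv ⟨k, hkn⟩ Rb) Rb ?_ hRb _ _ _ _ _ ?_
  · intro j hj
    by_cases hjk : j = ⟨k, hkn⟩
    · rw [hjk, Function.update_self]
      exact hRb
    · rw [Function.update_of_ne hjk]
      refine hRv j ?_
      have : (j : ℕ) ≠ k := fun h => hjk (Fin.ext h)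
      omega
  · refine TD.peel hkn hL hRb0 (fun j hj => hR1.le.trans (hRv j hj)) h (g1 := c / 10 * Rb)
      (by positivity) (by linarith only [hc]) le_rfl ?_ ?_ ?_ hZ.le ?_ ?_ ?_ ?_
    · rw [sub_zero]
      linarith only [hZ, hcap]
    · rw [sub_zero]
      linarith only [hs0, hA, hZ]
    · intro a ha
      have := (hosc a ha).1
      linarith only [hA, hZ, this]
    · intro a ha i j hij hi hj
      exfalso
      apply hij
      have := i.2
      have := j.2
      exact Fin.ext (by omega)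
    · intro a ha j hj
      have hj2 : j = ⟨k + 1, by omega⟩ := by
        have := j.2
        exact Fin.ext (by simp only; omega)
      rw [hj2]
      have := (hosc a ha).2
      linarith only [hp, this]
    · linarith only []
    · right
      exact ⟨le_rfl, le_rfl⟩

/-- The case of small pair sums, by reflection. -/
theorem g6a_refl {k : ℕ} {c L δ N R1 Rb s0 : ℝ} (hc : 0 < c) (hR1 : 0 < R1)
    (h1 : ∀ (Rv : Fin (k + 2) → ℝ) (Rb : ℝ), (∀ j : Fin (k + 2), (j : ℕ) < k → R1 ≤ Rv j) →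
      R1 ≤ Rb → ∀ (l u : Fin (k + 2) → (Fin (k + 2) → ℝ) → ℝ) (σ : (Fin (k + 2) → ℝ) → ℝ)
        (A : Fin (k + 2) → ℝ) (As : ℝ),
        TD (c / 10) L Rv Rb k l u σ A As (c / 10 * Rb) →
          Fill δ N (TR k l u σ A As))
    {Rv : Fin (k + 2) → ℝ} {l u : Fin (k + 2) → (Fin (k + 2) → ℝ) → ℝ}
    {σ : (Fin (k + 2) → ℝ) → ℝ} {A : Fin (k + 2) → ℝ} {As : ℝ} (hRb : R1 ≤ Rb)
    (hRv : ∀ j : Fin (k + 2), (j : ℕ) < k → R1 ≤ Rv j)
    (h : TD c L Rv Rb k l u σ A As 0)
    (hs0 : s0 ≤ Rb)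
    (hosc : ∀ a, Pre l u k a → s0 - c / 10 * Rb ≤ σ a ∧ σ a ≤ s0 + c / 10 * Rb)
    (hp1 : A ⟨k, by omega⟩ + A ⟨k + 1, by omega⟩ ≤ s0 + 2 * (c / 10 * Rb))
    (hp2 : A ⟨k, by omega⟩ + As ≤ s0 + 2 * (c / 10 * Rb)) :
    Fill δ N (TR k l u σ A As) := by
  have hkn : k < k + 2 := by omega
  have hRb0 : 0 < Rb := lt_of_lt_of_le hR1 hRb
  have hZ : 0 < c / 10 * Rb := by positivity
  have hcap1 := h.cap ⟨k, hkn⟩ le_rfl
  have hcap2 := h.cap ⟨k + 1, by omega⟩ (by simp only [le_add_iff_nonneg_right, zero_le])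
  have hcap3 := h.caps
  have e10 : c * Rb = 10 * (c / 10 * Rb) := by ring
  have hb := g6a_bsum k A
  have hcases : ∀ j : Fin (k + 2), k ≤ (j : ℕ) → j = ⟨k, hkn⟩ ∨ j = ⟨k + 1, by omega⟩ := by
    intro j hj
    have := j.2
    rcases Nat.eq_or_lt_of_le hj with h' | h'
    · left
      exact Fin.ext h'.symm
    · right
      exact Fin.ext (by simp only; omega)
  refine TR.fill_reflect h.sd rfl ?_
  refine h1 Rv Rb hRv hRb l u _ A As ?_
  rw [hb]
  refine
    { sd :=
      { wl := h.sd.wl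
        wu := h.sd.wu
        int := ?_
        lip := ?_
        fat := ?_
        size := ?_ }
      cap := ?_
      caps := ?_
      pair := ?_
      pairs := ?_
      tot := ?_ }
  · obtain ⟨s, m, hm, hs⟩ := h.sd.int
    refine ⟨A ⟨k, by omega⟩ + A ⟨k + 1, by omega⟩ + As - s, fun j => -m j, fun j hj => ?_,
      fun a => ?_⟩
    · show -m j = 0
      rw [hm j hj, neg_zero]
    · show A ⟨k, by omega⟩ + A ⟨k + 1, by omega⟩ + As - σ a = _
      rw [hs a]
      simp only [Int.cast_neg, neg_mul, Finset.sum_neg_distrib]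
      ring
  · intro y y'
    have e : (A ⟨k, by omega⟩ + A ⟨k + 1, by omega⟩ + As - σ y) -
        (A ⟨k, by omega⟩ + A ⟨k + 1, by omega⟩ + As - σ y') = -(σ y - σ y') := by ring
    rw [e, abs_neg]
    exact h.sd.lip y y'
  · intro j a hj ha
    have h3 := h.sd.fat j a hj ha
    refine ⟨?_, h3.2⟩
    have h4 : 0 < Rv j := lt_of_lt_of_le hR1 (hRv j hj)
    have h5 : c / 10 * Rv j ≤ c * Rv j := mul_le_mul_of_nonneg_right (by linarith only [hc]) h4.le
    linarith only [h3, h5]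
  · intro a ha
    have h4 := h.pair a ha ⟨k, hkn⟩ ⟨k + 1, by omega⟩ (by simp [Fin.ext_iff]) le_rfl (by simp only [le_add_iff_nonneg_right, zero_le])
    have h5 := (hosc a ha).1
    constructor
    · linarith only [hZ, hcap3, h4]
    · linarith only [hs0, hp1, hp2, hZ, hcap1, h5]
  · intro j hj
    have := h.cap j hj
    linarith only [hZ, this]
  · linarith only [hZ, hcap3]
  · intro a ha i j hij hi hj
    have h5 := (hosc a ha).1
    rcases hcases i hi with h6 | h6 <;> rcases hcases j hj with h7 | h7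
    · exact absurd (h6.trans h7.symm) hij
    · rw [h6, h7]
      linarith only [hp2, hZ, hcap1, h5]
    · rw [h6, h7]
      linarith only [h5, hcap1, hZ, hp2]
    · exact absurd (h6.trans h7.symm) hij
  · intro a ha j hj
    have h5 := (hosc a ha).1
    rcases hcases j hj with h7 | h7
    · rw [h7]
      linarith only [hp1, hZ, hcap1, h5]
    · rw [h7]
      linarith only [h5, hcap2, hZ, hp1]
  · intro a ha
    rw [hb]
    have h5 := (h.sd.size a ha).1
    linarith only [hZ, h5]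

/-- The case of large pair sums. -/
theorem g6a_big {k : ℕ} {c L δ N R1 Rb s0 : ℝ} (hc : 0 < c) (hR1 : 0 < R1)
    (h1 : ∀ (Rv : Fin (k + 2) → ℝ) (Rb : ℝ), (∀ j : Fin (k + 2), (j : ℕ) < k → R1 ≤ Rv j) →
      R1 ≤ Rb → ∀ (l u : Fin (k + 2) → (Fin (k + 2) → ℝ) → ℝ) (σ : (Fin (k + 2) → ℝ) → ℝ)
        (A : Fin (k + 2) → ℝ) (As : ℝ),
        TD (c / 10) L Rv Rb k l u σ A As (c / 10 * Rb) →
          Fill δ N (TR k l u σ A As))
    {Rv : Fin (k + 2) → ℝ} {l u : Fin (k + 2) → (Fin (k + 2) → ℝ) → ℝ}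
    {σ : (Fin (k + 2) → ℝ) → ℝ} {A : Fin (k + 2) → ℝ} {As : ℝ} (hRb : R1 ≤ Rb)
    (hRv : ∀ j : Fin (k + 2), (j : ℕ) < k → R1 ≤ Rv j)
    (h : TD c L Rv Rb k l u σ A As 0)
    (hosc : ∀ a, Pre l u k a → s0 - c / 10 * Rb ≤ σ a ∧ σ a ≤ s0 + c / 10 * Rb)
    (hp1 : s0 + 2 * (c / 10 * Rb) ≤ A ⟨k, by omega⟩ + A ⟨k + 1, by omega⟩)
    (hp2 : s0 + 2 * (c / 10 * Rb) ≤ A ⟨k, by omega⟩ + As)
    (hp3 : s0 + 2 * (c / 10 * Rb) ≤ A ⟨k + 1, by omega⟩ + As) :
    Fill δ N (TR k l u σ A As) := by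
  have hkn : k < k + 2 := by omega
  have hRb0 : 0 < Rb := lt_of_lt_of_le hR1 hRb
  have hZ : 0 < c / 10 * Rb := by positivity
  have e10 : c * Rb = 10 * (c / 10 * Rb) := by ring
  have hcases : ∀ j : Fin (k + 2), k ≤ (j : ℕ) → j = ⟨k, hkn⟩ ∨ j = ⟨k + 1, by omega⟩ := by
    intro j hj
    have := j.2
    rcases Nat.eq_or_lt_of_le hj with h' | h'
    · left
      exact Fin.ext h'.symm
    · right
      exact Fin.ext (by simp only; omega)
  have h3 := TD.mono (c' := c / 10) (L' := L) h (by linarith only [hc]) le_rfl le_rfl hRb0.le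
    (fun j hj => hR1.le.trans (hRv j hj))
  refine h1 Rv Rb hRv hRb l u σ A As ?_
  refine
    { sd := h3.sd
      cap := h3.cap
      caps := h3.caps
      pair := ?_
      pairs := ?_
      tot := h3.tot }
  · intro a ha i j hij hi hj
    have h5 := (hosc a ha).2
    rcases hcases i hi with h6 | h6 <;> rcases hcases j hj with h7 | h7
    · exact absurd (h6.trans h7.symm) hij
    · rw [h6, h7]
      linarith only [hp1, h5]
    · rw [h6, h7]
      linarith only [hp1, h5]
    · exact absurd (h6.trans h7.symm) hij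
  · intro a ha j hj
    have h5 := (hosc a ha).2
    rcases hcases j hj with h7 | h7
    · rw [h7]
      linarith only [hp2, h5]
    · rw [h7]
      linarith only [hp3, h5]

theorem g6a_main (k : ℕ) (h1 : TS (k + 2) k) (h2 : TS (k + 2) (k + 1)) : TZ (k + 2) k := by
  intro c L δ N hc hL hδ hδ1 hN
  obtain ⟨M0, hM0, href⟩ := TD.refine (n := k + 2) (by omega) c L δ hc hL hδ1
  obtain ⟨R1, hR1, H1⟩ := h1 (c / 10) L δ N (by positivity) hL hδ hδ1 hN
  obtain ⟨R2, hR2, H2⟩ := h2 (c / 10) (L + 1) δ N (by positivity) (by positivity) hδ hδ1 hN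
  set K : ℝ := L * (((k + 2 : ℕ) : ℝ) * (1 + L) ^ (k + 2)) with hK
  have hK0 : 0 ≤ K := by (clear * - hL; positivity)
  set θ : ℝ := c / (10 * (K + 1)) with hθ
  have hθ0 : 0 < θ := by positivity
  set m : ℝ := M0 + R1 + R2 with hm
  have hm0 : 0 < m := by positivity
  refine ⟨m + 4 * m / θ, by positivity, fun Rv Rb hRv hRb l u σ A As h => ?_⟩
  have hq : 0 < 4 * m / θ := by positivity
  have hmRb : m ≤ Rb := by linarith only [hRb, hq]
  have hRb0 : 0 < Rb := by linarith only [hM0, hR1, hR2, hRb, hq]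
  have h4m : 4 * m ≤ θ * Rb := by
    have h3 : 4 * m / θ ≤ Rb := by linarith only [hM0, hR1, hR2, hRb]
    rw [div_le_iff₀ hθ0] at h3
    linarith only [h3]
  refine href N k m (θ * Rb) Rb σ A As 0 (by omega) (by linarith only [hR1, hR2]) h4m hmRb ?_ Rv l u
    (fun j hj => by linarith only [hq, hRv j hj]) h
  clear hRv h
  intro Rv l u hRv h
  rcases Set.eq_empty_or_nonempty (TR k l u σ A As) with hE | ⟨a0, ha0⟩
  · exact g6a_empty hE
  have hp0 : Pre l u k a0 := ha0.1
  have hkn : k < k + 2 := by omega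
  have hZ : 0 < c / 10 * Rb := by positivity
  have e10 : c * Rb = 10 * (c / 10 * Rb) := by ring
  have hosc : ∀ a, Pre l u k a → σ a0 - c / 10 * Rb ≤ σ a ∧ σ a ≤ σ a0 + c / 10 * Rb := by
    intro a ha
    have h3 := Pre.osc (η := θ * Rb) hL (by (clear * - hc hL hRb0; positivity)) (by omega) h.sd.wl h.sd.wu
      (fun j a hj hp => (h.sd.fat j a hj hp).2.trans (hRv j hj).2) h.sd.lip
      (fun y y' hy => h.sd.dep hy) ha hp0
    have h4 : L * (((k + 2 : ℕ) : ℝ) * (1 + L) ^ (k + 2)) * (θ * Rb) ≤ c / 10 * Rb := by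
      rw [← hK, ← mul_assoc]
      refine mul_le_mul_of_nonneg_right ?_ hRb0.le
      rw [hθ, ← mul_div_assoc, div_le_div_iff₀ (by (clear * - hL; positivity)) (by positivity)]
      nlinarith only [hc]
    have h5 := abs_le.1 (h3.trans h4)
    constructor <;> linarith only [h5]
  have hs0 : σ a0 ≤ Rb := (h.sd.size a0 hp0).2
  have hcap1 := h.cap ⟨k, hkn⟩ le_rfl
  have hcap2 := h.cap ⟨k + 1, by omega⟩ (by simp)
  have hcap3 := h.caps
  have H1' := fun (Rv : Fin (k + 2) → ℝ) (Rb : ℝ)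
    (hRv : ∀ j : Fin (k + 2), (j : ℕ) < k → m ≤ Rv j) (hRb : m ≤ Rb) =>
    H1 Rv Rb (fun j hj => by linarith only [hM0, hR2, hRv j hj]) (by linarith only [hM0, hR2, hRb])
  have H2' := fun (Rv : Fin (k + 2) → ℝ) (Rb : ℝ)
    (hRv : ∀ j : Fin (k + 2), (j : ℕ) < k + 1 → m ≤ Rv j) (hRb : m ≤ Rb) =>
    H2 Rv Rb (fun j hj => by linarith only [hM0, hR1, hRv j hj]) (by linarith only [hM0, hR1, hRb])
  have hRv' : ∀ j : Fin (k + 2), (j : ℕ) < k → m ≤ Rv j := fun j hj => (hRv j hj).1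
  -- peel the coordinate `k`
  have B1 : A ⟨k, by omega⟩ + 8 * (c / 10 * Rb) ≤ σ a0 →
      σ a0 + 2 * (c / 10 * Rb) ≤ A ⟨k + 1, by omega⟩ + As → Fill δ N (TR k l u σ A As) :=
    fun ha hb => g6a_peel hc hL hm0 H2' hmRb hRv' h hs0 hosc ha hb
  -- peel the coordinate `k + 1`
  have B2 : A ⟨k + 1, by omega⟩ + 8 * (c / 10 * Rb) ≤ σ a0 →
      σ a0 + 2 * (c / 10 * Rb) ≤ A ⟨k, by omega⟩ + As → Fill δ N (TR k l u σ A As) := by
    intro ha hb
    have hp : k ≤ ((⟨k, hkn⟩ : Fin (k + 2)) : ℕ) := le_rfl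
    have hq : k ≤ ((⟨k + 1, by omega⟩ : Fin (k + 2)) : ℕ) := by simp only [le_add_iff_nonneg_right, zero_le]
    refine TR.fill_swap h.sd hp hq ?_
    refine g6a_peel hc hL hm0 H2' hmRb hRv' (TD.swap h hp hq) hs0 hosc ?_ ?_
    · simpa only [Equiv.swap_apply_left] using ha
    · simpa only [Equiv.swap_apply_right] using hb
  -- peel the slack
  have B3 : As + 8 * (c / 10 * Rb) ≤ σ a0 →
      σ a0 + 2 * (c / 10 * Rb) ≤ A ⟨k, by omega⟩ + A ⟨k + 1, by omega⟩ →
      Fill δ N (TR k l u σ A As) := by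
    intro ha hb
    have hp : k ≤ ((⟨k, hkn⟩ : Fin (k + 2)) : ℕ) := le_rfl
    refine TR.fill_slack h.sd hp ?_
    refine g6a_peel hc hL hm0 H2' hmRb hRv' (TD.slack h hp) hs0 hosc ?_ ?_
    · rw [Function.update_self]
      exact ha
    · rw [Function.update_of_ne (by simp [Fin.ext_iff])]
      linarith only [hb]
  by_cases P1 : σ a0 + 2 * (c / 10 * Rb) ≤ A ⟨k, by omega⟩ + A ⟨k + 1, by omega⟩ <;>
  by_cases P2 : σ a0 + 2 * (c / 10 * Rb) ≤ A ⟨k, by omega⟩ + As <;>
  by_cases P3 : σ a0 + 2 * (c / 10 * Rb) ≤ A ⟨k + 1, by omega⟩ + As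
  · exact g6a_big hc hm0 H1' hmRb hRv' h hosc P1 P2 P3
  · exact B3 (by linarith only [hcap2, P3]) P1
  · exact B3 (by linarith only [hcap1, P2]) P1
  · exact B3 (by linarith only [hcap3, P1, P2, P3]) P1
  · exact B1 (by linarith only [hcap2, P1]) P3
  · exact B2 (by linarith only [hcap2, P1, P2, P3]) P2
  · exact B1 (by linarith only [hcap1, P1, P2, P3]) P3
  · exact g6a_refl hc hm0 H1' hmRb hRv' h hs0 hosc (not_le.1 P1).le (not_le.1 P2).le

theorem TZ_two (n : ℕ) (hn : 2 ≤ n) (h1 : TS n (n - 2)) (h2 : TS n (n - 1)) : TZ n (n - 2) := by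
  obtain ⟨k, rfl⟩ : ∃ k, n = k + 2 := ⟨n - 2, by omega⟩
  have e1 : k + 2 - 2 = k := by omega
  have e2 : k + 2 - 1 = k + 1 := by omega
  rw [e1] at h1 ⊢
  rw [e2] at h2
  exact g6a_main k h1 h2

end Vale.Agent.P209.Strong
end
end
end
end

section

section

section

section

namespace Vale.Agent.P209.Strong

open MeasureTheory

/-- the empty set is filled -/
theorem g6b_fill_empty {n : ℕ} {δ N : ℝ} {Ω : Set (Fin n → ℝ)} (h : Ω = ∅) : Fill δ N Ω := by
  intro ι _ r J hr _ _ hsum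
  exfalso
  rw [h] at hsum
  simp only [measure_empty, ENNReal.toReal_zero] at hsum
  have : 0 ≤ ∑ i, r i ^ n / (n.factorial : ℝ) :=
    Finset.sum_nonneg fun i _ => div_nonneg (pow_nonneg (hr i).1.le _) (Nat.cast_nonneg _)
  linarith only [this, hsum]

/-- the case where the first block coordinate has a large corner -/
theorem g6b_core {n k : ℕ} (hkn : k + 3 ≤ n) {c L δ N m Rb As s0 : ℝ} {Rv A : Fin n → ℝ}
    {l u : Fin n → (Fin n → ℝ) → ℝ} {σ : (Fin n → ℝ) → ℝ} (hc : 0 < c) (hc1 : c ≤ 1)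
    (hL : 0 ≤ L) (hδ1 : δ ≤ 1) (hm : 0 < m) (hRb : m ≤ Rb)
    (hRv : ∀ j : Fin n, (j : ℕ) < k → m ≤ Rv j)
    (hmid : ∀ (k : ℕ) (hk : k < n) (c₁ L₁ Rb m₁ : ℝ) (Rv : Fin n → ℝ)
      (l u : Fin n → (Fin n → ℝ) → ℝ)
      (σ : (Fin n → ℝ) → ℝ) (A : Fin n → ℝ) (As g x0 x1 : ℝ), 0 ≤ L₁ → L₁ ≤ L → k + 2 ≤ n →
      c / 10 ≤ c₁ → m ≤ m₁ → m₁ ≤ Rb → (∀ j : Fin n, (j : ℕ) < k → m₁ ≤ Rv j) →
      TD c₁ L₁ Rv Rb k l u σ A As g → 0 ≤ x0 → x1 ≤ A ⟨k, hk⟩ → c / 10 * Rb ≤ x1 - x0 →
      x1 - x0 ≤ Rb → (∀ a, Pre l u k a → x1 + c / 10 * Rb ≤ σ a) →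
      (c / 10 * Rb ≤ g ∨ (0 ≤ g ∧ (k + 3 ≤ n ∨ c / 10 * Rb ≤ x0))) →
      1 / (n.factorial : ℝ) <
        (volume (TR k l u σ A As ∩ {a | x0 < a ⟨k, hk⟩ ∧ a ⟨k, hk⟩ < x1})).toReal)
    (hS : ∀ (Rv : Fin n → ℝ) (Rb : ℝ), (∀ j : Fin n, (j : ℕ) < k + 1 → m ≤ Rv j) → m ≤ Rb →
      ∀ (l u : Fin n → (Fin n → ℝ) → ℝ) (σ : (Fin n → ℝ) → ℝ) (A : Fin n → ℝ) (As : ℝ),
        TD (c / 10) (L + 1) Rv Rb (k + 1) l u σ A As (c / 10 * Rb) →
        Fill δ N (TR (k + 1) l u σ A As))
    (hZ : ∀ (Rv : Fin n → ℝ) (Rb : ℝ), (∀ j : Fin n, (j : ℕ) < k + 1 → m ≤ Rv j) → m ≤ Rb →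
      ∀ (l u : Fin n → (Fin n → ℝ) → ℝ) (σ : (Fin n → ℝ) → ℝ) (A : Fin n → ℝ) (As : ℝ),
        TD (c / 10) (L + 1) Rv Rb (k + 1) l u σ A As 0 →
        Fill δ N (TR (k + 1) l u σ A As))
    (h : TD c L Rv Rb k l u σ A As 0) (hk : k < n)
    (hs0 : s0 ≤ Rb) (hAk : A ⟨k, hk⟩ + 8 * (c / 10 * Rb) ≤ s0)
    (hσ : ∀ a, Pre l u k a → A ⟨k, hk⟩ + 7 * (c / 10 * Rb) ≤ σ a) :
    Fill δ N (TR k l u σ A As) := by
  have hRb0 : 0 < Rb := lt_of_lt_of_le hm hRb
  have hz : 0 < c / 10 * Rb := by positivity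
  have hcRb : c * Rb ≤ Rb := by nlinarith only [hc1, hRb0]
  have hcap : c * Rb ≤ A ⟨k, hk⟩ := h.cap ⟨k, hk⟩ le_rfl
  have hRv0 : ∀ j : Fin n, (j : ℕ) < k → 0 ≤ Rv j := fun j hj => hm.le.trans (hRv j hj)
  have hRv' : ∀ j : Fin n, (j : ℕ) < k + 1 → m ≤ Function.update Rv ⟨k, hk⟩ Rb j := by
    intro j hj
    by_cases hjk : j = ⟨k, hk⟩
    · rw [hjk, Function.update_self]
      exact hRb
    · rw [Function.update_of_ne hjk]
      refine hRv j ?_
      have : (j : ℕ) ≠ k := fun e => hjk (Fin.ext e)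
      omega
  have hcc : c / 10 ≤ c := by linarith only [hc]
  refine TR.cut (by omega) hδ1 hL h.sd hk (x0 := c / 10 * Rb) (x1 := 2 * (c / 10 * Rb))
    (by linarith only [hz]) ?_ ?_ ?_
  · refine hmid k hk c L Rb m Rv l u σ A As 0 _ _ hL le_rfl (by omega) hcc le_rfl hRb hRv h hz.le
      (by linarith only [hcap, hz]) (by linarith only) (by linarith only [hcRb, hz]) ?_
      (Or.inr ⟨le_rfl, Or.inl hkn⟩)
    intro a ha
    linarith only [(h.sd.size a ha).1, hz]
  · intro x hx0 hx1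
    have hset : TR k l u σ A As ∩ {a | a ⟨k, hk⟩ < x} =
        TR k l u σ A As ∩ {a | 0 < a ⟨k, hk⟩ ∧ a ⟨k, hk⟩ < x} := by
      ext a
      constructor
      · rintro ⟨h1, h2⟩
        exact ⟨h1, (h1.2.1 ⟨k, hk⟩ le_rfl).1, h2⟩
      · rintro ⟨h1, _, h2⟩
        exact ⟨h1, h2⟩
    rw [hset, TR.peel_eq hk le_rfl (by linarith only [hx1, hcap, hz])]
    refine hZ _ Rb hRv' hRb _ _ _ _ _ (TD.peel hk hL hRb0 hRv0 h (c' := c / 10) (g1 := 0)
      (by positivity) hcc le_rfl (by linarith only [hx0]) (by linarith only [hx1, hcRb, hz]) ?_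
      le_rfl ?_ ?_ (by norm_num) (Or.inl hkn))
    · intro a ha
      linarith only [(h.sd.size a ha).1, hx1, hz]
    · intro a ha i j hij hi hj
      exact h.pair a ha i j hij (by omega) (by omega)
    · intro a ha j hj
      exact h.pairs a ha j (by omega)
  · intro x hx0 hx1
    have hset : TR k l u σ A As ∩ {a | x < a ⟨k, hk⟩} =
        TR k l u σ A As ∩ {a | x < a ⟨k, hk⟩ ∧ a ⟨k, hk⟩ < A ⟨k, hk⟩} := by
      ext a
      constructor
      · rintro ⟨h1, h2⟩
        exact ⟨h1, h2, (h1.2.1 ⟨k, hk⟩ le_rfl).2⟩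
      · rintro ⟨h1, h2, _⟩
        exact ⟨h1, h2⟩
    rw [hset, TR.peel_eq hk (hz.le.trans hx0) le_rfl]
    refine hS _ Rb hRv' hRb _ _ _ _ _ (TD.peel hk hL hRb0 hRv0 h (c' := c / 10) (g1 := 0)
      (by positivity) hcc (hz.le.trans hx0) (by linarith only [hx1, hcap, hz])
      (by linarith only [hx0, hs0, hAk, hz]) ?_
      le_rfl ?_ ?_ (by linarith only [hx0]) (Or.inl hkn))
    · intro a ha
      linarith only [hσ a ha, hz]
    · intro a ha i j hij hi hj
      exact h.pair a ha i j hij (by omega) (by omega)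
    · intro a ha j hj
      exact h.pairs a ha j (by omega)

theorem TZ_of (n k : ℕ) (hk : k + 3 ≤ n) (h1 : TS n k) (h2 : TS n (k + 1)) (h3 : TZ n (k + 1)) :
    TZ n k := by
  intro c L δ N hc hL hδ hδ1 hN
  obtain ⟨R1, hR1, H1⟩ := h1 (c / 10) L δ N (by positivity) hL hδ hδ1 hN
  obtain ⟨R2, hR2, H2⟩ := h2 (c / 10) (L + 1) δ N (by positivity) (by positivity) hδ hδ1 hN
  obtain ⟨R3, hR3, H3⟩ := h3 (c / 10) (L + 1) δ N (by positivity) (by positivity) hδ hδ1 hN
  obtain ⟨M, hM, HM⟩ := TD.mid_ge (c / 10) L n (by positivity) hL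
  obtain ⟨M0, hM0, H0⟩ := TD.refine (n := n) (by omega) c L δ hc hL hδ1
  obtain ⟨m, hmR1, hmR2, hmR3, hmM, hmM0⟩ : ∃ m : ℝ, R1 ≤ m ∧ R2 ≤ m ∧ R3 ≤ m ∧ M ≤ m ∧ M0 ≤ m :=
    ⟨max R1 (max R2 (max R3 (max M M0))), le_max_left _ _,
      (le_max_left _ _).trans (le_max_right _ _),
      (le_max_left _ _).trans ((le_max_right _ _).trans (le_max_right _ _)),
      (le_max_left _ _).trans ((le_max_right _ _).trans ((le_max_right _ _).trans
        (le_max_right _ _))),
      (le_max_right _ _).trans ((le_max_right _ _).trans ((le_max_right _ _).trans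
        (le_max_right _ _)))⟩
  have hm : 0 < m := lt_of_lt_of_le hM0 hmM0
  obtain ⟨K, hKdef⟩ : ∃ K : ℝ, K = L * (n * (1 + L) ^ n) := ⟨_, rfl⟩
  have hK : 0 ≤ K := by rw [hKdef]; (clear * - hL; positivity)
  obtain ⟨θ, hθdef⟩ : ∃ θ : ℝ, θ = c / (1000 * (K + 1)) := ⟨_, rfl⟩
  have hθ : 0 < θ := by rw [hθdef]; positivity
  have hKθ : K * θ ≤ c / 1000 := by
    rw [hθdef, mul_div_assoc', div_le_div_iff₀ (by positivity) (by norm_num)]
    nlinarith only [hc]
  refine ⟨max m (4 * m / θ), lt_of_lt_of_le hm (le_max_left _ _), ?_⟩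
  intro Rv Rb hRv hRb l u σ A As hTD
  have hmRb : m ≤ Rb := (le_max_left _ _).trans hRb
  have hRb0 : 0 < Rb := lt_of_lt_of_le hm hmRb
  have hη : 4 * m ≤ θ * Rb := by
    have h4 : 4 * m / θ ≤ Rb := (le_max_right _ _).trans hRb
    rw [div_le_iff₀ hθ] at h4
    linarith only [h4]
  refine H0 N k m (θ * Rb) Rb σ A As 0 (by omega) hmM0 hη hmRb ?_ Rv l u
    (fun j hj => (le_max_left _ _).trans (hRv j hj)) hTD
  clear hTD hRv l u Rv
  intro Rv l u hRv h
  have hkn : k < n := by omega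
  have hRv0 : ∀ j : Fin n, (j : ℕ) < k → 0 ≤ Rv j := fun j hj => hm.le.trans (hRv j hj).1
  by_cases hex : ∃ a0, Pre l u k a0
  swap
  · refine g6b_fill_empty (Set.eq_empty_iff_forall_notMem.2 fun a ha => hex ⟨a, ha.1⟩)
  obtain ⟨a0, ha0⟩ := hex
  have hs0 := h.sd.size a0 ha0
  have hc1 : c ≤ 1 := by
    by_contra hcon
    push Not at hcon
    linarith only [mul_pos (sub_pos.2 hcon) (sub_pos.2 hRb0), hs0.2, hs0.1]
  have hz : 0 < c / 10 * Rb := by (clear * - hc hRb0; positivity)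
  have hosc : ∀ a, Pre l u k a → |σ a - σ a0| ≤ c / 1000 * Rb := by
    intro a ha
    have := Pre.osc hL (η := θ * Rb) (by (clear * - hθ hRb0; positivity)) (by omega : k ≤ n) h.sd.wl h.sd.wu
      (fun j a hj hp => ((h.sd.fat j a hj hp).2.trans (hRv j hj).2)) h.sd.lip
      (fun y y' hy => h.sd.dep hy) ha ha0
    refine this.trans ?_
    rw [← hKdef]
    nlinarith only [hKθ, hRb0]
  by_cases hall : (∀ i j : Fin n, i ≠ j → k ≤ (i : ℕ) → k ≤ (j : ℕ) →
      σ a0 + 2 * (c / 10 * Rb) ≤ A i + A j) ∧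
      ∀ j : Fin n, k ≤ (j : ℕ) → σ a0 + 2 * (c / 10 * Rb) ≤ A j + As
  · -- gap everywhere
    refine H1 Rv Rb (fun j hj => hmR1.trans (hRv j hj).1) (hmR1.trans hmRb) l u σ A As ?_
    refine ⟨h.sd.mono (by linarith only [hc]) le_rfl hRb0.le hRv0, ?_, ?_, ?_, ?_, ?_⟩
    · intro j hj
      linarith only [h.cap j hj, hz]
    · linarith only [h.caps, hz]
    · intro a ha i j hij hi hj
      have h5 := (abs_le.1 (hosc a ha)).2
      linarith only [hall.1 i j hij hi hj, h5, hz]
    · intro a ha j hj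
      have h5 := (abs_le.1 (hosc a ha)).2
      linarith only [hall.2 j hj, h5, hz]
    · intro a ha
      linarith only [h.tot a ha, hz]
  · -- some coordinate has a large corner
    obtain ⟨p, hp, hAp⟩ : ∃ p : Fin n, k ≤ (p : ℕ) ∧ A p + 8 * (c / 10 * Rb) ≤ σ a0 := by
      by_contra hcon
      push Not at hcon
      apply hall
      constructor
      · intro i j hij hi hj
        linarith only [hcon i hi, h.cap j hj]
      · intro j hj
        linarith only [hcon j hj, h.caps]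
    refine TR.fill_swap h.sd hp (q := ⟨k, hkn⟩) le_rfl ?_
    have hsw := h.swap hp (q := ⟨k, hkn⟩) le_rfl
    have hAk : A (Equiv.swap p ⟨k, hkn⟩ ⟨k, hkn⟩) = A p := by
      rw [Equiv.swap_apply_right]
    refine g6b_core hk (m := m) (s0 := σ a0) hc hc1 hL hδ1 hm hmRb (fun j hj => (hRv j hj).1)
      ?_ ?_ ?_ hsw hkn hs0.2 ?_ ?_
    · intro k' hk' c₁ L₁ Rb' m₁ Rv' l' u' σ' A' As' g x0 x1 hL1 hL2 hkk hcc1 hmm
      exact HM k' hk' c₁ L₁ Rb' m₁ Rv' l' u' σ' A' As' g x0 x1 hL1 hL2 hkk hcc1 (hmM.trans hmm)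
    · intro Rv' Rb' hRv' hRb'
      exact H2 Rv' Rb' (fun j hj => hmR2.trans (hRv' j hj)) (hmR2.trans hRb')
    · intro Rv' Rb' hRv' hRb'
      exact H3 Rv' Rb' (fun j hj => hmR3.trans (hRv' j hj)) (hmR3.trans hRb')
    · simp only [hAk]
      exact hAp
    · intro a ha
      simp only [hAk]
      have h5 := (abs_le.1 (hosc a ha)).1
      linarith only [hAp, h5, hz]

end Vale.Agent.P209.Strong
end
end
end
end

section

section

section

section

namespace Vale.Agent.P209.Strong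

open MeasureTheory

theorem TS_all (n : ℕ) (hn : 2 ≤ n) (k : ℕ) (hk : k < n) : TS n k := by
  obtain ⟨d, hd⟩ : ∃ d, k + 1 + d = n := ⟨n - (k + 1), by omega⟩
  induction d generalizing k with
  | zero =>
    have : k = n - 1 := by omega
    rw [this]
    exact TS_base n hn (CA_all n hn)
  | succ d ih =>
    have h1 := ih (k + 1) (by omega) (by omega)
    have hA := TSA_of n k (by omega) h1
    have hP := PS_of n k (by omega) (S1_all n hn (n - k)) hA
    exact TS_of n k (by omega) (TSI_of n k (by omega) hA)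
      (TSB_of n k (by omega) hA (TSC_of n k (by omega) hA hP))

theorem TZ_all (n : ℕ) (hn : 2 ≤ n) (k : ℕ) (hk : k + 2 ≤ n) : TZ n k := by
  obtain ⟨d, hd⟩ : ∃ d, k + 2 + d = n := ⟨n - (k + 2), by omega⟩
  induction d generalizing k with
  | zero =>
    have : k = n - 2 := by omega
    rw [this]
    exact TZ_two n hn (TS_all n hn _ (by omega)) (TS_all n hn _ (by omega))
  | succ d ih =>
    exact TZ_of n k (by omega) (TS_all n hn _ (by omega)) (TS_all n hn _ (by omega))
      (ih (k + 1) (by omega) (by omega))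

end Vale.Agent.P209.Strong
end
end
end
end

section

section

section

section

namespace Vale.Agent.P209.Strong

open MeasureTheory

/-! H1. The simplex of size `R` minus `n + 1` corner simplices. -/

/-- The simplex of size `R` without the corner simplices of size `s j` (at the vertex `R e_j`) and
`s0` (at the origin). -/
def CR (n : ℕ) (R : ℝ) (s : Fin n → ℝ) (s0 : ℝ) : Set (Fin n → ℝ) :=
  {a | (∀ j, 0 < a j ∧ a j < R - s j) ∧ s0 < ∑ j, a j ∧ ∑ j, a j < R}

theorem h1a_bsum {n : ℕ} (a : Fin n → ℝ) : bsum 0 n a = ∑ j, a j := by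
  unfold bsum
  exact Finset.sum_congr rfl fun i _ => if_pos ⟨Nat.zero_le _, i.2⟩

theorem h1a_eq {n : ℕ} (R : ℝ) (s : Fin n → ℝ) (s0 : ℝ) :
    CR n R s s0 = TR 0 (fun _ _ => 0) (fun _ _ => 0) (fun _ => R) (fun j => R - s j) (R - s0) := by
  ext a
  simp only [CR, TR, Set.mem_ofPred_eq, h1a_bsum]
  constructor
  · rintro ⟨h1, h2, h3⟩
    exact ⟨fun j hj => absurd hj (Nat.not_lt_zero _), fun j _ => h1 j, by linarith, by linarith⟩
  · rintro ⟨-, h1, h2, h3⟩
    exact ⟨fun j => h1 j (Nat.zero_le _), by linarith, by linarith⟩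

theorem h1a_walls {n : ℕ} : Walls (n := n) 1 (fun _ _ => 0) := by
  constructor
  · intro j y y' _
    rfl
  · intro j y y'
    simp

theorem h1a_td {n : ℕ} (hn : 2 ≤ n) {R : ℝ} {s : Fin n → ℝ} {s0 : ℝ} (hs : ∀ j, 0 ≤ s j)
    (hs0 : ∀ j, s j ≤ s0) (hp : ∀ i j, i ≠ j → s i + s j ≤ R) (hp0 : ∀ j, s j + s0 ≤ R)
    (hR : 0 ≤ R) (h8 : R / 8 ≤ R - s0) :
    TD (n := n) (1 / 8) 1 (fun _ => R) R 0 (fun _ _ => 0) (fun _ _ => 0) (fun _ => R)
      (fun j => R - s j) (R - s0) 0 where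
  sd :=
    { wl := h1a_walls
      wu := h1a_walls
      int := ⟨R, fun _ => 0, fun _ _ => rfl, fun a => by simp only [Int.cast_zero, zero_mul, Finset.sum_const_zero, add_zero]⟩
      lip := fun y y' => by simp
      fat := fun j a hj => absurd hj (Nat.not_lt_zero _)
      size := fun a _ => ⟨by linarith only [hR], le_rfl⟩ }
  cap := fun j _ => by
    have := hs0 j
    linarith only [h8, this]
  caps := by linarith only [h8]
  pair := fun a _ i j hij _ _ => by
    have := hp i j hij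
    linarith only [this]
  pairs := fun a _ j _ => by
    have := hp0 j
    linarith only [this]
  tot := fun a _ => by
    have hpos : ∀ j, 0 ≤ R - s j := fun j => by
      have := hs0 j
      linarith only [hR, h8, this]
    rw [h1a_bsum]
    have h1 : (R - s ⟨0, by omega⟩) + (R - s ⟨1, by omega⟩) ≤ ∑ j, (R - s j) := by
      have hne : (⟨0, by omega⟩ : Fin n) ≠ ⟨1, by omega⟩ := by
        intro h
        exact absurd (congrArg Fin.val h) (by simp)
      have h2 : ∑ j ∈ ({⟨0, by omega⟩, ⟨1, by omega⟩} : Finset (Fin n)), (R - s j) ≤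
          ∑ j, (R - s j) :=
        Finset.sum_le_sum_of_subset_of_nonneg (Finset.subset_univ _) fun j _ _ => hpos j
      rwa [Finset.sum_pair hne] at h2
    have h3 := hp ⟨0, by omega⟩ ⟨1, by omega⟩ (by
      intro h
      exact absurd (congrArg Fin.val h) (by simp))
    linarith only [h8, h1, h3]

/-- no corner is very large -/
theorem CR_fill_thick (n : ℕ) (hn : 2 ≤ n) (δ N : ℝ) (hδ : 0 < δ) (hδ1 : δ ≤ 1) (hN : 0 ≤ N) :
    ∃ H0 : ℝ, 0 < H0 ∧ ∀ (R : ℝ) (s : Fin n → ℝ) (s0 : ℝ), (∀ j, 0 ≤ s j) → (∀ j, s j ≤ s0) →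
      (∀ i j, i ≠ j → s i + s j ≤ R) → (∀ j, s j + s0 ≤ R) → H0 ≤ R - s0 → R / 8 ≤ R - s0 →
      Fill δ N (CR n R s s0) := by
  obtain ⟨R0, hR0, H⟩ := TZ_all n hn 0 (by omega) (1 / 8) 1 δ N (by norm_num) (by norm_num)
    hδ hδ1 hN
  refine ⟨R0, hR0, fun R s s0 hs hs0 hp hp0 hH h8 => ?_⟩
  have h0 : 0 ≤ s0 := (hs ⟨0, by omega⟩).trans (hs0 ⟨0, by omega⟩)
  have hR : R0 ≤ R := by linarith only [hH, h0]
  rw [h1a_eq]
  exact H (fun _ => R) R (fun j hj => absurd hj (Nat.not_lt_zero _)) hR _ _ _ _ _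
    (h1a_td hn hs hs0 hp hp0 (by linarith only [hR0, hH, h0]) h8)

end Vale.Agent.P209.Strong
end
end
end
end

section

section

section

section

namespace Vale.Agent.P209.Strong

open MeasureTheory

/-- The coordinate change: the sum of all coordinates first, then all coordinates but the last. -/
noncomputable def h1b_G (m : ℕ) : (Fin (m + 1) → ℝ) ≃ₗ[ℝ] (Fin (m + 1) → ℝ) where
  toFun a := Fin.cons (∑ j, a j) fun j : Fin m => a j.castSucc
  invFun y := Fin.snoc (fun j : Fin m => y j.succ) (y 0 - ∑ j : Fin m, y j.succ)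
  map_add' a b := by
    funext j
    refine Fin.cases ?_ (fun i => ?_) j
    · simp [Finset.sum_add_distrib]
    · simp
  map_smul' t a := by
    funext j
    refine Fin.cases ?_ (fun i => ?_) j
    · simp [Finset.mul_sum]
    · simp
  left_inv a := by
    funext j
    refine Fin.lastCases ?_ (fun i => ?_) j
    · simp only [Fin.snoc_last, Fin.cons_zero, Fin.cons_succ]
      rw [Fin.sum_univ_castSucc]
      ring
    · simp only [Fin.snoc_castSucc, Fin.cons_succ]
  right_inv y := by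
    funext j
    refine Fin.cases ?_ (fun i => ?_) j
    · simp only [Fin.cons_zero]
      rw [Fin.sum_univ_castSucc]
      simp only [Fin.snoc_castSucc, Fin.snoc_last]
      ring
    · simp only [Fin.cons_succ, Fin.snoc_castSucc]

theorem h1b_G_zero (m : ℕ) (a : Fin (m + 1) → ℝ) : h1b_G m a 0 = ∑ j, a j := rfl

theorem h1b_G_succ (m : ℕ) (a : Fin (m + 1) → ℝ) (j : Fin m) :
    h1b_G m a j.succ = a j.castSucc := rfl

theorem h1b_single {n : ℕ} (i : Fin n) : (Pi.single i (1 : ℝ) : Fin n → ℝ) =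
    fun k => (((Pi.single i (1 : ℤ) : Fin n → ℤ) k : ℤ) : ℝ) := by
  funext k
  by_cases h : k = i
  · subst h; simp
  · simp [Pi.single_eq_of_ne h]

theorem h1b_int (m : ℕ) (i j : Fin (m + 1)) : ∃ z : ℤ, h1b_G m (Pi.single i 1) j = z := by
  rw [h1b_single]
  refine Fin.cases ?_ (fun k => ?_) j
  · refine ⟨∑ j, (Pi.single i (1 : ℤ) : Fin (m + 1) → ℤ) j, ?_⟩
    rw [h1b_G_zero]
    push_cast
    rfl
  · exact ⟨(Pi.single i (1 : ℤ) : Fin (m + 1) → ℤ) k.castSucc, rfl⟩

theorem h1b_symm_last (m : ℕ) (y : Fin (m + 1) → ℝ) :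
    (h1b_G m).symm y (Fin.last m) = y 0 - ∑ j : Fin m, y j.succ := by
  show (Fin.snoc (fun j : Fin m => y j.succ) (y 0 - ∑ j : Fin m, y j.succ) :
    Fin (m + 1) → ℝ) (Fin.last m) = _
  rw [Fin.snoc_last]

theorem h1b_symm_cast (m : ℕ) (y : Fin (m + 1) → ℝ) (j : Fin m) :
    (h1b_G m).symm y j.castSucc = y j.succ := by
  show (Fin.snoc (fun j : Fin m => y j.succ) (y 0 - ∑ j : Fin m, y j.succ) :
    Fin (m + 1) → ℝ) j.castSucc = _
  rw [Fin.snoc_castSucc]

theorem h1b_int' (m : ℕ) (i j : Fin (m + 1)) :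
    ∃ z : ℤ, (h1b_G m).symm (Pi.single i 1) j = z := by
  rw [h1b_single]
  refine Fin.lastCases ?_ (fun k => ?_) j
  · refine ⟨(Pi.single i (1 : ℤ) : Fin (m + 1) → ℤ) 0 -
      ∑ j : Fin m, (Pi.single i (1 : ℤ) : Fin (m + 1) → ℤ) j.succ, ?_⟩
    rw [h1b_symm_last]
    push_cast
    rfl
  · exact ⟨(Pi.single i (1 : ℤ) : Fin (m + 1) → ℤ) k.succ, by rw [h1b_symm_cast]⟩

theorem h1b_bsum (m : ℕ) (y : Fin (m + 1) → ℝ) :
    bsum 1 (m + 1) y = ∑ j : Fin m, y j.succ := by
  unfold bsum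
  rw [Fin.sum_univ_succ]
  simp only [Fin.coe_ofNat_eq_mod, Nat.zero_mod, nonpos_iff_eq_zero, one_ne_zero, lt_add_iff_pos_left, Order.lt_add_one_iff, zero_le, and_true, ↓reduceIte, Fin.val_succ, le_add_iff_nonneg_left, Order.add_one_le_iff, Fin.is_lt, and_self, zero_add]

/-- The caps. -/
noncomputable def h1b_A {m : ℕ} (R : ℝ) (s : Fin (m + 1) → ℝ) : Fin (m + 1) → ℝ :=
  Fin.cons R fun j : Fin m => R - s j.castSucc

theorem h1b_image {m : ℕ} (R : ℝ) (s : Fin (m + 1) → ℝ) (s0 : ℝ) :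
    (fun a => h1b_G m a + 0) '' CR (m + 1) R s s0 =
      TR 1 (fun _ _ => s0) (fun _ _ => R) (fun y => y 0) (h1b_A R s) (R - s (Fin.last m)) := by
  ext y
  constructor
  · rintro ⟨a, ⟨h1, h2, h3⟩, rfl⟩
    simp only [add_zero]
    have hslack : h1b_G m a 0 - bsum 1 (m + 1) (h1b_G m a) = a (Fin.last m) := by
      rw [h1b_bsum, h1b_G_zero, Fin.sum_univ_castSucc]
      simp only [h1b_G_succ]
      ring
    refine ⟨fun j hj => ?_, fun j hj => ?_, ?_, ?_⟩
    · have hj0 : j = 0 := Fin.ext (by show (j : ℕ) = 0; omega)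
      subst hj0
      exact ⟨h2, h3⟩
    · obtain ⟨i, rfl⟩ : ∃ i : Fin m, j = i.succ :=
        ⟨j.pred (by intro h; rw [h] at hj; simp at hj), by simp⟩
      rw [h1b_G_succ]
      show 0 < a i.castSucc ∧ a i.castSucc < R - s i.castSucc
      exact h1 _
    · show 0 < h1b_G m a 0 - bsum 1 (m + 1) (h1b_G m a)
      rw [hslack]; exact (h1 _).1
    · show h1b_G m a 0 - bsum 1 (m + 1) (h1b_G m a) < R - s (Fin.last m)
      rw [hslack]; exact (h1 _).2
  · rintro ⟨h1, h2, h3, h4⟩
    have e : h1b_G m ((h1b_G m).symm y) = y := (h1b_G m).apply_symm_apply y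
    refine ⟨(h1b_G m).symm y, ⟨fun j => ?_, ?_, ?_⟩, ?_⟩
    · refine Fin.lastCases ?_ (fun i => ?_) j
      · rw [h1b_symm_last, ← h1b_bsum]
        exact ⟨h3, h4⟩
      · rw [h1b_symm_cast]
        exact h2 i.succ (by simp only [Fin.val_succ, le_add_iff_nonneg_left, zero_le])
    · have := (h1 0 (by simp)).1
      have h0 := h1b_G_zero m ((h1b_G m).symm y)
      rw [e] at h0
      rw [← h0]; exact this
    · have := (h1 0 (by simp)).2
      have h0 := h1b_G_zero m ((h1b_G m).symm y)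
      rw [e] at h0
      rw [← h0]; exact this
    · simp only [add_zero]
      exact e

/-- one corner is very large -/
theorem CR_fill_thin (n : ℕ) (hn : 2 ≤ n) (δ N : ℝ) (hδ : 0 < δ) (hδ1 : δ ≤ 1) (hN : 0 ≤ N) :
    ∃ H0 : ℝ, 0 < H0 ∧ ∀ (R : ℝ) (s : Fin n → ℝ) (s0 : ℝ), (∀ j, 0 ≤ s j) → (∀ j, s j ≤ s0) →
      (∀ i j, i ≠ j → s i + s j ≤ R) → (∀ j, s j + s0 ≤ R) → H0 ≤ R - s0 → R - s0 ≤ R / 8 →
      Fill δ N (CR n R s s0) := by
  obtain ⟨m, rfl⟩ : ∃ m, n = m + 1 := ⟨n - 1, by omega⟩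
  have hm : 1 ≤ m := by omega
  obtain ⟨R0, hR0, H⟩ := TS_all (m + 1) hn 1 (by omega) (1 / 2) 1 δ N (by norm_num)
    (by norm_num) hδ hδ1 hN
  refine ⟨R0, hR0, fun R s s0 hs0 hs1 hs2 hs3 h1 h2 => ?_⟩
  have hs00 : 0 ≤ s0 := (hs0 0).trans (hs1 0)
  have hRpos : 0 < R := by linarith only [hR0, h1, h2]
  have hcap : ∀ j, 7 / 8 * R ≤ R - s j := fun j => by have := hs3 j; linarith only [h2, this]
  have hA : ∀ j : Fin (m + 1), 1 ≤ (j : ℕ) → 7 / 8 * R ≤ h1b_A R s j := by
    intro j hj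
    obtain ⟨i, rfl⟩ : ∃ i : Fin m, j = i.succ :=
      ⟨j.pred (by intro h; rw [h] at hj; simp at hj), by simp⟩
    exact hcap _
  refine Fill.image (h1b_G m) (h1b_int m) (h1b_int' m) 0 ?_
  rw [h1b_image]
  refine H (fun _ => R - s0) R (fun _ _ => h1) (by linarith only [hR0, h1, h2]) _ _ _ _ _ ?_
  have hpre : ∀ a : Fin (m + 1) → ℝ, Pre (fun _ _ => s0) (fun _ _ => R) 1 a →
      s0 < a 0 ∧ a 0 < R := fun a ha => ha 0 (by simp)
  refine ⟨⟨⟨fun _ _ _ _ => rfl, fun _ y y' => ?_⟩, ⟨fun _ _ _ _ => rfl, fun _ y y' => ?_⟩, ?_,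
    fun y y' => ?_, fun j a _ _ => ?_, fun a ha => ?_⟩, fun j hj => ?_, ?_,
    fun a ha i j hij hi hj => ?_, fun a ha j hj => ?_, fun a ha => ?_⟩
  · simp only [sub_self, abs_zero, one_mul, dist_nonneg]
  · simp
  · refine ⟨0, Pi.single 0 1, fun j hj => ?_, fun a => ?_⟩
    · exact Pi.single_eq_of_ne (by intro h; rw [h] at hj; simp at hj) _
    · rw [Fin.sum_univ_succ]
      simp only [Pi.single_eq_same, Int.cast_one, one_mul, ne_eq, Fin.succ_ne_zero, not_false_eq_true, Pi.single_eq_of_ne, Int.cast_zero, zero_mul, Finset.sum_const_zero, add_zero, zero_add]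
  · rw [one_mul, ← Real.dist_eq]
    exact dist_le_pi_dist y y' 0
  · constructor
    · linarith only [h1, hR0]
    · exact le_rfl
  · have := hpre a ha
    constructor <;> linarith only [h2, this]
  · have := hA j hj
    linarith only [hR0, h1, h2, this]
  · have := hcap (Fin.last m)
    linarith only [hR0, h1, h2, this]
  · have := hA i hi
    have := hA j hj
    have := hpre a ha
    linarith
  · have := hA j hj
    have := hcap (Fin.last m)
    have := hpre a ha
    linarith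
  · have h3 := hcap (Fin.last m)
    have h4 := hpre a ha
    have h5 : 7 / 8 * R ≤ bsum 1 (m + 1) (h1b_A R s) := by
      rw [h1b_bsum]
      have h6 : ∀ j ∈ (Finset.univ : Finset (Fin m)), 0 ≤ h1b_A R s j.succ := by
        intro j _
        have := hA j.succ (by simp only [Fin.val_succ, le_add_iff_nonneg_left, zero_le])
        linarith only [h2, h4, this]
      have h7 := Finset.single_le_sum h6 (Finset.mem_univ (⟨0, hm⟩ : Fin m))
      have h8 := hA (Fin.succ (⟨0, hm⟩ : Fin m)) (by simp)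
      linarith only [h7, h8]
    linarith only [h2, h3, h4, h5]

end Vale.Agent.P209.Strong
end
end
end
end

section

section

section

section

namespace Vale.Agent.P209.Strong

open MeasureTheory

theorem CR_fill (n : ℕ) (hn : 2 ≤ n) (δ N : ℝ) (hδ : 0 < δ) (hδ1 : δ ≤ 1) (hN : 0 ≤ N) :
    ∃ H0 : ℝ, 0 < H0 ∧ ∀ (R : ℝ) (s : Fin n → ℝ) (s0 : ℝ), (∀ j, 0 ≤ s j) → (∀ j, s j ≤ s0) →
      (∀ i j, i ≠ j → s i + s j ≤ R) → (∀ j, s j + s0 ≤ R) → H0 ≤ R - s0 →
      Fill δ N (CR n R s s0) := by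
  obtain ⟨H1, h1, F1⟩ := CR_fill_thick n hn δ N hδ hδ1 hN
  obtain ⟨H2, _, F2⟩ := CR_fill_thin n hn δ N hδ hδ1 hN
  refine ⟨max H1 H2, lt_max_of_lt_left h1, fun R s s0 a b c d e => ?_⟩
  rcases le_total (R / 8) (R - s0) with h | h
  · exact F1 R s s0 a b c d ((le_max_left _ _).trans e) h
  · exact F2 R s s0 a b c d ((le_max_right _ _).trans e) h

end Vale.Agent.P209.Strong
end
end
end
end

section

section

section

section

namespace Vale.Agent.P209.Strong

open MeasureTheory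

/-- The closed simplex. -/
def h2aK (n : ℕ) (s : ℝ) : Set (Fin n → ℝ) := {a | (∀ j, 0 ≤ a j) ∧ ∑ j, a j ≤ s}

theorem h2aK_volume (n : ℕ) (hn : 1 ≤ n) (s : ℝ) (hs : 0 ≤ s) :
    volume (h2aK n s) ≤ ENNReal.ofReal (s ^ n / (n.factorial : ℝ)) := by
  have hn' : (1 : ℝ) ≤ n := by exact_mod_cast hn
  have key : ∀ e : ℝ, 0 < e → volume (h2aK n s) ≤
      ENNReal.ofReal ((s + 2 * n * e) ^ n / (n.factorial : ℝ)) := by
    intro e he
    have hne : 0 < (n : ℝ) * e := by positivity
    rw [← volume_simplex_ofReal n (s + 2 * n * e) (by linarith only [hs, hne])]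
    rw [← measure_preimage_add_right volume (fun _ : Fin n => e) (simplex n (s + 2 * n * e))]
    refine measure_mono fun a ha => ?_
    refine ⟨fun j => ?_, ?_⟩
    · have := ha.1 j
      show 0 < a j + e
      linarith only [he, this]
    · have h1 : ∑ j, (a + fun _ : Fin n => e) j = ∑ j, a j + n * e := by
        simp only [Pi.add_apply]
        rw [Finset.sum_add_distrib, Finset.sum_const, Finset.card_univ, Fintype.card_fin,
          nsmul_eq_mul]
      have h2 := ha.2
      show ∑ j, (a + fun _ : Fin n => e) j < s + 2 * n * e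
      rw [h1]
      linarith only [hne, h2]
  have hcont : Continuous fun e : ℝ => ENNReal.ofReal ((s + 2 * n * e) ^ n / (n.factorial : ℝ)) :=
    ENNReal.continuous_ofReal.comp (by fun_prop)
  have hlim : Filter.Tendsto (fun e : ℝ =>
      ENNReal.ofReal ((s + 2 * n * e) ^ n / (n.factorial : ℝ))) (nhdsWithin 0 (Set.Ioi 0))
      (nhds (ENNReal.ofReal (s ^ n / (n.factorial : ℝ)))) := by
    have h1 := hcont.tendsto 0
    simp only [mul_zero, add_zero] at h1
    exact h1.mono_left nhdsWithin_le_nhds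
  refine ge_of_tendsto hlim ?_
  filter_upwards [self_mem_nhdsWithin] with e he using key e he

theorem h2a_piece (n : ℕ) (R : ℝ) (s : Fin n → ℝ) (j : Fin n) :
    volume {a | a ∈ simplex n R ∧ R - s j ≤ a j} ≤ volume (h2aK n (s j)) := by
  rw [← measure_preimage_add_right volume (Pi.single j (-(R - s j)) : Fin n → ℝ) (h2aK n (s j))]
  refine measure_mono fun a ha => ?_
  obtain ⟨⟨h1, h2⟩, h3⟩ := ha
  refine ⟨fun i => ?_, ?_⟩
  · by_cases hij : i = j
    · subst hij
      show 0 ≤ a i + (Pi.single i (-(R - s i)) : Fin n → ℝ) i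
      rw [Pi.single_eq_same]
      linarith
    · show 0 ≤ a i + (Pi.single j (-(R - s j)) : Fin n → ℝ) i
      rw [Pi.single_eq_of_ne hij]
      have := h1 i
      linarith
  · have h4 : ∑ i, (a + (Pi.single j (-(R - s j)) : Fin n → ℝ)) i = ∑ i, a i + -(R - s j) := by
      simp only [Pi.add_apply]
      rw [Finset.sum_add_distrib, Finset.sum_pi_single']
      simp only [Finset.mem_univ, ↓reduceIte, neg_sub]
    show ∑ i, (a + (Pi.single j (-(R - s j)) : Fin n → ℝ)) i ≤ s j
    rw [h4]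
    linarith

/-- Lower bound for the volume of the simplex minus the corners. -/
theorem CR_volume (n : ℕ) (hn : 1 ≤ n) (R : ℝ) (s : Fin n → ℝ) (s0 : ℝ) (hs : ∀ j, 0 ≤ s j)
    (hs0 : 0 ≤ s0) (hsR : ∀ j, s j ≤ R) (hs0R : s0 ≤ R) (hR : 0 < R) :
    (R ^ n - (∑ j, s j ^ n + s0 ^ n)) / (n.factorial : ℝ) ≤ (volume (CR n R s s0)).toReal := by
  have hsub : CR n R s s0 ⊆ simplex n R := fun a ha => ⟨fun j => (ha.1 j).1, ha.2.2⟩
  have hfin : volume (CR n R s s0) ≠ ⊤ := by
    refine ne_top_of_le_ne_top ?_ (measure_mono hsub)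
    rw [volume_simplex_ofReal n R hR]
    exact ENNReal.ofReal_ne_top
  have hcov : simplex n R ⊆ CR n R s s0 ∪ ((⋃ j : Fin n, {a | a ∈ simplex n R ∧ R - s j ≤ a j}) ∪
      h2aK n s0) := by
    intro a ha
    by_cases h1 : ∃ j, R - s j ≤ a j
    · obtain ⟨j, hj⟩ := h1
      exact Or.inr (Or.inl (Set.mem_iUnion.2 ⟨j, ha, hj⟩))
    · push Not at h1
      by_cases h2 : ∑ j, a j ≤ s0
      · exact Or.inr (Or.inr ⟨fun j => (ha.1 j).le, h2⟩)
      · push Not at h2
        exact Or.inl ⟨fun j => ⟨ha.1 j, h1 j⟩, h2, ha.2⟩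
  have hle : volume (simplex n R) ≤ volume (CR n R s s0) +
      ((∑ j, ENNReal.ofReal (s j ^ n / (n.factorial : ℝ))) +
        ENNReal.ofReal (s0 ^ n / (n.factorial : ℝ))) := by
    refine (measure_mono hcov).trans ((measure_union_le _ _).trans (add_le_add le_rfl ?_))
    refine (measure_union_le _ _).trans (add_le_add ?_ (h2aK_volume n hn s0 hs0))
    refine (measure_iUnion_fintype_le _ _).trans (Finset.sum_le_sum fun j _ => ?_)
    exact (h2a_piece n R s j).trans (h2aK_volume n hn (s j) (hs j))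
  have hf : (0 : ℝ) < n.factorial := by exact_mod_cast n.factorial_pos
  have hsn : ∀ j, 0 ≤ s j ^ n / (n.factorial : ℝ) := fun j => by
    have := hs j
    (clear * - this; positivity)
  have hsum : 0 ≤ ∑ j, s j ^ n / (n.factorial : ℝ) := Finset.sum_nonneg fun j _ => hsn j
  have hs0n : 0 ≤ s0 ^ n / (n.factorial : ℝ) := by positivity
  obtain ⟨v, hv⟩ : ∃ v : ℝ, v = (volume (CR n R s s0)).toReal := ⟨_, rfl⟩
  have hv0 : 0 ≤ v := by rw [hv]; exact ENNReal.toReal_nonneg
  have hvV : volume (CR n R s s0) = ENNReal.ofReal v := by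
    rw [hv]; exact (ENNReal.ofReal_toReal hfin).symm
  rw [hvV, volume_simplex_ofReal n R hR, ← ENNReal.ofReal_sum_of_nonneg (fun j _ => hsn j),
    ← ENNReal.ofReal_add hsum hs0n, ← ENNReal.ofReal_add hv0 (add_nonneg hsum hs0n),
    ENNReal.ofReal_le_ofReal_iff (add_nonneg hv0 (add_nonneg hsum hs0n)),
    ← Finset.sum_div] at hle
  rw [← hv, sub_div, add_div]
  linarith only [hle]

end Vale.Agent.P209.Strong
end
end
end
end

section

section

section

section

namespace Vale.Agent.P209.Strong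

open MeasureTheory

/-- The enlarged size of the corner `p`. -/
noncomputable def h3s {n : ℕ} (P : Finset (Option (Fin n))) (b : Option (Fin n) → ℝ) (τ : ℝ)
    (p : Option (Fin n)) : ℝ := if p ∈ P then b p + τ else 0

/-- The corner regions. -/
def h3C {n : ℕ} (R : ℝ) (s : Option (Fin n) → ℝ) : Option (Fin n) → Set (Fin n → ℝ)
  | none => simplex n (s none)
  | some j => {a | a ∈ simplex n R ∧ R - s (some j) < a j}

theorem h3_single_le {n : ℕ} {a : Fin n → ℝ} (ha : ∀ j, 0 < a j) (j : Fin n) :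
    a j ≤ ∑ i, a i :=
  Finset.single_le_sum (fun i _ => (ha i).le) (Finset.mem_univ j)

theorem h3_pair_le {n : ℕ} {a : Fin n → ℝ} (ha : ∀ j, 0 < a j) {i j : Fin n} (hij : i ≠ j) :
    a i + a j ≤ ∑ i, a i := by
  classical
  rw [← Finset.sum_pair hij]
  exact Finset.sum_le_sum_of_subset_of_nonneg (Finset.subset_univ _) fun k _ _ => (ha k).le

theorem h3_disj {n : ℕ} {R : ℝ} {s : Option (Fin n) → ℝ}
    (hs : ∀ p q, p ≠ q → s p + s q ≤ R) {p q : Option (Fin n)} (hpq : p ≠ q) :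
    Disjoint (h3C R s p) (h3C R s q) := by
  rw [Set.disjoint_left]
  intro a ha hb
  rcases p with _ | i
  · rcases q with _ | j
    · exact hpq rfl
    · have h1 : ∑ k, a k < s none := ha.2
      have h2 : R - s (some j) < a j := hb.2
      have h3 := h3_single_le ha.1 j
      have h4 := hs none (some j) hpq
      linarith
  · rcases q with _ | j
    · have h1 : ∑ k, a k < s none := hb.2
      have h2 : R - s (some i) < a i := ha.2
      have h3 := h3_single_le hb.1 i
      have h4 := hs (some i) none hpq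
      linarith
    · have hij : i ≠ j := fun h => hpq (by rw [h])
      have h1 : R - s (some i) < a i := ha.2
      have h2 : R - s (some j) < a j := hb.2
      have h3 := h3_pair_le ha.1.1 hij
      have h4 := hs (some i) (some j) hpq
      have h5 : ∑ k, a k < R := ha.1.2
      linarith

theorem h3_disj0 {n : ℕ} {R : ℝ} {s : Option (Fin n) → ℝ} (p : Option (Fin n)) :
    Disjoint (h3C R s p) (CR n R (fun j => s (some j)) (s none)) := by
  rw [Set.disjoint_left]
  intro a ha hb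
  rcases p with _ | j
  · have h1 : ∑ k, a k < s none := ha.2
    have h2 : s none < ∑ k, a k := hb.2.1
    exact lt_asymm h1 h2
  · have h1 : R - s (some j) < a j := ha.2
    have h2 : a j < R - s (some j) := (hb.1 j).2
    exact lt_asymm h1 h2

/-- The choice of the enlargement. -/
theorem h3_tau {n : ℕ} {H R : ℝ} (hH : 0 < H) {P : Finset (Option (Fin n))}
    {b : Option (Fin n) → ℝ} (hpair : ∀ p ∈ P, ∀ q ∈ P, p ≠ q → b p + b q < R) {V : ℝ}
    (hV : ∑ p ∈ P, b p ^ n + V < R ^ n) :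
    ∃ τ : ℝ, 0 < τ ∧ τ ≤ H ∧ (∀ p ∈ P, ∀ q ∈ P, p ≠ q → (b p + τ) + (b q + τ) ≤ R) ∧
      ∑ p ∈ P, (b p + τ) ^ n + V < R ^ n := by
  have e1 : ∀ᶠ τ : ℝ in nhdsWithin 0 (Set.Ioi 0), τ < H :=
    nhdsWithin_le_nhds (Iio_mem_nhds hH)
  have e2 : ∀ᶠ τ : ℝ in nhdsWithin 0 (Set.Ioi 0), ∀ p ∈ P, ∀ q ∈ P, p ≠ q →
      (b p + τ) + (b q + τ) < R := by
    rw [Filter.eventually_all_finset]
    intro p hp
    rw [Filter.eventually_all_finset]
    intro q hq
    by_cases hpq : p = q
    · exact Filter.Eventually.of_forall fun τ h => absurd hpq h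
    · have hc : Continuous fun τ : ℝ => (b p + τ) + (b q + τ) := by fun_prop
      have h0 : (b p + 0) + (b q + 0) < R := by
        rw [add_zero, add_zero]
        exact hpair p hp q hq hpq
      have h1 : ∀ᶠ τ : ℝ in nhds 0, (b p + τ) + (b q + τ) < R :=
        hc.continuousAt.eventually_lt continuousAt_const h0
      filter_upwards [nhdsWithin_le_nhds h1] with τ h _ using h
  have e3 : ∀ᶠ τ : ℝ in nhdsWithin 0 (Set.Ioi 0), ∑ p ∈ P, (b p + τ) ^ n + V < R ^ n := by
    have hc : Continuous fun τ : ℝ => ∑ p ∈ P, (b p + τ) ^ n + V := by fun_prop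
    have h0 : ∑ p ∈ P, (b p + 0) ^ n + V < R ^ n := by
      simp only [add_zero]
      exact hV
    have h1 : ∀ᶠ τ : ℝ in nhds 0, ∑ p ∈ P, (b p + τ) ^ n + V < R ^ n :=
      hc.continuousAt.eventually_lt continuousAt_const h0
    exact nhdsWithin_le_nhds h1
  obtain ⟨τ, ⟨⟨h1, h2⟩, h3⟩, h4⟩ :=
    (((e1.and e2).and e3).and (self_mem_nhdsWithin (a := (0 : ℝ)) (s := Set.Ioi 0))).exists
  exact ⟨τ, h4, h1.le, fun p hp q hq hpq => (h2 p hp q hq hpq).le, h3⟩

/-- At most `n + 1` balls in the corners, and many small balls. The corner `none` is the one at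
the origin. -/
theorem corner_packs (n : ℕ) (hn : 2 ≤ n) (δ N : ℝ) (hδ : 0 < δ) (hδ1 : δ ≤ 1) (hN : 0 ≤ N) :
    ∃ H0 : ℝ, 0 < H0 ∧ ∀ (R : ℝ) (P : Finset (Option (Fin n))) (b : Option (Fin n) → ℝ),
      none ∈ P → (∀ p ∈ P, 0 < b p) → (∀ p ∈ P, b p ≤ b none) →
      (∀ p ∈ P, ∀ q ∈ P, p ≠ q → b p + b q < R) → H0 ≤ R - b none →
      ∀ (ι : Type) [Fintype ι] (r : ι → ℝ) (J : Finset ι), (∀ i, 0 < r i ∧ r i ≤ 1) →
        (∀ i, i ∉ J → δ ≤ r i) → ∑ i ∈ J, r i ≤ N → ∑ p ∈ P, b p ^ n + ∑ i, r i ^ n < R ^ n →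
        TPk (simplex n R) (Sum.elim (fun p : P => b p) r) := by
  classical
  obtain ⟨H, hH, hF⟩ := CR_fill n hn δ N hδ hδ1 hN
  refine ⟨2 * H, by positivity, ?_⟩
  intro R P b hnone hb hbn hpair hgap ι _ r J hr hδr hJ hvol
  obtain ⟨τ, hτ, hτH, hτp, hτv⟩ := h3_tau hH hpair hvol
  set s := h3s P b τ with hs
  have hsP : ∀ p ∈ P, s p = b p + τ := fun p hp => by rw [hs, h3s, if_pos hp]
  have hsN : ∀ p, p ∉ P → s p = 0 := fun p hp => by rw [hs, h3s, if_neg hp]
  have hsnone := hsP none hnone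
  have hb0 := hb none hnone
  have hs0 : ∀ p, 0 ≤ s p := by
    intro p
    by_cases hp : p ∈ P
    · rw [hsP p hp]
      exact (add_pos (hb p hp) hτ).le
    · rw [hsN p hp]
  have hsle : ∀ p, s p ≤ s none := by
    intro p
    by_cases hp : p ∈ P
    · rw [hsP p hp, hsnone]
      exact add_le_add_left (hbn p hp) τ
    · rw [hsN p hp]
      exact hs0 none
  have hgap' : H ≤ R - s none := by
    rw [hsnone]
    linarith only [hgap, hτH]
  have hR : 0 < R := by linarith only [hH, hgap, hb0]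
  have hsR : ∀ p, s p ≤ R := fun p => (hsle p).trans (by linarith only [hH, hgap, hτH, hsnone])
  have hsum : ∀ p q, p ≠ q → s p + s q ≤ R := by
    intro p q hpq
    by_cases hp : p ∈ P
    · by_cases hq : q ∈ P
      · rw [hsP p hp, hsP q hq]
        exact hτp p hp q hq hpq
      · rw [hsN q hq, add_zero]
        exact hsR p
    · rw [hsN p hp, zero_add]
      exact hsR q
  have hn1 : 1 ≤ n := by omega
  have hsumpow : ∑ j, s (some j) ^ n + s none ^ n = ∑ p ∈ P, (b p + τ) ^ n := by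
    have h1 : ∑ p : Option (Fin n), s p ^ n = ∑ p ∈ P, (b p + τ) ^ n := by
      rw [← Finset.sum_subset (Finset.subset_univ P) (fun p _ hp => by
        rw [hsN p hp, zero_pow (by omega)])]
      exact Finset.sum_congr rfl fun p hp => by rw [hsP p hp]
    rw [← h1, Fintype.sum_option, add_comm]
  have hvol' : ∑ i, r i ^ n / (n.factorial : ℝ) <
      (volume (CR n R (fun j => s (some j)) (s none))).toReal := by
    refine lt_of_lt_of_le ?_ (CR_volume n hn1 R (fun j => s (some j)) (s none)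
      (fun j => hs0 _) (hs0 _) (fun j => hsR _) (hsR _) hR)
    rw [← Finset.sum_div]
    apply div_lt_div_of_pos_right _ (by exact_mod_cast n.factorial_pos)
    rw [hsumpow]
    linarith only [hτv]
  have hfill := hF R (fun j => s (some j)) (s none) (fun j => hs0 _) (fun j => hsle _)
    (fun i j hij => hsum _ _ (fun h => hij (Option.some_injective _ h)))
    (fun j => hsum _ _ (by simp)) hgap' ι r J hr hδr hJ hvol'
  refine TPk.glue (simplex n R) (CR n R (fun j => s (some j)) (s none))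
    (fun p : P => h3C R s p) (fun p : P => b p) r ?_ hfill ?_ ?_ ?_ ?_
  · rintro ⟨p, hp⟩
    rcases p with _ | j
    · exact corner_emb_zero (hb _ hp).le (by rw [hsP _ hp]; linarith only [hτ])
    · exact corner_emb j (hb _ hp).le (by rw [hsP _ hp]; linarith only [hτ]) (hsR _)
  · rintro ⟨p, hp⟩ a ha
    rcases p with _ | j
    · exact ⟨ha.1, lt_of_lt_of_le ha.2 (hsR none)⟩
    · exact ha.1
  · intro a ha
    exact ⟨fun j => (ha.1 j).1, ha.2.2⟩
  · rintro ⟨p, hp⟩ ⟨q, hq⟩ hpq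
    exact h3_disj hsum fun h => hpq (Subtype.ext h)
  · rintro ⟨p, hp⟩
    exact h3_disj0 p

end Vale.Agent.P209.Strong
end
end
end
end

section

section

section

section

set_option linter.all false

namespace Vale.Agent.P209.Strong

open Vale.Agent.P209

/-- Merging a group of small balls, in the presence of big balls. -/
theorem h4_merge {n : ℕ} {κ ι : Type} {R ρ : ℝ} (b : κ → ℝ) (r : ι → ℝ) (G : Set ι)
    (h : Packs (openBall n R)
      (Sum.elim b (fun o : Option (Gᶜ : Set ι) => o.elim ρ (fun i => r i))))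
    (hG : Packs (openBall n ρ) (fun i : G => r i)) : Packs (openBall n R) (Sum.elim b r) := by
  refine Packs.merge (ρ := ρ) (Sum.inr '' G) ?_ ?_
  · have e : ∀ o : Option (((Sum.inr '' G : Set (κ ⊕ ι))ᶜ : Set (κ ⊕ ι))),
        ∃ x : κ ⊕ Option (Gᶜ : Set ι),
          (o = none ∧ x = Sum.inr none) ∨
          (∃ (p : κ) (hp : Sum.inl p ∈ (Sum.inr '' G : Set (κ ⊕ ι))ᶜ),
            o = some ⟨Sum.inl p, hp⟩ ∧ x = Sum.inl p) ∨
          (∃ (i : ι) (hi : Sum.inr i ∈ (Sum.inr '' G : Set (κ ⊕ ι))ᶜ) (hi' : i ∈ Gᶜ),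
            o = some ⟨Sum.inr i, hi⟩ ∧ x = Sum.inr (some ⟨i, hi'⟩)) := by
      rintro (_ | ⟨p | i, hp⟩)
      · exact ⟨_, Or.inl ⟨rfl, rfl⟩⟩
      · exact ⟨_, Or.inr (Or.inl ⟨p, hp, rfl, rfl⟩)⟩
      · exact ⟨_, Or.inr (Or.inr ⟨i, hp, fun h => hp ⟨i, h, rfl⟩, rfl, rfl⟩)⟩
    choose e he using e
    have hinj : Function.Injective e := by
      intro o o' hoo
      rcases he o with ⟨h1, h2⟩ | ⟨p, hp, h1, h2⟩ | ⟨i, hi, hi', h1, h2⟩ <;>
      rcases he o' with ⟨h3, h4⟩ | ⟨q, hq, h3, h4⟩ | ⟨j, hj, hj', h3, h4⟩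
      · rw [h1, h3]
      · rw [h2, h4] at hoo; simp at hoo
      · rw [h2, h4] at hoo; simp at hoo
      · rw [h2, h4] at hoo; simp at hoo
      · rw [h2, h4] at hoo
        obtain rfl := Sum.inl_injective hoo
        rw [h1, h3]
      · rw [h2, h4] at hoo; simp at hoo
      · rw [h2, h4] at hoo; simp at hoo
      · rw [h2, h4] at hoo; simp at hoo
      · rw [h2, h4] at hoo
        have h5 := congrArg Subtype.val (Option.some_injective _ (Sum.inr_injective hoo))
        simp only at h5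
        subst h5
        rw [h1, h3]
    have h6 := Packs.comp_inj h e hinj
    have e3 : (fun o => Sum.elim b (fun o : Option (Gᶜ : Set ι) => o.elim ρ (fun i => r i)) (e o)) =
        fun o : Option (((Sum.inr '' G : Set (κ ⊕ ι))ᶜ : Set (κ ⊕ ι))) =>
          o.elim ρ (fun i => Sum.elim b r i) := by
      funext o
      rcases he o with ⟨h1, h2⟩ | ⟨p, hp, h1, h2⟩ | ⟨i, hi, hi', h1, h2⟩
      · rw [h2, h1]; rfl
      · rw [h2, h1]; rfl
      · rw [h2, h1]; rfl
    rw [e3] at h6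
    exact h6
  · have e : ∀ x : (Sum.inr '' G : Set (κ ⊕ ι)), ∃ y : G, (x : κ ⊕ ι) = Sum.inr (y : ι) := by
      rintro ⟨_, i, hi, rfl⟩
      exact ⟨⟨i, hi⟩, rfl⟩
    choose e he using e
    have hinj : Function.Injective e := by
      intro x y hxy
      apply Subtype.ext
      rw [he x, he y, hxy]
    have h6 := Packs.comp_inj hG e hinj
    have e3 : (fun k => (fun i : G => r i) (e k)) =
        fun i : (Sum.inr '' G : Set (κ ⊕ ι)) => Sum.elim b r i := by
      funext x
      rw [he x]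
      rfl
    rw [e3] at h6
    exact h6

/-- Reduction to small balls with few dyadic classes, by merging groups of tiny balls. -/
theorem merging (n : ℕ) (hn : 2 ≤ n) : ∃ (Nr : ℕ) (δ1 : ℝ), 0 < δ1 ∧ δ1 ≤ 1 ∧
    ∀ (R s : ℝ) (κ : Type) [Fintype κ] (b : κ → ℝ), 0 < R → 0 < s → (∀ p, 0 < b p) →
      (∀ (ι : Type) [Fintype ι] (r : ι → ℝ) (J : Finset ι), (∀ i, 0 < r i ∧ r i ≤ s) →
        (∀ i, i ∉ J → δ1 * s ≤ r i) → ∑ i ∈ J, r i ≤ 2 * Nr * s →
        ∑ p, b p ^ n + ∑ i, r i ^ n < R ^ n → Packs (openBall n R) (Sum.elim b r)) →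
      ∀ (ι : Type) [Fintype ι] (r : ι → ℝ), (∀ i, 0 < r i ∧ r i ≤ s) →
        ∑ p, b p ^ n + ∑ i, r i ^ n < R ^ n → Packs (openBall n R) (Sum.elim b r) := by
  classical
  obtain ⟨R1, hR1, hF1⟩ := simplex_fill n hn (1 / 2) 0 (by norm_num) (by norm_num) le_rfl
  set m1 : ℝ := max R1 2 with hm1
  have hm1R : R1 ≤ m1 := le_max_left _ _
  have hm12 : 2 ≤ m1 := le_max_right _ _
  set Nr : ℕ := ⌈(2 * m1) ^ n⌉₊ with hNr
  have hNr1 : (2 * m1) ^ n ≤ (Nr : ℝ) := Nat.le_ceil _
  have hNr2 : 2 ≤ Nr := by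
    have h1 : (1 : ℝ) ≤ 2 * m1 := by linarith only [hm12]
    have h2 : (2 * m1) ^ 1 ≤ (2 * m1) ^ n := pow_le_pow_right₀ h1 (by omega)
    have h3 : (2 : ℝ) ≤ (Nr : ℝ) := by
      rw [pow_one] at h2; linarith only [h2, hNr1, hm12]
    exact_mod_cast h3
  have hNrR : (2 : ℝ) ≤ (Nr : ℝ) := by exact_mod_cast hNr2
  set δ1 : ℝ := 1 / (2 * (Nr + 1)) with hδ1
  have hδ1p : 0 < δ1 := by positivity
  have hδ1l : δ1 ≤ 1 := by
    rw [hδ1, div_le_one (by positivity)]; linarith only [hNrR]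
  refine ⟨Nr, δ1, hδ1p, hδ1l, ?_⟩
  intro R s κ _ b hR hsp hb hbase
  have hbnn : 0 ≤ ∑ p, b p ^ n := Finset.sum_nonneg fun p _ => pow_nonneg (hb p).le n
  -- strong induction on the number of balls
  have key : ∀ k : ℕ, ∀ (ι : Type) [Fintype ι], Fintype.card ι = k → ∀ (r : ι → ℝ),
      (∀ i, 0 < r i ∧ r i ≤ s) → ∑ p, b p ^ n + ∑ i, r i ^ n < R ^ n →
      Packs (openBall n R) (Sum.elim b r) := by
    intro k
    induction k using Nat.strong_induction_on with
    | _ k ih =>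
    intro ι _ hcard r hrs hsum
    by_cases hcase : ∃ (j : ℕ) (G : Finset ι), (1 / 2 : ℝ) ^ j * (Nr + 1) ≤ 1 ∧
        (∀ k ∈ G, (1 / 2 : ℝ) ^ (j + 1) * s < r k ∧ r k ≤ (1 / 2 : ℝ) ^ j * s) ∧ G.card = Nr
    · obtain ⟨j, G, hj, hG, hGc⟩ := hcase
      set y : ℝ := (1 / 2 : ℝ) ^ j * s with hy
      have hyp : 0 < y := by positivity
      have hGy : ∀ k ∈ G, 1 / 2 * y < r k ∧ r k ≤ y := by
        intro k hk
        refine ⟨?_, (hG k hk).2⟩
        have := (hG k hk).1
        rw [pow_succ] at this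
        rw [hy]; linarith only [this]
      set θ : ℝ := min ((R ^ n - (∑ p, b p ^ n + ∑ i, r i ^ n)) / 2) (y ^ n) with hθ
      have hθp : 0 < θ := lt_min (by linarith only [hsum]) (by positivity)
      have hθ1 : θ ≤ (R ^ n - (∑ p, b p ^ n + ∑ i, r i ^ n)) / 2 := min_le_left _ _
      have hθ2 : θ ≤ y ^ n := min_le_right _ _
      set P : ℝ := ∑ i ∈ G, r i ^ n + θ with hP
      have hGnn : 0 ≤ ∑ i ∈ G, r i ^ n := Finset.sum_nonneg fun i _ => pow_nonneg (hrs i).1.le n
      have hPp : 0 < P := by rw [hP]; linarith only [hGnn, hθp]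
      set ρ : ℝ := P ^ ((n : ℝ)⁻¹) with hρ
      have hρp : 0 < ρ := Real.rpow_pos_of_pos hPp _
      have hρn : ρ ^ n = P := Real.rpow_inv_natCast_pow hPp.le (by omega)
      have hlow : m1 * y ≤ ρ := by
        have h1 : (m1 * y) ^ n ≤ ρ ^ n := by
          rw [hρn, hP]
          have h2 : ∑ i ∈ G, (1 / 2 * y) ^ n ≤ ∑ i ∈ G, r i ^ n :=
            Finset.sum_le_sum fun i hi => pow_le_pow_left₀ (by positivity) (hGy i hi).1.le n
          rw [Finset.sum_const, nsmul_eq_mul, hGc] at h2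
          have h3 : (m1 * y) ^ n = (2 * m1) ^ n * (1 / 2 * y) ^ n := by
            rw [← mul_pow]; congr 1; ring
          have h4 : (2 * m1) ^ n * (1 / 2 * y) ^ n ≤ (Nr : ℝ) * (1 / 2 * y) ^ n :=
            mul_le_mul_of_nonneg_right hNr1 (by positivity)
          linarith only [h2, h3, h4, hθp]
        exact le_of_pow_le_pow_left₀ (by omega) hρp.le h1
      have hup : ρ ≤ s := by
        have h1 : ρ ^ n ≤ ((Nr + 1) * y) ^ n := by
          rw [hρn, hP]
          have h2 : ∑ i ∈ G, r i ^ n ≤ ∑ i ∈ G, y ^ n :=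
            Finset.sum_le_sum fun i hi => pow_le_pow_left₀ (hrs i).1.le (hGy i hi).2 n
          rw [Finset.sum_const, nsmul_eq_mul, hGc] at h2
          have h3 : ((Nr : ℝ) + 1) * y ^ n ≤ ((Nr + 1) * y) ^ n := by
            have h31 : ((Nr : ℝ) + 1) ≤ ((Nr : ℝ) + 1) ^ n := by
              calc ((Nr : ℝ) + 1) = ((Nr : ℝ) + 1) ^ 1 := (pow_one _).symm
                _ ≤ ((Nr : ℝ) + 1) ^ n := pow_le_pow_right₀ (by linarith only [hNrR]) (by omega)
            have h32 : (((Nr : ℝ) + 1) * y) ^ n = ((Nr : ℝ) + 1) ^ n * y ^ n :=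
              mul_pow ((Nr : ℝ) + 1) y n
            rw [h32]
            exact mul_le_mul_of_nonneg_right h31 (pow_nonneg hyp.le n)
          linarith only [h2, h3, hθ2]
        have h4 : ρ ≤ (Nr + 1) * y := le_of_pow_le_pow_left₀ (by omega) (by positivity) h1
        have h5 : (Nr + 1) * y ≤ s := by
          rw [hy]
          calc ((Nr : ℝ) + 1) * ((1 / 2 : ℝ) ^ j * s) = ((1 / 2 : ℝ) ^ j * (Nr + 1)) * s := by ring
            _ ≤ 1 * s := mul_le_mul_of_nonneg_right hj hsp.le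
            _ = s := one_mul s
        exact h4.trans h5
      -- the group packs the virtual ball
      have hpackG : Packs (openBall n ρ) (fun i : (G : Set ι) => r i) := by
        have hm : 0 < ρ / y := div_pos hρp hyp
        have hm' : R1 ≤ ρ / y := by
          rw [le_div_iff₀ hyp]
          calc R1 * y ≤ m1 * y := mul_le_mul_of_nonneg_right hm1R hyp.le
            _ ≤ ρ := hlow
        have hmy : ρ / y * y = ρ := by (clear * - hyp hρp; field_simp)
        have := packs_of_Fill hm hyp (hF1 _ hm') (G : Set ι) (fun i : (G : Set ι) => r i) ∅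
          (fun i => ⟨(hrs i).1, (hGy i i.2).2⟩) (fun i _ => (hGy i i.2).1.le) (by simp) (by
            rw [hmy, hρn, hP]
            have h1 : ∑ i : (G : Set ι), r i ^ n = ∑ i ∈ G, r i ^ n := by
              rw [← Finset.sum_coe_sort G]
              rfl
            rw [h1]; linarith only [hθp])
        rwa [hmy] at this
      refine h4_merge b r (G : Set ι) (ρ := ρ) ?_ hpackG
      -- the family with the virtual ball
      have hcompl : Fintype.card (↥((G : Set ι)ᶜ)) = k - Nr := by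
        rw [Fintype.card_compl_set]
        simp only [hcard, SetLike.coe_sort_coe, Fintype.card_coe, hGc]
      have hGk : Nr ≤ k := by
        rw [← hcard, ← hGc]; exact Finset.card_le_univ G
      refine ih (k - Nr + 1) (by omega) (Option (↥((G : Set ι)ᶜ))) (by
        rw [Fintype.card_option, hcompl]) _ ?_ ?_
      · rintro (_ | i)
        · exact ⟨hρp, hup⟩
        · exact hrs i
      · rw [Fintype.sum_option]
        show ∑ p, b p ^ n + (ρ ^ n + ∑ i : ↥((G : Set ι)ᶜ), r i ^ n) < R ^ n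
        have h1 : ∑ i : ↥((G : Set ι)ᶜ), r i ^ n = ∑ i ∈ Gᶜ, r i ^ n := by
          rw [← Finset.sum_coe_sort Gᶜ]
          refine Fintype.sum_equiv (Equiv.subtypeEquivRight ?_) _ _ ?_
          · intro x; simp
          · intro x; rfl
        rw [h1, hρn, hP]
        have h2 := Finset.sum_add_sum_compl G (fun i => r i ^ n)
        linarith only [h2, hθ1, hsum]
    · push Not at hcase
      -- the least `j0` with `2^{-j0} (Nr + 1) ≤ 1`
      have hex : ∃ j : ℕ, (1 / 2 : ℝ) ^ j * (Nr + 1) ≤ 1 := by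
        obtain ⟨j, hj⟩ := exists_pow_lt_of_lt_one (x := 1 / ((Nr : ℝ) + 1)) (y := 1 / 2)
          (by positivity) (by norm_num)
        refine ⟨j, ?_⟩
        rw [lt_div_iff₀ (by positivity)] at hj
        exact hj.le
      set j0 := Nat.find hex with hj0
      have hj0s : (1 / 2 : ℝ) ^ j0 * (Nr + 1) ≤ 1 := Nat.find_spec hex
      have hj0p : j0 ≠ 0 := by
        intro h0
        rw [h0, pow_zero, one_mul] at hj0s
        linarith only [hj0s, hNrR]
      have hj0m : 1 < (1 / 2 : ℝ) ^ (j0 - 1) * (Nr + 1) := by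
        have := Nat.find_min hex (m := j0 - 1) (by omega)
        push Not at this
        exact this
      have hδj : δ1 ≤ (1 / 2 : ℝ) ^ j0 := by
        have h1 : (1 / 2 : ℝ) ^ (j0 - 1) = 2 * (1 / 2 : ℝ) ^ j0 := by
          obtain ⟨i, hi⟩ := Nat.exists_eq_succ_of_ne_zero hj0p
          rw [hi, Nat.succ_sub_one, pow_succ]; ring
        rw [h1] at hj0m
        rw [hδ1, div_le_iff₀ (by positivity)]
        linarith only [hj0m]
      set J : Finset ι := Finset.univ.filter fun i => r i ≤ (1 / 2 : ℝ) ^ j0 * s with hJ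
      have hJsum : ∑ i ∈ J, r i ≤ 2 * Nr * s := by
        refine sum_small_le r s hsp Nr J (fun i _ => hrs i) ?_
        intro i hi j hj1 hj2 G hG
        by_contra hlt
        push Not at hlt
        obtain ⟨G', hG', hG'c⟩ := Finset.exists_subset_card_eq hlt
        have hjj : j0 ≤ j := by
          by_contra hh
          push Not at hh
          have h1 : (1 / 2 : ℝ) ^ j0 ≤ (1 / 2 : ℝ) ^ (j + 1) :=
            pow_le_pow_of_le_one (by norm_num) (by norm_num) hh
          have h2 : r i ≤ (1 / 2 : ℝ) ^ j0 * s := by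
            rw [hJ, Finset.mem_filter] at hi; exact hi.2
          have h3 : (1 / 2 : ℝ) ^ j0 * s ≤ (1 / 2 : ℝ) ^ (j + 1) * s :=
            mul_le_mul_of_nonneg_right h1 hsp.le
          linarith only [h2, h3, hj1]
        have hj : (1 / 2 : ℝ) ^ j * (Nr + 1) ≤ 1 := by
          have h1 : (1 / 2 : ℝ) ^ j ≤ (1 / 2 : ℝ) ^ j0 :=
            pow_le_pow_of_le_one (by norm_num) (by norm_num) hjj
          have h2 : (1 / 2 : ℝ) ^ j * ((Nr : ℝ) + 1) ≤ (1 / 2 : ℝ) ^ j0 * (Nr + 1) :=
            mul_le_mul_of_nonneg_right h1 (by positivity)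
          linarith only [h2, hj0s]
        exact hcase j G' hj (fun k hk => hG k (hG' hk)) hG'c
      exact hbase ι r J hrs (by
          intro i hi
          have h1 : (1 / 2 : ℝ) ^ j0 * s < r i := by
            by_contra hh
            push Not at hh
            exact hi (by rw [hJ, Finset.mem_filter]; exact ⟨Finset.mem_univ i, hh⟩)
          have h2 : δ1 * s ≤ (1 / 2 : ℝ) ^ j0 * s := mul_le_mul_of_nonneg_right hδj hsp.le
          exact h2.trans h1.le) hJsum hsum
  intro ι _ r hr hsum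
  exact key (Fintype.card ι) ι rfl r hr hsum

end Vale.Agent.P209.Strong
end
end
end
end

section

section

section

section

namespace Vale.Agent.P209.Strong

open Vale.Agent.P209

/-- An injection into the corners which sends a given index to the corner at the origin. -/
theorem h5_inj {n : ℕ} {κ : Type} [Fintype κ] (h : Fintype.card κ ≤ n + 1) (p0 : κ) :
    ∃ e : κ → Option (Fin n), Function.Injective e ∧ e p0 = none := by
  classical
  have h1 : Fintype.card κ ≤ Fintype.card (Option (Fin n)) := by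
    rw [Fintype.card_option, Fintype.card_fin]
    exact h
  obtain ⟨e0⟩ := Function.Embedding.nonempty_of_card_le h1
  refine ⟨fun p => Equiv.swap (e0 p0) none (e0 p), ?_, Equiv.swap_apply_left _ _⟩
  exact (Equiv.swap (e0 p0) none).injective.comp e0.injective

/-- Conjecture A holds when all but at most `n + 1` capacities are small compared with
`R - max r`. -/
theorem corner_stability (n : ℕ) (hn : 2 ≤ n) : ∃ ε : ℝ, 0 < ε ∧
    ∀ (ι : Type) [Fintype ι] (R : ℝ) (r : ι → ℝ) (B : Finset ι) (i0 : ι), (∀ i, 0 < r i) →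
      B.card ≤ n + 1 → i0 ∈ B → (∀ i ∈ B, r i ≤ r i0) → r i0 < R →
      (∀ i ∈ B, ∀ j ∈ B, i ≠ j → r i + r j < R) → (∀ i, i ∉ B → r i ≤ ε * (R - r i0)) →
      ∑ i, r i ^ n < R ^ n → Packs (openBall n R) r := by
  classical
  obtain ⟨Nr, δ1, hδ1, hδ1', hM⟩ := merging n hn
  obtain ⟨H0, hH0, hC⟩ := corner_packs n hn δ1 (2 * Nr) hδ1 hδ1' (by positivity)
  refine ⟨1 / H0, by positivity, ?_⟩
  intro ι _ R r B i0 hr hB hi0 hmax hlt hpair hsmall hsum
  set s : ℝ := 1 / H0 * (R - r i0) with hs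
  have hgap : 0 < R - r i0 := by linarith only [hlt]
  have hs0 : 0 < s := by positivity
  have hR : 0 < R := lt_trans (hr i0) hlt
  have hHs : H0 * s = R - r i0 := by
    rw [hs]
    (clear * - hH0 hgap; field_simp)
  let κ : Type := {i // i ∈ B}
  let b : κ → ℝ := fun p => r p.1
  have hbase : ∀ (ι : Type) [Fintype ι] (r : ι → ℝ) (J : Finset ι), (∀ i, 0 < r i ∧ r i ≤ s) →
      (∀ i, i ∉ J → δ1 * s ≤ r i) → ∑ i ∈ J, r i ≤ 2 * Nr * s →
      ∑ p, b p ^ n + ∑ i, r i ^ n < R ^ n → Packs (openBall n R) (Sum.elim b r) := by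
    intro ι' _ r' J h1 h2 h3 h4
    obtain ⟨e, he, he0⟩ := h5_inj (n := n) (κ := κ) (by
      rw [Fintype.card_coe]
      exact hB) ⟨i0, hi0⟩
    let bb : Option (Fin n) → ℝ := Function.extend e (fun p => r p.1 / s) 0
    have hbb : ∀ p, bb (e p) = r p.1 / s := fun p => he.extend_apply _ _ p
    have hb0 : bb none = r i0 / s := by
      rw [← he0]
      exact hbb _
    let P : Finset (Option (Fin n)) := Finset.univ.image e
    have hP : ∀ p, p ∈ P → ∃ q : κ, e q = p := by
      intro p hp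
      obtain ⟨q, -, hq⟩ := Finset.mem_image.1 hp
      exact ⟨q, hq⟩
    have hPe : ∀ q, e q ∈ P := fun q => Finset.mem_image_of_mem e (Finset.mem_univ q)
    have hsn : 0 < s ^ n := pow_pos hs0 n
    have hT := hC (R / s) P bb (by
        rw [← he0]
        exact hPe _)
      (by
        intro p hp
        obtain ⟨q, rfl⟩ := hP p hp
        rw [hbb]
        exact div_pos (hr _) hs0)
      (by
        intro p hp
        obtain ⟨q, rfl⟩ := hP p hp
        rw [hbb, hb0]
        exact div_le_div_of_nonneg_right (hmax _ q.2) hs0.le)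
      (by
        intro p hp p' hp' hne
        obtain ⟨q, rfl⟩ := hP p hp
        obtain ⟨q', rfl⟩ := hP p' hp'
        rw [hbb, hbb, ← add_div]
        refine div_lt_div_of_pos_right (hpair _ q.2 _ q'.2 fun h => hne ?_) hs0
        rw [Subtype.ext h])
      (by
        rw [hb0, ← sub_div, le_div_iff₀ hs0]
        exact hHs.le)
      ι' (fun i => r' i / s) J
      (fun i => ⟨div_pos (h1 i).1 hs0, (div_le_one hs0).2 (h1 i).2⟩)
      (fun i hi => by
        rw [le_div_iff₀ hs0]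
        exact h2 i hi)
      (by
        rw [← Finset.sum_div, div_le_iff₀ hs0]
        exact h3)
      (by
        have e1 : ∑ p ∈ P, bb p ^ n = ∑ q : κ, (r q.1) ^ n / s ^ n := by
          rw [Finset.sum_image (fun a _ c _ h => he h)]
          exact Finset.sum_congr rfl fun q _ => by rw [hbb, div_pow]
        have e2 : ∑ i, (r' i / s) ^ n = ∑ i, (r' i) ^ n / s ^ n :=
          Finset.sum_congr rfl fun q _ => by rw [div_pow]
        rw [e1, e2, ← Finset.sum_div, ← Finset.sum_div, ← add_div, div_pow]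
        exact div_lt_div_of_pos_right h4 hsn)
    have hK := Packs.scale hs0 (packs_of_TPk hT)
    have hRs : s * (R / s) = R := by (clear * - hs0 hR; field_simp)
    rw [hRs] at hK
    let f : κ ⊕ ι' → P ⊕ ι' := Sum.map (fun q => ⟨e q, hPe q⟩) id
    have hf : Function.Injective f :=
      Function.Injective.sumMap (fun a c h => he (Subtype.ext_iff.1 h)) Function.injective_id
    have hK2 := Packs.comp_inj hK f hf
    have e3 : (fun k => s * Sum.elim (fun p : P => bb p) (fun i => r' i / s) (f k)) =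
        Sum.elim b r' := by
      funext k
      rcases k with q | i
      · simp only [f, Sum.map_inl, Sum.elim_inl, hbb, b]
        (clear * - hs0; field_simp)
      · simp only [f, Sum.map_inr, Sum.elim_inr, id]
        (clear * - hs0; field_simp)
    rw [e3] at hK2
    exact hK2
  have hfin := hM R s κ b hR hs0 (fun p => hr _) hbase {i // i ∉ B} (fun i => r i.1)
    (fun i => ⟨hr _, hsmall _ i.2⟩)
    (by
      have e1 : ∑ i, r i ^ n = (∑ i ∈ B, r i ^ n) + ∑ i ∈ Bᶜ, r i ^ n :=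
        (Finset.sum_add_sum_compl B _).symm
      have e2 : ∑ p : κ, b p ^ n = ∑ i ∈ B, r i ^ n := Finset.sum_coe_sort B (fun i => r i ^ n)
      have e3 : ∑ i : {i // i ∉ B}, r i.1 ^ n = ∑ i ∈ Bᶜ, r i ^ n :=
        (Finset.sum_subtype Bᶜ (fun i => Finset.mem_compl) (fun i => r i ^ n)).symm
      rw [e2, e3, ← e1]
      exact hsum)
  let g : ι → κ ⊕ {i // i ∉ B} := fun i => if h : i ∈ B then Sum.inl ⟨i, h⟩ else Sum.inr ⟨i, h⟩
  have hg : Function.Injective g := by
    intro i j h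
    by_cases hi : i ∈ B <;> by_cases hj : j ∈ B
    · simp only [g, hi, hj, dif_pos, Sum.inl.injEq] at h
      exact Subtype.ext_iff.1 h
    · simp [g, hi, hj] at h
    · simp [g, hi, hj] at h
    · simp only [g, hi, hj, not_false_eq_true, dif_neg, Sum.inr.injEq, Subtype.mk.injEq] at h
      exact h
  have hfin2 := Packs.comp_inj hfin g hg
  have e4 : (fun k => Sum.elim b (fun i : {i // i ∉ B} => r i.1) (g k)) = r := by
    funext i
    by_cases hi : i ∈ B
    · simp only [g, hi, dif_pos, Sum.elim_inl, b]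
    · simp only [g, hi, not_false_eq_true, dif_neg, Sum.elim_inr]
  rw [e4] at hfin2
  exact hfin2

end Vale.Agent.P209.Strong
end
end
end
end

section

section

section

section

namespace Vale.Agent.P209.Strong

open MeasureTheory

/-! J0. Regions between graphs over a simplex in the first `d` coordinates: definitions. -/

/-- `f` only depends on the first `d` coordinates and is `L`-Lipschitz. -/
structure GF {d : ℕ} (L : ℝ) (f : (Fin (d + 1) → ℝ) → ℝ) : Prop where
  dep : ∀ y y', (∀ i : Fin (d + 1), (i : ℕ) < d → y i = y' i) → f y = f y'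
  lip : ∀ y y', |f y - f y'| ≤ L * dist y y'

/-- Points over the open simplex of size `ρ` in the first `d` coordinates. -/
def BS (d : ℕ) (ρ : ℝ) : Set (Fin (d + 1) → ℝ) :=
  {a | (∀ j : Fin (d + 1), (j : ℕ) < d → 0 < a j) ∧ bsum 0 d a < ρ}

/-- The layer between two graphs over the simplex of size `ρ`. -/
def LY {d : ℕ} (ρ : ℝ) (F G : (Fin (d + 1) → ℝ) → ℝ) : Set (Fin (d + 1) → ℝ) :=
  {a | a ∈ BS d ρ ∧ F a < a (Fin.last d) ∧ a (Fin.last d) < G a}

/-- The points over the simplex of size `ρ`, between `0` and `h`, outside the bodies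
`β i ≤ a_d ≤ τ i`, `i < M`. -/
def ST {d : ℕ} (ρ : ℝ) (h : (Fin (d + 1) → ℝ) → ℝ) (M : ℕ)
    (β τ : ℕ → (Fin (d + 1) → ℝ) → ℝ) : Set (Fin (d + 1) → ℝ) :=
  {a | a ∈ BS d ρ ∧ 0 < a (Fin.last d) ∧ a (Fin.last d) < h a ∧
    ∀ i < M, ¬ (β i a ≤ a (Fin.last d) ∧ a (Fin.last d) ≤ τ i a)}

/-- The wedge over the complement of the simplex of size `ρ`. -/
def WD (d : ℕ) (ρ R : ℝ) : Set (Fin (d + 1) → ℝ) :=
  {a | a ∈ simplex (d + 1) R ∧ ρ < bsum 0 d a}

/-- Stack data: the bodies `β i ≤ a_d ≤ τ i` lie in the slabs `lo i ≤ a_d ≤ hi i`, which are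
separated by at least `c * R`, and away from `a_0 = 0`. -/
structure SK {d : ℕ} (c L R ρ : ℝ) (M : ℕ) (β τ lo hi : ℕ → (Fin (d + 1) → ℝ) → ℝ) : Prop where
  gβ : ∀ i < M, GF L (β i)
  gτ : ∀ i < M, GF L (τ i)
  glo : ∀ i < M, GF L (lo i)
  ghi : ∀ i < M, GF L (hi i)
  floor : ∀ i < M, ∀ a ∈ BS d ρ, c * R ≤ lo i a
  lohi : ∀ i < M, ∀ a ∈ BS d ρ, lo i a ≤ hi i a
  step : ∀ i j, i < j → j < M → ∀ a ∈ BS d ρ, hi i a + c * R ≤ lo j a
  body : ∀ i < M, ∀ a ∈ BS d ρ, β i a ≤ τ i a → lo i a ≤ β i a ∧ τ i a ≤ hi i a ∧ c * R ≤ a 0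

end Vale.Agent.P209.Strong
end
end
end
end

section

section

section

section

namespace Vale.Agent.P209.Strong

open MeasureTheory

/-! J1. Elementary properties of graph functions. -/

section
variable {d : ℕ} {L L' : ℝ} {f g : (Fin (d + 1) → ℝ) → ℝ}

theorem GF.mono (h : GF L f) (hL : L ≤ L') : GF L' f :=
  ⟨h.dep, fun y y' => (h.lip y y').trans (mul_le_mul_of_nonneg_right hL dist_nonneg)⟩

theorem GF.const (x : ℝ) (hL : 0 ≤ L) : GF (d := d) L (fun _ => x) :=
  ⟨fun _ _ _ => rfl, fun y y' => by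
    rw [sub_self, abs_zero]
    exact mul_nonneg hL dist_nonneg⟩

theorem GF.add (h : GF L f) (h' : GF L' g) : GF (L + L') (fun a => f a + g a) :=
  ⟨fun y y' hy => by simp only [h.dep y y' hy, h'.dep y y' hy], fun y y' => by
    have h1 := h.lip y y'
    have h2 := h'.lip y y'
    have h3 : f y + g y - (f y' + g y') = (f y - f y') + (g y - g y') := by ring
    have h4 := abs_add_le (f y - f y') (g y - g y')
    simp only [h3]
    linarith only [h1, h2, h4]⟩

theorem GF.sub (h : GF L f) (h' : GF L' g) : GF (L + L') (fun a => f a - g a) :=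
  ⟨fun y y' hy => by simp only [h.dep y y' hy, h'.dep y y' hy], fun y y' => by
    have h1 := h.lip y y'
    have h2 := h'.lip y y'
    have h3 : f y - g y - (f y' - g y') = (f y - f y') - (g y - g y') := by ring
    have h4 := abs_sub (f y - f y') (g y - g y')
    simp only [h3]
    linarith only [h1, h2, h4]⟩

theorem GF.smul (h : GF L f) (x : ℝ) : GF (|x| * L) (fun a => x * f a) :=
  ⟨fun y y' hy => by simp only [h.dep y y' hy], fun y y' => by
    have h1 := h.lip y y'
    have h3 : x * f y - x * f y' = x * (f y - f y') := by ring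
    simp only [h3, abs_mul]
    rw [mul_assoc]
    exact mul_le_mul_of_nonneg_left h1 (abs_nonneg x)⟩

theorem GF.max (h : GF L f) (h' : GF L g) : GF L (fun a => max (f a) (g a)) :=
  ⟨fun y y' hy => by simp only [h.dep y y' hy, h'.dep y y' hy], fun y y' =>
    (abs_max_sub_max_le_max _ _ _ _).trans (max_le (h.lip y y') (h'.lip y y'))⟩

theorem GF.min (h : GF L f) (h' : GF L g) : GF L (fun a => min (f a) (g a)) :=
  ⟨fun y y' hy => by simp only [h.dep y y' hy, h'.dep y y' hy], fun y y' =>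
    (abs_min_sub_min_le_max _ _ _ _).trans (max_le (h.lip y y') (h'.lip y y'))⟩

theorem GF.half (h : GF L f) (h' : GF L g) : GF L (fun a => (f a + g a) / 2) :=
  ⟨fun y y' hy => by simp only [h.dep y y' hy, h'.dep y y' hy], fun y y' => by
    have h1 := abs_le.1 (h.lip y y')
    have h2 := abs_le.1 (h'.lip y y')
    exact abs_le.2 ⟨by linarith only [h1, h2], by linarith [h1.2, h2.2]⟩⟩

theorem GF.continuous (h : GF L f) : Continuous f := by
  have h1 : LipschitzWith (Real.toNNReal |L|) f := LipschitzWith.of_dist_le_mul fun y y' => by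
    rw [Real.coe_toNNReal _ (abs_nonneg L), Real.dist_eq]
    exact (h.lip y y').trans (mul_le_mul_of_nonneg_right (le_abs_self L) dist_nonneg)
  exact h1.continuous

private theorem j1_bsum (a : Fin (d + 1) → ℝ) : bsum 0 d a = ∑ i : Fin d, a (Fin.castSucc i) := by
  unfold bsum
  rw [Fin.sum_univ_castSucc]
  have h1 : ¬ (0 ≤ ((Fin.last d : Fin (d + 1)) : ℕ) ∧ ((Fin.last d : Fin (d + 1)) : ℕ) < d) := by
    simp
  rw [if_neg h1, add_zero]
  refine Finset.sum_congr rfl fun i _ => ?_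
  rw [if_pos ⟨Nat.zero_le _, by simp⟩]

theorem GF_bsum (d : ℕ) : GF (d := d) (d : ℝ) (fun a => bsum 0 d a) :=
  ⟨fun y y' hy => by
    simp only [j1_bsum]
    exact Finset.sum_congr rfl fun i _ => hy _ (by simp), fun y y' => by
    simp only [j1_bsum]
    rw [← Finset.sum_sub_distrib]
    refine (Finset.abs_sum_le_sum_abs _ _).trans ?_
    refine (Finset.sum_le_card_nsmul _ _ (dist y y') fun i _ => ?_).trans ?_
    · rw [← Real.dist_eq]
      exact dist_le_pi_dist y y' _
    · simp only [Finset.card_univ, Fintype.card_fin, nsmul_eq_mul, Std.le_refl]⟩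

/-- The bump near `a_0 = 0`. -/
theorem GF_bump (hd : 1 ≤ d) (x : ℝ) : GF (d := d) 1 (fun a => Max.max 0 (x - |a 0|)) :=
  ⟨fun y y' hy => by
    have h1 : y 0 = y' 0 := hy 0 (by rw [Fin.val_zero]; omega)
    simp only [h1], fun y y' => by
    refine (abs_max_sub_max_le_max _ _ _ _).trans ?_
    rw [one_mul]
    refine max_le ?_ ?_
    · rw [sub_self, abs_zero]
      exact dist_nonneg
    · have h1 : x - |y 0| - (x - |y' 0|) = |y' 0| - |y 0| := by ring
      rw [h1]
      refine (abs_abs_sub_abs_le _ _).trans ?_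
      rw [abs_sub_comm, ← Real.dist_eq]
      exact dist_le_pi_dist y y' 0⟩

/-- Rescaling. -/
theorem GF.scale (h : GF L f) {R : ℝ} (hR : 0 < R) :
    GF L (fun a => R * f (fun k => a k / R)) :=
  ⟨fun y y' hy => by
    have h1 : f (fun k => y k / R) = f (fun k => y' k / R) := h.dep _ _ fun i hi => by
      simp only [hy i hi]
    simp only [h1], fun y y' => by
    have h1 := h.lip (fun k => y k / R) (fun k => y' k / R)
    have e : ∀ z : Fin (d + 1) → ℝ, (fun k => z k / R) = R⁻¹ • z := fun z => by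
      funext k
      simp [div_eq_inv_mul]
    have h2 : dist (fun k => y k / R) (fun k => y' k / R) = dist y y' / R := by
      rw [e, e, dist_smul₀, Real.norm_eq_abs, abs_of_pos (inv_pos.2 hR), div_eq_inv_mul]
    have h3 : R * f (fun k => y k / R) - R * f (fun k => y' k / R) =
      R * (f (fun k => y k / R) - f (fun k => y' k / R)) := by ring
    simp only [h3, abs_mul, abs_of_pos hR]
    rw [h2] at h1
    calc R * |f (fun k => y k / R) - f (fun k => y' k / R)| ≤ R * (L * (dist y y' / R)) :=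
          mul_le_mul_of_nonneg_left h1 hR.le
      _ = L * dist y y' := by (clear * - hR; field_simp)⟩

end

end Vale.Agent.P209.Strong
end
end
end
end

section

section

section

section

namespace Vale.Agent.P209.Strong

open MeasureTheory

/-! J2. Fat layers over a simplex are filled. -/

/-- base coordinates in a prefix -/
theorem j2_pre {d : ℕ} (hd : 1 ≤ d) {ρ : ℝ} {F G : (Fin (d + 1) → ℝ) → ℝ} {a : Fin (d + 1) → ℝ}
    (h : ∀ i : Fin (d + 1), (i : ℕ) < d →
      (if (i : ℕ) < d then 0 else F a) < a i ∧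
        a i < (if (i : ℕ) < d then ρ - bsum 0 (i : ℕ) a else G a)) : a ∈ BS d ρ := by
  have h1 := (HM.block_iff (n := d + 1) (k := 0) (b := d) hd (by omega) a ρ).1 (by
    intro j _ hj
    have hj' : (j : ℕ) < d := by omega
    have h2 := h j hj'
    rw [if_pos hj', if_pos hj'] at h2
    exact h2)
  rw [zero_add] at h1
  exact ⟨fun j hj => h1.1 j (Nat.zero_le _) hj, h1.2⟩

theorem j2_pre' {d : ℕ} (hd : 1 ≤ d) {ρ : ℝ} {a : Fin (d + 1) → ℝ}
    (h : a ∈ BS d ρ) (j : Fin (d + 1)) (hj : (j : ℕ) < d) : 0 < a j ∧ a j < ρ - bsum 0 (j : ℕ) a :=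
  (HM.block_iff (n := d + 1) (k := 0) (b := d) hd (by omega) a ρ).2
    ⟨fun i _ hi => h.1 i (by omega), by rw [zero_add]; exact h.2⟩ j (Nat.zero_le _) (by omega)

theorem LY_fill (d : ℕ) (hd : 1 ≤ d) (c L δ N : ℝ) (hc : 0 < c) (hL : 0 ≤ L) (hδ : 0 < δ)
    (hδ1 : δ ≤ 1) (hN : 0 ≤ N) : ∃ R0 : ℝ, 0 < R0 ∧ ∀ R, R0 ≤ R →
      ∀ (ρ : ℝ) (F G : (Fin (d + 1) → ℝ) → ℝ), GF L F → GF L G → c * R ≤ ρ → ρ ≤ R →
        (∀ a ∈ BS d ρ, c * R ≤ G a - F a ∧ G a - F a ≤ R) → Fill δ N (LY ρ F G) := by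
  have hL' : 0 ≤ L + (d + 1) := by positivity
  obtain ⟨R0, h0, h⟩ := S1_all (d + 1) (by omega) d c (L + (d + 1)) δ N hc hL' hδ hδ1 hN
  refine ⟨R0, h0, fun R hR ρ F G hF hG hρ1 hρ2 hFG => ?_⟩
  set l : Fin (d + 1) → (Fin (d + 1) → ℝ) → ℝ := fun j a => if (j : ℕ) < d then 0 else F a with hl
  set u : Fin (d + 1) → (Fin (d + 1) → ℝ) → ℝ := fun j a =>
    if (j : ℕ) < d then ρ - bsum 0 (j : ℕ) a else G a with hu
  have hlast : ∀ j : Fin (d + 1), ¬ (j : ℕ) < d → j = Fin.last d := by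
    intro j hj
    refine Fin.ext ?_
    rw [Fin.val_last]
    have := j.2
    omega
  have hset : LY ρ F G = boxSet l u := by
    ext a
    constructor
    · rintro ⟨h1, h2, h3⟩ j
      by_cases hj : (j : ℕ) < d
      · simp only [hl, hu, if_pos hj]
        exact j2_pre' hd h1 j hj
      · simp only [hl, hu, if_neg hj]
        rw [hlast j hj]
        exact ⟨h2, h3⟩
    · intro h1
      refine ⟨j2_pre hd (fun i _ => h1 i), ?_⟩
      have h2 := h1 (Fin.last d)
      have h3 : ¬ ((Fin.last d : Fin (d + 1)) : ℕ) < d := by rw [Fin.val_last]; omega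
      simp only [hl, hu, if_neg h3] at h2
      exact h2
  rw [hset]
  refine h R hR l u 0 (fun _ => ρ) ?_
  exact
    { wl := by
        constructor
        · intro j y y' hy
          simp only [hl]
          split_ifs with hj
          · rfl
          · refine hF.dep y y' fun i hi => hy i ?_
            rw [Fin.lt_def]
            omega
        · intro j y y'
          have h1 : (0 : ℝ) ≤ dist y y' := dist_nonneg
          simp only [hl]
          split_ifs with hj
          · rw [sub_self, abs_zero]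
            (clear * - hL hd; positivity)
          · refine (hF.lip y y').trans (mul_le_mul_of_nonneg_right ?_ h1)
            have : (0 : ℝ) ≤ d := Nat.cast_nonneg d
            linarith only []
      wu := by
        constructor
        · intro j y y' hy
          simp only [hu]
          split_ifs with hj
          · rw [D3_bsum_dep 0 j hy]
          · refine hG.dep y y' fun i hi => hy i ?_
            rw [Fin.lt_def]
            omega
        · intro j y y'
          have h1 : (0 : ℝ) ≤ dist y y' := dist_nonneg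
          simp only [hu]
          split_ifs with hj
          · have h2 := D3_bsum_lip 0 (j : ℕ) y y'
            rw [show ρ - bsum 0 (j : ℕ) y - (ρ - bsum 0 (j : ℕ) y') =
              -(bsum 0 (j : ℕ) y - bsum 0 (j : ℕ) y') by ring, abs_neg]
            refine h2.trans (mul_le_mul_of_nonneg_right ?_ h1)
            push_cast
            linarith only [hL]
          · refine (hG.lip y y').trans (mul_le_mul_of_nonneg_right ?_ h1)
            have : (0 : ℝ) ≤ d := Nat.cast_nonneg d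
            linarith only []
      kb := by omega
      int := ⟨ρ, fun _ => 0, fun _ _ => rfl, fun a => by simp⟩
      sim := fun j _ hj => by
        have hj' : (j : ℕ) < d := by omega
        exact ⟨fun a => by simp only [hl, if_pos hj'], fun a => by simp only [hu, if_pos hj']⟩
      fat := fun j a hj hp => by
        have hj' : ¬ (j : ℕ) < d := by omega
        have hb : a ∈ BS d ρ := j2_pre hd fun i hi => hp i (by omega)
        simp only [hl, hu, if_neg hj']
        exact hFG a hb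
      size := fun a _ => ⟨hρ1, hρ2⟩ }

end Vale.Agent.P209.Strong
end
end
end
end

section

section

section

section

namespace Vale.Agent.P209.Strong

open MeasureTheory

/-- Graphs are null sets. -/
theorem GF.volume_graph {d : ℕ} {L : ℝ} {f : (Fin (d + 1) → ℝ) → ℝ} (h : GF L f) :
    volume {a : Fin (d + 1) → ℝ | a (Fin.last d) = f a} = 0 := by
  refine volume_graph_zero (Fin.last d) f (GF.continuous h) fun y y' hy => h.dep y y' fun i hi => ?_
  refine hy i fun hl => ?_
  rw [hl] at hi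
  simp at hi

end Vale.Agent.P209.Strong
end
end
end
end

section

section

section

section

namespace Vale.Agent.P209.Strong

open MeasureTheory

/-! J1s. Elementary properties of the stack regions. -/

private theorem j1s_bsum_cont (d : ℕ) :
    Continuous (fun a : Fin (d + 1) → ℝ => bsum 0 d a) := by
  unfold bsum
  refine continuous_finset_sum _ fun i _ => ?_
  split_ifs
  · exact continuous_apply i
  · exact continuous_const

theorem BS_open (d : ℕ) (ρ : ℝ) : IsOpen (BS d ρ) := by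
  have h1 : BS d ρ = (⋂ j : Fin (d + 1), {a : Fin (d + 1) → ℝ | (j : ℕ) < d → 0 < a j}) ∩
      {a | bsum 0 d a < ρ} := by
    ext a
    simp only [BS, Set.mem_setOf_eq, Set.mem_inter_iff, Set.mem_iInter]
  rw [h1]
  refine IsOpen.inter (isOpen_iInter_of_finite fun j => ?_)
    (isOpen_lt (j1s_bsum_cont d) continuous_const)
  by_cases hj : (j : ℕ) < d
  · simp only [hj, true_imp_iff]
    exact isOpen_lt continuous_const (continuous_apply j)
  · simp only [hj, false_imp_iff, Set.setOf_true]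
    exact isOpen_univ

theorem BS_mono (d : ℕ) {ρ ρ' : ℝ} (h : ρ ≤ ρ') : BS d ρ ⊆ BS d ρ' :=
  fun _ ha => ⟨ha.1, ha.2.trans_le h⟩

/-- The part of the cylinder over the simplex between the heights `0` and `K` has finite
volume. -/
theorem BS_finite (d : ℕ) (ρ K : ℝ) :
    volume {a : Fin (d + 1) → ℝ | a ∈ BS d ρ ∧ 0 < a (Fin.last d) ∧ a (Fin.last d) < K} ≠ ⊤ := by
  have hsub : {a : Fin (d + 1) → ℝ | a ∈ BS d ρ ∧ 0 < a (Fin.last d) ∧ a (Fin.last d) < K} ⊆
      Set.Icc (fun _ => (0 : ℝ)) (fun _ => max ρ K) := by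
    intro a ha
    obtain ⟨⟨h1, h2⟩, h3, h4⟩ := ha
    have hj : ∀ j : Fin (d + 1), 0 < a j ∧ a j ≤ max ρ K := by
      intro j
      by_cases hjd : (j : ℕ) < d
      · refine ⟨h1 j hjd, ?_⟩
        have h5 : a j ≤ bsum 0 d a := by
          unfold bsum
          have h6 : (if 0 ≤ (j : ℕ) ∧ (j : ℕ) < d then a j else 0) ≤
              ∑ i : Fin (d + 1), if 0 ≤ (i : ℕ) ∧ (i : ℕ) < d then a i else 0 := by
            refine Finset.single_le_sum
              (f := fun i : Fin (d + 1) => if 0 ≤ (i : ℕ) ∧ (i : ℕ) < d then a i else 0)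
              (fun i _ => ?_) (Finset.mem_univ j)
            show 0 ≤ (if 0 ≤ (i : ℕ) ∧ (i : ℕ) < d then a i else 0)
            split_ifs with h7
            · exact (h1 i h7.2).le
            · exact le_rfl
          rw [if_pos ⟨Nat.zero_le _, hjd⟩] at h6
          exact h6
        exact (h5.trans h2.le).trans (le_max_left _ _)
      · have : j = Fin.last d := by
          apply Fin.ext
          have := j.2
          simp only [Fin.val_last]
          omega
        rw [this]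
        exact ⟨h3, h4.le.trans (le_max_right _ _)⟩
    exact ⟨fun j => (hj j).1.le, fun j => (hj j).2⟩
  exact ((measure_mono hsub).trans_lt isCompact_Icc.measure_lt_top).ne

theorem ST_open {d : ℕ} {L L' ρ : ℝ} {h : (Fin (d + 1) → ℝ) → ℝ} (hh : GF L' h) {M : ℕ}
    {β τ : ℕ → (Fin (d + 1) → ℝ) → ℝ} (hβ : ∀ i < M, GF L (β i)) (hτ : ∀ i < M, GF L (τ i)) :
    IsOpen (ST ρ h M β τ) := by
  have hl : Continuous (fun a : Fin (d + 1) → ℝ => a (Fin.last d)) := continuous_apply _
  have h1 : ST ρ h M β τ = BS d ρ ∩ {a | 0 < a (Fin.last d)} ∩ {a | a (Fin.last d) < h a} ∩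
      ⋂ i ∈ Finset.range M, ({a | a (Fin.last d) < β i a} ∪ {a | τ i a < a (Fin.last d)}) := by
    ext a
    simp only [ST, Set.mem_setOf_eq, Set.mem_inter_iff, Set.mem_iInter, Set.mem_union,
      Finset.mem_range, and_assoc]
    refine and_congr_right fun _ => and_congr_right fun _ => and_congr_right fun _ =>
      forall₂_congr fun i _ => ?_
    rw [not_and_or, not_le, not_le]
  rw [h1]
  refine IsOpen.inter (IsOpen.inter (IsOpen.inter (BS_open d ρ)
    (isOpen_lt continuous_const hl)) (isOpen_lt hl hh.continuous)) ?_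
  refine isOpen_biInter_finset fun i hi => ?_
  have hi' := Finset.mem_range.1 hi
  exact (isOpen_lt hl (hβ i hi').continuous).union (isOpen_lt (hτ i hi').continuous hl)

theorem ST_finite {d : ℕ} {ρ K : ℝ} {h : (Fin (d + 1) → ℝ) → ℝ} (hK : ∀ a ∈ BS d ρ, h a ≤ K)
    {M : ℕ} {β τ : ℕ → (Fin (d + 1) → ℝ) → ℝ} : volume (ST ρ h M β τ) ≠ ⊤ := by
  refine ne_top_of_le_ne_top (BS_finite d ρ K) (measure_mono fun a ha => ?_)
  exact ⟨ha.1, ha.2.1, ha.2.2.1.trans_le (hK a ha.1)⟩

end Vale.Agent.P209.Strong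
end
end
end
end

section

section

section

section

namespace Vale.Agent.P209.Strong

open MeasureTheory

/-! J3a. The volume of a stack region depends continuously on the top. -/

/-- Continuity of the volume of `{f < c * g}` (no sign condition on `g`). -/
theorem j3a_volume_lt {n : ℕ} {Ω : Set (Fin n → ℝ)} (hfin : volume Ω ≠ ⊤)
    {f g : (Fin n → ℝ) → ℝ} (hf : Measurable f) (hg : Measurable g)
    (hnull : ∀ c : ℝ, volume (Ω ∩ {a | f a = c * g a}) = 0) :
    Continuous fun c : ℝ => (volume (Ω ∩ {a | f a < c * g a})).toReal := by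
  have hms : ∀ c : ℝ, MeasurableSet {a | f a < c * g a} := fun c =>
    measurableSet_lt hf (hg.const_mul c)
  have : IsFiniteMeasure (volume.restrict Ω) :=
    ⟨by rw [Measure.restrict_apply_univ]; exact lt_top_iff_ne_top.2 hfin⟩
  have e : ∀ c : ℝ, (volume (Ω ∩ {a | f a < c * g a})).toReal =
      ∫ a, ({a | f a < c * g a}.indicator (fun _ => (1 : ℝ)) a) ∂(volume.restrict Ω) := by
    intro c
    rw [integral_indicator (hms c), setIntegral_const, smul_eq_mul, mul_one, Measure.real,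
      Measure.restrict_apply (hms c), Set.inter_comm]
  simp only [e]
  rw [continuous_iff_continuousAt]
  intro c₀
  refine continuousAt_of_dominated (bound := fun _ => (1 : ℝ)) ?_ ?_ ?_ ?_
  · exact Filter.Eventually.of_forall fun c =>
      (measurable_const.indicator (hms c)).aestronglyMeasurable
  · refine Filter.Eventually.of_forall fun c => Filter.Eventually.of_forall fun a => ?_
    by_cases h : a ∈ {a | f a < c * g a}
    · rw [Set.indicator_of_mem h, norm_one]
    · rw [Set.indicator_of_notMem h, norm_zero]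
      exact zero_le_one
  · exact integrable_const _
  · have h0 : ∀ᵐ a ∂(volume.restrict Ω), f a ≠ c₀ * g a := by
      rw [ae_iff]
      have h1 : {a | ¬ f a ≠ c₀ * g a} = {a | f a = c₀ * g a} := by
        ext a
        simp
      rw [h1, Measure.restrict_apply (measurableSet_eq_fun hf (hg.const_mul c₀)),
        Set.inter_comm]
      exact hnull c₀
    filter_upwards [h0] with a ha
    have hc : ContinuousAt (fun c : ℝ => c * g a) c₀ := by fun_prop
    rcases lt_or_gt_of_ne ha with h | h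
    · have h1 : ∀ᶠ c in nhds c₀, f a < c * g a := hc.eventually_const_lt h
      refine ContinuousAt.congr (f := fun _ => (1 : ℝ)) continuousAt_const ?_
      filter_upwards [h1] with c hc
      rw [Set.indicator_of_mem (show a ∈ {a | f a < c * g a} from hc)]
    · have h1 : ∀ᶠ c in nhds c₀, c * g a < f a := hc.eventually_lt_const h
      refine ContinuousAt.congr (f := fun _ => (0 : ℝ)) continuousAt_const ?_
      filter_upwards [h1] with c hc
      rw [Set.indicator_of_notMem (show a ∉ {a | f a < c * g a} from not_lt.2 hc.le)]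

theorem ST_volume_continuous {d : ℕ} {L ρ K : ℝ} {D ψ : (Fin (d + 1) → ℝ) → ℝ} {M : ℕ}
    {β τ : ℕ → (Fin (d + 1) → ℝ) → ℝ} (hD : GF L D) (hψ : GF L ψ) (hψ0 : ∀ a, 0 ≤ ψ a)
    (hβ : ∀ i < M, GF L (β i)) (hτ : ∀ i < M, GF L (τ i))
    (hK : ∀ a ∈ BS d ρ, D a + ψ a ≤ K) :
    ContinuousOn (fun t : ℝ => (volume (ST ρ (fun a => D a + t * ψ a) M β τ)).toReal)
      (Set.Icc 0 1) := by
  have hfin : volume (ST ρ (fun _ => K) M β τ) ≠ ⊤ :=
    ST_finite (K := K) fun _ _ => le_rfl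
  have hDm : Measurable D := hD.continuous.measurable
  have hψm : Measurable ψ := hψ.continuous.measurable
  have hf : Measurable fun a : Fin (d + 1) → ℝ => a (Fin.last d) - D a :=
    (measurable_pi_apply _).sub hDm
  have hnull : ∀ c : ℝ, volume (ST ρ (fun _ => K) M β τ ∩
      {a | a (Fin.last d) - D a = c * ψ a}) = 0 := by
    intro c
    refine measure_mono_null ?_ (hD.add (hψ.smul c)).volume_graph
    rintro a ⟨_, ha⟩
    have h1 : a (Fin.last d) - D a = c * ψ a := ha
    show a (Fin.last d) = D a + c * ψ a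
    linarith only [h1]
  refine (j3a_volume_lt hfin hf hψm hnull).continuousOn.congr ?_
  intro t ht
  have hset : ST ρ (fun a => D a + t * ψ a) M β τ =
      ST ρ (fun _ => K) M β τ ∩ {a | a (Fin.last d) - D a < t * ψ a} := by
    ext a
    constructor
    · rintro ⟨h1, h2, h3, h4⟩
      have h3' : a (Fin.last d) < D a + t * ψ a := h3
      have h5 : t * ψ a ≤ 1 * ψ a := mul_le_mul_of_nonneg_right ht.2 (hψ0 a)
      have h6 := hK a h1
      refine ⟨⟨h1, h2, ?_, h4⟩, ?_⟩
      · show a (Fin.last d) < K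
        linarith only [h3', h5, h6]
      · show a (Fin.last d) - D a < t * ψ a
        linarith only [h3']
    · rintro ⟨⟨h1, h2, _, h4⟩, h3⟩
      have h3' : a (Fin.last d) - D a < t * ψ a := h3
      refine ⟨h1, h2, ?_, h4⟩
      show a (Fin.last d) < D a + t * ψ a
      linarith only [h3']
  show (volume (ST ρ (fun a => D a + t * ψ a) M β τ)).toReal = _
  rw [hset]

end Vale.Agent.P209.Strong
end
end
end
end

section

section

section

section

set_option linter.all false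

namespace Vale.Agent.P209.Strong

open MeasureTheory

/-! J3b. Raising the top near `a_0 = 0` increases the volume by more than a ball. -/

/-- lower walls -/
private def j3b_l (d : ℕ) (D : (Fin (d + 1) → ℝ) → ℝ) : Fin (d + 1) → (Fin (d + 1) → ℝ) → ℝ :=
  fun j a => if (j : ℕ) < d then 0 else D a

/-- upper walls -/
private def j3b_u (d : ℕ) (x y : ℝ) (D : (Fin (d + 1) → ℝ) → ℝ) :
    Fin (d + 1) → (Fin (d + 1) → ℝ) → ℝ :=
  fun j a => if (j : ℕ) < d then x else D a + y

private theorem j3b_dep {d : ℕ} {L : ℝ} {D : (Fin (d + 1) → ℝ) → ℝ} (hD : GF L D)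
    {j : Fin (d + 1)} (hj : ¬ (j : ℕ) < d) {y y' : Fin (d + 1) → ℝ}
    (h : ∀ i, i < j → y i = y' i) : D y = D y' := by
  refine hD.dep y y' fun i hi => h i ?_
  rw [Fin.lt_def]
  omega

private theorem j3b_walls_l {d : ℕ} {L : ℝ} (hL : 0 ≤ L) {D : (Fin (d + 1) → ℝ) → ℝ}
    (hD : GF L D) : Walls L (j3b_l d D) where
  dep := by
    intro j y y' h
    unfold j3b_l
    by_cases hj : (j : ℕ) < d
    · rw [if_pos hj, if_pos hj]
    · rw [if_neg hj, if_neg hj]
      exact j3b_dep hD hj h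
  lip := by
    intro j y y'
    unfold j3b_l
    by_cases hj : (j : ℕ) < d
    · rw [if_pos hj, if_pos hj, sub_zero, abs_zero]
      positivity
    · rw [if_neg hj, if_neg hj]
      exact hD.lip y y'

private theorem j3b_walls_u {d : ℕ} {L : ℝ} (hL : 0 ≤ L) (p q : ℝ)
    {D : (Fin (d + 1) → ℝ) → ℝ} (hD : GF L D) : Walls L (j3b_u d p q D) where
  dep := by
    intro j y y' h
    unfold j3b_u
    by_cases hj : (j : ℕ) < d
    · rw [if_pos hj, if_pos hj]
    · rw [if_neg hj, if_neg hj, j3b_dep hD hj h]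
  lip := by
    intro j y y'
    unfold j3b_u
    by_cases hj : (j : ℕ) < d
    · rw [if_pos hj, if_pos hj, sub_self, abs_zero]
      positivity
    · rw [if_neg hj, if_neg hj]
      have e : D y + q - (D y' + q) = D y - D y' := by ring
      rw [e]
      exact hD.lip y y'

private theorem j3b_bsum {d : ℕ} {a : Fin (d + 1) → ℝ} {x : ℝ} (hx : 0 ≤ x)
    (h : ∀ i : Fin (d + 1), (i : ℕ) < d → a i ≤ x) : bsum 0 d a ≤ (d + 1 : ℝ) * x := by
  unfold bsum
  have h1 : ∀ i ∈ (Finset.univ : Finset (Fin (d + 1))),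
      (if 0 ≤ (i : ℕ) ∧ (i : ℕ) < d then a i else 0) ≤ x := by
    intro i _
    split_ifs with h2
    · exact h i h2.2
    · exact hx
  refine (Finset.sum_le_card_nsmul _ _ _ h1).trans (le_of_eq ?_)
  rw [Finset.card_univ, Fintype.card_fin, nsmul_eq_mul]
  push_cast
  ring

theorem ST_bump (d : ℕ) (hd : 1 ≤ d) (c L : ℝ) (hc : 0 < c) (hL : 0 ≤ L) :
    ∃ R0 : ℝ, 0 < R0 ∧ ∀ R, R0 ≤ R → ∀ (ρ : ℝ) (M : ℕ)
      (β τ lo hi : ℕ → (Fin (d + 1) → ℝ) → ℝ) (D : (Fin (d + 1) → ℝ) → ℝ),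
      SK c L R ρ M β τ lo hi → c * R ≤ ρ → ρ ≤ R → GF L D →
      (∀ a ∈ BS d ρ, c * R ≤ D a ∧ D a ≤ R) →
      (volume (ST ρ D M β τ)).toReal + 1 / ((d + 1).factorial : ℝ) <
        (volume (ST ρ (fun a => D a + max 0 (c * R / 2 - |a 0|)) M β τ)).toReal := by
  obtain ⟨c', hc'⟩ : ∃ c', c' = c / (4 * (d + 1)) := ⟨_, rfl⟩
  have hc0 : 0 < c' := by rw [hc']; positivity
  have hcc : (d + 1 : ℝ) * c' = c / 4 := by
    rw [hc']
    field_simp
  have hcc1 : c' ≤ c / 4 := by
    rw [← hcc]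
    have : (0 : ℝ) ≤ d := Nat.cast_nonneg d
    nlinarith only [hc0]
  refine ⟨2 / c', by positivity, fun R hR ρ M β τ lo hi D hS h1 h2 hD h3 => ?_⟩
  have hR0 : 0 < R := lt_of_lt_of_le (by positivity) hR
  have hc1 : c ≤ 1 := by
    by_contra hcon
    push Not at hcon
    have : R < c * R := by linarith only [mul_pos (sub_pos.2 hR0) (sub_pos.2 hcon)]
    linarith only [h1, h2, this]
  have hcR : 2 ≤ c' * R := by
    rw [div_le_iff₀ hc0] at hR
    linarith only [hR]
  have hcR0 : 0 < c * R := by positivity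
  have e1 : c' * R ≤ c * R / 4 := by nlinarith only [hcR, hcc, hR0]
  have key : ∀ a : Fin (d + 1) → ℝ, (∀ i : Fin (d + 1), (i : ℕ) < d → 0 < a i ∧ a i < c' * R) →
      a ∈ BS d ρ := by
    intro a ha
    refine ⟨fun j hj => (ha j hj).1, ?_⟩
    have h4 := j3b_bsum (d := d) (a := a) (x := c' * R) (by linarith only [hcR])
      (fun i hi => (ha i hi).2.le)
    have h5 : (d + 1 : ℝ) * (c' * R) = c * R / 4 := by
      rw [← mul_assoc, hcc]
      ring
    linarith only [h1, hcR, e1, h4, h5]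
  have hw : ∀ (j : Fin (d + 1)) (a : Fin (d + 1) → ℝ),
      Pre (j3b_l d D) (j3b_u d (c' * R) (c * R / 4) D) j a →
      c' * R ≤ j3b_u d (c' * R) (c * R / 4) D j a - j3b_l d D j a ∧
        j3b_u d (c' * R) (c * R / 4) D j a - j3b_l d D j a ≤ R := by
    intro j a _
    unfold j3b_u j3b_l
    by_cases hj : (j : ℕ) < d
    · rw [if_pos hj, if_pos hj, sub_zero]
      exact ⟨le_rfl, by linarith only [e1, hcR, h2, h1]⟩
    · rw [if_neg hj, if_neg hj]
      exact ⟨by linarith only [e1], by linarith only [e1, hcR, h2, h1]⟩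
  obtain ⟨v1, v2⟩ := volume_pre_ge (d + 1) hc0 hR0 hL (j3b_walls_l hL hD)
    (j3b_walls_u hL (c' * R) (c * R / 4) hD) hw
  have hlast : ¬ ((Fin.last d : Fin (d + 1)) : ℕ) < d := by simp
  have hbox : ∀ a ∈ boxSet (j3b_l d D) (j3b_u d (c' * R) (c * R / 4) D),
      (∀ i : Fin (d + 1), (i : ℕ) < d → 0 < a i ∧ a i < c' * R) ∧
        D a < a (Fin.last d) ∧ a (Fin.last d) < D a + c * R / 4 := by
    intro a ha
    refine ⟨fun i hi => ?_, ?_⟩
    · have := ha i
      unfold j3b_l j3b_u at this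
      rw [if_pos hi, if_pos hi] at this
      exact this
    · have := ha (Fin.last d)
      unfold j3b_l j3b_u at this
      rw [if_neg hlast, if_neg hlast] at this
      exact this
  have hzero : ((0 : Fin (d + 1)) : ℕ) < d := by rw [Fin.val_zero]; omega
  have hsub1 : boxSet (j3b_l d D) (j3b_u d (c' * R) (c * R / 4) D) ⊆
      ST ρ (fun a => D a + max 0 (c * R / 2 - |a 0|)) M β τ := by
    intro a ha
    obtain ⟨b1, b2, b3⟩ := hbox a ha
    have hB := key a b1
    obtain ⟨b4, b5⟩ := h3 a hB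
    obtain ⟨b6, b7⟩ := b1 0 hzero
    refine ⟨hB, by linarith only [hcR, e1, b2, b4], ?_, ?_⟩
    · show a (Fin.last d) < D a + max 0 (c * R / 2 - |a 0|)
      have := le_max_right 0 (c * R / 2 - |a 0|)
      rw [abs_of_pos b6] at this ⊢
      linarith only [e1, b3, b7, this]
    · rintro i hi ⟨b8, b9⟩
      have := (hS.body i hi a hB (b8.trans b9)).2.2
      linarith only [hcR, e1, b7, this]
  have hsub2 : ST ρ D M β τ ⊆ ST ρ (fun a => D a + max 0 (c * R / 2 - |a 0|)) M β τ := by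
    rintro a ⟨b1, b2, b3, b4⟩
    refine ⟨b1, b2, ?_, b4⟩
    show a (Fin.last d) < D a + max 0 (c * R / 2 - |a 0|)
    have := le_max_left 0 (c * R / 2 - |a 0|)
    linarith only [b3, this]
  have hdis : Disjoint (boxSet (j3b_l d D) (j3b_u d (c' * R) (c * R / 4) D)) (ST ρ D M β τ) := by
    rw [Set.disjoint_left]
    rintro a ha ⟨_, _, b3, _⟩
    exact absurd (hbox a ha).2.1 (not_lt.2 b3.le)
  have hmeas : MeasurableSet (ST ρ D M β τ) := (ST_open hD hS.gβ hS.gτ).measurableSet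
  have hfin : volume (ST ρ (fun a => D a + max 0 (c * R / 2 - |a 0|)) M β τ) ≠ ⊤ := by
    refine ST_finite (K := R + c * R / 2) fun a ha => ?_
    show D a + max 0 (c * R / 2 - |a 0|) ≤ R + c * R / 2
    have b1 := (h3 a ha).2
    have b2 : max 0 (c * R / 2 - |a 0|) ≤ c * R / 2 :=
      max_le (by linarith only [hcR, e1]) (by linarith only [abs_nonneg (a 0)])
    linarith only [b1, b2]
  have hfin2 : volume (ST ρ D M β τ) ≠ ⊤ := ST_finite (K := R) fun a ha => (h3 a ha).2
  have hle : volume (boxSet (j3b_l d D) (j3b_u d (c' * R) (c * R / 4) D)) +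
      volume (ST ρ D M β τ) ≤
      volume (ST ρ (fun a => D a + max 0 (c * R / 2 - |a 0|)) M β τ) := by
    rw [← measure_union hdis hmeas]
    exact measure_mono (Set.union_subset hsub1 hsub2)
  have hle2 := ENNReal.toReal_mono hfin hle
  rw [ENNReal.toReal_add v2 hfin2] at hle2
  have hp : (2 : ℝ) ≤ (c' * R) ^ (d + 1) := by
    calc (2 : ℝ) = 2 ^ 1 := by norm_num
      _ ≤ 2 ^ (d + 1) := pow_le_pow_right₀ (by norm_num) (by omega)
      _ ≤ (c' * R) ^ (d + 1) := pow_le_pow_left₀ (by norm_num) hcR _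
  have hf : 1 / ((d + 1).factorial : ℝ) ≤ 1 := by
    rw [div_le_one (by exact_mod_cast Nat.factorial_pos _)]
    exact_mod_cast Nat.one_le_iff_ne_zero.2 (Nat.factorial_ne_zero _)
  linarith only [v1, hle2, hp, hf]

end Vale.Agent.P209.Strong
end
end
end
end

section

section

section

section

namespace Vale.Agent.P209.Strong

open MeasureTheory

/-! J4. Stack regions are filled. -/

theorem j4_restrict {d : ℕ} {c L R ρ : ℝ} {M : ℕ} {β τ lo hi : ℕ → (Fin (d + 1) → ℝ) → ℝ}
    (h : SK c L R ρ (M + 1) β τ lo hi) : SK c L R ρ M β τ lo hi where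
  gβ i hi' := h.gβ i (by omega)
  gτ i hi' := h.gτ i (by omega)
  glo i hi' := h.glo i (by omega)
  ghi i hi' := h.ghi i (by omega)
  floor i hi' := h.floor i (by omega)
  lohi i hi' := h.lohi i (by omega)
  step i j hij hj := h.step i j hij (by omega)
  body i hi' := h.body i (by omega)

/-- bottom of the top body, clamped -/
noncomputable def j4_D {d : ℕ} (b t l h : (Fin (d + 1) → ℝ) → ℝ) (a : Fin (d + 1) → ℝ) : ℝ :=
  max (l a) (min (h a) (min (b a) ((b a + t a) / 2)))

/-- top of the top body, clamped -/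
noncomputable def j4_U {d : ℕ} (b t l h : (Fin (d + 1) → ℝ) → ℝ) (a : Fin (d + 1) → ℝ) : ℝ :=
  max (l a) (min (h a) (max (t a) ((b a + t a) / 2)))

section
variable {d : ℕ} {L : ℝ} {b t l h : (Fin (d + 1) → ℝ) → ℝ} {a : Fin (d + 1) → ℝ}

theorem j4_D_GF (hb : GF L b) (ht : GF L t) (hl : GF L l) (hh : GF L h) :
    GF L (j4_D b t l h) :=
  GF.max hl (GF.min hh (GF.min hb (GF.half hb ht)))

theorem j4_U_GF (hb : GF L b) (ht : GF L t) (hl : GF L l) (hh : GF L h) :
    GF L (j4_U b t l h) :=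
  GF.max hl (GF.min hh (GF.max ht (GF.half hb ht)))

theorem j4_lo_le_D : l a ≤ j4_D b t l h a := le_max_left _ _

theorem j4_lo_le_U : l a ≤ j4_U b t l h a := le_max_left _ _

theorem j4_D_le_hi (hlh : l a ≤ h a) : j4_D b t l h a ≤ h a :=
  max_le hlh (min_le_left _ _)

theorem j4_U_le_hi (hlh : l a ≤ h a) : j4_U b t l h a ≤ h a :=
  max_le hlh (min_le_left _ _)

theorem j4_D_le_U : j4_D b t l h a ≤ j4_U b t l h a :=
  max_le_max le_rfl (min_le_min le_rfl ((min_le_right _ _).trans (le_max_right _ _)))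

theorem j4_D_eq (hbt : b a ≤ t a) (h1 : l a ≤ b a) (h2 : t a ≤ h a) :
    j4_D b t l h a = b a := by
  unfold j4_D
  rw [min_eq_left (by linarith only [hbt] : b a ≤ (b a + t a) / 2), min_eq_right (by linarith), max_eq_right h1]

theorem j4_U_eq (hbt : b a ≤ t a) (h1 : l a ≤ b a) (h2 : t a ≤ h a) :
    j4_U b t l h a = t a := by
  unfold j4_U
  rw [max_eq_left (by linarith only [hbt] : (b a + t a) / 2 ≤ t a), min_eq_right h2,
    max_eq_right (h1.trans hbt)]

theorem j4_D_eq_U (hbt : t a < b a) : j4_D b t l h a = j4_U b t l h a := by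
  unfold j4_D j4_U
  rw [min_eq_right (by linarith only [hbt] : (b a + t a) / 2 ≤ b a),
    max_eq_right (by linarith : t a ≤ (b a + t a) / 2)]

end

theorem ST_fill (d : ℕ) (hd : 1 ≤ d) (c L δ N : ℝ) (hc : 0 < c) (hL : 0 ≤ L) (hδ : 0 < δ)
    (hδ1 : δ ≤ 1) (hN : 0 ≤ N) (M : ℕ) : ∃ R0 : ℝ, 0 < R0 ∧ ∀ R, R0 ≤ R →
      ∀ (ρ : ℝ) (β τ lo hi : ℕ → (Fin (d + 1) → ℝ) → ℝ) (h : (Fin (d + 1) → ℝ) → ℝ),
        SK c L R ρ M β τ lo hi → c * R ≤ ρ → ρ ≤ R → GF (L + 1) h →
        (∀ a ∈ BS d ρ, c * R ≤ h a ∧ h a ≤ R) → (∀ i < M, ∀ a ∈ BS d ρ, hi i a + c * R ≤ h a) →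
        Fill δ N (ST ρ h M β τ) := by
  induction M with
  | zero =>
    obtain ⟨R0, hR0, H⟩ := LY_fill d hd c (L + 1) δ N hc (by linarith only [hL]) hδ hδ1 hN
    refine ⟨R0, hR0, fun R hR ρ β τ lo hi h _ h1 h2 hh h3 _ => ?_⟩
    have e : ST ρ h 0 β τ = LY ρ (fun _ => 0) h := by
      ext a
      simp only [ST, LY, Set.mem_ofPred_eq, Nat.not_lt_zero, false_imp_iff, implies_true, and_true]
    rw [e]
    refine H R hR ρ (fun _ => 0) h (GF.const 0 (by linarith only [hL])) hh h1 h2 fun a ha => ?_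
    simpa only [sub_zero] using h3 a ha
  | succ M ih =>
    obtain ⟨R1, hR1, H1⟩ := ih
    obtain ⟨R2, hR2, H2⟩ := LY_fill d hd (c / 2) (L + 1) δ N (by positivity) (by linarith only [hL])
      hδ hδ1 hN
    obtain ⟨R3, hR3, H3⟩ := ST_bump d hd c L hc hL
    refine ⟨max R1 (max R2 R3), lt_max_of_lt_left hR1, ?_⟩
    intro R hR ρ β τ lo hi h hsk hρ1 hρ2 hh hh1 hh2
    have hRR1 : R1 ≤ R := (le_max_left _ _).trans hR
    have hRR2 : R2 ≤ R := ((le_max_left _ _).trans (le_max_right _ _)).trans hR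
    have hRR3 : R3 ≤ R := ((le_max_right _ _).trans (le_max_right _ _)).trans hR
    have hR0 : 0 < R := hR1.trans_le hRR1
    have hcR : 0 < c * R := by positivity
    have hskM := j4_restrict hsk
    have gb := hsk.gβ M (by omega)
    have gt := hsk.gτ M (by omega)
    have gl := hsk.glo M (by omega)
    have gh := hsk.ghi M (by omega)
    set D : (Fin (d + 1) → ℝ) → ℝ := j4_D (β M) (τ M) (lo M) (hi M) with hDdef
    set U : (Fin (d + 1) → ℝ) → ℝ := j4_U (β M) (τ M) (lo M) (hi M) with hUdef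
    set ψ : (Fin (d + 1) → ℝ) → ℝ := fun a => max 0 (c * R / 2 - |a 0|) with hψdef
    have gD : GF L D := j4_D_GF gb gt gl gh
    have gU : GF L U := j4_U_GF gb gt gl gh
    have gψ : GF 1 ψ := GF_bump hd (c * R / 2)
    have hψ0 : ∀ a, 0 ≤ ψ a := fun a => le_max_left _ _
    have hψ1 : ∀ a, ψ a ≤ c * R / 2 := fun a => by
      refine max_le (by positivity) ?_
      have := abs_nonneg (a 0)
      linarith only [this]
    have hψz : ∀ a : Fin (d + 1) → ℝ, c * R ≤ a 0 → ψ a = 0 := fun a ha => by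
      refine max_eq_left ?_
      have := le_abs_self (a 0)
      linarith only [hcR, ha, this]
    have lohi : ∀ a ∈ BS d ρ, lo M a ≤ hi M a := hsk.lohi M (by omega)
    have hfloor : ∀ a ∈ BS d ρ, c * R ≤ lo M a := hsk.floor M (by omega)
    have hbody : ∀ a ∈ BS d ρ, β M a ≤ τ M a →
        lo M a ≤ β M a ∧ τ M a ≤ hi M a ∧ c * R ≤ a 0 := hsk.body M (by omega)
    have hloD : ∀ a, lo M a ≤ D a := fun a => j4_lo_le_D
    have hloU : ∀ a, lo M a ≤ U a := fun a => j4_lo_le_U
    have hDhi : ∀ a ∈ BS d ρ, D a ≤ hi M a := fun a ha => j4_D_le_hi (lohi a ha)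
    have hUhi : ∀ a ∈ BS d ρ, U a ≤ hi M a := fun a ha => j4_U_le_hi (lohi a ha)
    have hDU : ∀ a, D a ≤ U a := fun a => j4_D_le_U
    have htop : ∀ a ∈ BS d ρ, hi M a + c * R ≤ h a := hh2 M (by omega)
    have htψ : ∀ t : ℝ, 0 ≤ t → t ≤ 1 → ∀ a, 0 ≤ t * ψ a ∧ t * ψ a ≤ c * R / 2 := by
      intro t ht0 ht1 a
      refine ⟨mul_nonneg ht0 (hψ0 a), ?_⟩
      calc t * ψ a ≤ 1 * ψ a := mul_le_mul_of_nonneg_right ht1 (hψ0 a)
        _ = ψ a := one_mul _
        _ ≤ _ := hψ1 a
    have gfD : ∀ t : ℝ, 0 ≤ t → t ≤ 1 → GF (L + 1) (fun a => D a + t * ψ a) := by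
      intro t ht0 ht1
      refine (GF.add gD (GF.smul gψ t)).mono ?_
      rw [abs_of_nonneg ht0, mul_one]
      linarith only [ht1]
    have gfU : ∀ t : ℝ, 0 ≤ t → t ≤ 1 → GF (L + 1) (fun a => U a + t * ψ a) := by
      intro t ht0 ht1
      refine (GF.add gU (GF.smul gψ t)).mono ?_
      rw [abs_of_nonneg ht0, mul_one]
      linarith only [ht1]
    have hUsub : ∀ t : ℝ, 0 ≤ t → t ≤ 1 →
        ST ρ (fun a => D a + t * ψ a) M β τ ⊆ ST ρ h (M + 1) β τ := by
      rintro t ht0 ht1 a ⟨ha, h0, h1, h2⟩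
      have h3 := htψ t ht0 ht1 a
      have h4 := hDhi a ha
      have h5 := htop a ha
      refine ⟨ha, h0, by simp only at h1; linarith only [h1, h3, h4, h5], fun i hi' => ?_⟩
      rcases Nat.lt_succ_iff_lt_or_eq.1 hi' with h6 | rfl
      · exact h2 i h6
      · rintro ⟨h7, h8⟩
        obtain ⟨h9, h10, h11⟩ := hbody a ha (h7.trans h8)
        have h12 : D a = β i a := j4_D_eq (h7.trans h8) h9 h10
        have h13 := hψz a h11
        simp only [h12, h13, mul_zero, add_zero] at h1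
        linarith only [h7, h1]
    have hVsub : ∀ t : ℝ, 0 ≤ t → t ≤ 1 →
        LY ρ (fun a => U a + t * ψ a) h ⊆ ST ρ h (M + 1) β τ := by
      rintro t ht0 ht1 a ⟨ha, h1, h2⟩
      simp only at h1
      have h3 := htψ t ht0 ht1 a
      have h4 := hloU a
      have h5 := hfloor a ha
      refine ⟨ha, by linarith only [h1, h3, h4, h5], h2, fun i hi' => ?_⟩
      rintro ⟨h7, h8⟩
      rcases Nat.lt_succ_iff_lt_or_eq.1 hi' with h6 | rfl
      · obtain ⟨-, h10, -⟩ := hsk.body i (by omega) a ha (h7.trans h8)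
        have h11 := hsk.step i M h6 (by omega) a ha
        linarith only [h1, h3, h4, h8, h10, h11]
      · obtain ⟨h9, h10, h11⟩ := hbody a ha (h7.trans h8)
        have h12 : U a = τ i a := j4_U_eq (h7.trans h8) h9 h10
        have h13 := hψz a h11
        simp only [h12, h13, mul_zero, add_zero] at h1
        linarith only [h8, h1]
    have hfin : volume (ST ρ h (M + 1) β τ) ≠ ⊤ := ST_finite (K := R) fun a ha => (hh1 a ha).2
    have gfD' : GF (L + 1) D := gD.mono (by linarith only [])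
    have hgoal : ∀ t : ℝ, 0 ≤ t → t ≤ 1 → (volume (ST ρ h (M + 1) β τ)).toReal ≤
        (volume (ST ρ (fun a => D a + t * ψ a) M β τ)).toReal +
          (volume (LY ρ (fun a => U a + t * ψ a) h)).toReal := by
      intro t ht0 ht1
      have hs : ST ρ h (M + 1) β τ ⊆ (ST ρ (fun a => D a + t * ψ a) M β τ ∪
          LY ρ (fun a => U a + t * ψ a) h) ∪ {a | a (Fin.last d) = D a + t * ψ a} := by
        rintro a ⟨ha, h0, h1, h2⟩
        rcases lt_trichotomy (a (Fin.last d)) (D a + t * ψ a) with h3 | h3 | h3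
        · exact Or.inl (Or.inl ⟨ha, h0, h3, fun i hi' => h2 i (by omega)⟩)
        · exact Or.inr h3
        · refine Or.inl (Or.inr ⟨ha, ?_, h1⟩)
          by_contra h4
          simp only [not_lt] at h4
          have h5 : D a < U a := by linarith only [h3, h4]
          have h6 : β M a ≤ τ M a := by
            by_contra h7
            have h8 : D a = U a := j4_D_eq_U (not_le.1 h7)
            linarith only [h3, h4, h8]
          obtain ⟨h9, h10, h11⟩ := hbody a ha h6
          have h12 : D a = β M a := j4_D_eq h6 h9 h10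
          have h13 : U a = τ M a := j4_U_eq h6 h9 h10
          have h14 := hψz a h11
          rw [h12, h14, mul_zero, add_zero] at h3
          rw [h13, h14, mul_zero, add_zero] at h4
          exact h2 M (by omega) ⟨h3.le, h4⟩
      have h0 : volume {a : Fin (d + 1) → ℝ | a (Fin.last d) = D a + t * ψ a} = 0 :=
        GF.volume_graph (gfD t ht0 ht1)
      have hU' : volume (ST ρ (fun a => D a + t * ψ a) M β τ) ≠ ⊤ :=
        ne_top_of_le_ne_top hfin (measure_mono (hUsub t ht0 ht1))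
      have hV' : volume (LY ρ (fun a => U a + t * ψ a) h) ≠ ⊤ :=
        ne_top_of_le_ne_top hfin (measure_mono (hVsub t ht0 ht1))
      have h1 : volume (ST ρ h (M + 1) β τ) ≤ volume (ST ρ (fun a => D a + t * ψ a) M β τ) +
          volume (LY ρ (fun a => U a + t * ψ a) h) := by
        refine (measure_mono hs).trans ((measure_union_le _ _).trans ?_)
        rw [h0, add_zero]
        exact measure_union_le _ _
      rw [← ENNReal.toReal_add hU' hV']
      exact ENNReal.toReal_mono (ENNReal.add_ne_top.2 ⟨hU', hV'⟩) h1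
    refine Fill.split (by omega) hδ1 hfin (fun t => ST ρ (fun a => D a + t * ψ a) M β τ)
      (fun t => LY ρ (fun a => U a + t * ψ a) h) (zero_le_one) hUsub hVsub ?_ hgoal ?_ ?_ ?_ ?_
    · intro t ht0 ht1
      rw [Set.disjoint_left]
      rintro a ⟨_, _, h1, _⟩ ⟨_, h2, _⟩
      simp only at h1 h2
      have := hDU a
      linarith only [h1, h2, this]
    · refine ST_volume_continuous (L := L + 1) (K := R) gfD' (gψ.mono (by linarith only [hL])) hψ0
        (fun i hi' => (hskM.gβ i hi').mono (by linarith only []))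
        (fun i hi' => (hskM.gτ i hi').mono (by linarith only [])) fun a ha => ?_
      have h1 := hDhi a ha
      have h2 := hψ1 a
      have h3 := htop a ha
      have h4 := (hh1 a ha).2
      linarith only [hcR, h1, h2, h3, h4]
    · have h1 := H3 R hRR3 ρ M β τ lo hi D hskM hρ1 hρ2 gD fun a ha => by
        have h1 := hDhi a ha
        have h3 := htop a ha
        have h4 := (hh1 a ha).2
        have h5 := hfloor a ha
        have h6 := hloD a
        exact ⟨by linarith only [h5, h6], by linarith only [hcR, h1, h3, h4]⟩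
      have e0 : (fun a => D a + 0 * ψ a) = D := by
        funext a
        ring
      have e1 : (fun a => D a + 1 * ψ a) = fun a => D a + max 0 (c * R / 2 - |a 0|) := by
        funext a
        rw [one_mul]
      simp only [e0, e1]
      exact h1
    · intro t ht0 ht1
      refine H1 R hRR1 ρ β τ lo hi _ hskM hρ1 hρ2 (gfD t ht0 ht1) (fun a ha => ?_)
        fun i hi' a ha => ?_
      · have h1 := hDhi a ha
        have h3 := htop a ha
        have h4 := (hh1 a ha).2
        have h5 := hfloor a ha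
        have h6 := hloD a
        have h7 := htψ t ht0 ht1 a
        exact ⟨by linarith only [h5, h6, h7], by linarith only [h1, h3, h4, h7]⟩
      · have h1 := hsk.step i M hi' (by omega) a ha
        have h6 := hloD a
        have h7 := htψ t ht0 ht1 a
        linarith only [h1, h6, h7]
    · intro t ht0 ht1
      refine H2 R hRR2 ρ _ h (gfU t ht0 ht1) hh (by linarith only [hρ1, hcR]) hρ2 fun a ha => ?_
      have h1 := hUhi a ha
      have h3 := htop a ha
      have h4 := (hh1 a ha).2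
      have h5 := hfloor a ha
      have h6 := hloU a
      have h7 := htψ t ht0 ht1 a
      exact ⟨by linarith only [h1, h3, h7], by linarith only [h4, h5, h6, h7]⟩

end Vale.Agent.P209.Strong
end
end
end
end

section

section

section

section

namespace Vale.Agent.P209.Strong

open MeasureTheory

/-! J5. The wedge is filled. -/

/-- The coordinate change: last coordinate, minus the sum, then the coordinates `1, …, d - 1`. -/
noncomputable def j5_G (e : ℕ) : (Fin (e + 2) → ℝ) ≃ₗ[ℝ] (Fin (e + 2) → ℝ) where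
  toFun a := Fin.cons (a (Fin.last (e + 1)))
    (Fin.cons (-∑ j, a j) fun i : Fin e => a i.succ.castSucc : Fin (e + 1) → ℝ)
  invFun y := Fin.snoc (Fin.cons (-∑ j, y j) fun i : Fin e => y i.succ.succ : Fin (e + 1) → ℝ)
    (y 0)
  map_add' a b := by
    funext j
    refine Fin.cases ?_ (fun i => Fin.cases ?_ (fun k => ?_) i) j
    · simp
    · simp [Finset.sum_add_distrib]; ring
    · simp
  map_smul' t a := by
    funext j
    refine Fin.cases ?_ (fun i => Fin.cases ?_ (fun k => ?_) i) j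
    · simp
    · simp [Finset.mul_sum]
    · simp
  left_inv a := by
    funext j
    refine Fin.lastCases ?_ (fun i => Fin.cases ?_ (fun k => ?_) i) j
    · simp only [Fin.snoc_last, Fin.cons_zero]
    · simp only [Fin.snoc_castSucc, Fin.cons_zero]
      rw [Fin.sum_univ_succ, Fin.cons_zero, Fin.sum_univ_succ]
      simp only [Fin.cons_succ, Fin.cons_zero]
      rw [Fin.sum_univ_castSucc (f := a), Fin.sum_univ_succ (f := fun i => a (Fin.castSucc i))]
      ring
    · simp only [Fin.snoc_castSucc, Fin.cons_succ]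
  right_inv y := by
    funext j
    refine Fin.cases ?_ (fun i => Fin.cases ?_ (fun k => ?_) i) j
    · simp only [Fin.cons_zero, Fin.snoc_last]
    · simp only [Fin.cons_zero, Fin.cons_succ]
      rw [Fin.sum_univ_castSucc]
      simp only [Fin.snoc_castSucc, Fin.snoc_last]
      rw [Fin.sum_univ_succ, Fin.cons_zero]
      simp only [Fin.cons_succ]
      rw [Fin.sum_univ_succ (f := y), Fin.sum_univ_succ (f := fun i => y (Fin.succ i))]
      ring
    · simp only [Fin.snoc_castSucc, Fin.cons_succ]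

theorem j5_G_zero (e : ℕ) (a : Fin (e + 2) → ℝ) : j5_G e a 0 = a (Fin.last (e + 1)) := rfl

theorem j5_G_one (e : ℕ) (a : Fin (e + 2) → ℝ) : j5_G e a (Fin.succ 0) = -∑ j, a j := rfl

theorem j5_G_succ (e : ℕ) (a : Fin (e + 2) → ℝ) (i : Fin e) :
    j5_G e a i.succ.succ = a i.succ.castSucc := rfl

theorem j5_symm_last (e : ℕ) (y : Fin (e + 2) → ℝ) :
    (j5_G e).symm y (Fin.last (e + 1)) = y 0 := by
  show (Fin.snoc (Fin.cons (-∑ j, y j) fun i : Fin e => y i.succ.succ : Fin (e + 1) → ℝ)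
    (y 0) : Fin (e + 2) → ℝ) (Fin.last (e + 1)) = _
  rw [Fin.snoc_last]

theorem j5_symm_zero (e : ℕ) (y : Fin (e + 2) → ℝ) :
    (j5_G e).symm y (Fin.castSucc 0) = -∑ j, y j := by
  show (Fin.snoc (Fin.cons (-∑ j, y j) fun i : Fin e => y i.succ.succ : Fin (e + 1) → ℝ)
    (y 0) : Fin (e + 2) → ℝ) (Fin.castSucc 0) = _
  rw [Fin.snoc_castSucc, Fin.cons_zero]

theorem j5_symm_succ (e : ℕ) (y : Fin (e + 2) → ℝ) (i : Fin e) :
    (j5_G e).symm y i.succ.castSucc = y i.succ.succ := by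
  show (Fin.snoc (Fin.cons (-∑ j, y j) fun i : Fin e => y i.succ.succ : Fin (e + 1) → ℝ)
    (y 0) : Fin (e + 2) → ℝ) i.succ.castSucc = _
  rw [Fin.snoc_castSucc, Fin.cons_succ]

theorem j5_single {n : ℕ} (i : Fin n) : (Pi.single i (1 : ℝ) : Fin n → ℝ) =
    fun k => (((Pi.single i (1 : ℤ) : Fin n → ℤ) k : ℤ) : ℝ) := by
  funext k
  by_cases h : k = i
  · subst h; simp
  · simp [Pi.single_eq_of_ne h]

theorem j5_int (e : ℕ) (i j : Fin (e + 2)) : ∃ z : ℤ, j5_G e (Pi.single i 1) j = z := by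
  rw [j5_single]
  refine Fin.cases ?_ (fun k => Fin.cases ?_ (fun k => ?_) k) j
  · exact ⟨_, rfl⟩
  · refine ⟨-∑ j, (Pi.single i (1 : ℤ) : Fin (e + 2) → ℤ) j, ?_⟩
    rw [j5_G_one]
    push_cast
    rfl
  · exact ⟨_, rfl⟩

theorem j5_int' (e : ℕ) (i j : Fin (e + 2)) :
    ∃ z : ℤ, (j5_G e).symm (Pi.single i 1) j = z := by
  rw [j5_single]
  refine Fin.lastCases ?_ (fun k => Fin.cases ?_ (fun k => ?_) k) j
  · exact ⟨_, by rw [j5_symm_last]⟩
  · refine ⟨-∑ j, (Pi.single i (1 : ℤ) : Fin (e + 2) → ℤ) j, ?_⟩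
    rw [j5_symm_zero]
    push_cast
    rfl
  · exact ⟨_, by rw [j5_symm_succ]⟩

theorem j5_bsum (e : ℕ) (y : Fin (e + 2) → ℝ) :
    bsum 2 (2 + e) y = ∑ i : Fin e, y i.succ.succ := by
  unfold bsum
  rw [Fin.sum_univ_succ, Fin.sum_univ_succ]
  have h : ∀ i : Fin e, (i : ℕ) + 1 + 1 < 2 + e := fun i => by have := i.2; omega
  simp only [Fin.coe_ofNat_eq_mod, Nat.zero_mod, nonpos_iff_eq_zero, OfNat.ofNat_ne_zero, add_pos_iff, Order.lt_two_iff, zero_le, true_or, and_true, ↓reduceIte, Fin.succ_zero_eq_one, Nat.one_mod, Nat.not_ofNat_le_one, false_and, Fin.val_succ, le_add_iff_nonneg_left, h, and_self, zero_add]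

theorem j5_bsum0 (e : ℕ) (a : Fin (e + 2) → ℝ) :
    bsum 0 (e + 1) a = ∑ k : Fin (e + 1), a k.castSucc := by
  unfold bsum
  rw [Fin.sum_univ_castSucc, if_neg (by rw [Fin.val_last]; omega), add_zero]
  refine Finset.sum_congr rfl fun k _ => ?_
  have := k.2
  rw [if_pos ⟨Nat.zero_le _, by rw [Fin.val_castSucc]; exact k.2⟩]

theorem j5_bsum02 (e : ℕ) (a : Fin (e + 2) → ℝ) : bsum 0 2 a = a 0 + a (Fin.succ 0) := by
  unfold bsum
  rw [Fin.sum_univ_succ, Fin.sum_univ_succ]
  simp only [Fin.coe_ofNat_eq_mod, Nat.zero_mod, Std.le_refl, Order.lt_two_iff, zero_le, and_self, ↓reduceIte, Fin.succ_zero_eq_one, Nat.one_mod, Fin.val_succ, le_add_iff_nonneg_left, add_le_iff_nonpos_left, nonpos_iff_eq_zero, Nat.add_eq_zero_iff, one_ne_zero, and_false, Finset.sum_const_zero, add_zero]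

theorem j5_bsum01 (e : ℕ) (a : Fin (e + 2) → ℝ) : bsum 0 1 a = a 0 := by
  unfold bsum
  rw [Fin.sum_univ_succ, Fin.sum_univ_succ]
  simp only [Fin.coe_ofNat_eq_mod, Nat.zero_mod, Std.le_refl, Order.lt_one_iff, and_self, ↓reduceIte, Fin.succ_zero_eq_one, Nat.one_mod, zero_le, lt_self_iff_false, and_false, Fin.val_succ, le_add_iff_nonneg_left, Nat.add_eq_zero_iff, one_ne_zero, Finset.sum_const_zero, add_zero]

/-- upper walls -/
noncomputable def j5_u (e : ℕ) (τ R : ℝ) : Fin (e + 2) → (Fin (e + 2) → ℝ) → ℝ :=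
  fun j a => if (j : ℕ) < 2 then τ - bsum 0 j a else (R - bsum 0 2 a) - bsum 2 j a

theorem j5_u_zero (e : ℕ) (τ R : ℝ) (a : Fin (e + 2) → ℝ) : j5_u e τ R 0 a = τ := by
  unfold j5_u
  rw [if_pos (by simp)]
  show τ - bsum 0 0 a = τ
  rw [HM.bsum_self, sub_zero]

theorem j5_u_one (e : ℕ) (τ R : ℝ) (a : Fin (e + 2) → ℝ) :
    j5_u e τ R (Fin.succ 0) a = τ - a 0 := by
  unfold j5_u
  rw [if_pos (by simp)]
  show τ - bsum 0 1 a = τ - a 0
  rw [j5_bsum01]

theorem j5_u_ge (e : ℕ) (τ R : ℝ) (j : Fin (e + 2)) (hj : 2 ≤ (j : ℕ)) (a : Fin (e + 2) → ℝ) :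
    j5_u e τ R j a = (R - bsum 0 2 a) - bsum 2 j a := by
  unfold j5_u
  rw [if_neg (by omega)]

/-- translation vector -/
noncomputable def j5_v (e : ℕ) (R : ℝ) : Fin (e + 2) → ℝ :=
  Fin.cons 0 (Fin.cons R fun _ : Fin e => 0 : Fin (e + 1) → ℝ)

theorem j5_iff (e : ℕ) {ρ R : ℝ} (hρ : 0 < ρ) (a : Fin (e + 2) → ℝ) :
    a ∈ WD (e + 1) ρ R ↔
      j5_G e a + j5_v e R ∈ boxSet (fun _ _ => 0) (j5_u e (R - ρ) R) := by
  set y := j5_G e a + j5_v e R with hy
  have y0 : y 0 = a (Fin.last (e + 1)) := by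
    rw [hy, Pi.add_apply, j5_G_zero]
    simp [j5_v]
  have y1 : y (Fin.succ 0) = R - ∑ j, a j := by
    rw [hy, Pi.add_apply, j5_G_one]
    simp only [j5_v, Fin.cons_succ, Fin.cons_zero]
    ring
  have y2 : ∀ i : Fin e, y i.succ.succ = a i.succ.castSucc := by
    intro i
    rw [hy, Pi.add_apply, j5_G_succ]
    simp [j5_v]
  have s1 : ∑ j, a j = a (Fin.castSucc 0) + ∑ i : Fin e, a i.succ.castSucc +
      a (Fin.last (e + 1)) := by
    rw [Fin.sum_univ_castSucc, Fin.sum_univ_succ]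
  have s2 : bsum 0 (e + 1) a = ∑ j, a j - a (Fin.last (e + 1)) := by
    rw [j5_bsum0, Fin.sum_univ_castSucc (f := a)]
    ring
  have s3 : bsum 2 (2 + e) y = ∑ i : Fin e, a i.succ.castSucc := by
    rw [j5_bsum]
    exact Finset.sum_congr rfl fun i _ => y2 i
  have hbox : y ∈ boxSet (fun _ _ => 0) (j5_u e (R - ρ) R) ↔
      (0 < y 0 ∧ y 0 < R - ρ) ∧ (0 < y (Fin.succ 0) ∧ y (Fin.succ 0) < R - ρ - y 0) ∧
      ∀ j : Fin (e + 2), 2 ≤ (j : ℕ) → (j : ℕ) < 2 + e →
        0 < y j ∧ y j < (R - bsum 0 2 y) - bsum 2 j y := by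
    constructor
    · intro h
      refine ⟨?_, ?_, fun j h1 h2 => ?_⟩
      · have h3 := h 0
        rw [j5_u_zero] at h3
        exact h3
      · have h3 := h (Fin.succ 0)
        rw [j5_u_one] at h3
        exact h3
      · have h3 := h j
        rw [j5_u_ge e _ _ j h1] at h3
        exact h3
    · rintro ⟨h1, h2, h3⟩ j
      by_cases hj : (j : ℕ) < 2
      · by_cases hj0 : (j : ℕ) = 0
        · have : j = 0 := Fin.ext hj0
          rw [this, j5_u_zero]
          exact h1
        · have : j = Fin.succ 0 := Fin.ext (by rw [Fin.val_succ, Fin.val_zero]; omega)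
          rw [this, j5_u_one]
          exact h2
      · rw [j5_u_ge e _ _ j (by omega)]
        exact h3 j (by omega) (by omega)
  rw [hbox, j5_bsum02]
  constructor
  · rintro ⟨⟨h1, h2⟩, h3⟩
    rw [s2] at h3
    have hl := h1 (Fin.last (e + 1))
    have hz := h1 (Fin.castSucc 0)
    refine ⟨⟨by rw [y0]; exact hl, by rw [y0]; linarith only [h3, h2]⟩,
      ⟨by rw [y1]; linarith, by rw [y1, y0]; linarith⟩, ?_⟩
    by_cases he : e = 0
    · intro j hj1 hj2
      omega
    · rw [HM.block_iff (by omega) (by omega)]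
      refine ⟨fun j hj1 hj2 => ?_, ?_⟩
      · obtain ⟨i, rfl⟩ : ∃ i : Fin e, j = i.succ.succ :=
          ⟨⟨(j : ℕ) - 2, by omega⟩, Fin.ext (by simp only [Fin.val_succ]; omega)⟩
        rw [y2]
        exact h1 _
      · rw [s3, y0, y1]
        linarith only [s1, hz]
  · rintro ⟨⟨h1, h2⟩, ⟨h3, h4⟩, h5⟩
    rw [y0] at h1 h2 h4
    rw [y1] at h3 h4
    have hcase : ∑ i : Fin e, a i.succ.castSucc < ∑ j, a j - a (Fin.last (e + 1)) ∧
        ∀ i : Fin e, 0 < a i.succ.castSucc := by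
      by_cases he : e = 0
      · subst he
        refine ⟨?_, fun i => i.elim0⟩
        simp only [Finset.univ_eq_empty, Finset.sum_empty]
        linarith only [hρ, h4]
      · rw [HM.block_iff (by omega) (by omega)] at h5
        refine ⟨?_, fun i => ?_⟩
        · have h6 := h5.2
          rw [s3, y0, y1] at h6
          linarith only [y0, y1, s3, h5]
        · rw [← y2]
          exact h5.1 _ (by simp only [Fin.val_succ]; omega)
            (by have := i.2; simp only [Fin.val_succ]; omega)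
    obtain ⟨h6, h7⟩ := hcase
    refine ⟨⟨fun j => ?_, by linarith only [h3]⟩, ?_⟩
    · refine Fin.lastCases ?_ (fun i => Fin.cases ?_ (fun k => ?_) i) j
      · exact h1
      · linarith only [s1, h6]
      · exact h7 k
    · rw [s2]
      linarith

theorem j5_image (e : ℕ) {ρ R : ℝ} (hρ : 0 < ρ) :
    (fun a => j5_G e a + j5_v e R) '' WD (e + 1) ρ R =
      boxSet (fun _ _ => 0) (j5_u e (R - ρ) R) := by
  ext y
  constructor
  · rintro ⟨a, ha, rfl⟩
    exact (j5_iff e hρ a).1 ha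
  · intro h
    have e1 : j5_G e ((j5_G e).symm (y - j5_v e R)) + j5_v e R = y := by
      rw [(j5_G e).apply_symm_apply, sub_add_cancel]
    refine ⟨(j5_G e).symm (y - j5_v e R), (j5_iff e hρ _).2 ?_, e1⟩
    rw [e1]
    exact h

theorem j5_u_walls (e : ℕ) (τ R : ℝ) : Walls (2 * ((e : ℝ) + 2)) (j5_u e τ R) := by
  constructor
  · intro j y y' h
    simp only [j5_u]
    split_ifs with hj
    · rw [D3_bsum_dep 0 j h]
    · rw [D3_bsum_dep 2 j h, HM.bsum_congr (k := 0) (j := 2) fun i _ hi => h i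
        (Fin.lt_def.2 (by omega))]
  · intro j y y'
    have h0 : (0 : ℝ) ≤ dist y y' := dist_nonneg
    have h1 := D3_bsum_lip 0 (j : ℕ) y y'
    have h2 := D3_bsum_lip 0 2 y y'
    have h3 := D3_bsum_lip 2 (j : ℕ) y y'
    push_cast at h1 h2 h3
    simp only [j5_u]
    split_ifs with hj
    · rw [show τ - bsum 0 (j : ℕ) y - (τ - bsum 0 (j : ℕ) y') =
        -(bsum 0 (j : ℕ) y - bsum 0 (j : ℕ) y') by ring, abs_neg]
      nlinarith only [h0, h1]
    · rw [show R - bsum 0 2 y - bsum 2 (j : ℕ) y - (R - bsum 0 2 y' - bsum 2 (j : ℕ) y') =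
        -((bsum 0 2 y - bsum 0 2 y') + (bsum 2 (j : ℕ) y - bsum 2 (j : ℕ) y')) by ring, abs_neg]
      refine (abs_add_le _ _).trans ?_
      linarith only [h2, h3]

theorem WD_fill (d : ℕ) (hd : 1 ≤ d) (c δ N : ℝ) (hc : 0 < c) (hδ : 0 < δ)
    (hδ1 : δ ≤ 1) (hN : 0 ≤ N) : ∃ R0 : ℝ, 0 < R0 ∧ ∀ R, R0 ≤ R →
      ∀ ρ : ℝ, c * R ≤ ρ → c * R ≤ R - ρ → Fill δ N (WD d ρ R) := by
  obtain ⟨e, rfl⟩ : ∃ e, d = e + 1 := ⟨d - 1, by omega⟩
  obtain ⟨R0, hR0, H⟩ := S2_of_S1 (e + 2) e (by omega) (S1_all (e + 2) (by omega) e) c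
    (2 * ((e : ℝ) + 2)) δ N hc (by positivity) hδ hδ1 hN
  refine ⟨R0, hR0, fun R hR ρ h1 h2 => ?_⟩
  have hRpos : 0 < R := hR0.trans_le hR
  have hcR : 0 < c * R := mul_pos hc hRpos
  have hρ : 0 < ρ := hcR.trans_le h1
  refine Fill.image (j5_G e) (j5_int e) (j5_int' e) (j5_v e R) ?_
  rw [j5_image e hρ]
  refine H R hR _ _ 0 (fun _ => R - ρ) (fun a => R - bsum 0 2 a) ?_
  exact
    { wl := ⟨fun _ _ _ _ => rfl, fun j y y' => by
        simp only [sub_self, abs_zero]
        exact mul_nonneg (by positivity) dist_nonneg⟩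
      wu := j5_u_walls e _ _
      kb := by omega
      intτ := ⟨R - ρ, fun _ => 0, fun _ _ => rfl, fun a => by simp⟩
      intσ := by
        refine ⟨R, fun j => if (j : ℕ) < 2 then -1 else 0, fun j hj => ?_, fun a => ?_⟩
        · simp only
          rw [if_neg (by omega)]
        · show R - bsum 0 2 a = _
          unfold bsum
          rw [sub_eq_add_neg, ← Finset.sum_neg_distrib]
          congr 1
          refine Finset.sum_congr rfl fun i _ => ?_
          by_cases hi : (i : ℕ) < 2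
          · rw [if_pos ⟨Nat.zero_le _, hi⟩]
            show -a i = (((if (i : ℕ) < 2 then -1 else 0 : ℤ)) : ℝ) * a i
            rw [if_pos hi]
            push_cast
            ring
          · rw [if_neg (fun h => hi h.2)]
            show -0 = (((if (i : ℕ) < 2 then -1 else 0 : ℤ)) : ℝ) * a i
            rw [if_neg hi]
            simp
      simτ := fun j _ hj => ⟨fun _ => rfl, fun a => by
        simp only [j5_u]
        rw [if_pos (by omega)]⟩
      simσ := fun j hj _ => ⟨fun _ => rfl, fun a => by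
        simp only [j5_u]
        rw [if_neg (by omega)]⟩
      fat := fun j a hj => by
        have := j.2
        omega
      sizeτ := fun a _ => ⟨h2, by linarith only [h1, hcR]⟩
      sizeσ := fun a ha => by
        have h3 := ha 0 (by simp)
        have h4 := ha (Fin.succ 0) (by simp)
        rw [j5_u_zero] at h3
        rw [j5_u_one] at h4
        show c * R ≤ R - bsum 0 2 a ∧ R - bsum 0 2 a ≤ R
        rw [j5_bsum02]
        constructor
        · linarith only [h1, h4]
        · linarith only [h3, h4] }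

end Vale.Agent.P209.Strong
end
end
end
end

section

section

section

section

namespace Vale.Agent.P209.Strong

open MeasureTheory

/-! J6. A simplex minus a stack of bodies is filled. -/

private theorem j6_sum {d : ℕ} (a : Fin (d + 1) → ℝ) :
    ∑ j, a j = bsum 0 d a + a (Fin.last d) := by
  unfold bsum
  rw [Fin.sum_univ_castSucc, Fin.sum_univ_castSucc]
  simp only [Fin.val_castSucc, zero_le, Fin.is_lt, and_self, ↓reduceIte, Fin.val_last, lt_self_iff_false, and_false, add_zero]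

private theorem j6_simplex {d : ℕ} {R : ℝ} (a : Fin (d + 1) → ℝ) :
    a ∈ simplex (d + 1) R ↔ (∀ j : Fin (d + 1), (j : ℕ) < d → 0 < a j) ∧
      0 < a (Fin.last d) ∧ a (Fin.last d) < R - bsum 0 d a := by
  constructor
  · rintro ⟨h1, h2⟩
    rw [j6_sum] at h2
    exact ⟨fun j _ => h1 j, h1 _, by linarith⟩
  · rintro ⟨h1, h2, h3⟩
    refine ⟨fun j => ?_, ?_⟩
    · by_cases hj : (j : ℕ) < d
      · exact h1 j hj
      · have : j = Fin.last d := by
          apply Fin.ext
          have := j.2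
          simp only [Fin.val_last]
          omega
        rw [this]
        exact h2
    · rw [j6_sum]
      linarith

private theorem j6_bsum_nonneg {d : ℕ} {a : Fin (d + 1) → ℝ}
    (h : ∀ j : Fin (d + 1), (j : ℕ) < d → 0 < a j) : 0 ≤ bsum 0 d a := by
  unfold bsum
  refine Finset.sum_nonneg fun i _ => ?_
  split_ifs with h1
  · exact (h i h1.2).le
  · exact le_rfl

private theorem j6_le_bsum {d : ℕ} (hd : 1 ≤ d) {a : Fin (d + 1) → ℝ}
    (h : ∀ j : Fin (d + 1), (j : ℕ) < d → 0 < a j) : a 0 ≤ bsum 0 d a := by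
  unfold bsum
  have h6 : (if 0 ≤ ((0 : Fin (d + 1)) : ℕ) ∧ ((0 : Fin (d + 1)) : ℕ) < d then a 0 else 0) ≤
      ∑ i : Fin (d + 1), if 0 ≤ (i : ℕ) ∧ (i : ℕ) < d then a i else 0 := by
    refine Finset.single_le_sum
      (f := fun i : Fin (d + 1) => if 0 ≤ (i : ℕ) ∧ (i : ℕ) < d then a i else 0)
      (fun i _ => ?_) (Finset.mem_univ 0)
    show 0 ≤ (if 0 ≤ (i : ℕ) ∧ (i : ℕ) < d then a i else 0)
    split_ifs with h7
    · exact (h i h7.2).le
    · exact le_rfl
  rw [if_pos ⟨Nat.zero_le _, by rw [Fin.val_zero]; omega⟩] at h6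
  exact h6

private theorem j6_bsum_le {d : ℕ} (hd : 1 ≤ d) {a : Fin (d + 1) → ℝ} {x e : ℝ}
    (h0 : a 0 ≤ x + e) (h : ∀ j : Fin (d + 1), j ≠ 0 → (j : ℕ) < d → a j ≤ e) (he : 0 ≤ e) :
    bsum 0 d a ≤ x + (d + 1 : ℝ) * e := by
  unfold bsum
  rw [Fin.sum_univ_succ, if_pos ⟨Nat.zero_le _, by rw [Fin.val_zero]; omega⟩]
  have h1 : ∑ i : Fin d, (if 0 ≤ ((i.succ : Fin (d + 1)) : ℕ) ∧
      ((i.succ : Fin (d + 1)) : ℕ) < d then a i.succ else 0) ≤ ∑ _i : Fin d, e := by
    refine Finset.sum_le_sum fun i _ => ?_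
    split_ifs with h2
    · exact h _ (Fin.succ_ne_zero i) h2.2
    · exact he
  rw [Finset.sum_const, Finset.card_univ, Fintype.card_fin, nsmul_eq_mul] at h1
  linarith only [h0, h1]

private theorem j6_null {d : ℕ} (hd : 1 ≤ d) (x : ℝ) :
    volume {a : Fin (d + 1) → ℝ | bsum 0 d a = x} = 0 := by
  have h := volume_affine_zero (n := d + 1) (fun i => if (i : ℕ) < d then (1 : ℝ) else 0) (by
    intro h0
    have := congrFun h0 0
    rw [if_pos (by rw [Fin.val_zero]; omega)] at this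
    simp at this) x
  have e : {a : Fin (d + 1) → ℝ | bsum 0 d a = x} =
      {a | ∑ i : Fin (d + 1), (if (i : ℕ) < d then (1 : ℝ) else 0) * a i = x} := by
    ext a
    have : bsum 0 d a = ∑ i : Fin (d + 1), (if (i : ℕ) < d then (1 : ℝ) else 0) * a i := by
      unfold bsum
      refine Finset.sum_congr rfl fun i _ => ?_
      by_cases hi : (i : ℕ) < d
      · rw [if_pos ⟨Nat.zero_le _, hi⟩, if_pos hi, one_mul]
      · rw [if_neg (fun h => hi h.2), if_neg hi, zero_mul]
    simp only [Set.mem_ofPred_eq, this]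
  rw [e]
  exact h

theorem SX_fill (d : ℕ) (hd : 1 ≤ d) (c κ L δ N : ℝ) (hc : 0 < c) (hcκ : c ≤ κ) (hκ : κ ≤ 1 / 4)
    (hL : (d : ℝ) ≤ L) (hδ : 0 < δ) (hδ1 : δ ≤ 1) (hN : 0 ≤ N) (M : ℕ) :
    ∃ R0 : ℝ, 0 < R0 ∧ ∀ R, R0 ≤ R → ∀ β τ lo hi : ℕ → (Fin (d + 1) → ℝ) → ℝ,
      SK c L R ((1 - κ) * R) M β τ lo hi →
      (∀ i < M, ∀ a ∈ BS d ((1 - κ) * R), hi i a + c * R ≤ R - bsum 0 d a) →
      (∀ i < M, ∀ a ∈ simplex (d + 1) R, β i a ≤ a (Fin.last d) → a (Fin.last d) ≤ τ i a →
        bsum 0 d a ≤ (1 - 2 * κ) * R) →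
      Fill δ N {a | a ∈ simplex (d + 1) R ∧
        ∀ i < M, ¬ (β i a ≤ a (Fin.last d) ∧ a (Fin.last d) ≤ τ i a)} := by
  have hd0 : (0 : ℝ) ≤ d := Nat.cast_nonneg d
  have hL0 : 0 ≤ L := hd0.trans hL
  have hκ0 : 0 < κ := hc.trans_le hcκ
  obtain ⟨R1, hR1, H1⟩ := ST_fill d hd c L δ N hc hL0 hδ hδ1 hN M
  obtain ⟨R2, hR2, H2⟩ := WD_fill d hd c δ N hc hδ hδ1 hN
  refine ⟨max R1 (max R2 (16 * (d + 1) / κ)), lt_max_of_lt_left hR1, ?_⟩
  intro R hR β τ lo hi hsk hhi hbody
  have hRR1 : R1 ≤ R := (le_max_left _ _).trans hR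
  have hRR2 : R2 ≤ R := ((le_max_left _ _).trans (le_max_right _ _)).trans hR
  have hRR3 : 16 * (d + 1) / κ ≤ R := ((le_max_right _ _).trans (le_max_right _ _)).trans hR
  have hR0 : 0 < R := hR1.trans_le hRR1
  have hcR : c * R ≤ κ * R := mul_le_mul_of_nonneg_right hcκ hR0.le
  have hκR : 0 < κ * R := mul_pos hκ0 hR0
  have hκR4 : κ * R ≤ R / 4 := by nlinarith only [hκ, hR1, hRR1]
  obtain ⟨h, hh⟩ : ∃ h : (Fin (d + 1) → ℝ) → ℝ, h = fun a => R - bsum 0 d a := ⟨_, rfl⟩
  have hha : ∀ a, h a = R - bsum 0 d a := fun a => by rw [hh]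
  have gh : GF (L + 1) h := by
    rw [hh]
    exact ((GF.const (d := d) R le_rfl).sub (GF_bsum d)).mono (by linarith only [hL])
  have hhR : ∀ x, ∀ a ∈ BS d x, h a ≤ R := fun x a ha => by
    rw [hha]
    linarith only [j6_bsum_nonneg ha.1]
  have hΩ : {a | a ∈ simplex (d + 1) R ∧
      ∀ i < M, ¬ (β i a ≤ a (Fin.last d) ∧ a (Fin.last d) ≤ τ i a)} = ST R h M β τ := by
    ext a
    simp only [ST, BS, Set.mem_ofPred_eq, j6_simplex, hha]
    constructor
    · rintro ⟨⟨h1, h2, h3⟩, h4⟩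
      exact ⟨⟨h1, by linarith only [h2, h3]⟩, h2, h3, h4⟩
    · rintro ⟨⟨h1, _⟩, h2, h3, h4⟩
      exact ⟨⟨h1, h2, h3⟩, h4⟩
  have hU : ∀ x, x ≤ R → ST x h M β τ = ST R h M β τ ∩ {a | bsum 0 d a < x} := by
    intro x hx
    ext a
    simp only [ST, BS, Set.mem_ofPred_eq, Set.mem_inter_iff]
    constructor
    · rintro ⟨⟨h1, h2⟩, h3⟩
      exact ⟨⟨⟨h1, h2.trans_le hx⟩, h3⟩, h2⟩
    · rintro ⟨⟨⟨h1, _⟩, h3⟩, h2⟩
      exact ⟨⟨h1, h2⟩, h3⟩
  have hsimp : ∀ a ∈ ST R h M β τ, a ∈ simplex (d + 1) R := by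
    intro a ha
    rw [← hΩ] at ha
    exact ha.1
  have hfin : ∀ x, volume (ST x h M β τ) ≠ ⊤ := fun x => ST_finite (hhR x)
  rw [hΩ]
  have hopen : IsOpen (ST R h M β τ) := ST_open gh hsk.gβ hsk.gτ
  refine Fill.split (n := d + 1) (by omega) hδ1 (hfin R) (fun x => ST x h M β τ)
    (fun x => WD d x R) (c₀ := (1 - 2 * κ) * R) (c₁ := (1 - κ) * R) (by nlinarith only [hκR])
    ?_ ?_ ?_ ?_ ?_ ?_ ?_ ?_
  · intro x _ hx1
    show ST x h M β τ ⊆ _
    rw [hU x (by nlinarith only [hκR, hx1])]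
    exact Set.inter_subset_left
  · intro x hx0 _ a ha
    rw [← hΩ]
    refine ⟨ha.1, fun i hiM hb => ?_⟩
    have h1 := hbody i hiM a ha.1 hb.1 hb.2
    have h2 : x < bsum 0 d a := ha.2
    linarith only [hx0, h1, h2]
  · intro x _ _
    rw [Set.disjoint_left]
    intro a ha hb
    have h1 : bsum 0 d a < x := ha.1.2
    have h2 : x < bsum 0 d a := hb.2
    linarith only [h1, h2]
  · intro x hx0 hx1
    have hsub : ST R h M β τ ⊆ (ST x h M β τ ∪ WD d x R) ∪ {a | bsum 0 d a = x} := by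
      intro a ha
      rcases lt_trichotomy (bsum 0 d a) x with h1 | h1 | h1
      · refine Or.inl (Or.inl ?_)
        rw [hU x (by nlinarith only [hκR, hx1])]
        exact ⟨ha, h1⟩
      · exact Or.inr h1
      · exact Or.inl (Or.inr ⟨hsimp a ha, h1⟩)
    have hW : volume (WD d x R) ≠ ⊤ := by
      refine ne_top_of_le_ne_top (hfin R) (measure_mono fun a ha => ?_)
      rw [← hΩ]
      refine ⟨ha.1, fun i hiM hb => ?_⟩
      have h1 := hbody i hiM a ha.1 hb.1 hb.2
      have h2 : x < bsum 0 d a := ha.2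
      linarith only [hx0, h1, h2]
    have h1 : volume (ST R h M β τ) ≤ volume (ST x h M β τ) + volume (WD d x R) := by
      refine (measure_mono hsub).trans ((measure_union_le _ _).trans ?_)
      rw [j6_null hd, add_zero]
      exact measure_union_le _ _
    rw [← ENNReal.toReal_add (hfin x) hW]
    exact ENNReal.toReal_mono (ENNReal.add_ne_top.2 ⟨hfin x, hW⟩) h1
  · have hcont := volume_lt_continuous (hfin R) hopen.measurableSet
      (f := fun a => bsum 0 d a) (g := fun _ => (1 : ℝ)) (GF_bsum d).continuous.measurable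
      measurable_const (fun _ _ => one_pos) (fun x => by
        refine measure_mono_null ?_ (j6_null hd x)
        rintro a ⟨_, ha⟩
        simpa using ha)
    refine hcont.continuousOn.congr fun x hx => ?_
    have hx1 := hx.2
    show (volume (ST x h M β τ)).toReal = _
    rw [hU x (by nlinarith only [hκR, hx1])]
    simp only [mul_one]
  · show (volume (ST ((1 - 2 * κ) * R) h M β τ)).toReal + 1 / ((d + 1).factorial : ℝ) <
      (volume (ST ((1 - κ) * R) h M β τ)).toReal
    set e : ℝ := κ * R / (8 * (d + 1)) with he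
    have hd1 : (0 : ℝ) < d + 1 := by linarith only []
    have he8 : 8 * ((d + 1 : ℝ) * e) = κ * R := by
      rw [he]; (clear * - hd hR0 hκ0; field_simp)
    have he2 : 2 ≤ e := by
      rw [he, le_div_iff₀ (by positivity)]
      rw [div_le_iff₀ hκ0] at hRR3
      linarith only [hRR3]
    have he0 : 0 < e := by linarith only [he2]
    have hee : e ≤ (d + 1 : ℝ) * e := by nlinarith only [he2]
    set l : Fin (d + 1) → ℝ := fun j => if j = 0 then (1 - 2 * κ) * R else 0 with hl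
    set B : Set (Fin (d + 1) → ℝ) := Set.pi Set.univ fun j => Set.Ioo (l j) (l j + e) with hB
    have hBm : MeasurableSet B := MeasurableSet.univ_pi fun _ => measurableSet_Ioo
    have hBv : volume B = ENNReal.ofReal (e ^ (d + 1)) := by
      rw [hB, Real.volume_pi_Ioo]
      simp only [add_sub_cancel_left, Finset.prod_const, Finset.card_univ, Fintype.card_fin]
      rw [ENNReal.ofReal_pow he0.le]
    have hBa : ∀ a ∈ B, (∀ j, 0 < a j) ∧ (1 - 2 * κ) * R < bsum 0 d a ∧
        bsum 0 d a ≤ (1 - 2 * κ) * R + (d + 1 : ℝ) * e ∧ a (Fin.last d) < e := by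
      intro a ha
      have h1 : ∀ j, l j < a j ∧ a j < l j + e := fun j => ha j (Set.mem_univ j)
      have h0 := h1 0
      rw [hl] at h0
      simp only [if_pos] at h0
      have h2 : ∀ j, 0 < a j := by
        intro j
        by_cases hj : j = 0
        · rw [hj]; nlinarith only [hR1, hRR1, hκR4, h0]
        · have := h1 j
          rw [hl] at this
          simp only [if_neg hj] at this
          exact this.1
      refine ⟨h2, h0.1.trans_le (j6_le_bsum hd fun j _ => h2 j), ?_, ?_⟩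
      · refine j6_bsum_le hd h0.2.le (fun j hj _ => ?_) he0.le
        have := h1 j
        rw [hl] at this
        simp only [if_neg hj] at this
        linarith only [this]
      · have := h1 (Fin.last d)
        rw [hl] at this
        have hne : Fin.last d ≠ 0 := by
          intro h0
          have := congrArg Fin.val h0
          simp at this
          omega
        simp only [if_neg hne] at this
        linarith only [this]
    have hsub : ST ((1 - 2 * κ) * R) h M β τ ∪ B ⊆ ST ((1 - κ) * R) h M β τ := by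
      rintro a (ha | ha)
      · exact ⟨BS_mono d (by nlinarith only [hκR]) ha.1, ha.2⟩
      · obtain ⟨h1, h2, h3, h4⟩ := hBa a ha
        have h5 : a ∈ simplex (d + 1) R := by
          rw [j6_simplex]
          exact ⟨fun j _ => h1 j, h1 _, by linarith only [he8, he2, hee, h3, h4]⟩
        refine ⟨⟨fun j _ => h1 j, by linarith only [he8, he2, hee, h3]⟩, h1 _, ?_, fun i hiM hb => ?_⟩
        · rw [hha]; linarith only [he8, he2, hee, h3, h4]
        · have h6 := hbody i hiM a h5 hb.1 hb.2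
          linarith only [h2, h6]
    have hdisj : Disjoint (ST ((1 - 2 * κ) * R) h M β τ) B := by
      rw [Set.disjoint_left]
      intro a ha hb
      have h1 : bsum 0 d a < (1 - 2 * κ) * R := ha.1.2
      linarith only [h1, (hBa a hb).2.1]
    have h1 : volume (ST ((1 - 2 * κ) * R) h M β τ) + volume B ≤
        volume (ST ((1 - κ) * R) h M β τ) := by
      rw [← measure_union hdisj hBm]
      exact measure_mono hsub
    have h2 := ENNReal.toReal_mono (hfin _) h1
    have hBt : volume B ≠ ⊤ := by rw [hBv]; exact ENNReal.ofReal_ne_top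
    rw [ENNReal.toReal_add (hfin _) hBt, hBv, ENNReal.toReal_ofReal (by positivity)] at h2
    have h3 : 1 / ((d + 1).factorial : ℝ) ≤ 1 := by
      rw [div_le_one (by positivity)]
      exact_mod_cast Nat.one_le_iff_ne_zero.2 (Nat.factorial_ne_zero _)
    have h4 : 1 < e ^ (d + 1) := one_lt_pow₀ (by linarith only [he2]) (by (clear * - hd; omega))
    linarith only [h2, h3, h4]
  · intro x hx0 hx1
    show Fill δ N (ST x h M β τ)
    have hsub : BS d x ⊆ BS d ((1 - κ) * R) := BS_mono d hx1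
    refine H1 R hRR1 x β τ lo hi h ⟨hsk.gβ, hsk.gτ, hsk.glo, hsk.ghi,
      fun i hiM a ha => hsk.floor i hiM a (hsub ha), fun i hiM a ha => hsk.lohi i hiM a (hsub ha),
      fun i j hij hj a ha => hsk.step i j hij hj a (hsub ha),
      fun i hiM a ha => hsk.body i hiM a (hsub ha)⟩ (by linarith only [hx0, hκR4, hκR, hcR]) (by nlinarith only [hκR, hx1]) gh
      (fun a ha => ⟨?_, hhR x a ha⟩) (fun i hiM a ha => ?_)
    · rw [hha]
      have := ha.2
      nlinarith only [hcR, hx1, this]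
    · rw [hha]
      exact hhi i hiM a (hsub ha)
  · intro x hx0 hx1
    exact H2 R hRR2 x (by nlinarith only [hcR, hκR, hκR4, hx0]) (by nlinarith only [hcR, hx1])

end Vale.Agent.P209.Strong
end
end
end
end

section

section

section

section

namespace Vale.Agent.P209.Strong

open MeasureTheory

/-! J7. Separation of vertically ordered compact sets by Lipschitz graphs. -/

theorem j7_upd_eq {d : ℕ} {y y' : Fin (d + 1) → ℝ}
    (h : ∀ i : Fin (d + 1), (i : ℕ) < d → y i = y' i) :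
    Function.update y (Fin.last d) 0 = Function.update y' (Fin.last d) 0 := by
  funext i
  by_cases hi : i = Fin.last d
  · rw [hi, Function.update_self, Function.update_self]
  · rw [Function.update_of_ne hi, Function.update_of_ne hi]
    refine h i ?_
    have h1 := i.2
    have h2 : (i : ℕ) ≠ d := fun hc => hi (Fin.ext hc)
    omega

theorem j7_upd_inv {d : ℕ} {y y' : Fin (d + 1) → ℝ}
    (h : Function.update y (Fin.last d) 0 = Function.update y' (Fin.last d) 0)
    (i : Fin (d + 1)) (hi : (i : ℕ) < d) : y i = y' i := by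
  have hi' : i ≠ Fin.last d := fun hc => by
    rw [hc, Fin.val_last] at hi
    exact lt_irrefl _ hi
  have h1 := congrFun h i
  rwa [Function.update_of_ne hi', Function.update_of_ne hi'] at h1

theorem j7_upd_dist {d : ℕ} (y y' : Fin (d + 1) → ℝ) :
    dist (Function.update y (Fin.last d) 0) (Function.update y' (Fin.last d) 0) ≤ dist y y' := by
  refine (dist_pi_le_iff dist_nonneg).2 fun i => ?_
  by_cases hi : i = Fin.last d
  · rw [hi, Function.update_self, Function.update_self, dist_self]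
    exact dist_nonneg
  · rw [Function.update_of_ne hi, Function.update_of_ne hi]
    exact dist_le_pi_dist y y' i

theorem j7_upd_cont (d : ℕ) :
    Continuous fun y : Fin (d + 1) → ℝ => Function.update y (Fin.last d) (0 : ℝ) :=
  continuous_id.update _ continuous_const

/-- Two compact sets, the first below the second. -/
theorem sep_pair {d : ℕ} {A B : Set (Fin (d + 1) → ℝ)} (hA : IsCompact A) (hB : IsCompact B)
    (h : ∀ a ∈ A, ∀ b ∈ B, (∀ k : Fin (d + 1), (k : ℕ) < d → a k = b k) →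
      a (Fin.last d) < b (Fin.last d)) :
    ∃ K g : ℝ, 0 ≤ K ∧ 0 < g ∧ ∀ a ∈ A, ∀ b ∈ B, a (Fin.last d) + g ≤
      b (Fin.last d) + K * dist (Function.update a (Fin.last d) 0)
        (Function.update b (Fin.last d) 0) := by
  rcases (A ×ˢ B).eq_empty_or_nonempty with he | hne
  · refine ⟨0, 1, le_rfl, one_pos, fun a ha b hb => ?_⟩
    have : (a, b) ∈ A ×ˢ B := ⟨ha, hb⟩
    rw [he] at this
    exact absurd this (Set.notMem_empty _)
  have hAB : IsCompact (A ×ˢ B) := hA.prod hB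
  have hu : Continuous fun p : (Fin (d + 1) → ℝ) × (Fin (d + 1) → ℝ) =>
      p.2 (Fin.last d) - p.1 (Fin.last d) := by fun_prop
  have hD : Continuous fun p : (Fin (d + 1) → ℝ) × (Fin (d + 1) → ℝ) =>
      dist (Function.update p.1 (Fin.last d) (0 : ℝ)) (Function.update p.2 (Fin.last d) (0 : ℝ)) :=
    ((j7_upd_cont d).comp continuous_fst).dist ((j7_upd_cont d).comp continuous_snd)
  obtain ⟨p, hp, hpmin⟩ := hAB.exists_isMinOn hne
    (f := fun p => dist (Function.update p.1 (Fin.last d) (0 : ℝ))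
      (Function.update p.2 (Fin.last d) (0 : ℝ)) + max (p.2 (Fin.last d) - p.1 (Fin.last d)) 0)
    (hD.add (hu.max continuous_const)).continuousOn
  obtain ⟨p', hp', hmin'⟩ := hAB.exists_isMinOn hne hu.continuousOn
  obtain ⟨m, hm⟩ : ∃ m, m = dist (Function.update p.1 (Fin.last d) (0 : ℝ))
      (Function.update p.2 (Fin.last d) (0 : ℝ)) + max (p.2 (Fin.last d) - p.1 (Fin.last d)) 0 :=
    ⟨_, rfl⟩
  have hm0 : 0 < m := by
    rw [hm]
    by_contra hc
    have h1 : 0 ≤ dist (Function.update p.1 (Fin.last d) (0 : ℝ))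
      (Function.update p.2 (Fin.last d) (0 : ℝ)) := dist_nonneg
    have h2 := le_max_right (p.2 (Fin.last d) - p.1 (Fin.last d)) 0
    have h3 := le_max_left (p.2 (Fin.last d) - p.1 (Fin.last d)) 0
    have h4 : dist (Function.update p.1 (Fin.last d) (0 : ℝ))
      (Function.update p.2 (Fin.last d) (0 : ℝ)) = 0 := by linarith only [h1, hc, h2]
    have h5 := h p.1 hp.1 p.2 hp.2 (j7_upd_inv (dist_eq_zero.1 h4))
    linarith
  obtain ⟨c, hc⟩ : ∃ c, c = |p'.2 (Fin.last d) - p'.1 (Fin.last d)| := ⟨_, rfl⟩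
  have hc0 : 0 ≤ c := hc ▸ abs_nonneg _
  refine ⟨(c + m / 2) * (2 / m), m / 2, by (clear * - hc0 hm0; positivity), by positivity, fun a ha b hb => ?_⟩
  have h1 : m ≤ dist (Function.update a (Fin.last d) (0 : ℝ))
      (Function.update b (Fin.last d) (0 : ℝ)) + max (b (Fin.last d) - a (Fin.last d)) 0 := by
    rw [hm]
    exact hpmin (a := (a, b)) ⟨ha, hb⟩
  have h2 : -c ≤ b (Fin.last d) - a (Fin.last d) := by
    have h3 : p'.2 (Fin.last d) - p'.1 (Fin.last d) ≤ b (Fin.last d) - a (Fin.last d) :=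
      hmin' (a := (a, b)) ⟨ha, hb⟩
    have h4 := neg_abs_le (p'.2 (Fin.last d) - p'.1 (Fin.last d))
    rw [← hc] at h4
    linarith
  have hK : 0 ≤ (c + m / 2) * (2 / m) := by (clear * - hc0 hm0; positivity)
  rcases le_or_gt (m / 2) (b (Fin.last d) - a (Fin.last d)) with h3 | h3
  · have h4 := mul_nonneg hK (dist_nonneg (x := Function.update a (Fin.last d) (0 : ℝ))
      (y := Function.update b (Fin.last d) (0 : ℝ)))
    linarith only [h3, h4]
  · have h4 : max (b (Fin.last d) - a (Fin.last d)) 0 ≤ m / 2 := max_le h3.le (by positivity)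
    have h5 : m / 2 ≤ dist (Function.update a (Fin.last d) (0 : ℝ))
      (Function.update b (Fin.last d) (0 : ℝ)) := by linarith only [h1, h4]
    have h6 : (c + m / 2) * (2 / m) * (m / 2) ≤ (c + m / 2) * (2 / m) *
        dist (Function.update a (Fin.last d) (0 : ℝ)) (Function.update b (Fin.last d) (0 : ℝ)) :=
      mul_le_mul_of_nonneg_left h5 hK
    have h7 : (c + m / 2) * (2 / m) * (m / 2) = c + m / 2 := by
      (clear * - hm0 hc0; field_simp)
    linarith only [h2, h6, h7]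

/-- The upper envelope of a compact set. -/
theorem exists_envelope {d : ℕ} {A : Set (Fin (d + 1) → ℝ)} (hA : IsCompact A)
    (hA' : A.Nonempty) {K : ℝ} (hK : 0 ≤ K) :
    ∃ T : (Fin (d + 1) → ℝ) → ℝ, GF K T ∧ (∀ a ∈ A, a (Fin.last d) ≤ T a) ∧
      (∀ (x : Fin (d + 1) → ℝ) (m : ℝ), (∀ a ∈ A, a (Fin.last d) ≤
        m + K * dist (Function.update a (Fin.last d) 0) (Function.update x (Fin.last d) 0)) →
        T x ≤ m) := by
  have hbdd : ∀ x : Fin (d + 1) → ℝ, BddAbove ((fun a : Fin (d + 1) → ℝ => a (Fin.last d) -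
      K * dist (Function.update a (Fin.last d) (0 : ℝ))
        (Function.update x (Fin.last d) (0 : ℝ))) '' A) := fun x =>
    hA.bddAbove_image ((continuous_apply _).sub (continuous_const.mul
      ((j7_upd_cont d).dist continuous_const))).continuousOn
  have hle : ∀ y y' : Fin (d + 1) → ℝ,
      sSup ((fun a : Fin (d + 1) → ℝ => a (Fin.last d) -
        K * dist (Function.update a (Fin.last d) (0 : ℝ))
          (Function.update y (Fin.last d) (0 : ℝ))) '' A) ≤
      sSup ((fun a : Fin (d + 1) → ℝ => a (Fin.last d) -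
        K * dist (Function.update a (Fin.last d) (0 : ℝ))
          (Function.update y' (Fin.last d) (0 : ℝ))) '' A) + K * dist y y' := by
    intro y y'
    refine csSup_le (hA'.image _) ?_
    rintro _ ⟨a, ha, rfl⟩
    have h1 := le_csSup (hbdd y') ⟨a, ha, rfl⟩
    have h2 : dist (Function.update a (Fin.last d) (0 : ℝ))
        (Function.update y' (Fin.last d) (0 : ℝ)) ≤
        dist (Function.update a (Fin.last d) (0 : ℝ)) (Function.update y (Fin.last d) (0 : ℝ)) +
        dist y y' := (dist_triangle _ _ _).trans (add_le_add le_rfl (j7_upd_dist y y'))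
    have h3 := mul_le_mul_of_nonneg_left h2 hK
    simp only at h1 ⊢
    linarith
  refine ⟨fun x => sSup ((fun a : Fin (d + 1) → ℝ => a (Fin.last d) -
      K * dist (Function.update a (Fin.last d) (0 : ℝ))
        (Function.update x (Fin.last d) (0 : ℝ))) '' A), ⟨fun y y' hy => ?_, fun y y' => ?_⟩,
    fun a ha => ?_, fun x m hx => ?_⟩
  · simp only [j7_upd_eq hy]
  · have h1 := hle y y'
    have h2 := hle y' y
    rw [dist_comm y' y] at h2
    exact abs_le.2 ⟨by linarith, by linarith⟩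
  · have h1 := le_csSup (hbdd a) ⟨a, ha, rfl⟩
    simp only [dist_self, mul_zero, sub_zero] at h1
    exact h1
  · refine csSup_le (hA'.image _) ?_
    rintro _ ⟨a, ha, rfl⟩
    have h1 := hx a ha
    simp only
    linarith

end Vale.Agent.P209.Strong
end
end
end
end

section

section

section

section

namespace Vale.Agent.P209.Strong

open MeasureTheory

/-! J8. Separation of the bodies, the floor and the ceiling. -/

theorem j8_bsum_sum {d : ℕ} (a : Fin (d + 1) → ℝ) :
    ∑ j, a j = bsum 0 d a + a (Fin.last d) := by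
  unfold bsum
  rw [Fin.sum_univ_castSucc, Fin.sum_univ_castSucc
    (f := fun i : Fin (d + 1) => if 0 ≤ (i : ℕ) ∧ (i : ℕ) < d then a i else 0)]
  simp only [Fin.val_castSucc, zero_le, Fin.is_lt, and_self, ↓reduceIte, Fin.val_last, lt_self_iff_false, and_false, add_zero]

theorem j8_bsum_congr {d : ℕ} {a b : Fin (d + 1) → ℝ}
    (h : ∀ k : Fin (d + 1), (k : ℕ) < d → a k = b k) : bsum 0 d a = bsum 0 d b := by
  unfold bsum
  refine Finset.sum_congr rfl fun i _ => ?_
  split_ifs with h1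
  · exact h i h1.2
  · rfl

theorem j8_update {d : ℕ} (a : Fin (d + 1) → ℝ) (t : ℝ) (k : Fin (d + 1)) (hk : (k : ℕ) < d) :
    Function.update a (Fin.last d) t k = a k := by
  refine Function.update_of_ne (fun h => ?_) _ _
  rw [h] at hk
  simp at hk

theorem j8_le_bsum {d : ℕ} {a : Fin (d + 1) → ℝ}
    (h : ∀ j : Fin (d + 1), (j : ℕ) < d → 0 ≤ a j) (j : Fin (d + 1)) (hj : (j : ℕ) < d) :
    a j ≤ bsum 0 d a := by
  have h1 := Finset.single_le_sum
    (f := fun i : Fin (d + 1) => if 0 ≤ (i : ℕ) ∧ (i : ℕ) < d then a i else 0)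
    (fun i _ => by
      split_ifs with h2
      · exact h i h2.2
      · exact le_rfl) (Finset.mem_univ j)
  simpa only [bsum, zero_le, true_and, ge_iff_le, hj, and_self, ↓reduceIte] using h1

theorem j8_bsum_nonneg {d : ℕ} {a : Fin (d + 1) → ℝ}
    (h : ∀ j : Fin (d + 1), (j : ℕ) < d → 0 ≤ a j) : 0 ≤ bsum 0 d a := by
  unfold bsum
  refine Finset.sum_nonneg fun i _ => ?_
  split_ifs with h1
  · exact h i h1.2
  · exact le_rfl

theorem j8_bsum_cont {d : ℕ} : Continuous fun a : Fin (d + 1) → ℝ => bsum 0 d a := by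
  unfold bsum
  refine continuous_finsetSum _ fun i _ => ?_
  split_ifs
  · exact continuous_apply i
  · exact continuous_const

theorem j8_compact {d : ℕ} {ρ : ℝ} (hρ : ρ ≤ 1) {f : (Fin (d + 1) → ℝ) → ℝ}
    (hf : Continuous f)
    (h0 : ∀ a : Fin (d + 1) → ℝ, 0 ≤ bsum 0 d a → bsum 0 d a ≤ ρ → 0 ≤ f a ∧ f a ≤ 1) :
    IsCompact {a : Fin (d + 1) → ℝ | (∀ j : Fin (d + 1), (j : ℕ) < d → 0 ≤ a j) ∧
      bsum 0 d a ≤ ρ ∧ a (Fin.last d) = f a} := by
  have h1 : {a : Fin (d + 1) → ℝ | (∀ j : Fin (d + 1), (j : ℕ) < d → 0 ≤ a j) ∧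
      bsum 0 d a ≤ ρ ∧ a (Fin.last d) = f a} =
      (⋂ j : Fin (d + 1), ⋂ _ : (j : ℕ) < d, {a : Fin (d + 1) → ℝ | 0 ≤ a j}) ∩
        ({a | bsum 0 d a ≤ ρ} ∩ {a | a (Fin.last d) = f a}) := by
    ext a
    simp only [Set.mem_ofPred_eq, Set.mem_inter_iff, Set.mem_iInter]
  have h2 : IsClosed {a : Fin (d + 1) → ℝ | (∀ j : Fin (d + 1), (j : ℕ) < d → 0 ≤ a j) ∧
      bsum 0 d a ≤ ρ ∧ a (Fin.last d) = f a} := by
    rw [h1]
    refine IsClosed.inter ?_ (IsClosed.inter ?_ ?_)
    · exact isClosed_iInter fun j => isClosed_iInter fun _ =>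
        isClosed_le continuous_const (continuous_apply j)
    · exact isClosed_le j8_bsum_cont continuous_const
    · exact isClosed_eq (continuous_apply _) hf
  refine (isCompact_Icc (a := (0 : Fin (d + 1) → ℝ)) (b := 1)).of_isClosed_subset h2 ?_
  rintro a ⟨ha1, ha2, ha3⟩
  have h3 := j8_bsum_nonneg ha1
  have h4 := h0 a h3 ha2
  refine ⟨fun j => ?_, fun j => ?_⟩
  · induction j using Fin.lastCases with
    | last => rw [ha3]; exact h4.1
    | cast j => exact ha1 _ (by simp)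
  · induction j using Fin.lastCases with
    | last => rw [ha3]; exact h4.2
    | cast j => exact (j8_le_bsum ha1 _ (by simp)).trans (ha2.trans hρ)

theorem j8_pos {X : Type*} [TopologicalSpace X] {U : Set X} (hU : IsCompact U) {f : X → ℝ}
    (hf : Continuous f) (h : ∀ a ∈ U, 0 < f a) : ∃ t, 0 < t ∧ ∀ a ∈ U, t ≤ f a := by
  rcases U.eq_empty_or_nonempty with h1 | h1
  · exact ⟨1, one_pos, fun a ha => by rw [h1] at ha; exact absurd ha (Set.notMem_empty a)⟩
  · obtain ⟨x, hx, hmin⟩ := hU.exists_isMinOn h1 hf.continuousOn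
    exact ⟨f x, h x hx, fun a ha => hmin ha⟩

theorem j8_min (g : ℕ → ℝ) (hg : ∀ i, 0 < g i) (M : ℕ) : ∃ t, 0 < t ∧ ∀ i ≤ M, t ≤ g i := by
  induction M with
  | zero => exact ⟨g 0, hg 0, fun i hi => by rw [Nat.le_zero.mp hi]⟩
  | succ M ih =>
    obtain ⟨t, ht, h⟩ := ih
    refine ⟨min t (g (M + 1)), lt_min ht (hg _), fun i hi => ?_⟩
    rcases Nat.lt_or_ge M i with h1 | h1
    · have : i = M + 1 := by omega
      rw [this]
      exact min_le_right _ _
    · exact (min_le_left _ _).trans (h i h1)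

/-- The recursion for the levels. -/
noncomputable def j8H {X : Type*} (T : ℕ → X → ℝ) (e : ℝ) : ℕ → X → ℝ
  | 0 => T 0
  | i + 1 => fun x => max (T (i + 1) x) (j8H T e i x + 2 * e)

theorem j8H_succ_le {X : Type*} (T : ℕ → X → ℝ) (e : ℝ) (i : ℕ) (x : X) :
    j8H T e i x + 2 * e ≤ j8H T e (i + 1) x := le_max_right _ _

theorem j8H_mono {X : Type*} (T : ℕ → X → ℝ) {e : ℝ} (he : 0 ≤ e) {i j : ℕ} (h : i ≤ j) (x : X) :
    j8H T e i x ≤ j8H T e j x := by
  induction j, h using Nat.le_induction with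
  | base => exact le_rfl
  | succ j _ ih => have := j8H_succ_le T e j x; linarith only [he, ih, this]

theorem j8H_ge {X : Type*} (T : ℕ → X → ℝ) (e : ℝ) (i : ℕ) (x : X) : T i x ≤ j8H T e i x := by
  cases i with
  | zero => exact le_rfl
  | succ i => exact le_max_left _ _

theorem j8H_le {X : Type*} (T : ℕ → X → ℝ) {e : ℝ} (he : 0 ≤ e) (i : ℕ) (x : X) (m : ℝ)
    (h : ∀ i' ≤ i, T i' x ≤ m) : j8H T e i x ≤ m + 2 * e * i := by
  induction i with
  | zero =>
    have := h 0 le_rfl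
    change T 0 x ≤ _
    simpa using this
  | succ i ih =>
    have h1 := ih fun i' hi' => h i' (by omega)
    have h2 := h (i + 1) le_rfl
    refine max_le ?_ ?_
    · have : 0 ≤ 2 * e * ((i + 1 : ℕ) : ℝ) := by positivity
      linarith
    · push_cast
      linarith

theorem j8H_GF {d : ℕ} {K : ℝ} (T : ℕ → (Fin (d + 1) → ℝ) → ℝ) (e : ℝ) (h : ∀ i, GF K (T i))
    (i : ℕ) : GF K (j8H T e i) := by
  induction i with
  | zero => exact h 0
  | succ i ih =>
    have h1 : GF (K + 0) (fun a => j8H T e i a + 2 * e) := ih.add (GF.const (2 * e) le_rfl)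
    rw [add_zero] at h1
    exact (h (i + 1)).max h1

theorem separation (d : ℕ) (hd : 1 ≤ d) (M : ℕ) (B : ℕ → Set (Fin (d + 1) → ℝ))
    (hB : ∀ i < M, IsCompact (B i)) (hs : ∀ i < M, B i ⊆ simplex (d + 1) 1)
    (ho : ∀ i j, i < j → j < M → ∀ a ∈ B i, ∀ b ∈ B j,
      (∀ k : Fin (d + 1), (k : ℕ) < d → a k = b k) → a (Fin.last d) < b (Fin.last d)) :
    ∃ (c κ L : ℝ) (lo hi : ℕ → (Fin (d + 1) → ℝ) → ℝ), 0 < c ∧ c ≤ κ ∧ κ ≤ 1 / 4 ∧ 0 ≤ L ∧
      (∀ i < M, GF L (lo i)) ∧ (∀ i < M, GF L (hi i)) ∧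
      (∀ i < M, ∀ a ∈ BS d (1 - κ), c ≤ lo i a) ∧
      (∀ i < M, ∀ a ∈ BS d (1 - κ), lo i a ≤ hi i a) ∧
      (∀ i j, i < j → j < M → ∀ a ∈ BS d (1 - κ), hi i a + c ≤ lo j a) ∧
      (∀ i < M, ∀ a ∈ B i, lo i a ≤ a (Fin.last d) ∧ a (Fin.last d) ≤ hi i a ∧ c ≤ a 0 ∧
        bsum 0 d a ≤ 1 - 2 * κ) ∧
      (∀ i < M, ∀ a ∈ BS d (1 - κ), hi i a + c ≤ 1 - bsum 0 d a) := by
  classical
  have hU : IsCompact (⋃ i ∈ {i | i < M}, B i) := (Set.finite_lt_nat M).isCompact_biUnion hB
  have hfc : Continuous fun a : Fin (d + 1) → ℝ => min (a 0) ((1 - bsum 0 d a) / 2) :=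
    (continuous_apply 0).min ((continuous_const.sub j8_bsum_cont).div_const 2)
  obtain ⟨t, ht, htU⟩ := j8_pos hU hfc (by
    intro a ha
    simp only [Set.mem_iUnion] at ha
    obtain ⟨i, hi, ha⟩ := ha
    have h1 := hs i hi ha
    refine lt_min (h1.1 0) ?_
    have h2 := j8_bsum_sum a
    have h3 := h1.2
    have h4 := h1.1 (Fin.last d)
    linarith only [h2, h3, h4])
  obtain ⟨κ, hκ0, hκ1, hκt⟩ : ∃ κ : ℝ, 0 < κ ∧ κ ≤ 1 / 4 ∧ κ ≤ t :=
    ⟨min t (1 / 4), lt_min ht (by norm_num), min_le_right _ _, min_le_left _ _⟩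
  have hκB : ∀ i < M, ∀ a ∈ B i, κ ≤ a 0 ∧ bsum 0 d a ≤ 1 - 2 * κ := by
    intro i hi a ha
    have h1 := htU a (by
      simp only [Set.mem_iUnion]
      exact ⟨i, hi, ha⟩)
    have h2 := h1.trans (min_le_left _ _)
    have h3 := h1.trans (min_le_right _ _)
    refine ⟨hκt.trans h2, ?_⟩
    linarith only [hκt, h3]
  obtain ⟨K0, hK0def⟩ : ∃ K0 : Set (Fin (d + 1) → ℝ), K0 =
      {a : Fin (d + 1) → ℝ | (∀ j : Fin (d + 1), (j : ℕ) < d → 0 ≤ a j) ∧
        bsum 0 d a ≤ 1 - κ ∧ a (Fin.last d) = (fun _ => (0 : ℝ)) a} := ⟨_, rfl⟩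
  obtain ⟨Kc, hKcdef⟩ : ∃ Kc : Set (Fin (d + 1) → ℝ), Kc =
      {a : Fin (d + 1) → ℝ | (∀ j : Fin (d + 1), (j : ℕ) < d → 0 ≤ a j) ∧
        bsum 0 d a ≤ 1 - κ ∧ a (Fin.last d) = (fun a => 1 - bsum 0 d a) a} := ⟨_, rfl⟩
  have hK0 : IsCompact K0 := by
    rw [hK0def]
    exact j8_compact (by linarith only [hκ0]) continuous_const
      (fun a _ _ => ⟨le_rfl, zero_le_one⟩)
  have hKc : IsCompact Kc := by
    rw [hKcdef]
    exact j8_compact (by linarith only [hκ0]) (continuous_const.sub j8_bsum_cont)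
      (fun a h1 h2 => ⟨by linarith only [hκ0, h2], by linarith only [h1]⟩)
  have hK0' : (0 : Fin (d + 1) → ℝ) ∈ K0 := by
    rw [hK0def]
    refine ⟨fun j _ => le_rfl, ?_, rfl⟩
    have : bsum 0 d (0 : Fin (d + 1) → ℝ) = 0 := by simp [bsum]
    rw [this]
    linarith only [hκ1]
  obtain ⟨C, hCdef⟩ : ∃ C : ℕ → Set (Fin (d + 1) → ℝ),
      C = fun i => K0 ∪ ⋃ i' ∈ {i' | i' < i ∧ i' < M}, B i' := ⟨_, rfl⟩
  obtain ⟨D, hDdef⟩ : ∃ D : ℕ → Set (Fin (d + 1) → ℝ),
      D = fun i => Kc ∪ ⋃ j ∈ {j | i ≤ j ∧ j < M}, B j := ⟨_, rfl⟩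
  have hC : ∀ i, IsCompact (C i) := by
    intro i
    rw [hCdef]
    exact hK0.union (((Set.finite_lt_nat M).subset fun j hj => hj.2).isCompact_biUnion
      fun j hj => hB j hj.2)
  have hD : ∀ i, IsCompact (D i) := by
    intro i
    rw [hDdef]
    exact hKc.union (((Set.finite_lt_nat M).subset fun j hj => hj.2).isCompact_biUnion
      fun j hj => hB j hj.2)
  have memC0 : ∀ i, ∀ a ∈ K0, a ∈ C i := by
    intro i a ha
    rw [hCdef]
    exact Or.inl ha
  have memCB : ∀ i j, j < i → j < M → ∀ a ∈ B j, a ∈ C i := by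
    intro i j h1 h2 a ha
    rw [hCdef]
    refine Or.inr ?_
    simp only [Set.mem_iUnion]
    exact ⟨j, ⟨h1, h2⟩, ha⟩
  have memDc : ∀ i, ∀ a ∈ Kc, a ∈ D i := by
    intro i a ha
    rw [hDdef]
    exact Or.inl ha
  have memDB : ∀ i j, i ≤ j → j < M → ∀ a ∈ B j, a ∈ D i := by
    intro i j h1 h2 a ha
    rw [hDdef]
    refine Or.inr ?_
    simp only [Set.mem_iUnion]
    exact ⟨j, ⟨h1, h2⟩, ha⟩
  have hCD : ∀ i, ∀ a ∈ C i, ∀ b ∈ D i, (∀ k : Fin (d + 1), (k : ℕ) < d → a k = b k) →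
      a (Fin.last d) < b (Fin.last d) := by
    intro i a ha b hb hab
    have hbs := j8_bsum_congr hab
    rw [hCdef] at ha
    rw [hDdef] at hb
    rcases ha with ha | ha <;> rcases hb with hb | hb
    · rw [hK0def] at ha
      rw [hKcdef] at hb
      have h1 : a (Fin.last d) = 0 := ha.2.2
      have h2 : b (Fin.last d) = 1 - bsum 0 d b := hb.2.2
      have h3 := hb.2.1
      rw [h1, h2]
      linarith only [hκ0, h3]
    · rw [hK0def] at ha
      simp only [Set.mem_iUnion] at hb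
      obtain ⟨j, hj, hb⟩ := hb
      have h1 : a (Fin.last d) = 0 := ha.2.2
      rw [h1]
      exact (hs j hj.2 hb).1 _
    · rw [hKcdef] at hb
      simp only [Set.mem_iUnion] at ha
      obtain ⟨j, hj, ha⟩ := ha
      have h1 : b (Fin.last d) = 1 - bsum 0 d b := hb.2.2
      have h2 := (hs j hj.2 ha).2
      rw [j8_bsum_sum] at h2
      rw [h1, ← hbs]
      linarith only [h2]
    · simp only [Set.mem_iUnion] at ha hb
      obtain ⟨j, hj, ha⟩ := ha
      obtain ⟨k, hk, hb⟩ := hb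
      exact ho j k (hj.1.trans_le hk.1) hk.2 a ha b hb hab
  choose K g hK hg hsep using fun i => sep_pair (hC i) (hD i) (hCD i)
  obtain ⟨Kt, hKt0, hKt⟩ : ∃ Kt : ℝ, 0 ≤ Kt ∧ ∀ i ≤ M, K i ≤ Kt :=
    ⟨∑ i ∈ Finset.range (M + 1), K i, Finset.sum_nonneg fun i _ => hK i, fun i hi =>
      Finset.single_le_sum (f := K) (fun i _ => hK i) (Finset.mem_range.mpr (by omega))⟩
  obtain ⟨g0, hg0, hg0'⟩ := j8_min g hg M
  choose T hT1 hT2 hT3 using fun i => exists_envelope (hC i) ⟨0, memC0 i 0 hK0'⟩ hKt0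
  obtain ⟨e, hedef⟩ : ∃ e : ℝ, e = g0 / (4 * ((M : ℝ) + 2)) := ⟨_, rfl⟩
  have hM0 : (0 : ℝ) ≤ M := Nat.cast_nonneg M
  have he0 : 0 < e := by rw [hedef]; (clear * - hg0; positivity)
  have hg0e : g0 = 4 * ((M : ℝ) + 2) * e := by rw [hedef]; (clear * - hg0; field_simp)
  -- upper bound of the levels on the sets `D i`
  have hTD : ∀ i ≤ M, ∀ b ∈ D i, T i b ≤ b (Fin.last d) - g0 := by
    intro i hi b hb
    refine hT3 i b _ fun a ha => ?_
    have h1 := hsep i a ha b hb
    have h2 := hg0' i hi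
    have h3 : K i * dist (Function.update a (Fin.last d) 0) (Function.update b (Fin.last d) 0) ≤
        Kt * dist (Function.update a (Fin.last d) 0) (Function.update b (Fin.last d) 0) :=
      mul_le_mul_of_nonneg_right (hKt i hi) dist_nonneg
    linarith only [h1, h2, h3]
  have hHup : ∀ i ≤ M, ∀ b : Fin (d + 1) → ℝ, (∀ i' ≤ i, b ∈ D i') →
      j8H T e i b + e ≤ b (Fin.last d) := by
    intro i hi b hb
    have h1 := j8H_le T he0.le i b (b (Fin.last d) - g0)
      fun i' hi' => hTD i' (hi'.trans hi) b (hb i' hi')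
    have h2 : (i : ℝ) ≤ M := by exact_mod_cast hi
    rw [hg0e] at h1
    nlinarith only [h1, he0, h2]
  have hGF : ∀ i, GF Kt (j8H T e i) := j8H_GF T e hT1
  refine ⟨min e κ, κ, Kt, fun i a => j8H T e i a + e, fun i => j8H T e (i + 1),
    lt_min he0 hκ0, min_le_right _ _, hκ1, hKt0, ?_, ?_, ?_, ?_, ?_, ?_, ?_⟩
  · intro i _
    have h1 : GF (Kt + 0) (fun a => j8H T e i a + e) := (hGF i).add (GF.const e le_rfl)
    rwa [add_zero] at h1
  · intro i _
    exact hGF (i + 1)
  · intro i _ a ha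
    have h1 := j8H_mono T he0.le (Nat.zero_le i) a
    have h2 : T 0 a = T 0 (Function.update a (Fin.last d) 0) :=
      (hT1 0).dep _ _ fun k hk => (j8_update a 0 k hk).symm
    have h3 : Function.update a (Fin.last d) 0 ∈ K0 := by
      rw [hK0def]
      refine ⟨fun j hj => ?_, ?_, ?_⟩
      · rw [j8_update a 0 j hj]
        exact (ha.1 j hj).le
      · rw [j8_bsum_congr (b := a) fun k hk => j8_update a 0 k hk]
        exact ha.2.le
      · simp
    have h4 := hT2 0 _ (memC0 0 _ h3)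
    rw [Function.update_self] at h4
    have h5 : T 0 a ≤ j8H T e 0 a := le_rfl
    have h6 := min_le_left e κ
    dsimp only
    linarith only [h1, h2, h4, h5, h6]
  · intro i _ a _
    have h1 := j8H_succ_le T e i a
    dsimp only
    linarith only [he0, h1]
  · intro i j hij _ a _
    have h1 := j8H_mono T he0.le (Nat.succ_le_of_lt hij) a
    have h2 := min_le_left e κ
    rw [Nat.succ_eq_add_one] at h1
    dsimp only
    linarith only [h1, h2]
  · intro i hi a ha
    refine ⟨?_, ?_, ?_, (hκB i hi a ha).2⟩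
    · exact hHup i hi.le a fun i' hi' => memDB i' i hi' hi a ha
    · exact (hT2 (i + 1) a (memCB (i + 1) i (Nat.lt_succ_self i) hi a ha)).trans
        (j8H_ge T e (i + 1) a)
    · exact (min_le_right _ _).trans (hκB i hi a ha).1
  · intro i hi a ha
    have h1 : bsum 0 d (Function.update a (Fin.last d) (1 - bsum 0 d a)) = bsum 0 d a :=
      j8_bsum_congr fun k hk => j8_update a _ k hk
    have h2 : Function.update a (Fin.last d) (1 - bsum 0 d a) ∈ Kc := by
      rw [hKcdef]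
      refine ⟨fun j hj => ?_, ?_, ?_⟩
      · rw [j8_update a _ j hj]
        exact (ha.1 j hj).le
      · rw [h1]
        exact ha.2.le
      · rw [Function.update_self]
        dsimp only
        rw [h1]
    have h3 := hHup (i + 1) hi _ fun i' _ => memDc i' _ h2
    rw [Function.update_self] at h3
    have h4 : j8H T e (i + 1) a =
        j8H T e (i + 1) (Function.update a (Fin.last d) (1 - bsum 0 d a)) :=
      (hGF (i + 1)).dep _ _ fun k hk => (j8_update a _ k hk).symm
    have h5 := min_le_left e κ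
    dsimp only
    rw [h4]
    linarith only [h3, h5]

end Vale.Agent.P209.Strong
end
end
end
end

section

section

section

section

namespace Vale.Agent.P209.Strong

open MeasureTheory

/-! J9. A large simplex minus bodies contained in fixed compact sets is filled. -/

theorem j9_bsum_div (d : ℕ) (a : Fin (d + 1) → ℝ) (R : ℝ) :
    bsum 0 d (fun k => a k / R) = bsum 0 d a / R := by
  unfold bsum
  rw [Finset.sum_div]
  refine Finset.sum_congr rfl fun i _ => ?_
  split_ifs with h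
  · rfl
  · rw [zero_div]

theorem j9_BS {d : ℕ} {κ R : ℝ} (hR : 0 < R) {a : Fin (d + 1) → ℝ}
    (ha : a ∈ BS d ((1 - κ) * R)) : (fun k => a k / R) ∈ BS d (1 - κ) := by
  refine ⟨fun j hj => div_pos (ha.1 j hj) hR, ?_⟩
  rw [j9_bsum_div, div_lt_iff₀ hR]
  exact ha.2

theorem j9_update {d : ℕ} {L : ℝ} {f : (Fin (d + 1) → ℝ) → ℝ} (h : GF L f)
    (a : Fin (d + 1) → ℝ) (x : ℝ) : f (Function.update a (Fin.last d) x) = f a := by
  refine h.dep _ _ fun i hi => ?_
  rw [Function.update_of_ne]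
  intro h0
  rw [h0, Fin.val_last] at hi
  exact lt_irrefl _ hi

theorem j9_update' {d : ℕ} {L R : ℝ} {f : (Fin (d + 1) → ℝ) → ℝ} (h : GF L f)
    (a : Fin (d + 1) → ℝ) (x : ℝ) :
    f (fun k => Function.update a (Fin.last d) x k / R) = f (fun k => a k / R) := by
  refine h.dep _ _ fun i hi => ?_
  rw [Function.update_of_ne]
  intro h0
  rw [h0, Fin.val_last] at hi
  exact lt_irrefl _ hi

theorem SF_fill (d : ℕ) (hd : 1 ≤ d) (M : ℕ) (B : ℕ → Set (Fin (d + 1) → ℝ))
    (hB : ∀ i < M, IsCompact (B i)) (hs : ∀ i < M, B i ⊆ simplex (d + 1) 1)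
    (ho : ∀ i j, i < j → j < M → ∀ a ∈ B i, ∀ b ∈ B j,
      (∀ k : Fin (d + 1), (k : ℕ) < d → a k = b k) → a (Fin.last d) < b (Fin.last d))
    (L δ N : ℝ) (hδ : 0 < δ) (hδ1 : δ ≤ 1) (hN : 0 ≤ N) :
    ∃ R0 : ℝ, 0 < R0 ∧ ∀ R, R0 ≤ R → ∀ β τ : ℕ → (Fin (d + 1) → ℝ) → ℝ,
      (∀ i < M, GF L (β i)) → (∀ i < M, GF L (τ i)) →
      (∀ i < M, ∀ a, β i a ≤ a (Fin.last d) → a (Fin.last d) ≤ τ i a →
        (fun k => a k / R) ∈ B i) →
      Fill δ N {a | a ∈ simplex (d + 1) R ∧
        ∀ i < M, ¬ (β i a ≤ a (Fin.last d) ∧ a (Fin.last d) ≤ τ i a)} := by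
  obtain ⟨c, κ, L1, lo, hi, hc, hcκ, hκ, hL1, hlo, hhi, hfloor, hlohi, hstep, hbody, hceil⟩ :=
    separation d hd M B hB hs ho
  set L2 : ℝ := max L (max L1 d) with hL2
  have hLL2 : L ≤ L2 := le_max_left _ _
  have hL1L2 : L1 ≤ L2 := (le_max_left L1 (d : ℝ)).trans (le_max_right _ _)
  have hdL2 : (d : ℝ) ≤ L2 := (le_max_right L1 (d : ℝ)).trans (le_max_right _ _)
  obtain ⟨R0, hR0, hfill⟩ := SX_fill d hd c κ L2 δ N hc hcκ hκ hdL2 hδ hδ1 hN M
  refine ⟨R0, hR0, fun R hRR β τ hβ hτ hin => ?_⟩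
  have hR : 0 < R := hR0.trans_le hRR
  refine hfill R hRR β τ (fun i a => R * lo i (fun k => a k / R))
    (fun i a => R * hi i (fun k => a k / R)) ⟨?_, ?_, ?_, ?_, ?_, ?_, ?_, ?_⟩ ?_ ?_
  · exact fun i hi' => (hβ i hi').mono hLL2
  · exact fun i hi' => (hτ i hi').mono hLL2
  · exact fun i hi' => ((hlo i hi').scale hR).mono hL1L2
  · exact fun i hi' => ((hhi i hi').scale hR).mono hL1L2
  · intro i hi' a ha
    have h1 := hfloor i hi' _ (j9_BS hR ha)
    have h2 := mul_le_mul_of_nonneg_left h1 hR.le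
    linarith only [h2]
  · intro i hi' a ha
    exact mul_le_mul_of_nonneg_left (hlohi i hi' _ (j9_BS hR ha)) hR.le
  · intro i j hij hj a ha
    have h1 := hstep i j hij hj _ (j9_BS hR ha)
    have h2 := mul_le_mul_of_nonneg_left h1 hR.le
    linarith only [h2]
  · intro i hi' a ha hle
    have key : ∀ x : ℝ, β i a ≤ x → x ≤ τ i a →
        R * lo i (fun k => a k / R) ≤ x ∧ x ≤ R * hi i (fun k => a k / R) ∧ c * R ≤ a 0 := by
      intro x hx1 hx2
      have h1 := hin i hi' (Function.update a (Fin.last d) x)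
        (by rw [j9_update (hβ i hi'), Function.update_self]; exact hx1)
        (by rw [j9_update (hτ i hi'), Function.update_self]; exact hx2)
      obtain ⟨h2, h3, h4, -⟩ := hbody i hi' _ h1
      rw [j9_update' (hlo i hi')] at h2
      rw [j9_update' (hhi i hi')] at h3
      simp only [Function.update_self] at h2 h3
      have h5 : (0 : Fin (d + 1)) ≠ Fin.last d := by
        intro h0
        have := congrArg Fin.val h0
        rw [Fin.val_last] at this
        simp at this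
        omega
      simp only [Function.update_of_ne h5] at h4
      rw [le_div_iff₀ hR] at h2
      rw [div_le_iff₀ hR] at h3
      rw [le_div_iff₀ hR] at h4
      refine ⟨by linarith only [h2], by linarith only [h3], h4⟩
    exact ⟨(key _ le_rfl hle).1, (key _ hle le_rfl).2.1, (key _ le_rfl hle).2.2⟩
  · intro i hi' a ha
    have h1 := hceil i hi' _ (j9_BS hR ha)
    rw [j9_bsum_div] at h1
    have h2 := mul_le_mul_of_nonneg_left h1 hR.le
    have h3 : R * (1 - bsum 0 d a / R) = R - bsum 0 d a := by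
      (clear * - hR; field_simp)
    rw [h3] at h2
    linarith only [h2]
  · intro i hi' a ha h1 h2
    have h3 := (hbody i hi' _ (hin i hi' a h1 h2)).2.2.2
    rw [j9_bsum_div, div_le_iff₀ hR] at h3
    exact h3

end Vale.Agent.P209.Strong
end
end
end
end

section

section

section

section

namespace Vale.Agent.P209.Strong

open MeasureTheory

/-! K1. Envelopes of the tilted bodies. -/

/-- an affine function of the base coordinates -/
theorem k1_lin {d : ℕ} (φ : (Fin (d + 1) → ℝ) →ₗ[ℝ] ℝ) :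
    ∃ C : ℝ, 0 ≤ C ∧ ∀ x : ℝ,
      GF C (fun a : Fin (d + 1) → ℝ => φ (Function.update a (Fin.last d) 0) + x) := by
  refine ⟨‖LinearMap.toContinuousLinearMap φ‖, norm_nonneg _, fun x => ⟨?_, ?_⟩⟩
  · intro y y' h
    have h1 : Function.update y (Fin.last d) 0 = Function.update y' (Fin.last d) 0 := by
      funext i
      by_cases hi : i = Fin.last d
      · rw [hi, Function.update_self, Function.update_self]
      · rw [Function.update_of_ne hi, Function.update_of_ne hi]
        refine h i ?_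
        exact lt_of_le_of_ne (Nat.lt_succ_iff.1 i.2) (fun h2 => hi (Fin.ext h2))
    change φ _ + x = φ _ + x
    rw [h1]
  · intro y y'
    change |(φ _ + x) - (φ _ + x)| ≤ _
    rw [add_sub_add_right_eq_sub, ← map_sub]
    have h1 := (LinearMap.toContinuousLinearMap φ).le_opNorm
      (Function.update y (Fin.last d) 0 - Function.update y' (Fin.last d) 0)
    rw [Real.norm_eq_abs] at h1
    refine le_trans h1 (mul_le_mul_of_nonneg_left ?_ (norm_nonneg _))
    rw [dist_eq_norm, pi_norm_le_iff_of_nonneg (norm_nonneg _)]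
    intro i
    by_cases hi : i = Fin.last d
    · rw [hi, Pi.sub_apply, Function.update_self, Function.update_self, sub_zero, norm_zero]
      exact norm_nonneg _
    · rw [Pi.sub_apply, Function.update_of_ne hi, Function.update_of_ne hi, ← Pi.sub_apply]
      exact norm_le_pi_norm _ i

theorem k1_inf {d : ℕ} {ι : Type*} (s : Finset ι) (hs : s.Nonempty) {L : ℝ}
    {f : ι → (Fin (d + 1) → ℝ) → ℝ} (h : ∀ i ∈ s, GF L (f i)) :
    GF L (fun a => s.inf' hs fun i => f i a) := by
  constructor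
  · intro y y' hy
    refine Finset.inf'_congr hs rfl fun i hi => (h i hi).dep y y' hy
  · have key : ∀ y y', (s.inf' hs fun i => f i y) - L * dist y y' ≤ s.inf' hs fun i => f i y' := by
      intro y y'
      rw [Finset.le_inf'_iff]
      intro i hi
      have h1 : (s.inf' hs fun i => f i y) ≤ f i y := Finset.inf'_le _ hi
      have h2 := (abs_le.1 ((h i hi).lip y y')).2
      linarith
    intro y y'
    have h1 := key y y'
    have h2 := key y' y
    rw [dist_comm y' y] at h2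
    rw [abs_le]
    constructor <;> linarith

theorem k1_split {d : ℕ} {Λ : (Fin (d + 1) → ℝ) ≃ₗ[ℝ] (Fin (d + 1) → ℝ)} (hΛ : CH Λ)
    (a : Fin (d + 1) → ℝ) : Λ a = Λ (Function.update a (Fin.last d) 0) +
      a (Fin.last d) • (Pi.single 0 1 - Pi.single (Fin.last d) 1 : Fin (d + 1) → ℝ) := by
  have h1 : a = Function.update a (Fin.last d) 0 +
      a (Fin.last d) • (Pi.single (Fin.last d) 1 : Fin (d + 1) → ℝ) := by
    funext i
    by_cases hi : i = Fin.last d
    · rw [hi, Pi.add_apply, Function.update_self, Pi.smul_apply, Pi.single_eq_same, zero_add,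
        smul_eq_mul, mul_one]
    · rw [Pi.add_apply, Function.update_of_ne hi, Pi.smul_apply, Pi.single_eq_of_ne hi,
        smul_zero, add_zero]
  conv_lhs => rw [h1]
  rw [map_add, map_smul, hΛ.vert]

theorem BD_env {d : ℕ} (hd : 1 ≤ d) {Λ : (Fin (d + 1) → ℝ) ≃ₗ[ℝ] (Fin (d + 1) → ℝ)} (hΛ : CH Λ)
    {δ : ℝ} (hδ : 0 < δ) : ∃ L : ℝ, 0 ≤ L ∧ ∀ (v : Fin (d + 1) → ℝ) (r : ℝ),
      ∃ β τ : (Fin (d + 1) → ℝ) → ℝ, GF L β ∧ GF L τ ∧
        ∀ a, (β a ≤ a (Fin.last d) ∧ a (Fin.last d) ≤ τ a) ↔ a ∈ BD Λ v δ r := by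
  classical
  -- linear functionals
  let φ : Fin (d + 1) → (Fin (d + 1) → ℝ) →ₗ[ℝ] ℝ := fun j =>
    (LinearMap.proj j).comp (Λ : (Fin (d + 1) → ℝ) →ₗ[ℝ] (Fin (d + 1) → ℝ))
  have hφ : ∀ j a, φ j a = Λ a j := fun j a => rfl
  have hd0 : (0 : ℝ) < d := by exact_mod_cast hd
  have hδd : 0 < δ * d := mul_pos hδ hd0
  have h0l : (0 : Fin (d + 1)) ≠ Fin.last d := by
    intro h
    have h1 := congrArg Fin.val h
    rw [Fin.val_last] at h1
    change 0 = d at h1
    omega
  let ψ : (Fin (d + 1) → ℝ) →ₗ[ℝ] ℝ := (δ * d)⁻¹ • (∑ j, φ j) - φ 0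
  let χ : Fin (d + 1) → (Fin (d + 1) → ℝ) →ₗ[ℝ] ℝ := fun j =>
    if j = 0 ∨ j = Fin.last d then (1 + δ)⁻¹ • (φ (Fin.last d) - δ • φ 0) else δ⁻¹ • φ j - φ 0
  obtain ⟨C1, hC1, h1⟩ := k1_lin (-φ 0)
  obtain ⟨C2, hC2, h2⟩ := k1_lin ψ
  choose C3 hC3 h3 using fun j => k1_lin (χ j)
  have hsum : 0 ≤ ∑ j, C3 j := Finset.sum_nonneg fun j _ => hC3 j
  refine ⟨C1 + C2 + ∑ j, C3 j, by (clear * - hC1 hC2 hsum; positivity), ?_⟩
  intro v r
  let x2 : ℝ := (δ * d)⁻¹ * (∑ j, v j - r) - v 0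
  let x3 : Fin (d + 1) → ℝ := fun j =>
    if j = 0 ∨ j = Fin.last d then (1 + δ)⁻¹ * (v (Fin.last d) - δ * v 0) else δ⁻¹ * v j - v 0
  let bs : (Fin (d + 1) → ℝ) → (Fin (d + 1) → ℝ) := fun a => Function.update a (Fin.last d) 0
  refine ⟨fun a => max ((-φ 0) (bs a) + -v 0) (ψ (bs a) + x2),
    fun a => Finset.univ.inf' Finset.univ_nonempty fun j => χ j (bs a) + x3 j, ?_, ?_, ?_⟩
  · refine GF.max ((h1 (-v 0)).mono ?_) ((h2 x2).mono ?_)
    · linarith only [hC2, hsum]
    · linarith only [hC1, hsum]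
  · refine k1_inf _ _ fun j _ => (h3 j (x3 j)).mono ?_
    have h4 : C3 j ≤ ∑ j, C3 j := Finset.single_le_sum (fun j _ => hC3 j) (Finset.mem_univ j)
    linarith only [hC1, hC2, h4]
  · intro a
    set t := a (Fin.last d) with ht
    have hz : ∀ j, (Λ a + v) j = Λ (bs a) j + t * ((Pi.single 0 1 : Fin (d + 1) → ℝ) j -
        (Pi.single (Fin.last d) 1 : Fin (d + 1) → ℝ) j) + v j := by
      intro j
      rw [k1_split hΛ a]
      rfl
    have hz0 : (Λ a + v) 0 = Λ (bs a) 0 + v 0 + t := by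
      rw [hz, Pi.single_eq_same, Pi.single_eq_of_ne h0l]
      ring
    have hzl : (Λ a + v) (Fin.last d) = Λ (bs a) (Fin.last d) + v (Fin.last d) - t := by
      rw [hz, Pi.single_eq_same, Pi.single_eq_of_ne h0l.symm]
      ring
    have hzj : ∀ j, j ≠ 0 → j ≠ Fin.last d → (Λ a + v) j = Λ (bs a) j + v j := by
      intro j hj hj'
      rw [hz, Pi.single_eq_of_ne hj, Pi.single_eq_of_ne hj']
      ring
    have hS : ∑ j, (Λ a + v) j = ∑ j, Λ (bs a) j + ∑ j, v j := by
      rw [Finset.sum_congr rfl fun j _ => hz j, Finset.sum_add_distrib, Finset.sum_add_distrib,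
        ← Finset.mul_sum, Finset.sum_sub_distrib]
      rw [Finset.sum_pi_single', Finset.sum_pi_single', if_pos (Finset.mem_univ _),
        if_pos (Finset.mem_univ _)]
      ring
    -- the two envelopes
    have hb1 : (-φ 0) (bs a) + -v 0 ≤ t ↔ 0 ≤ (Λ a + v) 0 := by
      rw [hz0, LinearMap.neg_apply, hφ]
      constructor <;> intro h <;> linarith only [h]
    have hb2 : ψ (bs a) + x2 ≤ t ↔ ∑ j, (Λ a + v) j - δ * d * (Λ a + v) 0 ≤ r := by
      have h5 : ψ (bs a) + x2 = (δ * d)⁻¹ * (∑ j, Λ (bs a) j + ∑ j, v j - r) -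
          (Λ (bs a) 0 + v 0) := by
        change ((δ * d)⁻¹ • (∑ j, φ j) - φ 0) (bs a) + x2 = _
        rw [LinearMap.sub_apply, LinearMap.smul_apply, LinearMap.sum_apply, smul_eq_mul]
        simp only [hφ, x2]
        ring
      rw [h5, hS, hz0, sub_le_iff_le_add, inv_mul_le_iff₀ hδd]
      constructor <;> intro h <;> linarith only [h]
    have hb3 : (∀ j, t ≤ χ j (bs a) + x3 j) ↔
        ∀ j, j ≠ 0 → δ * (Λ a + v) 0 ≤ (Λ a + v) j := by
      have hlast : t ≤ (1 + δ)⁻¹ * (Λ (bs a) (Fin.last d) - δ * Λ (bs a) 0) +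
          (1 + δ)⁻¹ * (v (Fin.last d) - δ * v 0) ↔
          δ * (Λ a + v) 0 ≤ (Λ a + v) (Fin.last d) := by
        rw [hz0, hzl, ← mul_add, le_inv_mul_iff₀ (by linarith only [hδ])]
        constructor <;> intro h <;> linarith only [h]
      have hother : ∀ j, j ≠ 0 → j ≠ Fin.last d →
          (t ≤ (δ⁻¹ * Λ (bs a) j - Λ (bs a) 0) + (δ⁻¹ * v j - v 0) ↔
            δ * (Λ a + v) 0 ≤ (Λ a + v) j) := by
        intro j hj hj'
        rw [hz0, hzj j hj hj']
        have h6 : (δ⁻¹ * Λ (bs a) j - Λ (bs a) 0) + (δ⁻¹ * v j - v 0) =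
            δ⁻¹ * (Λ (bs a) j + v j) - (Λ (bs a) 0 + v 0) := by ring
        rw [h6, le_sub_iff_add_le, le_inv_mul_iff₀ hδ]
        constructor <;> intro h <;> linarith only [h]
      have hχ1 : ∀ j, (j = 0 ∨ j = Fin.last d) → χ j (bs a) + x3 j =
          (1 + δ)⁻¹ * (Λ (bs a) (Fin.last d) - δ * Λ (bs a) 0) +
          (1 + δ)⁻¹ * (v (Fin.last d) - δ * v 0) := by
        intro j hj
        simp only [χ, x3, if_pos hj]
        rfl
      have hχ2 : ∀ j, ¬ (j = 0 ∨ j = Fin.last d) → χ j (bs a) + x3 j =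
          (δ⁻¹ * Λ (bs a) j - Λ (bs a) 0) + (δ⁻¹ * v j - v 0) := by
        intro j hj
        simp only [χ, x3, if_neg hj]
        rfl
      constructor
      · intro h j hj
        by_cases hj' : j = Fin.last d
        · have h7 := h j
          rw [hχ1 j (Or.inr hj')] at h7
          rw [hj']
          exact hlast.1 h7
        · have h7 := h j
          rw [hχ2 j (by (clear * - hb1 hb2 hlast hj hj'; tauto))] at h7
          exact (hother j hj hj').1 h7
      · intro h j
        by_cases hj : j = 0 ∨ j = Fin.last d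
        · rw [hχ1 j hj]
          exact hlast.2 (h _ h0l.symm)
        · rw [hχ2 j hj]
          push Not at hj
          exact (hother j hj.1 hj.2).2 (h j hj.1)
    change (max ((-φ 0) (bs a) + -v 0) (ψ (bs a) + x2) ≤ t ∧
      t ≤ Finset.univ.inf' Finset.univ_nonempty fun j => χ j (bs a) + x3 j) ↔
      (0 ≤ (Λ a + v) 0 ∧ (∀ j, j ≠ 0 → δ * (Λ a + v) 0 ≤ (Λ a + v) j) ∧
        ∑ j, (Λ a + v) j - δ * d * (Λ a + v) 0 ≤ r)
    rw [max_le_iff, hb1, hb2, Finset.le_inf'_iff, ← hb3]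
    constructor
    · rintro ⟨⟨h5, h6⟩, h7⟩
      exact ⟨h5, fun j => h7 j (Finset.mem_univ j), h6⟩
    · rintro ⟨h5, h6, h7⟩
      exact ⟨⟨h5, h7⟩, fun j _ => h6 j⟩

end Vale.Agent.P209.Strong
end
end
end
end

section

section

section

section

namespace Vale.Agent.P209.Strong

open MeasureTheory

/-! K4. Volume of the tilted bodies. -/

/-- The matrix of the shear `z_j ↦ z_j - δ z_0`, `j ≠ 0`. -/
def k4_mat (d : ℕ) (δ : ℝ) : Matrix (Fin (d + 1)) (Fin (d + 1)) ℝ :=
  Matrix.of fun i j => (if i = j then 1 else 0) - (if j = 0 then (if i = 0 then 0 else δ) else 0)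

theorem k4_det (d : ℕ) (δ : ℝ) : (k4_mat d δ).det = 1 := by
  rw [Matrix.det_of_isLowerTriangular]
  · refine Finset.prod_eq_one fun i _ => ?_
    rw [k4_mat, Matrix.of_apply, if_pos rfl]
    split_ifs <;> simp
  · intro i j hij
    have h : i < j := hij
    have h0 : j ≠ 0 := by
      rintro rfl
      exact absurd h (by simp)
    rw [k4_mat, Matrix.of_apply, if_neg h.ne, if_neg h0, sub_zero]

theorem k4_apply (d : ℕ) (δ : ℝ) (z : Fin (d + 1) → ℝ) (i : Fin (d + 1)) :
    Matrix.toLin' (k4_mat d δ) z i = z i - if i = 0 then 0 else δ * z 0 := by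
  rw [Matrix.toLin'_apply, Matrix.mulVec, dotProduct]
  simp only [k4_mat, Matrix.of_apply, sub_mul, ite_mul, one_mul, zero_mul]
  rw [Finset.sum_sub_distrib, Finset.sum_ite_eq, if_pos (Finset.mem_univ _),
    Finset.sum_ite_eq', if_pos (Finset.mem_univ _)]

theorem BD_volume {d : ℕ} {Λ : (Fin (d + 1) → ℝ) ≃ₗ[ℝ] (Fin (d + 1) → ℝ)} (hΛ : CH Λ)
    (v : Fin (d + 1) → ℝ) {δ r : ℝ} (hδ : 0 < δ) (hr : 0 ≤ r) :
    (volume (BD Λ v δ r)).toReal ≤ r ^ (d + 1) / ((d + 1).factorial : ℝ) := by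
  have h1 := volume_image_of_integral (BD Λ v δ r) Λ hΛ.int hΛ.int' v
  have h2 := Measure.addHaar_image_linearMap (volume : Measure (Fin (d + 1) → ℝ))
    (Matrix.toLin' (k4_mat d δ)) ((fun a => Λ a + v) '' BD Λ v δ r)
  rw [LinearMap.det_toLin', k4_det, abs_one, ENNReal.ofReal_one, one_mul, h1] at h2
  have h3 : (Matrix.toLin' (k4_mat d δ)) '' ((fun a => Λ a + v) '' BD Λ v δ r) ⊆
      h2aK (d + 1) r := by
    rintro _ ⟨_, ⟨a, ⟨ha0, ha1, ha2⟩, rfl⟩, rfl⟩
    refine ⟨fun j => ?_, ?_⟩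
    · rw [k4_apply]
      by_cases hj : j = 0
      · subst hj
        rw [if_pos rfl, sub_zero]
        exact ha0
      · rw [if_neg hj]
        exact sub_nonneg.2 (ha1 j hj)
    · have h4 : ∑ j, Matrix.toLin' (k4_mat d δ) (Λ a + v) j =
          ∑ j, (Λ a + v) j - δ * d * (Λ a + v) 0 := by
        simp only [k4_apply]
        rw [Finset.sum_sub_distrib, Fin.sum_univ_succ (fun j : Fin (d + 1) =>
          if j = 0 then (0 : ℝ) else δ * (Λ a + v) 0)]
        simp only [if_true, Fin.succ_ne_zero, if_false, Finset.sum_const, Finset.card_univ,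
          Fintype.card_fin, nsmul_eq_mul, zero_add]
        ring
      exact h4.le.trans ha2
  have h5 : volume (BD Λ v δ r) ≤ ENNReal.ofReal (r ^ (d + 1) / ((d + 1).factorial : ℝ)) := by
    rw [← h2]
    exact (measure_mono h3).trans (h2aK_volume (d + 1) (by omega) r hr)
  exact ENNReal.toReal_le_of_le_ofReal (by (clear * - hr; positivity)) h5

end Vale.Agent.P209.Strong
end
end
end
end

section

section

section

section

namespace Vale.Agent.P209.Strong

open MeasureTheory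

/-! K5. Big balls in vertically ordered cells, and many small balls. -/

/-- The choice of the enlargement. -/
theorem k5_tau {M n : ℕ} {H T V : ℝ} (hH : 0 < H) (b : Fin M → ℝ)
    (hV : ∑ i, b i ^ n + V < T) :
    ∃ τ : ℝ, 0 < τ ∧ τ ≤ H ∧ ∑ i, (b i + τ) ^ n + V < T := by
  have e1 : ∀ᶠ τ : ℝ in nhdsWithin 0 (Set.Ioi 0), τ < H :=
    nhdsWithin_le_nhds (Iio_mem_nhds hH)
  have e3 : ∀ᶠ τ : ℝ in nhdsWithin 0 (Set.Ioi 0), ∑ i, (b i + τ) ^ n + V < T := by
    have hc : Continuous fun τ : ℝ => ∑ i, (b i + τ) ^ n + V := by fun_prop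
    have h0 : ∑ i, (b i + 0) ^ n + V < T := by
      simp only [add_zero]
      exact hV
    have h1 : ∀ᶠ τ : ℝ in nhds 0, ∑ i, (b i + τ) ^ n + V < T :=
      hc.continuousAt.eventually_lt continuousAt_const h0
    exact nhdsWithin_le_nhds h1
  obtain ⟨τ, ⟨h1, h3⟩, h4⟩ :=
    ((e1.and e3).and (self_mem_nhdsWithin (a := (0 : ℝ)) (s := Set.Ioi 0))).exists
  exact ⟨τ, h4, h1.le, h3⟩

/-- The volume of a set minus a finite union. -/
theorem k5_vol {α : Type*} [MeasurableSpace α] {μ : Measure α} {M : ℕ} {S Ω : Set α}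
    {B : Fin M → Set α} (hS : μ S ≠ ⊤) (hB : ∀ i, μ (B i) ≠ ⊤) (hΩ : Ω ⊆ S)
    (h : S ⊆ Ω ∪ ⋃ i, B i) :
    (μ S).toReal - ∑ i, (μ (B i)).toReal ≤ (μ Ω).toReal := by
  have hΩf : μ Ω ≠ ⊤ := ne_top_of_le_ne_top hS (measure_mono hΩ)
  have hsf : ∑ i, μ (B i) ≠ ⊤ := (ENNReal.sum_lt_top.2 fun i _ => (hB i).lt_top).ne
  have h1 : μ S ≤ μ Ω + ∑ i, μ (B i) :=
    (measure_mono h).trans ((measure_union_le _ _).trans
      (add_le_add le_rfl (measure_iUnion_fintype_le _ _)))
  have h2 := ENNReal.toReal_mono (ENNReal.add_ne_top.2 ⟨hΩf, hsf⟩) h1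
  rw [ENNReal.toReal_add hΩf hsf, ENNReal.toReal_sum fun i _ => hB i] at h2
  linarith

theorem cells_packs (d : ℕ) (hd : 1 ≤ d) (M : ℕ)
    (Λ : ℕ → ((Fin (d + 1) → ℝ) ≃ₗ[ℝ] (Fin (d + 1) → ℝ))) (v : ℕ → (Fin (d + 1) → ℝ))
    (s : ℕ → ℝ) (hΛ : ∀ i < M, CH (Λ i)) (hs1 : ∀ i < M, s i ≤ 1)
    (hsub : ∀ i < M, CE (Λ i) (v i) (s i) ⊆ simplex (d + 1) 1)
    (ho : ∀ i j, i < j → j < M → ∀ a ∈ CE (Λ i) (v i) (s i), ∀ b ∈ CE (Λ j) (v j) (s j),
      (∀ k : Fin (d + 1), (k : ℕ) < d → a k = b k) → a (Fin.last d) < b (Fin.last d))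
    (η : ℝ) (hη : 0 < η) (hηs : ∀ i < M, η ≤ s i) (δ N : ℝ) (hδ : 0 < δ) (hδ1 : δ ≤ 1)
    (hN : 0 ≤ N) :
    ∃ R0 : ℝ, 0 < R0 ∧ ∀ R, R0 ≤ R → ∀ b : Fin M → ℝ, (∀ i, 0 ≤ b i) →
      (∀ i : Fin M, b i + η * R ≤ s i * R) →
      ∀ (ι : Type) [Fintype ι] (r : ι → ℝ) (J : Finset ι), (∀ i, 0 < r i ∧ r i ≤ 1) →
        (∀ i, i ∉ J → δ ≤ r i) → ∑ i ∈ J, r i ≤ N →
        ∑ i, b i ^ (d + 1) + ∑ i, r i ^ (d + 1) < R ^ (d + 1) →
        TPk (simplex (d + 1) R) (Sum.elim b r) := by
  classical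
  obtain ⟨m, hm⟩ : ∃ m : ℝ, m = η / (8 * (d + 1)) := ⟨_, rfl⟩
  obtain ⟨e, he⟩ : ∃ e : ℝ, e = min (1 / 2) m := ⟨_, rfl⟩
  have hd0 : (0 : ℝ) < d + 1 := by positivity
  have hm0 : 0 < m := by rw [hm]; positivity
  have he0 : 0 < e := by rw [he]; exact lt_min (by norm_num) hm0
  have he1 : e < 1 := by
    rw [he]
    exact (min_le_left _ _).trans_lt (by norm_num)
  have hem : e ≤ m := by rw [he]; exact min_le_right _ _
  have hdm : (d + 1 : ℝ) * m = η / 8 := by rw [hm]; field_simp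
  have hed : e * d ≤ η / 8 := by
    calc e * d ≤ m * (d + 1) := by
          apply mul_le_mul hem (by linarith only []) (Nat.cast_nonneg d) hm0.le
      _ = η / 8 := by rw [mul_comm, hdm]
  have hed0 : 0 ≤ e * d := by (clear * - he0 hd; positivity)
  -- the bodies
  obtain ⟨B, hB⟩ : ∃ B : ℕ → Set (Fin (d + 1) → ℝ),
    B = fun i => BD (Λ i) (fun j => v i j - m) e (s i - η / 2) := ⟨_, rfl⟩
  have hBc : ∀ i < M, IsCompact (B i) := by
    intro i _
    rw [hB]
    exact BD_compact he0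
  have hBCE : ∀ i < M, B i ⊆ CE (Λ i) (v i) (s i) := by
    intro i hi
    rw [hB]
    have h1 := hηs i hi
    have h2 := hs1 i hi
    refine BD_subset_CE he0 hm0 (by linarith only [hη, h1]) ?_
    have h3 : (s i - η / 2) * (e * d) ≤ 1 * (η / 8) :=
      mul_le_mul (by linarith only [hη, h2]) hed hed0 (by norm_num)
    calc (s i - η / 2) * (1 + e * d) + (d + 1) * m
        = (s i - η / 2) + (s i - η / 2) * (e * d) + (d + 1) * m := by ring
      _ < s i := by rw [hdm]; linarith only [hη, h3]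
  have hBs : ∀ i < M, B i ⊆ simplex (d + 1) 1 := fun i hi => (hBCE i hi).trans (hsub i hi)
  have hBo : ∀ i j, i < j → j < M → ∀ a ∈ B i, ∀ b ∈ B j,
      (∀ k : Fin (d + 1), (k : ℕ) < d → a k = b k) → a (Fin.last d) < b (Fin.last d) :=
    fun i j hij hj a ha b hb => ho i j hij hj a (hBCE i (hij.trans hj) ha) b (hBCE j hj hb)
  -- the envelopes
  have hLex : ∀ i, ∃ L : ℝ, i < M → 0 ≤ L ∧ ∀ (v : Fin (d + 1) → ℝ) (r : ℝ),
      ∃ β τ : (Fin (d + 1) → ℝ) → ℝ, GF L β ∧ GF L τ ∧
        ∀ a, (β a ≤ a (Fin.last d) ∧ a (Fin.last d) ≤ τ a) ↔ a ∈ BD (Λ i) v e r := by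
    intro i
    by_cases hi : i < M
    · obtain ⟨L, hL⟩ := BD_env hd (hΛ i hi) he0
      exact ⟨L, fun _ => hL⟩
    · exact ⟨0, fun h => absurd h hi⟩
  choose Lf hLf using hLex
  obtain ⟨L, hL⟩ : ∃ L : ℝ, ∀ i < M, Lf i ≤ L := by
    refine ⟨∑ i ∈ Finset.range M, Lf i, fun i hi => ?_⟩
    exact Finset.single_le_sum (f := Lf) (fun j hj => (hLf j (Finset.mem_range.1 hj)).1)
      (Finset.mem_range.2 hi)
  obtain ⟨R0, hR0, hF⟩ := SF_fill d hd M B hBc hBs hBo L δ N hδ hδ1 hN
  refine ⟨R0, hR0, ?_⟩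
  intro R hR b hb hbs ι _ r J hr hδr hJ hvol
  have hRp : 0 < R := hR0.trans_le hR
  obtain ⟨t, ht, htR, htv⟩ := k5_tau (H := η * R / 2) (by (clear * - hη hRp; positivity)) b hvol
  obtain ⟨bb, hbb⟩ : ∃ bb : ℕ → ℝ, ∀ i : Fin M, bb i = b i :=
    ⟨fun i => if h : i < M then b ⟨i, h⟩ else 0, fun i => by simp⟩
  -- the envelopes of the rescaled bodies
  have hβ : ∀ i, ∃ β τ : (Fin (d + 1) → ℝ) → ℝ, i < M → GF (Lf i) β ∧ GF (Lf i) τ ∧
        ∀ a, (β a ≤ a (Fin.last d) ∧ a (Fin.last d) ≤ τ a) ↔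
          a ∈ BD (Λ i) (fun j => R * (v i j - m)) e (bb i + t) := by
    intro i
    by_cases hi : i < M
    · obtain ⟨β, τ, h⟩ := (hLf i hi).2 (fun j => R * (v i j - m)) (bb i + t)
      exact ⟨β, τ, fun _ => h⟩
    · exact ⟨0, 0, fun h => absurd h hi⟩
  choose β τ hβτ using hβ
  -- rescaling
  have hsc : ∀ i < M, ∀ a, a ∈ BD (Λ i) (fun j => R * (v i j - m)) e (bb i + t) →
      (fun k => a k / R) ∈ B i := by
    intro i hi a ha
    have h1 : bb i + t = R * ((bb i + t) / R) := by (clear * - hRp; field_simp)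
    rw [h1] at ha
    have h2 := (BD_scale (v := fun j => v i j - m) hRp a).1 ha
    rw [hB]
    refine BD_mono ?_ h2
    rw [div_le_iff₀ hRp]
    have h3 := hbs ⟨i, hi⟩
    have h4 := hbb ⟨i, hi⟩
    simp only [] at h3 h4
    rw [h4]
    linarith only [htR, h3]
  have hin : ∀ i < M, ∀ a, (fun k => a k / R) ∈ B i → a ∈ simplex (d + 1) R := by
    intro i hi a ha
    obtain ⟨h1, h2⟩ := hBs i hi ha
    refine ⟨fun j => ?_, ?_⟩
    · have := h1 j
      simp only [] at this
      exact (div_pos_iff_of_pos_right hRp).1 this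
    · rw [← Finset.sum_div, div_lt_one hRp] at h2
      exact h2
  obtain ⟨Ω, hΩ⟩ : ∃ Ω : Set (Fin (d + 1) → ℝ), Ω = {a | a ∈ simplex (d + 1) R ∧
    ∀ i < M, ¬ (β i a ≤ a (Fin.last d) ∧ a (Fin.last d) ≤ τ i a)} := ⟨_, rfl⟩
  have hfill : Fill δ N Ω := by
    rw [hΩ]
    refine hF R hR β τ (fun i hi => ((hβτ i hi).1).mono (hL i hi))
      (fun i hi => ((hβτ i hi).2.1).mono (hL i hi)) fun i hi a h1 h2 => ?_
    exact hsc i hi a (((hβτ i hi).2.2 a).1 ⟨h1, h2⟩)
  -- the volume
  have hΩS : Ω ⊆ simplex (d + 1) R := by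
    rw [hΩ]
    exact fun a ha => ha.1
  have hvS := volume_simplex (d + 1) R hRp
  have hvS' : volume (simplex (d + 1) R) ≠ ⊤ := by
    rw [volume_simplex_ofReal (d + 1) R hRp]
    exact ENNReal.ofReal_ne_top
  have hcov : simplex (d + 1) R ⊆ Ω ∪ ⋃ i : Fin M,
      BD (Λ i) (fun j => R * (v i j - m)) e (b i + t) := by
    intro a ha
    by_cases h : ∀ i < M, ¬ (β i a ≤ a (Fin.last d) ∧ a (Fin.last d) ≤ τ i a)
    · left
      rw [hΩ]
      exact ⟨ha, h⟩
    · right
      push Not at h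
      obtain ⟨i, hi, h1⟩ := h
      have h2 := ((hβτ i hi).2.2 a).1 h1
      rw [Set.mem_iUnion]
      refine ⟨⟨i, hi⟩, ?_⟩
      have h4 := hbb ⟨i, hi⟩
      simp only [] at h4
      rw [h4] at h2
      exact h2
  have hvΩ := k5_vol (μ := volume) hvS' (fun i : Fin M => (BD_compact (Λ := Λ i)
    (v := fun j => R * (v i j - m)) (r := b i + t) he0).measure_ne_top) hΩS hcov
  have hvB : ∑ i : Fin M, (volume (BD (Λ i) (fun j => R * (v i j - m)) e (b i + t))).toReal ≤
      ∑ i, (b i + t) ^ (d + 1) / ((d + 1).factorial : ℝ) :=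
    Finset.sum_le_sum fun i _ => BD_volume (hΛ i i.2) _ he0 (by have := hb i; linarith only [ht, this])
  have hf : (0 : ℝ) < ((d + 1).factorial : ℝ) := by exact_mod_cast (d + 1).factorial_pos
  have hvol' : ∑ i, r i ^ (d + 1) / ((d + 1).factorial : ℝ) < (volume Ω).toReal := by
    refine lt_of_lt_of_le ?_ hvΩ
    rw [hvS]
    have h5 : ∑ i, r i ^ (d + 1) / ((d + 1).factorial : ℝ) +
        ∑ i, (b i + t) ^ (d + 1) / ((d + 1).factorial : ℝ) <
        R ^ (d + 1) / ((d + 1).factorial : ℝ) := by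
      rw [← Finset.sum_div, ← Finset.sum_div, ← add_div]
      apply div_lt_div_of_pos_right _ hf
      linarith only [htv]
    linarith only [hvB, h5]
  have hpk := hfill ι r J hr hδr hJ hvol'
  -- gluing
  have hCin : ∀ p : Fin M, ∀ a ∈ OD (Λ p) (fun j => R * (v p j - m)) e (b p + t),
      a ∈ BD (Λ p) (fun j => R * (v p j - m)) e (bb p + t) := by
    intro p a ha
    rw [hbb]
    exact OD_subset ha
  refine TPk.glue (simplex (d + 1) R) Ω
    (fun p : Fin M => OD (Λ p) (fun j => R * (v p j - m)) e (b p + t)) b r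
    (fun p => OD_emb (hΛ p p.2) _ he0 he1 (hb p) (by linarith only [ht])) hpk ?_ hΩS ?_ ?_
  · intro p a ha
    exact hin p p.2 a (hsc p p.2 a (hCin p a ha))
  · have key : ∀ p q : Fin M, p < q → ∀ a, a ∈ OD (Λ p) (fun j => R * (v p j - m)) e (b p + t) →
        a ∉ OD (Λ q) (fun j => R * (v q j - m)) e (b q + t) := by
      intro p q hpq a h1 h2
      exact lt_irrefl _ (hBo p q hpq q.2 _ (hsc p p.2 a (hCin p a h1)) _
        (hsc q q.2 a (hCin q a h2)) fun _ _ => rfl)
    intro p q hpq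
    rw [Set.disjoint_left]
    intro a h1 h2
    rcases lt_or_gt_of_ne hpq with h | h
    · exact key p q h a h1 h2
    · exact key q p h a h2 h1
  · intro p
    rw [Set.disjoint_left]
    intro a h1 h2
    rw [hΩ] at h2
    exact h2.2 p p.2 (((hβτ p p.2).2.2 a).2 (hCin p a h1))

end Vale.Agent.P209.Strong
end
end
end
end

section

section

section

section

namespace Vale.Agent.P209.Strong

open MeasureTheory

/-! K6. The same for a finite family of cells ordered by a key. -/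

theorem cells_packs_key (d : ℕ) (hd : 1 ≤ d) (κ : Type) [Fintype κ]
    (Λ : κ → ((Fin (d + 1) → ℝ) ≃ₗ[ℝ] (Fin (d + 1) → ℝ))) (v : κ → (Fin (d + 1) → ℝ))
    (s : κ → ℝ) (key : κ → ℕ) (hΛ : ∀ i, CH (Λ i)) (hs1 : ∀ i, s i ≤ 1)
    (hsub : ∀ i, CE (Λ i) (v i) (s i) ⊆ simplex (d + 1) 1)
    (ho : ∀ i j, i ≠ j → key i ≤ key j → ∀ a ∈ CE (Λ i) (v i) (s i),
      ∀ b ∈ CE (Λ j) (v j) (s j), (∀ k : Fin (d + 1), (k : ℕ) < d → a k = b k) →
      a (Fin.last d) < b (Fin.last d))
    (η : ℝ) (hη : 0 < η) (hηs : ∀ i, η ≤ s i) (δ N : ℝ) (hδ : 0 < δ) (hδ1 : δ ≤ 1)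
    (hN : 0 ≤ N) :
    ∃ R0 : ℝ, 0 < R0 ∧ ∀ R, R0 ≤ R → ∀ b : κ → ℝ, (∀ i, 0 ≤ b i) →
      (∀ i, b i + η * R ≤ s i * R) →
      ∀ (ι : Type) [Fintype ι] (r : ι → ℝ) (J : Finset ι), (∀ i, 0 < r i ∧ r i ≤ 1) →
        (∀ i, i ∉ J → δ ≤ r i) → ∑ i ∈ J, r i ≤ N →
        ∑ i, b i ^ (d + 1) + ∑ i, r i ^ (d + 1) < R ^ (d + 1) →
        TPk (simplex (d + 1) R) (Sum.elim b r) := by
  classical
  obtain ⟨e, he⟩ : ∃ e : Fin (Fintype.card κ) ≃ κ, Monotone (fun i => key (e i)) := by
    refine ⟨(Tuple.sort (key ∘ (Fintype.equivFin κ).symm)).trans (Fintype.equivFin κ).symm, ?_⟩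
    exact Tuple.monotone_sort (key ∘ (Fintype.equivFin κ).symm)
  obtain ⟨R0, hR0, h⟩ := cells_packs d hd (Fintype.card κ)
    (fun i => if h : i < Fintype.card κ then Λ (e ⟨i, h⟩) else LinearEquiv.refl ℝ _)
    (fun i => if h : i < Fintype.card κ then v (e ⟨i, h⟩) else 0)
    (fun i => if h : i < Fintype.card κ then s (e ⟨i, h⟩) else 0)
    (fun i hi => by simp only [dif_pos hi]; exact hΛ _)
    (fun i hi => by simp only [dif_pos hi]; exact hs1 _)
    (fun i hi => by simp only [dif_pos hi]; exact hsub _)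
    (fun i j hij hj a ha b hb hab => by
      have hi : i < Fintype.card κ := hij.trans hj
      simp only [dif_pos hi] at ha
      simp only [dif_pos hj] at hb
      refine ho _ _ (fun hh => hij.ne ?_)
        (he (show (⟨i, hi⟩ : Fin (Fintype.card κ)) ≤ ⟨j, hj⟩ from hij.le)) a ha b hb hab
      exact congrArg Fin.val (e.injective hh))
    η hη (fun i hi => by simp only [dif_pos hi]; exact hηs _) δ N hδ hδ1 hN
  refine ⟨R0, hR0, fun R hR b hb0 hb1 ι _ r J hr hrJ hJN hvol => ?_⟩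
  have h1 := h R hR (fun i => b (e i)) (fun i => hb0 _) (fun i => by
    simp only [dif_pos i.2]
    exact hb1 _) ι r J hr hrJ hJN (by
      rw [Equiv.sum_comp e (fun k => b k ^ (d + 1))]
      exact hvol)
  have h2 := h1.comp_inj (Sum.map e.symm id)
    (Sum.map_injective.2 ⟨e.symm.injective, Function.injective_id⟩)
  have e3 : (fun k => Sum.elim (fun i => b (e i)) r (Sum.map e.symm id k)) = Sum.elim b r := by
    funext x
    cases x with
    | inl k => simp
    | inr k => simp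
  rw [e3] at h2
  exact h2

end Vale.Agent.P209.Strong
end
end
end
end

section

section

section

section

namespace Vale.Agent.P209.Strong

open MeasureTheory Vale.Agent.P209

/-! K10. A corner ball, layers of balls, and many small balls. -/

/-- left ends of the intervals of the letters, for the words with largest letter `q` -/
noncomputable def k10_off (j : ℕ) (T : ℝ) (S : ℕ → ℝ) (q c : ℕ) : ℝ :=
  if c < j then c * S j else T + ∑ i ∈ Finset.Ico j c, S (min i q)

theorem k10_off_eq {j q c : ℕ} (T : ℝ) (S : ℕ → ℝ) (hjc : j ≤ c) (hcq : c ≤ q) :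
    k10_off j T S q c = T + ∑ i ∈ Finset.Ico j c, S i := by
  rw [k10_off, if_neg (by omega)]
  congr 1
  refine Finset.sum_congr rfl fun i hi => ?_
  rw [Finset.mem_Ico] at hi
  rw [min_eq_left (by omega)]

section

variable {m j : ℕ} {T η : ℝ} {S : ℕ → ℝ}

theorem k10_S_pos (hη : 0 < η) (hS : ∀ q, j ≤ q → q < m → η ≤ S q) {q : ℕ} (hjq : j ≤ q)
    (hqm : q < m) : 0 < S q := lt_of_lt_of_le hη (hS q hjq hqm)

theorem k10_ge (hη : 0 < η) (hS : ∀ q, j ≤ q → q < m → η ≤ S q) {q c : ℕ} (hjq : j ≤ q)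
    (hqm : q < m) (hjc : j ≤ c) : T ≤ k10_off j T S q c := by
  rw [k10_off, if_neg (by omega)]
  have : 0 ≤ ∑ i ∈ Finset.Ico j c, S (min i q) := by
    refine Finset.sum_nonneg fun i hi => ?_
    rw [Finset.mem_Ico] at hi
    exact (k10_S_pos hη hS (by omega) (by omega)).le
  linarith only [this]

theorem k10_gap (hη : 0 < η) (hS : ∀ q, j ≤ q → q < m → η ≤ S q)
    (hanti : ∀ q q', j ≤ q → q ≤ q' → q' < m → S q' ≤ S q) (hjS : j < m → (j : ℝ) * S j ≤ T)
    {q c c' : ℕ} (hjq : j ≤ q) (hqm : q < m) (hcc : c < c') :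
    k10_off j T S q c + S q ≤ k10_off j T S q c' := by
  have hjm : j < m := by omega
  have hSj : 0 < S j := k10_S_pos hη hS le_rfl hjm
  have hqj : S q ≤ S j := hanti j q le_rfl hjq hqm
  by_cases h1 : c < j
  · have e1 : k10_off j T S q c = c * S j := by rw [k10_off, if_pos h1]
    rw [e1]
    by_cases h2 : c' < j
    · rw [k10_off, if_pos h2]
      have h3 : ((c : ℝ) + 1) ≤ c' := by exact_mod_cast hcc
      have h4 : ((c : ℝ) + 1) * S j ≤ c' * S j := mul_le_mul_of_nonneg_right h3 hSj.le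
      linarith only [hqj, h4]
    · have h3 : ((c : ℝ) + 1) ≤ j := by exact_mod_cast h1
      have h4 : ((c : ℝ) + 1) * S j ≤ j * S j := mul_le_mul_of_nonneg_right h3 hSj.le
      have h5 := hjS hjm
      have h6 := k10_ge (T := T) (c := c') hη hS hjq hqm (by omega)
      linarith only [hqj, h4, h5, h6]
  · rw [k10_off, k10_off, if_neg h1, if_neg (by omega)]
    have h2 : ∑ i ∈ Finset.Ico j c, S (min i q) + ∑ i ∈ Finset.Ico c c', S (min i q) =
        ∑ i ∈ Finset.Ico j c', S (min i q) :=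
      Finset.sum_Ico_consecutive _ (by omega) hcc.le
    have h3 : S q ≤ ∑ i ∈ Finset.Ico c c', S (min i q) := by
      have h4 : S (min c q) ≤ ∑ i ∈ Finset.Ico c c', S (min i q) := by
        refine Finset.single_le_sum (f := fun i => S (min i q)) ?_
          (Finset.mem_Ico.2 ⟨le_rfl, hcc⟩)
        intro i hi
        rw [Finset.mem_Ico] at hi
        exact (k10_S_pos hη hS (by omega) (by omega)).le
      exact (hanti _ _ (by omega) (min_le_right c q) hqm).trans h4
    linarith only [h2, h3]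

theorem k10_nonneg (hη : 0 < η) (hT : η ≤ T) (hS : ∀ q, j ≤ q → q < m → η ≤ S q) {q c : ℕ}
    (hjq : j ≤ q) (hqm : q < m) : 0 ≤ k10_off j T S q c := by
  by_cases h1 : c < j
  · rw [k10_off, if_pos h1]
    exact mul_nonneg (Nat.cast_nonneg c) (k10_S_pos hη hS le_rfl (by omega)).le
  · exact (hη.le.trans hT).trans (k10_ge hη hS hjq hqm (by omega))

theorem k10_top (hη : 0 < η) (hS : ∀ q, j ≤ q → q < m → η ≤ S q) {q q' : ℕ}
    (hjq : j ≤ q) (hqq : q < q') (hqm : q' ≤ m) :
    k10_off j T S q q + S q ≤ T + ∑ i ∈ Finset.Ico j q', S i := by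
  rw [k10_off_eq T S hjq le_rfl]
  have h1 : ∑ i ∈ Finset.Ico j (q + 1), S i ≤ ∑ i ∈ Finset.Ico j q', S i := by
    refine Finset.sum_le_sum_of_subset_of_nonneg (Finset.Ico_subset_Ico le_rfl (by omega)) ?_
    intro i hi _
    rw [Finset.mem_Ico] at hi
    exact (k10_S_pos hη hS (by omega) (by omega)).le
  rw [Finset.sum_Ico_succ_top hjq] at h1
  linarith only [h1]

end

theorem k10_mx_lt {n m : ℕ} (w : Fin (n + 1) → Fin m) : mx w < m := by
  have h := mx_eq w
  rw [h]
  exact (w _).2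

theorem k10_le_mx {n m : ℕ} (w : Fin n → Fin m) (i : Fin n) : (w i : ℕ) ≤ mx w := by
  unfold mx
  exact Finset.le_sup (f := fun i => (w i : ℕ)) (Finset.mem_univ i)

theorem k10_cum {d : ℕ} {a b : Fin (d + 1) → ℝ} (h : ∀ k : Fin (d + 1), (k : ℕ) < d → a k = b k)
    (k : Fin (d + 1)) (hk : (k : ℕ) < d) : cum a k = cum b k := by
  unfold cum
  refine Finset.sum_congr rfl fun i _ => ?_
  by_cases hi : i ≤ k
  · rw [if_pos hi, if_pos hi, h i (lt_of_le_of_lt (Fin.le_def.1 hi) hk)]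
  · rw [if_neg hi, if_neg hi]

theorem k10_cum_last {d : ℕ} {a b : Fin (d + 1) → ℝ}
    (h : ∀ k : Fin (d + 1), (k : ℕ) < d → a k = b k)
    (hlt : cum a (Fin.last d) < cum b (Fin.last d)) : a (Fin.last d) < b (Fin.last d) := by
  have e : ∀ x : Fin (d + 1) → ℝ, cum x (Fin.last d) =
      ∑ i : Fin d, x i.castSucc + x (Fin.last d) := by
    intro x
    unfold cum
    rw [← Fin.sum_univ_castSucc]
    refine Finset.sum_congr rfl fun i _ => ?_
    rw [if_pos (Fin.le_last i)]
  rw [e a, e b] at hlt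
  have h1 : ∑ i : Fin d, a i.castSucc = ∑ i : Fin d, b i.castSucc := by
    refine Finset.sum_congr rfl fun i _ => ?_
    exact h _ i.2
  rw [h1] at hlt
  linarith

theorem k10_cell_one {n : ℕ} (T : ℝ) (y : Fin n → ℝ) :
    y ∈ cell (1 : Equiv.Perm (Fin n)) 0 T ↔ y ∈ tri n T := by
  unfold cell
  simp only [Equiv.Perm.coe_one, id_eq, Pi.zero_apply, sub_zero, Set.mem_ofPred_eq]

end Vale.Agent.P209.Strong
end
end
end
end

section

section

section

section

namespace Vale.Agent.P209.MM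

open Vale.Agent.P209 Vale.Agent.P209.Strong

/-! Q7. Words: ordered packings in layers. -/

theorem q7_exists_eta (m j : ℕ) (T : ℝ) (S : ℕ → ℝ) (hT : 0 < T)
    (hS : ∀ q, j ≤ q → q < m → 0 < S q) :
    ∃ η : ℝ, 0 < η ∧ η ≤ T ∧ ∀ q, j ≤ q → q < m → η ≤ S q := by
  rcases (Finset.Ico j m).eq_empty_or_nonempty with h | h
  · refine ⟨T, hT, le_rfl, fun q h1 h2 => ?_⟩
    have h3 : q ∈ Finset.Ico j m := Finset.mem_Ico.2 ⟨h1, h2⟩
    rw [h] at h3
    exact absurd h3 (Finset.notMem_empty q)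
  · obtain ⟨q₀, hq₀, hmin⟩ := Finset.exists_min_image (Finset.Ico j m) S h
    rw [Finset.mem_Ico] at hq₀
    refine ⟨min T (S q₀), lt_min hT (hS q₀ hq₀.1 hq₀.2), min_le_left _ _, fun q h1 h2 => ?_⟩
    exact (min_le_right _ _).trans (hmin q (Finset.mem_Ico.2 ⟨h1, h2⟩))

theorem layers_opack (d m j : ℕ) (hj : j ≤ m) (T : ℝ) (S : ℕ → ℝ) (hT : 0 < T)
    (hS : ∀ q, j ≤ q → q < m → 0 < S q)
    (hanti : ∀ q q', j ≤ q → q ≤ q' → q' < m → S q' ≤ S q) (hjS : j < m → (j : ℝ) * S j ≤ T)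
    {R : ℝ} (hsum : T + ∑ q ∈ Finset.Ico j m, S q ≤ R) :
    OPackIn d (fun x : Option {w : Fin (d + 1) → Fin m // ∃ i, j ≤ (w i : ℕ)} =>
      x.elim T (fun w => S (mx w.1))) (tri (d + 1) R) := by
  obtain ⟨η, hη, hηT, hηS⟩ := q7_exists_eta m j T S hT hS
  have hSsum : 0 ≤ ∑ q ∈ Finset.Ico j m, S q := by
    refine Finset.sum_nonneg fun i hi => ?_
    rw [Finset.mem_Ico] at hi
    exact (hS i hi.1 hi.2).le
  have hTR : T ≤ R := by linarith only [hsum, hSsum]
  have hgap : ∀ q, j ≤ q → q < m → ∀ c c' : Fin m, c < c' →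
      k10_off j T S q c + S q ≤ k10_off j T S q c' := by
    intro q h1 h2 c c' hcc
    exact k10_gap hη hηS hanti hjS h1 h2 (Fin.lt_def.1 hcc)
  have hmxj : ∀ w : {w : Fin (d + 1) → Fin m // ∃ i, j ≤ (w i : ℕ)}, j ≤ mx w.1 := by
    rintro ⟨w, i, hi⟩
    exact hi.trans (k10_le_mx w i)
  have hmxm : ∀ w : {w : Fin (d + 1) → Fin m // ∃ i, j ≤ (w i : ℕ)}, mx w.1 < m :=
    fun w => k10_mx_lt w.1
  -- bounds of the last coordinate
  have hlo : ∀ (w : {w : Fin (d + 1) → Fin m // ∃ i, j ≤ (w i : ℕ)}) (y : Fin (d + 1) → ℝ),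
      y ∈ wcell w.1 (fun c => k10_off j T S (mx w.1) c) (S (mx w.1)) →
        k10_off j T S (mx w.1) (mx w.1) < y (Fin.last d) ∧
          y (Fin.last d) < k10_off j T S (mx w.1) (mx w.1) + S (mx w.1) := by
    intro w y hy
    have h1 := wcell_mem' hy (Fin.last d)
    rw [← mx_eq] at h1
    exact h1
  refine ⟨fun x => x.elim 1 (fun w => rnk w.1),
    fun x => x.elim 0 (fun w i => k10_off j T S (mx w.1) (w.1 i)),
    fun x => x.elim 0 (fun w => 1 + (mx w.1) * (d + 2) + (Tuple.sort w.1 (Fin.last d) : ℕ)),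
    ?_, ?_⟩
  · rintro (_ | w) y hy
    · exact tri_mono hTR ((k10_cell_one T y).1 hy)
    · have h1 : y ∈ wcell w.1 (fun c => k10_off j T S (mx w.1) c) (S (mx w.1)) := hy
      refine ⟨?_, wcell_strictMono (hgap _ (hmxj w) (hmxm w)) h1, ?_⟩
      · intro i
        have h2 := wcell_mem' h1 i
        exact lt_of_le_of_lt (k10_nonneg hη hηT hηS (hmxj w) (hmxm w)) h2.1
      · intro i
        have h3 := (hlo w _ h1).2
        have h4 : y i ≤ y (Fin.last d) :=
          (wcell_strictMono (hgap _ (hmxj w) (hmxm w)) h1).monotone (Fin.le_last i)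
        have h5 := k10_top (T := T) hη hηS (hmxj w) (hmxm w) le_rfl
        linarith only [hsum, h3, h4, h5]
  · rintro (_ | w) (_ | w') hne hk y hy y' hy' hab
    · exact absurd rfl hne
    · have h0 : y' ∈ wcell w'.1 (fun c => k10_off j T S (mx w'.1) c) (S (mx w'.1)) := hy'
      have h1 := ((k10_cell_one T y).1 hy).2.2 (Fin.last d)
      have h2 := (hlo w' _ h0).1
      have h3 := k10_ge (T := T) (c := mx w'.1) hη hηS (hmxj w') (hmxm w') (hmxj w')
      linarith only [h1, h2, h3]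
    · simp only [Option.elim_some, Option.elim_none] at hk
      omega
    · have h1 : y ∈ wcell w.1 (fun c => k10_off j T S (mx w.1) c) (S (mx w.1)) := hy
      have h2 : y' ∈ wcell w'.1 (fun c => k10_off j T S (mx w'.1) c) (S (mx w'.1)) := hy'
      simp only [Option.elim_some] at hk
      have hp : (Tuple.sort w.1 (Fin.last d) : ℕ) < d + 1 := Fin.is_lt _
      have hp' : (Tuple.sort w'.1 (Fin.last d) : ℕ) < d + 1 := Fin.is_lt _
      have hle : mx w.1 ≤ mx w'.1 := by
        by_contra hcon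
        have h1 : (mx w'.1 + 1) * (d + 2) ≤ mx w.1 * (d + 2) :=
          Nat.mul_le_mul_right _ (by omega)
        rw [Nat.add_mul, Nat.one_mul] at h1
        omega
      rcases hle.lt_or_eq with hlt | heq
      · have h3 := (hlo w _ h1).2
        have h4 := (hlo w' _ h2).1
        have h5 := k10_top (T := T) hη hηS (hmxj w) hlt (hmxm w').le
        rw [k10_off_eq T S (hmxj w') le_rfl] at h4
        linarith only [h3, h4, h5]
      · rw [← heq] at h2
        refine wcell_order (hgap _ (hmxj w) (hmxm w)) h1 h2 hab heq ?_ ?_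
        · rw [Fin.le_def]
          rw [heq] at hk
          omega
        · intro hww
          exact hne (congrArg some (Subtype.ext hww))

end Vale.Agent.P209.MM
end
end
end
end

section

section

section

section

namespace Vale.Agent.P209.MM

open Vale.Agent.P209 Vale.Agent.P209.Strong

/-! Q8. The numerical criterion. -/

/-- choice of the room `τ` -/
theorem q8_tau (N k K : ℕ) (L c R V ρ : ℝ) (hL : L < R) (hN : K < k → L ^ N + V < (R - ρ) ^ N) :
    ∃ τ : ℝ, 0 < τ ∧ L + c * τ < R ∧ (K < k → (L + c * τ) ^ N + V < (R - ρ) ^ N) := by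
  have h1 : ∀ᶠ τ in nhdsWithin (0 : ℝ) (Set.Ioi 0), L + c * τ < R := by
    have ht : Filter.Tendsto (fun τ : ℝ => L + c * τ) (nhdsWithin 0 (Set.Ioi 0))
        (nhds (L + c * 0)) :=
      tendsto_nhdsWithin_of_tendsto_nhds (Continuous.tendsto (by fun_prop) 0)
    exact ht.eventually_lt_const (by simpa using hL)
  have h2 : ∀ᶠ τ in nhdsWithin (0 : ℝ) (Set.Ioi 0),
      (K < k → (L + c * τ) ^ N + V < (R - ρ) ^ N) := by
    by_cases hk : K < k
    · have ht : Filter.Tendsto (fun τ : ℝ => (L + c * τ) ^ N + V) (nhdsWithin 0 (Set.Ioi 0))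
          (nhds ((L + c * 0) ^ N + V)) :=
        tendsto_nhdsWithin_of_tendsto_nhds (Continuous.tendsto (by fun_prop) 0)
      filter_upwards [ht.eventually_lt_const (by simpa using hN hk)] with τ hτ _
      exact hτ
    · exact Filter.Eventually.of_forall fun τ h => absurd h hk
  have h3 : ∀ᶠ τ in nhdsWithin (0 : ℝ) (Set.Ioi 0), 0 < τ := self_mem_nhdsWithin
  obtain ⟨τ, ha, hb, hc⟩ := (h1.and (h2.and h3)).exists
  exact ⟨τ, hc, ha, hb⟩

/-- the first `m ^ (n + 1) - j ^ (n + 1) + 1` balls in layers -/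
theorem q8_layers (n m j : ℕ) (hj : j ≤ m) (r : ℕ → ℝ) (hr : Antitone r)
    (hr0 : ∀ i, 0 ≤ r i) (τ : ℝ) (hτ : 0 < τ) :
    OPackIn n (fun i : Fin (m ^ (n + 1) - j ^ (n + 1) + 1) => r i)
      (tri (n + 1) (LL (n + 1) m j r + (m + 1) * τ)) := by
  obtain ⟨e, he, hemx⟩ := words_enum (n + 1) m j hj
  set T : ℝ := max (r 0) (j * r 1) + (j + 1) * τ with hT
  set S : ℕ → ℝ := fun q => r (q ^ (n + 1) - j ^ (n + 1) + 1) + τ with hS
  have hj0 : (0 : ℝ) ≤ j := Nat.cast_nonneg j
  have hpow : ∀ q q' : ℕ, q ≤ q' →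
      q ^ (n + 1) - j ^ (n + 1) + 1 ≤ q' ^ (n + 1) - j ^ (n + 1) + 1 := by
    intro q q' h
    have : q ^ (n + 1) ≤ q' ^ (n + 1) := Nat.pow_le_pow_left h _
    omega
  have hlay := layers_opack n m j hj T S
    (by
      have h1 : 0 ≤ max (r 0) (j * r 1) := le_trans (hr0 0) (le_max_left _ _)
      (clear * - h1 hτ; positivity))
    (fun q _ _ => by
      have := hr0 (q ^ (n + 1) - j ^ (n + 1) + 1)
      simp only [hS]
      linarith only [hτ, this])
    (fun q q' _ hqq _ => by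
      have := hr (hpow q q' hqq)
      simp only [hS]
      linarith only [this])
    (fun _ => by
      have e1 : j ^ (n + 1) - j ^ (n + 1) + 1 = 1 := by omega
      have h2 := le_max_right (r 0) (j * r 1)
      simp only [hS, hT, e1]
      linarith only [h2, hτ])
    (R := LL (n + 1) m j r + (m + 1) * τ)
    (by
      apply le_of_eq
      simp only [hS, hT, LL]
      rw [Finset.sum_add_distrib, Finset.sum_const, Nat.card_Ico, nsmul_eq_mul,
        Nat.cast_sub hj]
      ring)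
  let g : Fin (m ^ (n + 1) - j ^ (n + 1) + 1) →
      Option {w : Fin (n + 1) → Fin m // ∃ i, j ≤ (w i : ℕ)} :=
    fun i => Fin.cases none (fun i' => some (e i')) i
  have hg : Function.Injective g := by
    intro a b
    refine Fin.cases ?_ (fun a' => ?_) a <;> refine Fin.cases ?_ (fun b' => ?_) b
    · intro _; rfl
    · intro h; simp [g] at h
    · intro h; simp [g] at h
    · intro h
      simp only [g, Fin.cases_succ, Option.some.injEq] at h
      rw [he h]
  refine (hlay.comp hg).mono (fun i => ?_) (le_refl _)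
  refine Fin.cases ?_ (fun i' => ?_) i
  · simp only [g, Fin.cases_zero, Option.elim_none, Fin.val_zero, hT]
    have h1 := le_max_left (r 0) (j * r 1)
    have h2 : 0 ≤ ((j : ℝ) + 1) * τ := by (clear * - hτ; positivity)
    linarith only [h1, h2]
  · simp only [g, Fin.cases_succ, Option.elim_some, Fin.val_succ, hS]
    have h1 := hemx i'
    have h2 : r ((i' : ℕ) + 1) ≤ r ((mx (e i').1) ^ (n + 1) - j ^ (n + 1) + 1) :=
      hr (by omega)
    linarith only [hτ, h2]

theorem mm_opack (n m j k : ℕ) (hj : j ≤ m) (R : ℝ) (r : ℕ → ℝ) (hr : Antitone r)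
    (hr0 : ∀ i, 0 ≤ r i) (hL : LL (n + 1) m j r < R)
    (hvol : m ^ (n + 1) - j ^ (n + 1) + 1 < k → LL (n + 1) m j r ^ (n + 1) +
      ∑ i ∈ Finset.Ico (m ^ (n + 1) - j ^ (n + 1) + 2) k, r i ^ (n + 1) <
        (R - r (m ^ (n + 1) - j ^ (n + 1) + 1)) ^ (n + 1)) :
    OPackIn n (fun i : Fin k => r i) (tri (n + 1) R) := by
  obtain ⟨K, hK⟩ : ∃ K, m ^ (n + 1) - j ^ (n + 1) + 1 = K := ⟨_, rfl⟩
  have hK2 : m ^ (n + 1) - j ^ (n + 1) + 2 = K + 1 := by omega
  rw [hK, hK2] at hvol
  obtain ⟨τ, hτ, h1, h2⟩ := q8_tau (n + 1) k K (LL (n + 1) m j r) (m + 1) R _ _ hL hvol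
  have hlay := q8_layers n m j hj r hr hr0 τ hτ
  rw [hK] at hlay
  have hLL0 : r 0 ≤ LL (n + 1) m j r := by
    unfold LL
    have h3 := le_max_left (r 0) (j * r 1)
    have h4 : 0 ≤ ∑ q ∈ Finset.Ico j m, r (q ^ (n + 1) - j ^ (n + 1) + 1) :=
      Finset.sum_nonneg fun q _ => hr0 _
    linarith only [h3, h4]
  have hmτ : 0 ≤ ((m : ℝ) + 1) * τ := by (clear * - hτ; positivity)
  rcases le_or_gt k K with hk | hk
  · exact (hlay.comp (Fin.castLE_injective hk)).mono (fun i => le_refl _) (tri_mono h1.le)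
  · have hrec := mm_rec n (k - K) (fun i : Fin K => r i) (LL (n + 1) m j r + (m + 1) * τ)
      (fun i => r (K + i)) R (by linarith only [hLL0, hmτ, hr0 0]) hlay
      (fun a b hab => hr (by omega)) (fun i => hr0 _) h1.le
      (fun _ => ⟨by
        have := hr (Nat.zero_le (K + 0))
        linarith only [hL, hLL0, this], by
        have e1 : ∑ i ∈ Finset.Ico 1 (k - K), r (K + i) ^ (n + 1) =
            ∑ i ∈ Finset.Ico (K + 1) k, r i ^ (n + 1) := by
          rw [Finset.sum_Ico_add (fun i => r i ^ (n + 1)) 1 (k - K) K]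
          congr 1
          rw [Nat.add_comm 1 K, Nat.sub_add_cancel hk.le]
        rw [e1, Nat.add_zero]
        exact h2 hk⟩)
    let f : Fin k → Fin K ⊕ Fin (k - K) := fun i =>
      if h : (i : ℕ) < K then Sum.inl ⟨i, h⟩ else Sum.inr ⟨i - K, by omega⟩
    have hf : Function.Injective f := by
      intro a b hab
      by_cases ha : (a : ℕ) < K <;> by_cases hb : (b : ℕ) < K
      · simp only [f, ha, hb, dif_pos, Sum.inl.injEq, Fin.mk.injEq] at hab
        exact Fin.ext hab
      · simp only [ha, ↓reduceDIte, hb, reduceCtorEq, f] at hab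
      · simp only [ha, ↓reduceDIte, hb, reduceCtorEq, f] at hab
      · simp only [f, ha, hb, dif_neg, not_false_eq_true, Sum.inr.injEq, Fin.mk.injEq] at hab
        exact Fin.ext (by omega)
    have h5 := hrec.comp hf
    have e2 : (fun i : Fin k => Sum.elim (fun i : Fin K => r i)
        (fun i : Fin (k - K) => r (K + i)) (f i)) = fun i : Fin k => r i := by
      funext i
      by_cases hi : (i : ℕ) < K
      · simp only [hi, ↓reduceDIte, Sum.elim_inl, f]
      · simp only [f, hi, dif_neg, not_false_eq_true, Sum.elim_inr]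
        congr 1
        omega
    rw [e2] at h5
    exact h5

end Vale.Agent.P209.MM
end
end
end
end

section

section

section

section

namespace Vale.Agent.P209.MM

open Vale.Agent.P209 Vale.Agent.P209.Strong

/-! Q8b. Symplectic packings from the numerical criterion. -/

/-- An empty family is packed. -/
theorem q8b_empty {n : ℕ} {ι : Type} [IsEmpty ι] {S : Set (Fin n → ℂ)} (r : ι → ℝ) :
    Packs S r :=
  ⟨fun i => isEmptyElim i, fun i => isEmptyElim i, fun i => isEmptyElim i,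
    fun i => isEmptyElim i⟩

/-- Meir-Moser type packing theorem for symplectic balls. -/
theorem packs_mm (n m j k : ℕ) (hn : 1 ≤ n) (hj : j ≤ m) (R : ℝ) (r : ℕ → ℝ)
    (hr : Antitone r) (hr0 : ∀ i, 0 ≤ r i) (hpos : ∀ i, i < k → 0 < r i)
    (hL : LL n m j r < R)
    (hvol : m ^ n - j ^ n + 1 < k → LL n m j r ^ n +
      ∑ i ∈ Finset.Ico (m ^ n - j ^ n + 2) k, r i ^ n < (R - r (m ^ n - j ^ n + 1)) ^ n) :
    Packs (openBall n R) (fun i : Fin k => r i) := by
  obtain ⟨n', rfl⟩ : ∃ n', n = n' + 1 := ⟨n - 1, by omega⟩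
  rcases Nat.eq_zero_or_pos k with rfl | hk
  · exact q8b_empty _
  have h0 : r 0 ≤ LL (n' + 1) m j r := by
    unfold LL
    have h1 : 0 ≤ ∑ q ∈ Finset.Ico j m, r (q ^ (n' + 1) - j ^ (n' + 1) + 1) :=
      Finset.sum_nonneg fun i _ => hr0 _
    have h2 := le_max_left (r 0) (j * r 1)
    linarith only [h1, h2]
  have hLpos : 0 < LL (n' + 1) m j r := lt_of_lt_of_le (hpos 0 hk) h0
  have e1 : ∀ᶠ x in nhdsWithin R (Set.Iio R), LL (n' + 1) m j r < x :=
    (eventually_gt_nhds hL).filter_mono nhdsWithin_le_nhds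
  have e2 : ∀ᶠ x in nhdsWithin R (Set.Iio R), (m ^ (n' + 1) - j ^ (n' + 1) + 1 < k →
      LL (n' + 1) m j r ^ (n' + 1) +
      ∑ i ∈ Finset.Ico (m ^ (n' + 1) - j ^ (n' + 1) + 2) k, r i ^ (n' + 1) <
        (x - r (m ^ (n' + 1) - j ^ (n' + 1) + 1)) ^ (n' + 1)) := by
    by_cases hc : m ^ (n' + 1) - j ^ (n' + 1) + 1 < k
    · have h1 := hvol hc
      have hcont : Continuous fun x : ℝ =>
          (x - r (m ^ (n' + 1) - j ^ (n' + 1) + 1)) ^ (n' + 1) := by fun_prop
      have h2 := (hcont.tendsto R).eventually (eventually_gt_nhds h1)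
      exact (h2.filter_mono nhdsWithin_le_nhds).mono fun x hx _ => hx
    · exact Filter.Eventually.of_forall fun x hx => absurd hx hc
  have e3 : ∀ᶠ x in nhdsWithin R (Set.Iio R), x < R := self_mem_nhdsWithin
  obtain ⟨R', h1, h2, h3⟩ := (e1.and (e2.and e3)).exists
  have hR' : 0 < R' := hLpos.trans h1
  have hc1 : 1 < R / R' := by rw [one_lt_div hR']; exact h3
  have hc0 : 0 < R / R' := by linarith only [hc1]
  have hp := (mm_opack n' m j k hj R' r hr hr0 h1 h2).scale hc0
  have hRR : R / R' * R' = R := by (clear * - hR'; field_simp)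
  rw [hRR] at hp
  refine bridge (by omega) hp.toTPack (fun i => hpos i i.2) fun i => ?_
  have h4 := hpos i i.2
  nlinarith only [hc1, h4]

/-- Every collection of balls of total volume less than `2 ^ (1 - n)` times the volume of the
ball packs it. The constant is optimal, by the two ball theorem. -/
theorem packs_volume (n k : ℕ) (hn : 1 ≤ n) (R : ℝ) (r : Fin k → ℝ) (hR : 0 < R)
    (hr : ∀ i, 0 < r i) (hvol : 2 ^ (n - 1) * ∑ i, r i ^ n < R ^ n) :
    Packs (openBall n R) r := by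
  classical
  rcases Nat.eq_zero_or_pos k with rfl | hk
  · exact q8b_empty _
  set σ : Equiv.Perm (Fin k) := Tuple.sort (fun i => - r i) with hσ
  have hmono : Monotone ((fun i => - r i) ∘ σ) := Tuple.monotone_sort _
  set s : ℕ → ℝ := fun i => if h : i < k then r (σ ⟨i, h⟩) else 0 with hs
  have hs1 : ∀ i (h : i < k), s i = r (σ ⟨i, h⟩) := fun i h => by simp only [hs, h, ↓reduceDIte]
  have hs2 : ∀ i, ¬ i < k → s i = 0 := fun i h => by simp [hs, h]
  have hs0 : ∀ i, 0 ≤ s i := by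
    intro i
    by_cases h : i < k
    · rw [hs1 i h]; exact (hr _).le
    · rw [hs2 i h]
  have hanti : Antitone s := by
    intro a b hab
    by_cases hb : b < k
    · have ha : a < k := lt_of_le_of_lt hab hb
      rw [hs1 a ha, hs1 b hb]
      have := hmono (show (⟨a, ha⟩ : Fin k) ≤ ⟨b, hb⟩ from hab)
      simp only [Function.comp_apply] at this
      linarith only [this]
    · rw [hs2 b hb]; exact hs0 a
  have hspos : ∀ i, i < k → 0 < s i := fun i h => by rw [hs1 i h]; exact hr _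
  have hsum : ∑ i ∈ Finset.range k, s i ^ n = ∑ i, r i ^ n := by
    rw [Finset.sum_range]
    rw [← Equiv.sum_comp σ (fun i => r i ^ n)]
    refine Finset.sum_congr rfl fun i _ => ?_
    rw [hs1 i i.2]
  have hn0 : n ≠ 0 := by omega
  have hone : (1 : ℝ) ≤ 2 ^ (n - 1) := one_le_pow₀ (by norm_num)
  have hS : 2 ^ (n - 1) * ∑ i ∈ Finset.range k, s i ^ n < R ^ n := by rw [hsum]; exact hvol
  have hSnn : 0 ≤ ∑ i ∈ Finset.range k, s i ^ n := Finset.sum_nonneg fun i _ => pow_nonneg (hs0 i) _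
  have hs0R : s 0 < R := by
    have h1 : s 0 ^ n ≤ ∑ i ∈ Finset.range k, s i ^ n :=
      Finset.single_le_sum (f := fun i => s i ^ n) (fun i _ => pow_nonneg (hs0 i) _)
        (Finset.mem_range.2 hk)
    have h2 : s 0 ^ n < R ^ n := by linarith only [mul_nonneg (sub_nonneg.2 hone) (sub_nonneg.2 hSnn), h1, hS]
    exact lt_of_pow_lt_pow_left₀ n hR.le h2
  have hLL : LL n 1 1 s = s 0 := by
    unfold LL
    simp only [Nat.cast_one, one_mul, Finset.Ico_self, Finset.sum_empty, add_zero]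
    exact max_eq_left (hanti (by norm_num))
  have key : Packs (openBall n R) (fun i : Fin k => s i) := by
    refine packs_mm n 1 1 k hn le_rfl R s hanti hs0 hspos (by rw [hLL]; exact hs0R) ?_
    simp only [one_pow, Nat.sub_self, zero_add]
    intro hk2
    rw [hLL]
    have h1 : s 1 ≤ s 0 := hanti (by norm_num)
    have h2 : ∑ i ∈ Finset.range k, s i ^ n = s 0 ^ n + s 1 ^ n + ∑ i ∈ Finset.Ico 2 k, s i ^ n := by
      rw [← Finset.sum_range_add_sum_Ico _ (show 2 ≤ k by omega)]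
      rw [Finset.sum_range_succ, Finset.sum_range_one]
    have h3 := add_pow_le (hs0 1) (show 0 ≤ R - s 1 by linarith only [hs0R, h1]) n
    rw [add_sub_cancel] at h3
    have h4 : 2 ^ (n - 1) * ∑ i ∈ Finset.range k, s i ^ n <
        2 ^ (n - 1) * (s 1 ^ n + (R - s 1) ^ n) := lt_of_lt_of_le hS h3
    have h5 := lt_of_mul_lt_mul_left h4 (by positivity)
    linarith only [h2, h5]
  have h6 := Packs.comp_inj key σ.symm σ.symm.injective
  have h7 : (fun i => s (σ.symm i : Fin k)) = r := by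
    funext i
    rw [hs1 _ (σ.symm i).2]
    simp
  rw [h7] at h6
  exact h6

end Vale.Agent.P209.MM
end
end
end
end

section

section

section

section

namespace Vale.Agent.P209.MM

open Vale.Agent.P209 Vale.Agent.P209.Strong

/-! Q9. The complement of an ordered packing is filled by small balls. -/

theorem opack_fill (d : ℕ) (hd : 1 ≤ d) (κ : Type) [Fintype κ] (s : κ → ℝ) (η : ℝ) (hη : 0 < η)
    (hηs : ∀ i, η ≤ s i) (h : OPackIn d s (tri (d + 1) 1)) (δ N : ℝ) (hδ : 0 < δ)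
    (hδ1 : δ ≤ 1) (hN : 0 ≤ N) :
    ∃ R0 : ℝ, 0 < R0 ∧ ∀ R, R0 ≤ R → ∀ b : κ → ℝ, (∀ i, 0 ≤ b i) →
      (∀ i, b i + η * R ≤ s i * R) →
      ∀ (ι : Type) [Fintype ι] (r : ι → ℝ) (J : Finset ι), (∀ i, 0 < r i ∧ r i ≤ 1) →
        (∀ i, i ∉ J → δ ≤ r i) → ∑ i ∈ J, r i ≤ N →
        ∑ i, b i ^ (d + 1) + ∑ i, r i ^ (d + 1) < R ^ (d + 1) →
        TPk (simplex (d + 1) R) (Sum.elim b r) := by
  have hle := fun i => h.le i (lt_of_lt_of_le hη (hηs i))
  obtain ⟨σ, c, key, hcell, hord⟩ := h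
  have hc := fun i => cell_chart d hd (σ i) (c i) (s i)
  choose Λ v hΛ hmem using hc
  refine cells_packs_key d hd κ Λ v s key hΛ hle ?_ ?_ η hη hηs δ N hδ hδ1 hN
  · intro i a ha
    exact (cum_tri a 1 one_pos).1 (hcell i ((hmem i a).1 ha))
  · intro i j hij hk a ha b hb hab
    exact k10_cum_last hab (hord i j hij hk _ ((hmem i a).1 ha) _ ((hmem j b).1 hb) (k10_cum hab))

end Vale.Agent.P209.MM
end
end
end
end

section

section

section

section

namespace Vale.Agent.P209.MM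

open Vale.Agent.P209 Vale.Agent.P209.Strong

/-! Q10. Uniform version, by rounding the sizes. -/

theorem opack_uniform (d : ℕ) (hd : 1 ≤ d) (κ : Type) [Fintype κ] (γ ρ : ℝ) (hγ : 0 < γ)
    (hγ1 : γ < 1) (hρ : 0 < ρ) (δ N : ℝ) (hδ : 0 < δ) (hδ1 : δ ≤ 1) (hN : 0 ≤ N) :
    ∃ R0 : ℝ, 0 < R0 ∧ ∀ R, R0 ≤ R → ∀ b : κ → ℝ, (∀ i, ρ * R ≤ b i) →
      OPackIn d b (tri (d + 1) ((1 - γ) * R)) →
      ∀ (ι : Type) [Fintype ι] (r : ι → ℝ) (J : Finset ι), (∀ i, 0 < r i ∧ r i ≤ 1) →
        (∀ i, i ∉ J → δ ≤ r i) → ∑ i ∈ J, r i ≤ N →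
        ∑ i, b i ^ (d + 1) + ∑ i, r i ^ (d + 1) < R ^ (d + 1) →
        TPk (simplex (d + 1) R) (Sum.elim b r) := by
  classical
  obtain ⟨Q, hQ⟩ := exists_nat_gt (2 / (γ * ρ))
  have hγρ : 0 < γ * ρ := mul_pos hγ hρ
  have hQ0 : (0 : ℝ) < Q := (by positivity : (0 : ℝ) < 2 / (γ * ρ)).trans hQ
  set η : ℝ := 1 / Q with hη
  have hη0 : 0 < η := by positivity
  have hη2 : 2 * η ≤ γ * ρ := by
    rw [div_lt_iff₀ hγρ] at hQ
    rw [hη, mul_one_div, div_le_iff₀ hQ0]
    linarith only [hQ]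
  have hηQ : η * Q = 1 := by rw [hη]; field_simp
  -- the threshold of a rounded family
  have key : ∀ f : κ → Fin (Q + 1), ∃ R0 : ℝ, 0 < R0 ∧
      ((∀ i, η ≤ η * (f i : ℕ)) → OPackIn d (fun i => η * ((f i : ℕ) : ℝ)) (tri (d + 1) 1) →
      ∀ R, R0 ≤ R → ∀ b : κ → ℝ, (∀ i, 0 ≤ b i) →
      (∀ i, b i + η * R ≤ η * ((f i : ℕ) : ℝ) * R) →
      ∀ (ι : Type) [Fintype ι] (r : ι → ℝ) (J : Finset ι), (∀ i, 0 < r i ∧ r i ≤ 1) →
        (∀ i, i ∉ J → δ ≤ r i) → ∑ i ∈ J, r i ≤ N →
        ∑ i, b i ^ (d + 1) + ∑ i, r i ^ (d + 1) < R ^ (d + 1) →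
        TPk (simplex (d + 1) R) (Sum.elim b r)) := by
    intro f
    by_cases h : (∀ i, η ≤ η * (f i : ℕ)) ∧
        OPackIn d (fun i => η * ((f i : ℕ) : ℝ)) (tri (d + 1) 1)
    · obtain ⟨R0, hR0, hR⟩ := opack_fill d hd κ (fun i => η * ((f i : ℕ) : ℝ)) η hη0 h.1 h.2
        δ N hδ hδ1 hN
      exact ⟨R0, hR0, fun _ _ => hR⟩
    · exact ⟨1, one_pos, fun h1 h2 => absurd ⟨h1, h2⟩ h⟩
  choose R0 hR0 hR using key
  refine ⟨1 + ∑ f, R0 f, add_pos_of_pos_of_nonneg one_pos
    (Finset.sum_nonneg fun f _ => (hR0 f).le), ?_⟩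
  intro R hRR b hb hpack ι _ r J h1 h2 h3 h4
  have hsum : 0 ≤ ∑ f, R0 f := Finset.sum_nonneg fun f _ => (hR0 f).le
  have hR1 : 0 < R := by linarith only [hRR, hsum]
  have hg : 0 < 1 - γ := by linarith only [hγ1]
  have hc : 0 < 1 / ((1 - γ) * R) := by (clear * - hγ1 hR1; positivity)
  set β : κ → ℝ := fun i => 1 / ((1 - γ) * R) * b i with hβ
  have hβp : OPackIn d β (tri (d + 1) 1) := by
    have h := OPackIn.scale hc hpack
    have e : 1 / ((1 - γ) * R) * ((1 - γ) * R) = 1 := by (clear * - hg hR1; field_simp)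
    rwa [e] at h
  have hbβ : ∀ i, b i = (1 - γ) * β i * R := by
    intro i
    rw [hβ]
    (clear * - hg hR1; field_simp)
  have hβρ : ∀ i, ρ ≤ β i := by
    intro i
    have h := hb i
    rw [hbβ i] at h
    have h5 : ρ ≤ (1 - γ) * β i := le_of_mul_le_mul_right h hR1
    have h6 : 0 < β i := by
      by_contra h7
      push Not at h7
      have : (1 - γ) * β i ≤ 0 := mul_nonpos_of_nonneg_of_nonpos hg.le h7
      linarith only [hρ, h5, this]
    linarith only [mul_pos (sub_pos.2 hγ) (sub_pos.2 h6), h5]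
  have hβ1 : ∀ i, β i ≤ 1 := fun i => OPackIn.le hβp i (hρ.trans_le (hβρ i))
  -- rounding
  have hfl : ∀ i, ⌊β i * Q⌋₊ < Q + 1 := by
    intro i
    have h5 : β i * Q ≤ Q := by nlinarith only [hβ1 i]
    have h6 : ⌊β i * Q⌋₊ ≤ Q := by
      have := Nat.floor_le_floor h5
      rwa [Nat.floor_natCast] at this
    omega
  set f : κ → Fin (Q + 1) := fun i => ⟨⌊β i * Q⌋₊, hfl i⟩ with hf
  have hfv : ∀ i, ((f i : ℕ) : ℝ) = (⌊β i * Q⌋₊ : ℝ) := fun i => rfl
  have hβ0 : ∀ i, 0 ≤ β i * Q := fun i => mul_nonneg (hρ.le.trans (hβρ i)) hQ0.le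
  have hle : ∀ i, η * ((f i : ℕ) : ℝ) ≤ β i := by
    intro i
    rw [hfv]
    calc η * (⌊β i * Q⌋₊ : ℝ) ≤ η * (β i * Q) :=
          mul_le_mul_of_nonneg_left (Nat.floor_le (hβ0 i)) hη0.le
      _ = β i * (η * Q) := by ring
      _ = β i := by rw [hηQ, mul_one]
  have hge : ∀ i, β i - η ≤ η * ((f i : ℕ) : ℝ) := by
    intro i
    rw [hfv]
    have h5 := (Nat.lt_floor_add_one (β i * Q)).le
    have h6 : η * (β i * Q) ≤ η * ((⌊β i * Q⌋₊ : ℝ) + 1) := mul_le_mul_of_nonneg_left h5 hη0.le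
    have h7 : η * (β i * Q) = β i := by
      calc η * (β i * Q) = β i * (η * Q) := by ring
        _ = β i := by rw [hηQ, mul_one]
    rw [h7] at h6
    linarith only [h6]
  have hγβ : ∀ i, 2 * η ≤ γ * β i := fun i =>
    hη2.trans (mul_le_mul_of_nonneg_left (hβρ i) hγ.le)
  have hηβ : ∀ i, 2 * η ≤ β i := fun i => by nlinarith only [hη2, hγ1, hρ, hβρ i]
  have e1 : ∀ i, η ≤ η * ((f i : ℕ) : ℝ) := fun i => by linarith only [hge i, hηβ i]
  have e2 : OPackIn d (fun i => η * ((f i : ℕ) : ℝ)) (tri (d + 1) 1) :=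
    hβp.mono hle (Set.Subset.refl _)
  have e3 : ∀ i, b i + η * R ≤ η * ((f i : ℕ) : ℝ) * R := by
    intro i
    have h5 : (1 - γ) * β i + η ≤ η * ((f i : ℕ) : ℝ) := by linarith only [hge i, hγβ i]
    calc b i + η * R = ((1 - γ) * β i + η) * R := by rw [hbβ i]; ring
      _ ≤ η * ((f i : ℕ) : ℝ) * R := mul_le_mul_of_nonneg_right h5 hR1.le
  have e4 : R0 f ≤ R := by
    have h5 : R0 f ≤ ∑ f, R0 f :=
      Finset.single_le_sum (f := R0) (fun f _ => (hR0 f).le) (Finset.mem_univ f)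
    linarith only [hRR, h5]
  exact hR f e1 e2 R e4 b (fun i => (mul_pos hρ hR1).le.trans (hb i)) e3 ι r J h1 h2 h3 h4

end Vale.Agent.P209.MM
end
end
end
end

section

section

section

section

namespace Vale.Agent.P209.MM

open Vale.Agent.P209 Vale.Agent.P209.Strong

/-! U1. Relative packing stability for a fixed number of big balls, for families. -/

theorem relative_fam (d : ℕ) (hd : 1 ≤ d) (M : ℕ) (γ ρ : ℝ) (hγ : 0 < γ) (hγ1 : γ < 1)
    (hρ : 0 < ρ) : ∃ ε : ℝ, 0 < ε ∧ ∀ (R : ℝ) (b : Fin M → ℝ), 0 < R →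
      (∀ i, ρ * R ≤ b i) → OPackIn d b (tri (d + 1) ((1 - γ) * R)) →
      ∀ (ι : Type) [Fintype ι] (r : ι → ℝ), (∀ i, 0 < r i ∧ r i ≤ ε * R) →
        ∑ i, b i ^ (d + 1) + ∑ i, r i ^ (d + 1) < R ^ (d + 1) →
        Packs (openBall (d + 1) R) (Sum.elim b r) := by
  obtain ⟨Nr, δ1, hδ0, hδ1, hmerge⟩ := merging (d + 1) (by omega)
  obtain ⟨R0, hR0, hun⟩ := opack_uniform d hd (Fin M) γ ρ hγ hγ1 hρ δ1 (2 * Nr) hδ0 hδ1
    (by positivity)
  refine ⟨1 / R0, by positivity, ?_⟩
  intro R b hR hb hpack ι _ r hr hvol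
  have hs : 0 < R / R0 := by positivity
  obtain ⟨s, hs'⟩ : ∃ s, s = R / R0 := ⟨_, rfl⟩
  rw [← hs'] at hs
  have hRs : s * R0 = R := by rw [hs']; (clear * - hR0 hR; field_simp)
  have hRi : s⁻¹ * R = R0 := by rw [← hRs]; field_simp
  have hbpos : ∀ p, 0 < b p := fun p => (mul_pos hρ hR).trans_le (hb p)
  have hsi : 0 < s⁻¹ := inv_pos.2 hs
  refine hmerge R s (Fin M) b hR hs hbpos ?_ ι r (fun i => ⟨(hr i).1, ?_⟩) hvol
  · intro ι' _ r' J h1 h2 h3 h4
    have e1 : ∀ i, ρ * R0 ≤ s⁻¹ * b i := by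
      intro i
      have h := mul_le_mul_of_nonneg_left (hb i) hsi.le
      calc ρ * R0 = s⁻¹ * (ρ * R) := by rw [← hRi]; ring
        _ ≤ s⁻¹ * b i := h
    have e2 : OPackIn d (fun i => s⁻¹ * b i) (tri (d + 1) ((1 - γ) * R0)) := by
      have h := OPackIn.scale hsi hpack
      have e : s⁻¹ * ((1 - γ) * R) = (1 - γ) * R0 := by rw [← hRi]; ring
      rwa [e] at h
    have e3 : ∀ i, 0 < s⁻¹ * r' i ∧ s⁻¹ * r' i ≤ 1 := by
      intro i
      refine ⟨mul_pos hsi (h1 i).1, ?_⟩
      rw [inv_mul_le_iff₀ hs, mul_one]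
      exact (h1 i).2
    have e4 : ∀ i, i ∉ J → δ1 ≤ s⁻¹ * r' i := by
      intro i hi
      rw [le_inv_mul_iff₀ hs, mul_comm]
      exact h2 i hi
    have e5 : ∑ i ∈ J, s⁻¹ * r' i ≤ 2 * Nr := by
      rw [← Finset.mul_sum, inv_mul_le_iff₀ hs, mul_comm]
      exact h3
    have e6 : ∑ i, (s⁻¹ * b i) ^ (d + 1) + ∑ i, (s⁻¹ * r' i) ^ (d + 1) < R0 ^ (d + 1) := by
      have h5 := mul_lt_mul_of_pos_left h4 (pow_pos hsi (d + 1))
      rw [mul_add, Finset.mul_sum, Finset.mul_sum, ← mul_pow, hRi] at h5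
      simpa only [mul_pow] using h5
    have h6 := packs_of_TPk (hun R0 le_rfl (fun i => s⁻¹ * b i) e1 e2 ι' (fun i => s⁻¹ * r' i)
      J e3 e4 e5 e6)
    have h7 := Packs.scale hs h6
    rw [hRs] at h7
    have e7 : (fun i => s * Sum.elim (fun i => s⁻¹ * b i) (fun i => s⁻¹ * r' i) i)
        = Sum.elim b r' := by
      funext i
      rcases i with i | i
      · show s * (s⁻¹ * b i) = b i
        (clear * - hs; field_simp)
      · show s * (s⁻¹ * r' i) = r' i
        (clear * - hs; field_simp)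
    rwa [e7] at h7
  · refine (hr i).2.trans (le_of_eq ?_)
    rw [hs']
    ring

end Vale.Agent.P209.MM
end
end
end
end

section

section

section

section

namespace Vale.Agent.P209.MM

open Vale.Agent.P209 Vale.Agent.P209.Strong

/-! U2. Relative packing stability for big balls of size at least `ρ * R`. -/

theorem relative_lvl (d : ℕ) (hd : 1 ≤ d) (γ ρ : ℝ) (hγ : 0 < γ) (hγ1 : γ < 1)
    (hρ : 0 < ρ) : ∃ ε : ℝ, 0 < ε ∧ ∀ (R : ℝ) (κ : Type) [Fintype κ] (b : κ → ℝ), 0 < R →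
      (∀ i, ρ * R ≤ b i) → OPackIn d b (tri (d + 1) ((1 - γ) * R)) →
      ∀ (ι : Type) [Fintype ι] (r : ι → ℝ), (∀ i, 0 < r i ∧ r i ≤ ε * R) →
        ∑ i, b i ^ (d + 1) + ∑ i, r i ^ (d + 1) < R ^ (d + 1) →
        Packs (openBall (d + 1) R) (Sum.elim b r) := by
  classical
  have hfam := fun M : ℕ => relative_fam d hd M γ ρ hγ hγ1 hρ
  choose e he hF using hfam
  set Nm : ℕ := ⌈1 / ρ ^ (d + 1)⌉₊ with hNm
  have hne : (Finset.range (Nm + 1)).Nonempty := ⟨0, by simp only [Finset.mem_range, lt_add_iff_pos_left, Order.lt_add_one_iff, zero_le]⟩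
  set ε : ℝ := (Finset.range (Nm + 1)).inf' hne e with hε
  have hε0 : 0 < ε := by
    rw [hε, Finset.lt_inf'_iff]
    exact fun M _ => he M
  refine ⟨ε, hε0, ?_⟩
  intro R κ _ b hR hb hO ι _ r hr hvol
  have hcard : Fintype.card κ ≤ Nm := by
    have h1 : (Fintype.card κ : ℝ) * (ρ * R) ^ (d + 1) ≤ ∑ i, b i ^ (d + 1) := by
      have h2 : ∑ _i : κ, (ρ * R) ^ (d + 1) ≤ ∑ i, b i ^ (d + 1) :=
        Finset.sum_le_sum fun i _ => pow_le_pow_left₀ (by positivity) (hb i) _
      rw [Finset.sum_const, Finset.card_univ, nsmul_eq_mul] at h2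
      exact h2
    have h3 : 0 ≤ ∑ i, r i ^ (d + 1) := Finset.sum_nonneg fun i _ => pow_nonneg (hr i).1.le _
    have hRn : 0 < R ^ (d + 1) := pow_pos hR _
    have hρn : 0 < ρ ^ (d + 1) := pow_pos hρ _
    have h4 : (Fintype.card κ : ℝ) * ρ ^ (d + 1) * R ^ (d + 1) < 1 * R ^ (d + 1) := by
      rw [mul_pow, ← mul_assoc] at h1
      linarith only [hvol, h1, h3]
    have h5 : (Fintype.card κ : ℝ) * ρ ^ (d + 1) < 1 := lt_of_mul_lt_mul_right h4 hRn.le
    have h6 : (Fintype.card κ : ℝ) < 1 / ρ ^ (d + 1) := by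
      rw [lt_div_iff₀ hρn]
      exact h5
    have h7 : (Fintype.card κ : ℝ) ≤ (Nm : ℝ) := h6.le.trans (Nat.le_ceil _)
    exact_mod_cast h7
  set M := Fintype.card κ with hM
  have hεM : ε ≤ e M := Finset.inf'_le _ (Finset.mem_range.2 (by omega))
  let f : Fin M ≃ κ := (Fintype.equivFin κ).symm
  have h1 := hF M R (fun i => b (f i)) hR (fun i => hb _) (hO.comp f.injective) ι r
    (fun i => ⟨(hr i).1, (hr i).2.trans (mul_le_mul_of_nonneg_right hεM hR.le)⟩)
    (by
      have h2 : ∑ i, b (f i) ^ (d + 1) = ∑ i, b i ^ (d + 1) :=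
        Equiv.sum_comp f (fun i => b i ^ (d + 1))
      rw [h2]
      exact hvol)
  have h3 := Packs.comp_inj h1 (Sum.map f.symm id : κ ⊕ ι → Fin M ⊕ ι)
    (Function.Injective.sumMap f.symm.injective Function.injective_id)
  have h4 : (fun k => Sum.elim (fun i => b (f i)) r ((Sum.map f.symm id : κ ⊕ ι → Fin M ⊕ ι) k)) =
      Sum.elim b r := by
    funext k
    rcases k with q | i
    · simp
    · simp
  rw [h4] at h3
  exact h3

end Vale.Agent.P209.MM
end
end
end
end

section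

section

section

section

namespace Vale.Agent.P209.MM

open Vale.Agent.P209 Vale.Agent.P209.Strong

/-! U6. One level: balls of intermediate size have small total volume. -/

/-- Sum over the fibres of a map to `Option (Fin N)`. -/
theorem u6_sum_fib {ι : Type} [Fintype ι] {N : ℕ} (g : ι → Option (Fin N)) (f : ι → ℝ) :
    ∑ i, f i = ∑ i with g i = none, f i + ∑ c : Fin N, ∑ i with g i = some c, f i := by
  classical
  rw [← Finset.sum_fiberwise Finset.univ g f, Fintype.sum_option]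

theorem u6_sub {ι : Type} [Fintype ι] (p : ι → Prop) [DecidablePred p] (f : ι → ℝ) :
    ∑ i : {i // p i}, f i = ∑ i with p i, f i := by
  rw [← Finset.sum_subtype_eq_sum_filter, Finset.subtype_univ]

theorem level_step (d : ℕ) (hd : 1 ≤ d) (γ : ℝ) (hγ : 0 < γ) (hγ1 : γ < 1) :
    ∃ c0 ηs : ℝ, 0 < c0 ∧ 0 < ηs ∧ ∀ η, 0 < η → η ≤ ηs → ∃ θ : ℝ, 0 < θ ∧ θ ≤ η ∧
      ∀ (κ ι : Type) [Fintype κ] [Fintype ι] (b : κ → ℝ) (r : ι → ℝ) (R : ℝ), 0 < R →
        (∀ i, η * R < b i) → (∀ i, 0 < r i ∧ r i ≤ η * R) →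
        OPackIn d b (tri (d + 1) ((1 - γ) * R)) →
        ∑ i with θ * R < r i, r i ^ (d + 1) ≤ c0 * R ^ (d + 1) →
        ∑ i, b i ^ (d + 1) + ∑ i, r i ^ (d + 1) < R ^ (d + 1) →
        Packs (openBall (d + 1) R) (Sum.elim b r) := by
  obtain ⟨c0, lam, hc0, hlam, hlamγ, hL⟩ := level_const (d + 1) (by omega) γ hγ hγ1
  obtain ⟨eA, heA, hstr⟩ := strong_stability (d + 1) (by omega)
  set e : ℝ := min eA 1 with he
  have he0 : 0 < e := lt_min heA one_pos
  have he1 : e ≤ 1 := min_le_right _ _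
  have heA' : e ≤ eA := min_le_left _ _
  refine ⟨c0, lam * e / 2, hc0, by positivity, fun η hη hηs => ?_⟩
  set l : ℝ := 2 * η / e with hl
  have hl0 : 0 < l := by positivity
  have hle : l * e = 2 * η := by rw [hl]; (clear * - he0 hη; field_simp)
  have hll : l ≤ lam := by
    rw [hl, div_le_iff₀ he0]; linarith only [hηs]
  have hl2 : 2 * η ≤ l := by
    rw [← hle]; (by_contra nlg; linarith only [nlg, mul_nonneg (sub_nonneg.2 he1) (le_of_lt (sub_pos.2 hη)), mul_eq_zero_of_left (sub_eq_zero.2 hle) (1 - (e)), mul_pos (sub_pos.2 (not_le.1 nlg)) (sub_pos.2 he0)])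
  have hlγ : l ≤ γ / 4 := hll.trans hlamγ
  obtain ⟨hc, hln⟩ := hL l hl0.le hll
  obtain ⟨e2, he2, hrel⟩ := relative_lvl d hd (γ / 2) η (by positivity) (by linarith only [hγ1]) hη
  refine ⟨min η e2, lt_min hη he2, min_le_left _ _, ?_⟩
  intro κ ι _ _ b r R hR hb hr hB hMi hvol
  classical
  have hRn : 0 < R ^ (d + 1) := by positivity
  by_cases hcase : ∑ i, r i ^ (d + 1) ≤ 2 * c0 * R ^ (d + 1)
  · refine level_lossy d γ c0 l hγ hγ1 hc0 hl0.le hlγ hc κ ι b r R hR
      (fun i => lt_trans (by positivity) (hb i)) (fun i => ⟨(hr i).1, (hr i).2.trans ?_⟩) hB hcase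
    exact mul_le_mul_of_nonneg_right (by linarith only [hη, hl2]) hR.le
  · push Not at hcase
    set W : ℝ := (l * R) ^ (d + 1) with hW
    set w : ℝ := (η * R) ^ (d + 1) with hw
    have hw0 : 0 < w := by positivity
    have h4 : 4 * w ≤ W := by
      have e1 : (2 * (η * R)) ^ (d + 1) ≤ (l * R) ^ (d + 1) :=
        pow_le_pow_left₀ (by positivity) (by nlinarith only [hl2, hR]) _
      rw [mul_pow] at e1
      have e3 : (2 : ℝ) ^ 2 ≤ 2 ^ (d + 1) := pow_le_pow_right₀ (by norm_num) (by omega)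
      have e4 := mul_le_mul_of_nonneg_right e3 hw0.le
      norm_num at e4
      linarith only [e1, e4]
    have hWc : W ≤ c0 * R ^ (d + 1) := by
      rw [hW, mul_pow]
      exact mul_le_mul_of_nonneg_right hln hRn.le
    set Mi : Finset ι := Finset.univ.filter (fun i => min η e2 * R < r i) with hMidef
    have hsum : ∑ i ∈ Mi, r i ^ (d + 1) + ∑ i ∈ Miᶜ, r i ^ (d + 1) = ∑ i, r i ^ (d + 1) :=
      Finset.sum_add_sum_compl Mi _
    have hs : W / 2 ≤ ∑ i ∈ Miᶜ, r i ^ (d + 1) := by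
      have : 0 < W := by (clear * - hη heA hR; positivity)
      linarith only [hcase, hw0, h4, hWc, hMi, hsum]
    obtain ⟨N, g, hg1, hg2, hg3⟩ := grouping (fun i => r i ^ (d + 1)) Mi w W hw0 h4
      (fun i => ⟨pow_pos (hr i).1 _, pow_le_pow_left₀ (hr i).1.le (hr i).2 _⟩) hs
    -- the extra volume
    set V : ℝ := ∑ i, b i ^ (d + 1) + ∑ i, r i ^ (d + 1) with hV
    set δ : ℝ := min w ((R ^ (d + 1) - V) / (2 * ((N : ℝ) + 1))) with hδ
    have hgap : 0 < R ^ (d + 1) - V := by linarith only [hvol]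
    have hNp : 0 < 2 * ((N : ℝ) + 1) := by (clear * -; positivity)
    have hδ0 : 0 < δ := lt_min hw0 (by (clear * - hvol; positivity))
    have hδw : δ ≤ w := min_le_left _ _
    have hδN : (N : ℝ) * δ < R ^ (d + 1) - V := by
      have e1 : δ ≤ (R ^ (d + 1) - V) / (2 * ((N : ℝ) + 1)) := min_le_right _ _
      have e2 : δ * (2 * ((N : ℝ) + 1)) ≤ R ^ (d + 1) - V := (le_div_iff₀ hNp).1 e1
      have e3 : 0 ≤ (N : ℝ) * δ := by (clear * - hη hR hvol; positivity)
      linarith only [hδ0, e2, e3]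
    set vol : Fin N → ℝ := fun c => ∑ i with g i = some c, r i ^ (d + 1) with hvoldef
    have hvol0 : ∀ c, 0 ≤ vol c := fun c => Finset.sum_nonneg fun i _ => (pow_pos (hr i).1 _).le
    set ρ : Fin N → ℝ := fun c => (vol c + δ) ^ (((d + 1 : ℕ) : ℝ)⁻¹) with hρdef
    have hρn : ∀ c, ρ c ^ (d + 1) = vol c + δ := fun c =>
      Real.rpow_inv_natCast_pow (by linarith only [hδ0, hvol0 c]) (by omega)
    have hρ0 : ∀ c, 0 < ρ c := fun c => Real.rpow_pos_of_pos (by linarith only [hδ0, hvol0 c]) _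
    have hρl : ∀ c, ρ c ≤ l * R := by
      intro c
      refine le_of_pow_le_pow_left₀ (Nat.succ_ne_zero d) (by (clear * - hη heA hR; positivity)) ?_
      show ρ c ^ (d + 1) ≤ (l * R) ^ (d + 1)
      rw [hρn c]
      have := (hg2 c).2
      simp only [hvoldef]
      linarith only [h4, hδw, this]
    have hρh : ∀ c, l * R / 2 ≤ ρ c := by
      intro c
      refine le_of_pow_le_pow_left₀ (Nat.succ_ne_zero d) (hρ0 c).le ?_
      show (l * R / 2) ^ (d + 1) ≤ ρ c ^ (d + 1)
      rw [hρn c, div_pow]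
      have e1 := (hg2 c).1
      have e2 : (2 : ℝ) ^ 1 ≤ 2 ^ (d + 1) := pow_le_pow_right₀ (by norm_num) (by omega)
      have e3 : (l * R) ^ (d + 1) / 2 ^ (d + 1) ≤ (l * R) ^ (d + 1) / 2 := by
        refine div_le_div_of_nonneg_left (by (clear * - hη heA hR; positivity)) (by norm_num) ?_
        simpa using e2
      simp only [hvoldef]
      linarith only [hδ0, e1, e3]
    have hNW : (N : ℝ) * (l * R) ^ (d + 1) ≤ 4 * c0 * R ^ (d + 1) := by
      have e1 : ∑ i ∈ Mi, r i ^ (d + 1) ≤ c0 * R ^ (d + 1) := hMi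
      have e2 : (N : ℝ) * (W / 2) ≤ ∑ i ∈ Mi, r i ^ (d + 1) + W / 2 + w := hg3
      have e3 : (N : ℝ) * W = 2 * ((N : ℝ) * (W / 2)) := by ring
      rw [← hW, e3]
      linarith only [hw0, h4, hWc, hMi, hg3]
    have hB' := level_cont d γ c0 l hγ hγ1 hc0 hl0.le hlγ hc κ b R hR hB N hNW ρ hρl
    have hle2 : l * R / 2 = η * R / e := by rw [hl]; (clear * - hR he0 hη; field_simp)
    have hηρ : ∀ c, η * R ≤ ρ c := by
      intro c
      refine le_trans ?_ (hρh c)
      nlinarith only [hl2, hR]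
    have hpart := u6_sum_fib g (fun i => r i ^ (d + 1))
    have h1 := hrel R (κ ⊕ Fin N) (Sum.elim b ρ) hR
      (by
        rintro (i | c)
        · exact (hb i).le
        · exact hηρ c) hB' {i // g i = none} (fun i => r i)
      (by
        intro i
        refine ⟨(hr i).1, ?_⟩
        have hi : (i : ι) ∉ Mi := fun h => hg1 i h i.2
        rw [hMidef, Finset.mem_filter] at hi
        push Not at hi
        exact (hi (Finset.mem_univ _)).trans
          (mul_le_mul_of_nonneg_right (min_le_right _ _) hR.le))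
      (by
        rw [Fintype.sum_sum_type]
        simp only [Sum.elim_inl, Sum.elim_inr]
        rw [u6_sub (fun i => g i = none) (fun i => r i ^ (d + 1))]
        have e1 : ∑ c, ρ c ^ (d + 1) = ∑ c, vol c + (N : ℝ) * δ := by
          rw [Finset.sum_congr rfl fun c _ => hρn c, Finset.sum_add_distrib, Finset.sum_const,
            Finset.card_univ, Fintype.card_fin, nsmul_eq_mul]
        rw [e1]
        have e2 : V = ∑ i, b i ^ (d + 1) + (∑ i with g i = none, r i ^ (d + 1) + ∑ c, vol c) := by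
          rw [hV, hpart]
        linarith only [hδN, hpart])
    refine packs_unmerge b r g ρ h1 fun c => ?_
    refine hstr {i // g i = some c} (ρ c) (fun i => r i) (hρ0 c) (fun i => ⟨(hr i).1, ?_⟩) ?_
    · refine (hr i).2.trans ?_
      have e1 : η * R = e * (l * R / 2) := by rw [hle2]; (clear * - he0 hR hη; field_simp)
      rw [e1]
      calc e * (l * R / 2) ≤ e * ρ c := mul_le_mul_of_nonneg_left (hρh c) he0.le
        _ ≤ eA * ρ c := mul_le_mul_of_nonneg_right heA' (hρ0 c).le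
    · rw [u6_sub (fun i => g i = some c) (fun i => r i ^ (d + 1)), hρn c]
      show vol c < vol c + δ
      linarith only [hδ0]

end Vale.Agent.P209.MM
end
end
end
end

section

section

section

section

namespace Vale.Agent.P209.MM

open Vale.Agent.P209 Vale.Agent.P209.Strong

/-! U7. Relative packing stability, uniformly in the number of big balls. -/

/-- One of the levels carries little volume. -/
theorem u7_pigeon {T : Type} [Fintype T] (f : T → ℝ) (hf : ∀ t, 0 ≤ f t) (S : ℕ → Finset T)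
    (J : ℕ) (hS : ∀ j < J, ∀ k < J, j ≠ k → Disjoint (S j) (S k)) {c V : ℝ}
    (hV : ∑ t, f t < V) (hJ : V ≤ J * c) : ∃ j < J, ∑ t ∈ S j, f t ≤ c := by
  classical
  by_contra hcon
  push Not at hcon
  have h1 : ∑ j ∈ Finset.range J, c ≤ ∑ j ∈ Finset.range J, ∑ t ∈ S j, f t :=
    Finset.sum_le_sum fun j hj => (hcon j (Finset.mem_range.mp hj)).le
  have h2 : ∑ j ∈ Finset.range J, ∑ t ∈ S j, f t =
      ∑ t ∈ (Finset.range J).biUnion S, f t := by
    rw [Finset.sum_biUnion]
    intro j hj k hk hjk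
    exact hS j (Finset.mem_range.mp hj) k (Finset.mem_range.mp hk) hjk
  have h3 : ∑ t ∈ (Finset.range J).biUnion S, f t ≤ ∑ t, f t :=
    Finset.sum_le_sum_of_subset_of_nonneg (Finset.subset_univ _) fun t _ _ => hf t
  rw [Finset.sum_const, Finset.card_range, nsmul_eq_mul, h2] at h1
  linarith

/-- Sums along injective maps. -/
theorem u7_sum_inj {X T : Type} (e : X → T) (he : Function.Injective e) (A : Finset X)
    (B : Finset T) (hAB : ∀ x ∈ A, e x ∈ B) (f : T → ℝ) (hf : ∀ t, 0 ≤ f t) :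
    ∑ x ∈ A, f (e x) ≤ ∑ t ∈ B, f t := by
  classical
  rw [← Finset.sum_image (f := f) (g := e) (s := A) (fun x _ y _ h => he h)]
  refine Finset.sum_le_sum_of_subset_of_nonneg ?_ fun t _ _ => hf t
  intro t ht
  obtain ⟨x, hx, rfl⟩ := Finset.mem_image.mp ht
  exact hAB x hx

theorem relative_free (d : ℕ) (hd : 1 ≤ d) (γ : ℝ) (hγ : 0 < γ) (hγ1 : γ < 1) :
    ∃ ε : ℝ, 0 < ε ∧ ∀ (κ ι : Type) [Fintype κ] [Fintype ι] (b : κ → ℝ) (r : ι → ℝ) (R : ℝ),
      0 < R → (∀ i, 0 < b i) → (∀ i, 0 < r i ∧ r i ≤ ε * R) →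
      OPackIn d b (tri (d + 1) ((1 - γ) * R)) →
      ∑ i, b i ^ (d + 1) + ∑ i, r i ^ (d + 1) < R ^ (d + 1) →
      Packs (openBall (d + 1) R) (Sum.elim b r) := by
  classical
  obtain ⟨c0, ηs, hc0, hηs, hlev⟩ := level_step d hd γ hγ hγ1
  choose! θ hθ using hlev
  let E : ℕ → ℝ := fun j => Nat.rec ηs (fun _ x => θ x) j
  have hE0 : E 0 = ηs := rfl
  have hEs : ∀ j, E (j + 1) = θ (E j) := fun j => rfl
  have hE : ∀ j, 0 < E j ∧ E j ≤ ηs := by
    intro j
    induction j with
    | zero => exact ⟨hηs, le_rfl⟩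
    | succ j ih =>
      rw [hEs]
      obtain ⟨h1, h2, _⟩ := hθ (E j) ih.1 ih.2
      exact ⟨h1, h2.trans ih.2⟩
  have hanti : Antitone E := antitone_nat_of_succ_le fun j => by
    rw [hEs]
    exact (hθ (E j) (hE j).1 (hE j).2).2.1
  obtain ⟨J, hJ⟩ := exists_nat_ge (1 / c0)
  refine ⟨E J, (hE J).1, ?_⟩
  intro κ ι _ _ b r R hR hb hr hpack hvol
  set a : κ ⊕ ι → ℝ := Sum.elim b r with ha
  have ha0 : ∀ t, 0 < a t := by
    rintro (i | i)
    · exact hb i
    · exact (hr i).1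
  have hRn : 0 < R ^ (d + 1) := by positivity
  have hvolT : ∑ t, a t ^ (d + 1) < R ^ (d + 1) := by
    rw [Fintype.sum_sum_type]
    exact hvol
  have hJc : R ^ (d + 1) ≤ J * (c0 * R ^ (d + 1)) := by
    have h1 : 1 ≤ J * c0 := by
      rw [div_le_iff₀ hc0] at hJ
      exact hJ
    calc R ^ (d + 1) = 1 * R ^ (d + 1) := (one_mul _).symm
      _ ≤ (J * c0) * R ^ (d + 1) := mul_le_mul_of_nonneg_right h1 hRn.le
      _ = _ := mul_assoc _ _ _
  obtain ⟨j, hj, hSj⟩ := u7_pigeon (fun t => a t ^ (d + 1)) (fun t => pow_nonneg (ha0 t).le _)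
    (fun j => Finset.univ.filter fun t => E (j + 1) * R < a t ∧ a t ≤ E j * R) J (by
      have key : ∀ j k, j < k → Disjoint
          (Finset.univ.filter fun t => E (j + 1) * R < a t ∧ a t ≤ E j * R)
          (Finset.univ.filter fun t => E (k + 1) * R < a t ∧ a t ≤ E k * R) := by
        intro j k hjk
        rw [Finset.disjoint_left]
        intro t h1 h2
        simp only [Finset.mem_filter, Finset.mem_univ, true_and] at h1 h2
        have h3 : E k * R ≤ E (j + 1) * R := mul_le_mul_of_nonneg_right (hanti hjk) hR.le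
        linarith only [h1, h2, h3]
      intro j _ k _ hjk
      rcases lt_or_gt_of_ne hjk with h | h
      · exact key j k h
      · exact (key k j h).symm) hvolT hJc
  -- the two new index types
  have hrJ : ∀ i, r i ≤ E j * R := fun i =>
    (hr i).2.trans (mul_le_mul_of_nonneg_right (hanti hj.le) hR.le)
  let κ' := {i : κ // E j * R < b i}
  let ι' := {t : κ ⊕ ι // a t ≤ E j * R}
  let e : κ' ⊕ ι' → κ ⊕ ι := Sum.elim (fun i => Sum.inl i.1) (fun t => t.1)
  have hej : Function.Injective e := by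
    rintro (x | x) (y | y) hxy
    · have h1 : x.1 = y.1 := Sum.inl_injective hxy
      exact congrArg Sum.inl (Subtype.ext h1)
    · exfalso
      have h1 : Sum.inl x.1 = y.1 := hxy
      have h2 := y.2
      rw [← h1] at h2
      exact absurd x.2 (not_lt.mpr h2)
    · exfalso
      have h1 : x.1 = Sum.inl y.1 := hxy
      have h2 := x.2
      rw [h1] at h2
      exact absurd y.2 (not_lt.mpr h2)
    · have h1 : x.1 = y.1 := hxy
      exact congrArg Sum.inr (Subtype.ext h1)
  have hea : ∀ x, a (e x) = Sum.elim (fun i : κ' => b i.1) (fun t : ι' => a t.1) x := by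
    rintro (x | x) <;> rfl
  have hpk : Packs (openBall (d + 1) R)
      (Sum.elim (fun i : κ' => b i.1) (fun t : ι' => a t.1)) := by
    refine (hθ (E j) (hE j).1 (hE j).2).2.2 κ' ι' (fun i => b i.1) (fun t => a t.1) R hR
      (fun i => i.2) (fun t => ⟨ha0 t.1, t.2⟩) (hpack.comp Subtype.val_injective) ?_ ?_
    · refine le_trans ?_ hSj
      refine u7_sum_inj (fun t : ι' => t.1) Subtype.val_injective _ _ ?_
        (fun t => a t ^ (d + 1)) (fun t => pow_nonneg (ha0 t).le _)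
      intro t ht
      simp only [Finset.mem_filter, Finset.mem_univ, true_and] at ht ⊢
      exact ⟨ht, t.2⟩
    · refine lt_of_le_of_lt ?_ hvolT
      have h1 : ∑ i : κ', b i.1 ^ (d + 1) + ∑ t : ι', a t.1 ^ (d + 1) =
          ∑ x : κ' ⊕ ι', a (e x) ^ (d + 1) := by
        rw [Fintype.sum_sum_type]
        rfl
      rw [h1]
      exact u7_sum_inj e hej _ _ (fun x _ => Finset.mem_univ _)
        (fun t => a t ^ (d + 1)) (fun t => pow_nonneg (ha0 t).le _)
  -- the injection back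
  let g : κ ⊕ ι → κ' ⊕ ι' := fun t =>
    if h : a t ≤ E j * R then Sum.inr ⟨t, h⟩ else
      match t, h with
      | Sum.inl i, h => Sum.inl ⟨i, not_le.mp h⟩
      | Sum.inr i, h => (h (hrJ i)).elim
  have hge : ∀ t, e (g t) = t := by
    intro t
    by_cases h : a t ≤ E j * R
    · have h1 : g t = Sum.inr ⟨t, h⟩ := dif_pos h
      rw [h1]
      rfl
    · rcases t with i | i
      · have h1 : g (Sum.inl i) = Sum.inl ⟨i, not_le.mp h⟩ := dif_neg h
        rw [h1]
        rfl
      · exact (h (hrJ i)).elim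
  have hg : Function.Injective g := fun x y hxy => by
    rw [← hge x, ← hge y, hxy]
  have hfin := Packs.comp_inj hpk g hg
  have h1 : (fun t => Sum.elim (fun i : κ' => b i.1) (fun t : ι' => a t.1) (g t)) = a := by
    funext t
    rw [← hea, hge]
  rw [h1] at hfin
  exact hfin

end Vale.Agent.P209.MM
end
end
end
end

section

section

section

section

namespace Vale.Agent.P209.MM

open Vale.Agent.P209 Vale.Agent.P209.Strong

/-! U8. Relative packing stability with the numerical criterion; `ε` only depends on `n`, `γ`. -/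

/-- An empty family is packed. -/
theorem u8_empty {n : ℕ} {ι : Type} [IsEmpty ι] {S : Set (Fin n → ℂ)} (r : ι → ℝ) :
    Packs S r :=
  ⟨fun i => isEmptyElim i, fun i => isEmptyElim i, fun i => isEmptyElim i,
    fun i => isEmptyElim i⟩

theorem u8_le_LL (n m j : ℕ) (r : ℕ → ℝ) (hr0 : ∀ i, 0 ≤ r i) : r 0 ≤ LL n m j r := by
  have h1 : r 0 ≤ max (r 0) (j * r 1) := le_max_left _ _
  have h2 : 0 ≤ ∑ q ∈ Finset.Ico j m, r (q ^ n - j ^ n + 1) :=
    Finset.sum_nonneg fun i _ => hr0 _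
  unfold LL
  linarith

theorem relative_mm_free (n : ℕ) (hn : 2 ≤ n) (γ : ℝ) (hγ : 0 < γ) :
    ∃ ε : ℝ, 0 < ε ∧ ∀ (m j M k : ℕ) (R : ℝ) (r : ℕ → ℝ), j ≤ m → Antitone r →
      (∀ i, 0 ≤ r i) → (∀ i, i < k → 0 < r i) → 0 < R → LL n m j r ≤ (1 - γ) * R →
      (m ^ n - j ^ n + 1 < M → LL n m j r ^ n +
        ∑ i ∈ Finset.Ico (m ^ n - j ^ n + 2) M, r i ^ n ≤
          ((1 - γ) * R - r (m ^ n - j ^ n + 1)) ^ n) →
      r M ≤ ε * R → ∑ i ∈ Finset.range k, r i ^ n < R ^ n →
      Packs (openBall n R) (fun i : Fin k => r i) := by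
  classical
  obtain ⟨d, rfl⟩ : ∃ d, n = d + 1 := ⟨n - 1, by omega⟩
  rcases le_or_gt 1 γ with hγ1 | hγ1
  · refine ⟨1, one_pos, ?_⟩
    intro m j M k R r hj hanti hr0 hrpos hR hLL _ _ _
    rcases Nat.eq_zero_or_pos k with rfl | hk
    · exact u8_empty _
    · exfalso
      have h1 := u8_le_LL (d + 1) m j r hr0
      have h2 := hrpos 0 hk
      have h3 : (1 - γ) * R ≤ 0 := mul_nonpos_of_nonpos_of_nonneg (by linarith only [hγ1]) hR.le
      linarith only [hLL, h1, h2, h3]
  obtain ⟨ε, hε, hrel⟩ := relative_free d (by omega) (γ / 2) (by linarith only [hγ]) (by linarith only [hγ1])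
  refine ⟨ε, hε, ?_⟩
  intro m j M k R r hj hanti hr0 hrpos hR hLL hvol hsmall hsum
  have hγR : 0 < γ * R := mul_pos hγ hR
  have hL : LL (d + 1) m j r < (1 - γ / 2) * R := by
    refine lt_of_le_of_lt hLL ?_
    linarith only [hγR]
  have hop : OPackIn d (fun i : Fin M => r i) (tri (d + 1) ((1 - γ / 2) * R)) := by
    refine mm_opack d m j M hj ((1 - γ / 2) * R) r hanti hr0 hL ?_
    intro hK
    refine lt_of_le_of_lt (hvol hK) ?_
    have h1 : r (m ^ (d + 1) - j ^ (d + 1) + 1) ≤ r 0 := hanti (Nat.zero_le _)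
    have h2 := u8_le_LL (d + 1) m j r hr0
    exact pow_lt_pow_left₀ (by nlinarith only [hγR]) (by linarith only [hLL, h1, h2]) (by omega)
  let κ : Type := {i : Fin k // (i : ℕ) < M}
  let b : κ → ℝ := fun p => r (p.1 : ℕ)
  have hb0 : ∀ p, 0 < b p := fun p => hrpos _ p.1.2
  have hopb : OPackIn d b (tri (d + 1) ((1 - γ / 2) * R)) := by
    have hf : Function.Injective (fun p : κ => (⟨(p.1 : ℕ), p.2⟩ : Fin M)) := by
      intro p p' h
      exact Subtype.ext (Fin.ext (Fin.mk.inj_iff.1 h))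
    exact hop.comp hf
  have hfin := hrel κ {i : Fin k // ¬ (i : ℕ) < M} b (fun i => r (i.1 : ℕ)) R hR hb0
    (fun i => ⟨hrpos _ i.1.2, (hanti (by have := i.2; omega)).trans hsmall⟩) hopb
    (by
      have e0 : ∑ i ∈ Finset.range k, r i ^ (d + 1) = ∑ i : Fin k, r (i : ℕ) ^ (d + 1) :=
        (Fin.sum_univ_eq_sum_range (fun i => r i ^ (d + 1)) k).symm
      have e1 : ∑ i : Fin k, r (i : ℕ) ^ (d + 1) = (∑ p : κ, b p ^ (d + 1)) +
          ∑ i : {i : Fin k // ¬ (i : ℕ) < M}, r (i.1 : ℕ) ^ (d + 1) :=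
        (Fintype.sum_subtype_add_sum_subtype (fun i : Fin k => (i : ℕ) < M)
          (fun i => r (i : ℕ) ^ (d + 1))).symm
      rw [← e1, ← e0]
      exact hsum)
  let g : Fin k → κ ⊕ {i : Fin k // ¬ (i : ℕ) < M} := fun i =>
    if h : (i : ℕ) < M then Sum.inl ⟨i, h⟩ else Sum.inr ⟨i, h⟩
  have hgl : ∀ (i : Fin k) (h : (i : ℕ) < M), g i = Sum.inl ⟨i, h⟩ := fun i h => dif_pos h
  have hgr : ∀ (i : Fin k) (h : ¬ (i : ℕ) < M), g i = Sum.inr ⟨i, h⟩ := fun i h => dif_neg h
  have hg : Function.Injective g := by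
    intro i i' h
    by_cases hi : (i : ℕ) < M <;> by_cases hi' : (i' : ℕ) < M
    · rw [hgl i hi, hgl i' hi'] at h
      exact Subtype.ext_iff.1 (Sum.inl_injective h)
    · rw [hgl i hi, hgr i' hi'] at h
      exact (Sum.inl_ne_inr h).elim
    · rw [hgr i hi, hgl i' hi'] at h
      exact (Sum.inr_ne_inl h).elim
    · rw [hgr i hi, hgr i' hi'] at h
      exact Subtype.ext_iff.1 (Sum.inr_injective h)
  have hfin2 := Packs.comp_inj hfin g hg
  have e4 : (fun i : Fin k => Sum.elim b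
      (fun i : {i : Fin k // ¬ (i : ℕ) < M} => r (i.1 : ℕ)) (g i)) =
      fun i : Fin k => r i := by
    funext i
    by_cases hi : (i : ℕ) < M
    · rw [hgl i hi]
      rfl
    · rw [hgr i hi]
      rfl
  rw [e4] at hfin2
  exact hfin2

end Vale.Agent.P209.MM
end
end
end
end

section

section

section

section

namespace Vale.Agent.P209.MM

open Vale.Agent.P209 Vale.Agent.P209.Strong

/-! U9. Volume criterion for the big balls. -/

theorem u9_LL (n : ℕ) (s : ℕ → ℝ) (hs : Antitone s) : LL n 1 1 s = s 0 := by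
  unfold LL
  simp only [Finset.Ico_self, Finset.sum_empty, add_zero, Nat.cast_one, one_mul]
  exact max_eq_left (hs (Nat.zero_le 1))

theorem u9_list (d k : ℕ) (R : ℝ) (hR : 0 < R) (s : ℕ → ℝ) (hs : Antitone s)
    (hs0 : ∀ i, 0 ≤ s i)
    (hvol : 2 ^ d * ∑ i ∈ Finset.range k, s i ^ (d + 1) < R ^ (d + 1)) (hk : s k = 0) :
    OPackIn d (fun i : Fin k => s i) (tri (d + 1) R) := by
  have hnn : ∀ i, 0 ≤ s i ^ (d + 1) := fun i => pow_nonneg (hs0 i) _
  have hsum : ∑ i ∈ Finset.range k, s i ^ (d + 1) < R ^ (d + 1) := by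
    refine lt_of_le_of_lt ?_ hvol
    have h1 : (0 : ℝ) ≤ ∑ i ∈ Finset.range k, s i ^ (d + 1) := Finset.sum_nonneg fun i _ => hnn i
    have h2 : (1 : ℝ) ≤ 2 ^ d := one_le_pow₀ (by norm_num)
    linarith only [mul_nonneg (sub_nonneg.2 h1) (sub_nonneg.2 h2)]
  have hlt : s 0 < R := by
    by_cases h : 0 < k
    · have h1 : s 0 ^ (d + 1) ≤ ∑ i ∈ Finset.range k, s i ^ (d + 1) :=
        Finset.single_le_sum (f := fun i => s i ^ (d + 1)) (fun i _ => hnn i)
          (Finset.mem_range.2 h)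
      exact lt_of_pow_lt_pow_left₀ (d + 1) hR.le (lt_of_le_of_lt h1 hsum)
    · have h1 : k = 0 := by omega
      rw [h1] at hk
      rw [hk]
      exact hR
  refine mm_opack d 1 1 k le_rfl R s hs hs0 (by rw [u9_LL _ _ hs]; exact hlt) ?_
  intro h1k
  rw [u9_LL _ _ hs]
  simp only [one_pow, Nat.sub_self, Nat.zero_add] at h1k ⊢
  have h10 : s 1 ≤ s 0 := hs (Nat.zero_le 1)
  have hsplit : ∑ i ∈ Finset.range k, s i ^ (d + 1) =
      s 0 ^ (d + 1) + s 1 ^ (d + 1) + ∑ i ∈ Finset.Ico 2 k, s i ^ (d + 1) := by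
    rw [Finset.range_eq_Ico, ← Finset.sum_Ico_consecutive _ (Nat.zero_le 2) (by omega : 2 ≤ k)]
    congr 1
    rw [← Finset.range_eq_Ico, Finset.sum_range_succ, Finset.sum_range_one]
  have hpow : R ^ (d + 1) ≤ 2 ^ d * (s 1 ^ (d + 1) + (R - s 1) ^ (d + 1)) := by
    have h2 := add_pow_le (hs0 1) (by linarith only [hlt, h10] : 0 ≤ R - s 1) (d + 1)
    have h3 : s 1 + (R - s 1) = R := by ring
    rw [h3, Nat.add_sub_cancel] at h2
    exact h2
  have h4 : 2 ^ d * ∑ i ∈ Finset.range k, s i ^ (d + 1) <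
      2 ^ d * (s 1 ^ (d + 1) + (R - s 1) ^ (d + 1)) := lt_of_lt_of_le hvol hpow
  have h5 := lt_of_mul_lt_mul_left h4 (by positivity)
  rw [hsplit] at h5
  linarith only [h5]

theorem opack_volume (d : ℕ) (κ : Type) [Fintype κ] (b : κ → ℝ) (R : ℝ) (hR : 0 < R)
    (hb : ∀ i, 0 < b i) (hvol : 2 ^ d * ∑ i, b i ^ (d + 1) < R ^ (d + 1)) :
    OPackIn d b (tri (d + 1) R) := by
  classical
  set k := Fintype.card κ with hk
  let e : Fin k ≃ κ := (Fintype.equivFin κ).symm
  let σ : Equiv.Perm (Fin k) := Tuple.sort fun i => - b (e i)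
  have hmono : Monotone fun i => - b (e (σ i)) := Tuple.monotone_sort fun i => - b (e i)
  let s : ℕ → ℝ := fun i => if h : i < k then b (e (σ ⟨i, h⟩)) else 0
  have hsf : ∀ i : Fin k, s i = b (e (σ i)) := fun i => dif_pos i.2
  have hs0 : ∀ i, 0 ≤ s i := by
    intro i
    by_cases h : i < k
    · rw [show s i = b (e (σ ⟨i, h⟩)) from dif_pos h]
      exact (hb _).le
    · rw [show s i = 0 from dif_neg h]
  have hs : Antitone s := by
    intro i j hij
    by_cases h : j < k
    · rw [show s j = b (e (σ ⟨j, h⟩)) from dif_pos h,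
        show s i = b (e (σ ⟨i, lt_of_le_of_lt hij h⟩)) from dif_pos _]
      have h1 := hmono (show (⟨i, lt_of_le_of_lt hij h⟩ : Fin k) ≤ ⟨j, h⟩ from hij)
      exact neg_le_neg_iff.1 h1
    · rw [show s j = 0 from dif_neg h]
      exact hs0 i
  have hsk : s k = 0 := dif_neg (lt_irrefl k)
  have hsum : ∑ i ∈ Finset.range k, s i ^ (d + 1) = ∑ i, b i ^ (d + 1) := by
    rw [Finset.sum_range]
    rw [← Equiv.sum_comp e fun x => b x ^ (d + 1), ← Equiv.sum_comp σ fun x => b (e x) ^ (d + 1)]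
    exact Finset.sum_congr rfl fun i _ => by rw [hsf i]
  have h1 := u9_list d k R hR s hs hs0 (by rw [hsum]; exact hvol) hsk
  have h2 := h1.comp (f := fun x : κ => σ.symm (e.symm x))
    (fun x y hxy => e.symm.injective (σ.symm.injective hxy))
  have h3 : (fun x : κ => s (σ.symm (e.symm x) : Fin k)) = b := by
    funext x
    rw [hsf]
    simp
  rw [h3] at h2
  exact h2

/-- The volume condition suffices if the balls larger than `ε * R` fill less than `2 ^ (1 - n)`
of the volume. -/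
theorem relative_volume (n : ℕ) (hn : 2 ≤ n) (γ : ℝ) (hγ : 0 < γ) :
    ∃ ε : ℝ, 0 < ε ∧ ∀ (k : ℕ) (R : ℝ) (r : Fin k → ℝ), 0 < R → (∀ i, 0 < r i) →
      2 ^ (n - 1) * ∑ i with ε * R < r i, r i ^ n ≤ (1 - γ) * R ^ n →
      ∑ i, r i ^ n < R ^ n → Packs (openBall n R) r := by
  classical
  obtain ⟨d, rfl⟩ : ∃ d, n = d + 1 := ⟨n - 1, by omega⟩
  have hd : 1 ≤ d := by omega
  have hd0 : (0 : ℝ) < ((d + 1 : ℕ) : ℝ) := by positivity
  have hd1 : (1 : ℝ) ≤ ((d + 1 : ℕ) : ℝ) := by
    rw [Nat.cast_add, Nat.cast_one]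
    have : (0 : ℝ) ≤ d := Nat.cast_nonneg d
    linarith only []
  set γ' : ℝ := min γ (1 / 2) with hγ'
  have hγ'0 : 0 < γ' := lt_min hγ (by norm_num)
  have hγ'1 : γ' ≤ 1 / 2 := min_le_right _ _
  have hγ'2 : γ' ≤ γ := min_le_left _ _
  set gs : ℝ := γ' / (2 * ((d + 1 : ℕ) : ℝ)) with hgs
  have hgs0 : 0 < gs := by positivity
  have hgsn : ((d + 1 : ℕ) : ℝ) * gs = γ' / 2 := by
    rw [hgs]
    field_simp
  have hgs1 : gs < 1 := by
    have : gs ≤ ((d + 1 : ℕ) : ℝ) * gs := le_mul_of_one_le_left hgs0.le hd1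
    linarith only [hγ'1, hgsn, this]
  have hpow : 1 - γ' < (1 - gs) ^ (d + 1) := by
    have h1 := one_add_mul_le_pow (by linarith only [hgs1] : (-2 : ℝ) ≤ -gs) (d + 1)
    have h2 : 1 + ((d + 1 : ℕ) : ℝ) * -gs = 1 - γ' / 2 := by
      rw [mul_neg, hgsn]; ring
    rw [h2, ← sub_eq_add_neg] at h1
    linarith only [hγ'0, h1]
  obtain ⟨ε, hε, h⟩ := relative_free d hd gs hgs0 hgs1
  refine ⟨ε, hε, fun k R r hR hr hbig hsum => ?_⟩
  have hRn : 0 < R ^ (d + 1) := by positivity
  have hsplit : ∑ i : {i // ε * R < r i}, r i ^ (d + 1) +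
      ∑ i : {i // ¬ ε * R < r i}, r i ^ (d + 1) = ∑ i, r i ^ (d + 1) := by
    rw [← Equiv.sum_comp (Equiv.sumCompl fun i => ε * R < r i) fun i => r i ^ (d + 1),
      Fintype.sum_sum_type]
    rfl
  have hb : ∑ i : {i // ε * R < r i}, r i ^ (d + 1) =
      ∑ i with ε * R < r i, r i ^ (d + 1) := by
    rw [Finset.sum_subtype (p := fun i => ε * R < r i) _ (by simp only [Finset.mem_filter, Finset.mem_univ, true_and, implies_true])]
  have hO : OPackIn d (fun i : {i // ε * R < r i} => r i) (tri (d + 1) ((1 - gs) * R)) := by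
    refine opack_volume d _ _ _ (mul_pos (by linarith only [hgs1]) hR) (fun i => hr _) ?_
    rw [hb, mul_pow]
    rw [Nat.add_sub_cancel] at hbig
    refine lt_of_le_of_lt hbig ?_
    exact mul_lt_mul_of_pos_right (by linarith only [hγ'2, hpow]) hRn
  have hP := h {i // ε * R < r i} {i // ¬ ε * R < r i} (fun i => r i) (fun i => r i) R hR
    (fun i => hr _) (fun i => ⟨hr _, not_lt.1 i.2⟩) hO (by rw [hsplit]; exact hsum)
  have h2 := Vale.Agent.P209.Strong.Packs.comp_inj hP (Equiv.sumCompl fun i => ε * R < r i).symm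
    (Equiv.sumCompl fun i => ε * R < r i).symm.injective
  have h3 : (fun i : Fin k => Sum.elim (fun i : {i // ε * R < r i} => r i)
      (fun i : {i // ¬ ε * R < r i} => r i) ((Equiv.sumCompl fun i => ε * R < r i).symm i)) = r := by
    have h4 : ∀ x, Sum.elim (fun i : {i // ε * R < r i} => r i)
        (fun i : {i // ¬ ε * R < r i} => r i) x =
          r ((Equiv.sumCompl fun i => ε * R < r i) x) := by
      rintro (x | x) <;> rfl
    funext i
    rw [h4, Equiv.apply_symm_apply]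
  rw [h3] at h2
  exact h2

end Vale.Agent.P209.MM
end
end
end
end

section

section
namespace Vale.Agent.P209.Strong

open MeasureTheory

/-! V1. `Fill` in the presence of finitely many given big balls. -/

/-- Every collection of bulk and tail balls can be added to the big balls `b`, as long as the
total volume is smaller than that of `Ω`. -/
def FB {n : ℕ} {κ : Type} [Fintype κ] (δ N : ℝ) (Ω : Set (Fin n → ℝ)) (b : κ → ℝ) : Prop :=
  ∀ (ι : Type) [Fintype ι] (r : ι → ℝ) (J : Finset ι), (∀ i, 0 < r i ∧ r i ≤ 1) →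
    (∀ i, i ∉ J → δ ≤ r i) → ∑ i ∈ J, r i ≤ N →
    ∑ p, b p ^ n / (n.factorial : ℝ) + ∑ i, r i ^ n / (n.factorial : ℝ) <
      (volume Ω).toReal → TPk Ω (Sum.elim b r)

/-! ### Helpers -/

/-- the map used to restrict to sub-collections -/
def v1_e {κ ι : Type} (P : κ → Prop) (Q : ι → Prop) :
    (x : κ ⊕ ι) → Sum.elim P Q x → {p // P p} ⊕ {i // Q i}
  | Sum.inl p, h => Sum.inl ⟨p, h⟩
  | Sum.inr i, h => Sum.inr ⟨i, h⟩

theorem v1_e_inj {κ ι : Type} (P : κ → Prop) (Q : ι → Prop) :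
    ∀ (x y : κ ⊕ ι) (hx : Sum.elim P Q x) (hy : Sum.elim P Q y),
      v1_e P Q x hx = v1_e P Q y hy → x = y := by
  intro x y hx hy h
  rcases x with p | i <;> rcases y with p' | i'
  · simp only [v1_e, Sum.inl.injEq] at h
    exact congrArg Sum.inl (congrArg Subtype.val h)
  · simp only [v1_e, reduceCtorEq] at h
  · simp only [v1_e, reduceCtorEq] at h
  · simp only [v1_e, Sum.inr.injEq] at h
    exact congrArg Sum.inr (congrArg Subtype.val h)

theorem v1_e_elim {κ ι : Type} (P : κ → Prop) (Q : ι → Prop) (b : κ → ℝ) (r : ι → ℝ) :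
    ∀ (x : κ ⊕ ι) (hx : Sum.elim P Q x),
      Sum.elim (fun p : {p // P p} => b p) (fun i : {i // Q i} => r i) (v1_e P Q x hx) =
        Sum.elim b r x := by
  intro x hx
  rcases x with p | i <;> rfl

/-- gluing two packings -/
theorem v1_union {n : ℕ} {κ ι : Type} {Ω₁ Ω₂ Ω : Set (Fin n → ℝ)} {b : κ → ℝ} {r : ι → ℝ}
    (P : κ → Prop) (Q : ι → Prop)
    (h₁ : TPk Ω₁ (Sum.elim (fun p : {p // P p} => b p) (fun i : {i // Q i} => r i)))
    (h₂ : TPk Ω₂ (Sum.elim (fun p : {p // ¬ P p} => b p) (fun i : {i // ¬ Q i} => r i)))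
    (hd : Disjoint Ω₁ Ω₂) (hs₁ : Ω₁ ⊆ Ω) (hs₂ : Ω₂ ⊆ Ω) : TPk Ω (Sum.elim b r) := by
  have hneg : ∀ x : κ ⊕ ι, ¬ Sum.elim P Q x → Sum.elim (fun p => ¬ P p) (fun i => ¬ Q i) x := by
    intro x hx
    rcases x with p | i
    · exact hx
    · exact hx
  refine TPk.union {x | Sum.elim P Q x} ?_ ?_ hd hs₁ hs₂
  · have h := h₁.comp_inj (fun x : ({x | Sum.elim P Q x} : Set (κ ⊕ ι)) => v1_e P Q x.1 x.2)
      (fun x y hxy => Subtype.ext (v1_e_inj P Q _ _ _ _ hxy))
    have e : (fun x : ({x | Sum.elim P Q x} : Set (κ ⊕ ι)) =>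
        Sum.elim (fun p : {p // P p} => b p) (fun i : {i // Q i} => r i)
          (v1_e P Q x.1 x.2)) = fun x => Sum.elim b r x.1 := by
      funext x
      exact v1_e_elim P Q b r x.1 x.2
    rw [e] at h
    exact h
  · have h := h₂.comp_inj (fun x : (({x | Sum.elim P Q x} : Set (κ ⊕ ι))ᶜ : Set (κ ⊕ ι)) =>
        v1_e (fun p => ¬ P p) (fun i => ¬ Q i) x.1 (hneg x.1 x.2))
      (fun x y hxy => Subtype.ext (v1_e_inj _ _ _ _ _ _ hxy))
    have e : (fun x : (({x | Sum.elim P Q x} : Set (κ ⊕ ι))ᶜ : Set (κ ⊕ ι)) =>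
        Sum.elim (fun p : {p // ¬ P p} => b p) (fun i : {i // ¬ Q i} => r i)
          (v1_e (fun p => ¬ P p) (fun i => ¬ Q i) x.1 (hneg x.1 x.2))) =
        fun x => Sum.elim b r x.1 := by
      funext x
      exact v1_e_elim (fun p => ¬ P p) (fun i => ¬ Q i) b r x.1 (hneg x.1 x.2)
    rw [e] at h
    exact h

/-- `FB` for a subset of the small balls. -/
theorem v1_restrict {n : ℕ} {κ : Type} [Fintype κ] {δ N : ℝ} {Ω : Set (Fin n → ℝ)} {b : κ → ℝ}
    (h : FB δ N Ω b) {ι : Type} [Fintype ι] (r : ι → ℝ) (J : Finset ι)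
    (hr : ∀ i, 0 < r i ∧ r i ≤ 1) (hJ : ∀ i, i ∉ J → δ ≤ r i) (hN : ∑ i ∈ J, r i ≤ N)
    (S : Finset ι) (Q : ι → Prop) (hQ : ∀ i, i ∈ S ↔ Q i) {β : ℝ}
    (hβ : ∑ p, b p ^ n / (n.factorial : ℝ) = β)
    (hv : β + ∑ i ∈ S, r i ^ n / (n.factorial : ℝ) < (volume Ω).toReal) :
    TPk Ω (Sum.elim b (fun i : {i // Q i} => r i)) := by
  classical
  haveI : Fintype {i // Q i} := Fintype.subtype S hQ
  refine h {i // Q i} (fun i : {i // Q i} => r i)
    (Finset.univ.filter fun i : {i // Q i} => (i : ι) ∈ J)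
    (fun i => hr i) (fun i hi => hJ i (by simpa only [Finset.mem_filter, Finset.mem_univ, true_and] using hi)) ?_ ?_
  · refine le_trans ?_ hN
    have e : ∑ i ∈ Finset.univ.filter (fun i : {i // Q i} => (i : ι) ∈ J), r i =
        ∑ i ∈ (Finset.univ.filter fun i : {i // Q i} => (i : ι) ∈ J).map
          (Function.Embedding.subtype Q), r i := by
      rw [Finset.sum_map]
      rfl
    rw [e]
    refine Finset.sum_le_sum_of_subset_of_nonneg ?_ fun i _ _ => (hr i).1.le
    intro i hi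
    simp only [Finset.mem_map, Finset.mem_filter, Finset.mem_univ, true_and] at hi
    obtain ⟨a, ha, rfl⟩ := hi
    exact ha
  · refine lt_of_eq_of_lt ?_ hv
    rw [hβ]
    congr 1
    exact (Finset.sum_subtype S hQ (fun i => r i ^ n / (n.factorial : ℝ))).symm

theorem v1_null {n : ℕ} (j : Fin n) (x : ℝ) : volume {a : Fin n → ℝ | a j = x} = 0 := by
  have h := volume_affine_zero (Pi.single j (1 : ℝ))
    (by
      intro h0
      have := congrFun h0 j
      simp at this) x
  have e : {a : Fin n → ℝ | ∑ i, (Pi.single j (1 : ℝ) : Fin n → ℝ) i * a i = x} =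
      {a : Fin n → ℝ | a j = x} := by
    ext a
    simp only [Pi.single_apply, ite_mul, one_mul, zero_mul, Finset.sum_ite_eq', Finset.mem_univ, ↓reduceIte, Set.mem_ofPred_eq]
  rw [e] at h
  exact h

/-- no big balls -/
theorem FB.of_Fill {n : ℕ} {κ : Type} [Fintype κ] [IsEmpty κ] {δ N : ℝ} {Ω : Set (Fin n → ℝ)}
    (h : Fill δ N Ω) (b : κ → ℝ) : FB δ N Ω b := by
  intro ι _ r J hr hJ hN hlt
  have h0 : ∑ p : κ, b p ^ n / (n.factorial : ℝ) = 0 := by
    rw [Finset.univ_eq_empty, Finset.sum_empty]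
  rw [h0, zero_add] at hlt
  have h1 : TPk Ω r := h ι r J hr hJ hN hlt
  have h2 := h1.comp_inj (fun x : κ ⊕ ι => Sum.elim (fun p => isEmptyElim p) id x) (by
    intro x y hxy
    rcases x with p | i
    · exact isEmptyElim p
    · rcases y with p' | i'
      · exact isEmptyElim p'
      · exact congrArg Sum.inr hxy)
  have e : (fun x : κ ⊕ ι => r (Sum.elim (fun p => isEmptyElim p) id x)) = Sum.elim b r := by
    funext x
    rcases x with p | i
    · exact isEmptyElim p
    · rfl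
  rw [e] at h2
  exact h2

/-- reindexing the big balls -/
theorem FB.congr {n : ℕ} {κ κ' : Type} [Fintype κ] [Fintype κ'] {δ N : ℝ}
    {Ω : Set (Fin n → ℝ)} {b : κ → ℝ} (e : κ' ≃ κ) (h : FB δ N Ω (fun p => b (e p))) :
    FB δ N Ω b := by
  intro ι _ r J hr hJ hN hlt
  have h0 : ∑ p : κ', b (e p) ^ n / (n.factorial : ℝ) = ∑ p : κ, b p ^ n / (n.factorial : ℝ) :=
    Equiv.sum_comp e (fun p => b p ^ n / (n.factorial : ℝ))
  have h1 : TPk Ω (Sum.elim (fun p => b (e p)) r) := h ι r J hr hJ hN (by rw [h0]; exact hlt)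
  have h2 := h1.comp_inj (fun x : κ ⊕ ι => Sum.map e.symm id x)
    (Function.Injective.sumMap e.symm.injective Function.injective_id)
  have e2 : (fun x : κ ⊕ ι => Sum.elim (fun p => b (e p)) r (Sum.map e.symm id x)) =
      Sum.elim b r := by
    funext x
    rcases x with p | i
    · show b (e (e.symm p)) = b p
      rw [Equiv.apply_symm_apply]
    · rfl
  rw [e2] at h2
  exact h2

/-- Splitting lemma with a movable wall; the big balls in `K` go to `U`, the other ones to `V`. -/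
theorem FB.split {n : ℕ} (hn : 1 ≤ n) {δ N : ℝ} (hδ1 : δ ≤ 1) {κ : Type} [Fintype κ]
    [DecidableEq κ] (b : κ → ℝ) (K : Finset κ) {Ω : Set (Fin n → ℝ)}
    (hfin : volume Ω ≠ ⊤) (U V : ℝ → Set (Fin n → ℝ)) {c₀ c₁ : ℝ} (hc : c₀ ≤ c₁)
    (hU : ∀ c, c₀ ≤ c → c ≤ c₁ → U c ⊆ Ω) (hV : ∀ c, c₀ ≤ c → c ≤ c₁ → V c ⊆ Ω)
    (hd : ∀ c, c₀ ≤ c → c ≤ c₁ → Disjoint (U c) (V c))
    (hvol : ∀ c, c₀ ≤ c → c ≤ c₁ →
      (volume Ω).toReal ≤ (volume (U c)).toReal + (volume (V c)).toReal)
    (hcont : ContinuousOn (fun c => (volume (U c)).toReal) (Set.Icc c₀ c₁))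
    (hbig : (volume (U c₀)).toReal + 1 / (n.factorial : ℝ) < (volume (U c₁)).toReal)
    (hbU : ∑ p ∈ K, b p ^ n / (n.factorial : ℝ) < (volume (U c₁)).toReal)
    (hbV : ∑ p ∈ Kᶜ, b p ^ n / (n.factorial : ℝ) < (volume (V c₁)).toReal)
    (hFU : ∀ c, c₀ ≤ c → c ≤ c₁ → FB δ N (U c) (fun p : {p // p ∈ K} => b p))
    (hFV : ∀ c, c₀ ≤ c → c ≤ c₁ → FB δ N (V c) (fun p : {p // p ∉ K} => b p)) :
    FB δ N Ω b := by
  classical
  intro ι _ r J hr hJ hN hlt
  set w : ι → ℝ := fun i => r i ^ n / (n.factorial : ℝ) with hw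
  set β₁ : ℝ := ∑ p ∈ K, b p ^ n / (n.factorial : ℝ) with hβ₁
  set β₂ : ℝ := ∑ p ∈ Kᶜ, b p ^ n / (n.factorial : ℝ) with hβ₂
  have hβ : ∑ p, b p ^ n / (n.factorial : ℝ) = β₁ + β₂ :=
    (Finset.sum_add_sum_compl K fun p => b p ^ n / (n.factorial : ℝ)).symm
  have hs1 : ∑ p : {p // p ∈ K}, b p ^ n / (n.factorial : ℝ) = β₁ :=
    (Finset.sum_subtype K (fun _ => Iff.rfl) (fun p => b p ^ n / (n.factorial : ℝ))).symm
  have hs2 : ∑ p : {p // p ∉ K}, b p ^ n / (n.factorial : ℝ) = β₂ :=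
    (Finset.sum_subtype Kᶜ (fun _ => Finset.mem_compl)
      (fun p => b p ^ n / (n.factorial : ℝ))).symm
  rw [hβ] at hlt
  have hw0 : ∀ i, 0 ≤ w i := fun i => by
    have := (hr i).1
    (clear * - this; positivity)
  have hw1 : ∀ i, w i ≤ 1 / (n.factorial : ℝ) := fun i =>
    div_le_div_of_nonneg_right (pow_le_one₀ (hr i).1.le (hr i).2) (by positivity)
  have hfac : (0 : ℝ) < 1 / (n.factorial : ℝ) := by positivity
  have hU0 : 0 ≤ (volume (U c₀)).toReal := ENNReal.toReal_nonneg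
  have key : ∀ (c : ℝ) (S : Finset ι), c₀ ≤ c → c ≤ c₁ →
      β₁ + ∑ i ∈ S, w i < (volume (U c)).toReal →
      β₂ + ∑ i ∈ Sᶜ, w i < (volume (V c)).toReal → TPk Ω (Sum.elim b r) := by
    intro c S hc0 hc1 h1 h2
    exact v1_union (fun p => p ∈ K) (fun i => i ∈ S)
      (v1_restrict (hFU c hc0 hc1) r J hr hJ hN S (fun i => i ∈ S) (fun _ => Iff.rfl) hs1 h1)
      (v1_restrict (hFV c hc0 hc1) r J hr hJ hN Sᶜ (fun i => i ∉ S) (fun _ => Finset.mem_compl)
        hs2 h2)
      (hd c hc0 hc1) (hU c hc0 hc1) (hV c hc0 hc1)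
  by_cases hA : β₁ + ∑ i, w i < (volume (U c₁)).toReal
  · refine key c₁ Finset.univ hc le_rfl hA ?_
    rw [Finset.compl_univ, Finset.sum_empty, add_zero]
    exact hbV
  rw [not_lt] at hA
  obtain ⟨S, hS, hmax⟩ := Finset.exists_max_image
    (Finset.univ.filter fun S : Finset ι => β₁ + ∑ i ∈ S, w i < (volume (U c₁)).toReal)
    Finset.card
    ⟨∅, by
      simp only [Finset.mem_filter, Finset.mem_univ, true_and, Finset.sum_empty, add_zero]
      exact hbU⟩
  simp only [Finset.mem_filter, Finset.mem_univ, true_and] at hS hmax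
  obtain ⟨i, hi⟩ : ∃ i, i ∉ S := by
    by_contra hcon
    push Not at hcon
    rw [Finset.eq_univ_iff_forall.2 hcon] at hS
    linarith only [hA, hS]
  have hi2 : (volume (U c₁)).toReal ≤ β₁ + (w i + ∑ i ∈ S, w i) := by
    rw [← Finset.sum_insert hi]
    by_contra hcon
    rw [not_le] at hcon
    have := hmax _ hcon
    rw [Finset.card_insert_of_notMem hi] at this
    omega
  have hlow : (volume (U c₀)).toReal < β₁ + ∑ i ∈ S, w i := by
    have := hw1 i
    linarith only [hbig, hi2, this]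
  have hsplit : ∑ i ∈ S, w i + ∑ i ∈ Sᶜ, w i = ∑ i, w i := Finset.sum_add_sum_compl S w
  have hlt' : β₁ + β₂ + ∑ i, w i < (volume Ω).toReal := hlt
  set θ : ℝ := min ((volume Ω).toReal - (β₁ + β₂ + ∑ i, w i))
    ((volume (U c₁)).toReal - (β₁ + ∑ i ∈ S, w i)) / 2 with hθ
  have hm : 0 < min ((volume Ω).toReal - (β₁ + β₂ + ∑ i, w i))
      ((volume (U c₁)).toReal - (β₁ + ∑ i ∈ S, w i)) :=
    lt_min (sub_pos.2 hlt') (sub_pos.2 hS)
  have hθ0 : 0 < θ := by (clear * - hlt hS; positivity)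
  have hθ1 : θ < (volume Ω).toReal - (β₁ + β₂ + ∑ i, w i) := by
    have := min_le_left ((volume Ω).toReal - (β₁ + β₂ + ∑ i, w i))
      ((volume (U c₁)).toReal - (β₁ + ∑ i ∈ S, w i))
    rw [hθ]
    linarith only [hθ, hθ0, this]
  have hθ2 : θ < (volume (U c₁)).toReal - (β₁ + ∑ i ∈ S, w i) := by
    have := min_le_right ((volume Ω).toReal - (β₁ + β₂ + ∑ i, w i))
      ((volume (U c₁)).toReal - (β₁ + ∑ i ∈ S, w i))
    rw [hθ]
    linarith only [hθ, hθ0, this]
  obtain ⟨c, ⟨hc0, hc1⟩, hcv⟩ := intermediate_value_Icc hc hcont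
    (show β₁ + ∑ i ∈ S, w i + θ ∈ Set.Icc (volume (U c₀)).toReal (volume (U c₁)).toReal from
      ⟨by linarith only [hlow, hθ0], by linarith only [hθ2]⟩)
  simp only at hcv
  refine key c S hc0 hc1 ?_ ?_
  · rw [hcv]
    linarith only [hθ0]
  · have := hvol c hc0 hc1
    linarith only [hsplit, hθ1, hcv, this]

/-- Splitting along a coordinate hyperplane. -/
theorem FB.cut {n : ℕ} (hn : 1 ≤ n) {δ N : ℝ} (hδ1 : δ ≤ 1) {κ : Type} [Fintype κ]
    [DecidableEq κ] (b : κ → ℝ) (K : Finset κ) {Ω : Set (Fin n → ℝ)}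
    (hfin : volume Ω ≠ ⊤) (hΩ : MeasurableSet Ω) (j : Fin n) {x0 x1 : ℝ} (hx : x0 ≤ x1)
    (hmid : 1 / (n.factorial : ℝ) < (volume (Ω ∩ {a | x0 < a j ∧ a j < x1})).toReal)
    (hbU : ∑ p ∈ K, b p ^ n / (n.factorial : ℝ) < (volume (Ω ∩ {a | a j < x1})).toReal)
    (hbV : ∑ p ∈ Kᶜ, b p ^ n / (n.factorial : ℝ) < (volume (Ω ∩ {a | x1 < a j})).toReal)
    (hFU : ∀ x, x0 ≤ x → x ≤ x1 →
      FB δ N (Ω ∩ {a | a j < x}) (fun p : {p // p ∈ K} => b p))
    (hFV : ∀ x, x0 ≤ x → x ≤ x1 →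
      FB δ N (Ω ∩ {a | x < a j}) (fun p : {p // p ∉ K} => b p)) :
    FB δ N Ω b := by
  have hproj : Measurable fun a : Fin n → ℝ => a j := measurable_pi_apply _
  have hfs : ∀ S : Set (Fin n → ℝ), volume (Ω ∩ S) ≠ ⊤ := fun S =>
    ne_top_of_le_ne_top hfin (measure_mono Set.inter_subset_left)
  refine FB.split hn hδ1 b K hfin (fun x => Ω ∩ {a | a j < x})
    (fun x => Ω ∩ {a | x < a j}) hx (fun _ _ _ => Set.inter_subset_left)
    (fun _ _ _ => Set.inter_subset_left) ?_ ?_ ?_ ?_ hbU hbV hFU hFV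
  · intro x _ _
    rw [Set.disjoint_left]
    rintro a ⟨_, h1⟩ ⟨_, h2⟩
    have h3 : a j < x := h1
    have h4 : x < a j := h2
    exact lt_asymm h3 h4
  · intro x _ _
    have h1 : volume Ω ≤ volume (Ω ∩ {a | a j < x}) + volume (Ω ∩ {a | x < a j}) := by
      calc volume Ω ≤ volume (((Ω ∩ {a | a j < x}) ∪
            (Ω ∩ {a | x < a j})) ∪ {a : Fin n → ℝ | a j = x}) := by
            refine measure_mono ?_
            intro a ha
            rcases lt_trichotomy (a j) x with h | h | h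
            · exact Or.inl (Or.inl ⟨ha, h⟩)
            · exact Or.inr h
            · exact Or.inl (Or.inr ⟨ha, h⟩)
        _ ≤ volume ((Ω ∩ {a | a j < x}) ∪ (Ω ∩ {a | x < a j})) +
            volume {a : Fin n → ℝ | a j = x} := measure_union_le _ _
        _ = volume ((Ω ∩ {a | a j < x}) ∪ (Ω ∩ {a | x < a j})) := by
            rw [v1_null, add_zero]
        _ ≤ _ := measure_union_le _ _
    rw [← ENNReal.toReal_add (hfs _) (hfs _)]
    exact ENNReal.toReal_mono (ENNReal.add_ne_top.2 ⟨hfs _, hfs _⟩) h1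
  · have h1 := volume_lt_continuous hfin hΩ (f := fun a : Fin n → ℝ => a j)
      (g := fun _ => (1 : ℝ)) hproj measurable_const (fun _ _ => one_pos) (fun x =>
        measure_mono_null (Set.inter_subset_right.trans (fun a ha => by
          have h2 : a j = x * 1 := ha
          rw [mul_one] at h2
          exact h2)) (v1_null j x))
    simp only [mul_one] at h1
    exact h1.continuousOn
  · have hms : MeasurableSet (Ω ∩ {a | x0 < a j ∧ a j < x1}) :=
      hΩ.inter ((measurableSet_lt measurable_const hproj).inter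
        (measurableSet_lt hproj measurable_const))
    have hdis : Disjoint (Ω ∩ {a | a j < x0}) (Ω ∩ {a | x0 < a j ∧ a j < x1}) := by
      rw [Set.disjoint_left]
      rintro a ⟨_, h1⟩ ⟨_, h2⟩
      have h3 : a j < x0 := h1
      have h4 : x0 < a j := h2.1
      exact lt_asymm h3 h4
    have h1 : volume (Ω ∩ {a | a j < x0}) + volume (Ω ∩ {a | x0 < a j ∧ a j < x1}) ≤
        volume (Ω ∩ {a | a j < x1}) := by
      rw [← measure_union hdis hms]
      refine measure_mono ?_
      rintro a (⟨ha, h2⟩ | ⟨ha, h2⟩)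
      · exact ⟨ha, lt_of_lt_of_le h2 hx⟩
      · exact ⟨ha, h2.2⟩
    have h2 := ENNReal.toReal_mono (hfs _) h1
    rw [ENNReal.toReal_add (hfs _) (hfs _)] at h2
    show (volume (Ω ∩ {a | a j < x0})).toReal + _ < (volume (Ω ∩ {a | a j < x1})).toReal
    linarith only [h2, hmid]

end Vale.Agent.P209.Strong
end
end

section

section
namespace Vale.Agent.P209.Strong

open MeasureTheory

/-! V2. Boxes with at most one big ball. -/

/-- the open box -/
def bx {n : ℕ} (x y : Fin n → ℝ) : Set (Fin n → ℝ) := {a | ∀ j, x j < a j ∧ a j < y j}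

theorem v2_bx_eq {n : ℕ} (x y : Fin n → ℝ) :
    bx x y = Set.pi Set.univ fun j => Set.Ioo (x j) (y j) := by
  ext a
  constructor
  · intro h j _
    exact h j
  · intro h j
    exact h j (Set.mem_univ j)

theorem bx_isOpen {n : ℕ} (x y : Fin n → ℝ) : IsOpen (bx x y) := by
  rw [v2_bx_eq]
  exact isOpen_set_pi Set.finite_univ fun j _ => isOpen_Ioo

theorem bx_volume {n : ℕ} (x y : Fin n → ℝ) (h : ∀ j, x j ≤ y j) :
    (volume (bx x y)).toReal = ∏ j, (y j - x j) ∧ volume (bx x y) ≠ ⊤ := by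
  rw [v2_bx_eq]
  refine ⟨Real.volume_pi_Ioo_toReal h, ?_⟩
  rw [Real.volume_pi_Ioo]
  exact ENNReal.prod_ne_top fun j _ => ENNReal.ofReal_ne_top

/-- sum of the coordinates before `j` -/
noncomputable def v2_ps {n : ℕ} (x : Fin n → ℝ) (j : ℕ) (a : Fin n → ℝ) : ℝ :=
  ∑ i : Fin n, if (i : ℕ) < j then a i - x i else 0

/-- the lower walls of the box minus the corner simplex -/
noncomputable def v2_l {n : ℕ} (x : Fin n → ℝ) (s : ℝ) (j : Fin n) (a : Fin n → ℝ) : ℝ :=
  x j + if (j : ℕ) + 1 = n then max 0 (s - v2_ps x j a) else 0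

theorem v2_l_ge {n : ℕ} (x : Fin n → ℝ) (s : ℝ) (j : Fin n) (a : Fin n → ℝ) :
    x j ≤ v2_l x s j a := by
  unfold v2_l
  have : 0 ≤ if (j : ℕ) + 1 = n then max 0 (s - v2_ps x j a) else 0 := by
    split_ifs
    · exact le_max_left _ _
    · exact le_rfl
  linarith only [this]

theorem v2_walls {n : ℕ} (x : Fin n → ℝ) (s : ℝ) : Walls (n : ℝ) (v2_l x s) := by
  constructor
  · intro j y y' h
    have h1 : v2_ps x j y = v2_ps x j y' := by
      refine Finset.sum_congr rfl fun i _ => ?_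
      by_cases hi : (i : ℕ) < (j : ℕ)
      · rw [if_pos hi, if_pos hi, h i hi]
      · rw [if_neg hi, if_neg hi]
    show v2_l x s j y = v2_l x s j y'
    unfold v2_l
    rw [h1]
  · intro j y y'
    have h1 : |v2_ps x j y - v2_ps x j y'| ≤ n * dist y y' := by
      unfold v2_ps
      rw [← Finset.sum_sub_distrib]
      refine (Finset.abs_sum_le_sum_abs _ _).trans ?_
      have h2 : ∀ i : Fin n, |(if (i : ℕ) < (j : ℕ) then y i - x i else 0) -
          (if (i : ℕ) < (j : ℕ) then y' i - x i else 0)| ≤ dist y y' := by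
        intro i
        split_ifs
        · have h3 := dist_le_pi_dist y y' i
          rw [Real.dist_eq] at h3
          have h4 : y i - x i - (y' i - x i) = y i - y' i := by ring
          rw [h4]
          exact h3
        · rw [sub_self, abs_zero]
          exact dist_nonneg
      refine (Finset.sum_le_sum fun i _ => h2 i).trans ?_
      rw [Finset.sum_const, Finset.card_univ, Fintype.card_fin, nsmul_eq_mul]
    unfold v2_l
    rw [add_sub_add_left_eq_sub]
    split_ifs
    · refine (abs_max_sub_max_le_max _ _ _ _).trans ?_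
      refine max_le ?_ ?_
      · rw [sub_self, abs_zero]
        positivity
      · have h5 : s - v2_ps x j y - (s - v2_ps x j y') = -(v2_ps x j y - v2_ps x j y') := by ring
        rw [h5, abs_neg]
        exact h1
    · rw [sub_self, abs_zero]
      positivity

theorem v2_const_walls {n : ℕ} (L : ℝ) (hL : 0 ≤ L) (y : Fin n → ℝ) :
    Walls L (fun j (_ : Fin n → ℝ) => y j) := by
  constructor
  · intro j a a' _
    rfl
  · intro j a a'
    rw [sub_self, abs_zero]
    exact mul_nonneg hL dist_nonneg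

/-- a total sum in terms of the sum before the last coordinate -/
theorem v2_sum {n : ℕ} (x : Fin n → ℝ) (j : Fin n) (hj : (j : ℕ) + 1 = n) (a : Fin n → ℝ) :
    ∑ i, (a i - x i) = v2_ps x j a + (a j - x j) := by
  unfold v2_ps
  rw [← Finset.add_sum_erase Finset.univ _ (Finset.mem_univ j),
    ← Finset.add_sum_erase Finset.univ (fun i : Fin n => if (i : ℕ) < (j : ℕ) then a i - x i else 0)
      (Finset.mem_univ j), if_neg (lt_irrefl _), zero_add, add_comm]
  congr 1
  refine Finset.sum_congr rfl fun i hi => ?_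
  have h1 : i ≠ j := Finset.ne_of_mem_erase hi
  have h2 : (i : ℕ) ≠ (j : ℕ) := fun h => h1 (Fin.ext h)
  rw [if_pos]
  have := i.2
  omega

/-- the open corner simplex -/
def v2_C {n : ℕ} (x : Fin n → ℝ) (s : ℝ) : Set (Fin n → ℝ) :=
  {a | (∀ j, x j < a j) ∧ ∑ j, (a j - x j) < s}

theorem v2_C_open {n : ℕ} (x : Fin n → ℝ) (s : ℝ) : IsOpen (v2_C x s) := by
  have h1 : v2_C x s = (⋂ j, {a : Fin n → ℝ | x j < a j}) ∩ {a | ∑ j, (a j - x j) < s} := by
    ext a
    simp only [v2_C, Finset.sum_sub_distrib, Set.mem_ofPred_eq, Set.mem_inter_iff, Set.mem_iInter]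
  rw [h1]
  refine (isOpen_iInter_of_finite fun j => isOpen_lt continuous_const (continuous_apply j)).inter ?_
  exact isOpen_lt (by fun_prop) continuous_const

theorem v2_emb {n : ℕ} (x : Fin n → ℝ) {b s : ℝ} (hb : 0 ≤ b) (hbs : b < s) :
    ∃ f, TEmb b f (v2_C x s) := by
  obtain ⟨h1, h2⟩ := h2b_tau (n := n) hbs
  refine h2b_emb hb (fun j => x j + (s - b) / (2 * n + 2)) (v2_C_open x s) fun a ha hs => ?_
  refine ⟨fun j => ?_, ?_⟩
  · have := ha j
    linarith only [h1, this]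
  · rw [Finset.sum_add_distrib, Finset.sum_const, Finset.card_univ, Fintype.card_fin,
      nsmul_eq_mul] at hs
    rw [Finset.sum_sub_distrib]
    linarith only [h2, hs]

theorem v2_volume {n : ℕ} (hn : 1 ≤ n) (x y : Fin n → ℝ) (s : ℝ) (hs : 0 ≤ s) :
    volume (bx x y) ≤ volume (boxSet (v2_l x s) (fun j _ => y j)) +
      ENNReal.ofReal (s ^ n / (n.factorial : ℝ)) := by
  have hcov : bx x y ⊆ boxSet (v2_l x s) (fun j _ => y j) ∪
      (fun a : Fin n → ℝ => a - x) ⁻¹' (h2aK n s) := by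
    intro a ha
    by_cases h : ∑ j, (a j - x j) ≤ s
    · right
      refine ⟨fun j => ?_, ?_⟩
      · show 0 ≤ a j - x j
        have := (ha j).1
        linarith only [this]
      · exact h
    · left
      push Not at h
      intro j
      refine ⟨?_, (ha j).2⟩
      have h1 := (ha j).1
      unfold v2_l
      split_ifs with hj
      · rw [v2_sum x j hj a] at h
        have h2 : max 0 (s - v2_ps x j a) < a j - x j := by
          apply max_lt
          · linarith only [h1]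
          · linarith only [h]
        linarith only [h2]
      · linarith
  refine (measure_mono hcov).trans ((measure_union_le _ _).trans ?_)
  gcongr
  have h1 : volume ((fun a : Fin n → ℝ => a - x) ⁻¹' (h2aK n s)) = volume (h2aK n s) := by
    simp only [sub_eq_add_neg]
    exact measure_preimage_add_right volume (-x) (h2aK n s)
  rw [h1]
  exact h2aK_volume n hn s hs

theorem v2_choose {n : ℕ} {b w V v : ℝ} (hbw : b < w) (h : b ^ n / (n.factorial : ℝ) + V < v) :
    ∃ s, b < s ∧ s < w ∧ s ^ n / (n.factorial : ℝ) + V < v := by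
  have e1 : ∀ᶠ s : ℝ in nhdsWithin b (Set.Ioi b), s < w :=
    nhdsWithin_le_nhds (Iio_mem_nhds hbw)
  have hc : Continuous fun s : ℝ => s ^ n / (n.factorial : ℝ) + V := by fun_prop
  have e2 : ∀ᶠ s : ℝ in nhdsWithin b (Set.Ioi b), s ^ n / (n.factorial : ℝ) + V < v :=
    nhdsWithin_le_nhds (hc.continuousAt.eventually_lt continuousAt_const h)
  have e3 : ∀ᶠ s : ℝ in nhdsWithin b (Set.Ioi b), b < s := eventually_mem_nhdsWithin
  obtain ⟨s, h1, h2, h3⟩ := (e1.and (e2.and e3)).exists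
  exact ⟨s, h3, h1, h2⟩

/-- A box whose last coordinate is long, with at most one big ball. -/
theorem cell_FB (n : ℕ) (hn : 2 ≤ n) (δ N : ℝ) (hδ : 0 < δ) (hδ1 : δ ≤ 1) (hN : 0 ≤ N) :
    ∃ H0 : ℝ, 0 < H0 ∧ ∀ (w : ℝ) (x y : Fin n → ℝ), H0 ≤ w → (∀ j, w ≤ y j - x j) →
      (∀ j : Fin n, (j : ℕ) + 1 = n → 2 * w ≤ y j - x j) →
      ∀ (κ : Type) [Fintype κ] (b : κ → ℝ), Fintype.card κ ≤ 1 → (∀ p, 0 < b p ∧ b p < w) →
        FB δ N (bx x y) b := by
  obtain ⟨R0, hR0, H⟩ := CA_all n hn (1 / 2) n δ N (by norm_num) (Nat.cast_nonneg n) hδ hδ1 hN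
  refine ⟨R0, hR0, fun w x y hw hxy hlast κ _ b hκ hb => ?_⟩
  have hw0 : 0 < w := hR0.trans_le hw
  rcases isEmpty_or_nonempty κ with hE | hne
  · -- no big ball
    refine FB.of_Fill ?_ b
    have h1 : bx x y = boxSet (fun j _ => x j) (fun j _ => y j) := rfl
    rw [h1]
    refine H (fun j => y j - x j) (fun j => hw.trans (hxy j)) _ _
      (v2_const_walls _ (Nat.cast_nonneg n) x) (v2_const_walls _ (Nat.cast_nonneg n) y)
      fun j a _ => ⟨?_, le_rfl⟩
    have := hxy j
    linarith only [hR0, hw, this]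
  · obtain ⟨p0⟩ := hne
    have hsub : ∀ q : κ, q = p0 := by
      intro q
      have := Fintype.card_le_one_iff.1 hκ q p0
      exact this
    intro ι _ r J hr hJ hJN hvol
    have hsum : ∑ p, b p ^ n / (n.factorial : ℝ) = b p0 ^ n / (n.factorial : ℝ) := by
      rw [Finset.sum_eq_single p0]
      · intro q _ hq
        exact absurd (hsub q) hq
      · intro h
        exact absurd (Finset.mem_univ _) h
    rw [hsum] at hvol
    obtain ⟨s, hbs, hsw, hs⟩ := v2_choose (hb p0).2 hvol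
    have hs0 : 0 < s := (hb p0).1.trans hbs
    set Ω0 : Set (Fin n → ℝ) := boxSet (v2_l x s) (fun j _ => y j) with hΩ0
    have hfill : Fill δ N Ω0 := by
      refine H (fun j => y j - x j) (fun j => hw.trans (hxy j)) _ _
        (v2_walls x s) (v2_const_walls _ (Nat.cast_nonneg n) y) fun j a hj => ?_
      have hge := v2_l_ge x s j a
      refine ⟨?_, by linarith only [hge]⟩
      have hxyj := hxy j
      unfold v2_l
      split_ifs with hjn
      · have h1 : 0 ≤ v2_ps x j a := by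
          refine Finset.sum_nonneg fun i _ => ?_
          split_ifs with hi
          · have h2 := (hj i hi).1
            have h3 := v2_l_ge x s i a
            linarith only [h2, h3]
          · exact le_rfl
        have h2 : max 0 (s - v2_ps x j a) ≤ s := max_le hs0.le (by linarith only [h1])
        have h3 := hlast j hjn
        linarith only [hsw, h2, h3]
      · linarith only [hsw, hs0, hxyj]
    have hΩsub : Ω0 ⊆ bx x y := by
      intro a ha j
      exact ⟨(v2_l_ge x s j a).trans_lt (ha j).1, (ha j).2⟩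
    have hCsub : v2_C x s ⊆ bx x y := by
      intro a ha j
      refine ⟨ha.1 j, ?_⟩
      have h1 : a j - x j ≤ ∑ i, (a i - x i) :=
        Finset.single_le_sum (f := fun i => a i - x i)
          (fun i _ => by have := ha.1 i; linarith only [this]) (Finset.mem_univ j)
      have h2 := ha.2
      have h3 := hxy j
      linarith only [hsw, h1, h2, h3]
    have hdis : Disjoint (v2_C x s) Ω0 := by
      rw [Set.disjoint_left]
      intro a haC haΩ
      have hjn : ((⟨n - 1, by omega⟩ : Fin n) : ℕ) + 1 = n := by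
        show n - 1 + 1 = n
        omega
      have h1 := (haΩ ⟨n - 1, by omega⟩).1
      have h2 := haC.2
      rw [v2_sum x ⟨n - 1, by omega⟩ hjn a] at h2
      unfold v2_l at h1
      rw [if_pos hjn] at h1
      have h3 := le_max_right 0 (s - v2_ps x ((⟨n - 1, by omega⟩ : Fin n) : ℕ) a)
      linarith only [h1, h2, h3]
    have hfinbx : volume (bx x y) ≠ ⊤ :=
      (bx_volume x y fun j => by have := hxy j; linarith only [hsw, hs0, this]).2
    have hfinΩ : volume Ω0 ≠ ⊤ := ne_top_of_le_ne_top hfinbx (measure_mono hΩsub)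
    have hv : (volume (bx x y)).toReal ≤ (volume Ω0).toReal + s ^ n / (n.factorial : ℝ) := by
      have h1 := v2_volume (by omega) x y s hs0.le
      have h2 := ENNReal.toReal_mono (ENNReal.add_ne_top.2 ⟨hfinΩ, ENNReal.ofReal_ne_top⟩) h1
      rw [ENNReal.toReal_add hfinΩ ENNReal.ofReal_ne_top, ENNReal.toReal_ofReal (by positivity)]
        at h2
      exact h2
    have hTPk : TPk Ω0 r := hfill ι r J hr hJ hJN (by linarith only [hs, hv])
    refine TPk.glue (bx x y) Ω0 (fun _ : κ => v2_C x s) b r (fun p => ?_) hTPk (fun _ => hCsub)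
      hΩsub (fun p q hpq => ?_) (fun _ => hdis)
    · rw [hsub p]
      exact v2_emb x (hb p0).1.le hbs
    · exact absurd ((hsub p).trans (hsub q).symm) hpq

end Vale.Agent.P209.Strong
end
end

section

section
namespace Vale.Agent.P209.Strong

open MeasureTheory

/-! V3. Boxes with a grid of cells, each with at most one big ball. -/

theorem v3_sum_lt {n : ℕ} (hn : 2 ≤ n) {κ : Type} (K : Finset κ) (b : κ → ℝ) {w : ℝ} (hw : 0 < w)
    (m : Fin n → ℕ) (hm : ∀ i, 1 ≤ m i) (l : Fin n → ℝ) (hl : ∀ i, w * m i ≤ l i)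
    (hK : K.card ≤ ∏ i, m i) (hb : ∀ p, 0 < b p ∧ b p < w) :
    ∑ p ∈ K, b p ^ n / (n.factorial : ℝ) < ∏ i, l i := by
  have h1 : ∀ p ∈ K, b p ^ n / (n.factorial : ℝ) ≤ w ^ n / 2 := by
    intro p _
    have hf : (2 : ℝ) ≤ n.factorial := by
      have h : Nat.factorial 2 ≤ n.factorial := Nat.factorial_le hn
      have h' : (2 : ℕ) ≤ n.factorial := by simpa using h
      exact_mod_cast h'
    have h2 : b p ^ n ≤ w ^ n := pow_le_pow_left₀ (hb p).1.le (hb p).2.le n
    exact div_le_div₀ (pow_nonneg hw.le n) h2 two_pos hf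
  have h2 := Finset.sum_le_card_nsmul K _ _ h1
  rw [nsmul_eq_mul] at h2
  have h3 : ((K.card : ℕ) : ℝ) ≤ ∏ i, (m i : ℝ) := by exact_mod_cast hK
  have h4 : (1 : ℝ) ≤ ∏ i, (m i : ℝ) := by
    have h : 1 ≤ ∏ i, m i := Finset.one_le_prod' fun i _ => hm i
    exact_mod_cast h
  have h5 : ∏ i, (w * (m i : ℝ)) ≤ ∏ i, l i :=
    Finset.prod_le_prod (fun i _ => mul_nonneg hw.le (Nat.cast_nonneg _)) (fun i _ => hl i)
  rw [Finset.prod_mul_distrib, Finset.prod_const, Finset.card_univ, Fintype.card_fin] at h5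
  have h6 : 0 < w ^ n := pow_pos hw n
  have h7 : (K.card : ℝ) * (w ^ n / 2) ≤ (∏ i, (m i : ℝ)) * (w ^ n / 2) :=
    mul_le_mul_of_nonneg_right h3 (by linarith only [h6])
  have h8 : 0 < w ^ n * ∏ i, (m i : ℝ) := mul_pos h6 (by linarith only [h4])
  have h9 : (∏ i, (m i : ℝ)) * (w ^ n / 2) = (w ^ n * ∏ i, (m i : ℝ)) / 2 := by ring
  linarith only [h2, h5, h7, h8]

theorem v3_left {n : ℕ} (x y : Fin n → ℝ) (j : Fin n) {t : ℝ} (ht : t ≤ y j) :
    bx x y ∩ {a | a j < t} = bx x (Function.update y j t) := by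
  ext a
  simp only [bx, Set.mem_inter_iff, Set.mem_setOf_eq]
  constructor
  · rintro ⟨h1, h2⟩ i
    refine ⟨(h1 i).1, ?_⟩
    by_cases hi : i = j
    · subst hi; rw [Function.update_self]; exact h2
    · rw [Function.update_of_ne hi]; exact (h1 i).2
  · intro h
    have hj := (h j).2
    rw [Function.update_self] at hj
    refine ⟨fun i => ⟨(h i).1, ?_⟩, hj⟩
    by_cases hi : i = j
    · subst hi; exact hj.trans_le ht
    · have := (h i).2
      rwa [Function.update_of_ne hi] at this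

theorem v3_right {n : ℕ} (x y : Fin n → ℝ) (j : Fin n) {t : ℝ} (ht : x j ≤ t) :
    bx x y ∩ {a | t < a j} = bx (Function.update x j t) y := by
  ext a
  simp only [bx, Set.mem_inter_iff, Set.mem_setOf_eq]
  constructor
  · rintro ⟨h1, h2⟩ i
    refine ⟨?_, (h1 i).2⟩
    by_cases hi : i = j
    · subst hi; rw [Function.update_self]; exact h2
    · rw [Function.update_of_ne hi]; exact (h1 i).1
  · intro h
    have hj := (h j).1
    rw [Function.update_self] at hj
    refine ⟨fun i => ⟨?_, (h i).2⟩, hj⟩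
    by_cases hi : i = j
    · subst hi; exact ht.trans_lt hj
    · have := (h i).1
      rwa [Function.update_of_ne hi] at this

theorem rows_FB (n : ℕ) (hn : 2 ≤ n) (δ N : ℝ) (hδ : 0 < δ) (hδ1 : δ ≤ 1) (hN : 0 ≤ N) :
    ∃ H0 : ℝ, 0 < H0 ∧ ∀ (w : ℝ) (x y : Fin n → ℝ) (m : Fin n → ℕ), H0 ≤ w →
      (∀ j : Fin n, (j : ℕ) = 0 → m j = 1 ∧ w ≤ y j - x j) →
      (∀ j : Fin n, 0 < (j : ℕ) → 1 ≤ m j ∧ 3 * w * m j ≤ y j - x j + 1) →
      ∀ (κ : Type) [Fintype κ] (b : κ → ℝ), Fintype.card κ ≤ ∏ j, m j →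
        (∀ p, 0 < b p ∧ b p < w) → FB δ N (bx x y) b := by
  classical
  obtain ⟨Hc, hHc, hcell⟩ := cell_FB n hn δ N hδ hδ1 hN
  refine ⟨max Hc 2, lt_of_lt_of_le hHc (le_max_left _ _), ?_⟩
  intro w x y m hw
  have hw1 : Hc ≤ w := (le_max_left _ _).trans hw
  have hw2 : (2 : ℝ) ≤ w := (le_max_right _ _).trans hw
  have key : ∀ (s : ℕ) (x y : Fin n → ℝ) (m : Fin n → ℕ), ∑ j, m j = s →
      (∀ j : Fin n, (j : ℕ) = 0 → m j = 1 ∧ w ≤ y j - x j) →
      (∀ j : Fin n, 0 < (j : ℕ) → 1 ≤ m j ∧ 3 * w * m j ≤ y j - x j + 1) →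
      ∀ (κ : Type) [Fintype κ] (b : κ → ℝ), Fintype.card κ ≤ ∏ j, m j →
        (∀ p, 0 < b p ∧ b p < w) → FB δ N (bx x y) b := by
    intro s
    induction s using Nat.strong_induction_on with
    | _ s ih =>
      intro x y m hs h0 h1 κ _ b hκ hb
      -- all lengths
      have hm1 : ∀ i, 1 ≤ m i := by
        intro i
        rcases Nat.eq_zero_or_pos (i : ℕ) with hi | hi
        · rw [(h0 i hi).1]
        · exact (h1 i hi).1
      have hlen : ∀ i, w * m i ≤ y i - x i := by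
        intro i
        rcases Nat.eq_zero_or_pos (i : ℕ) with hi | hi
        · rw [(h0 i hi).1, Nat.cast_one, mul_one]; exact (h0 i hi).2
        · have h2 := (h1 i hi).2
          have h3 : (1 : ℝ) ≤ m i := by exact_mod_cast hm1 i
          nlinarith only [h2, h3, hw2]
      have hlenw : ∀ i, w ≤ y i - x i := by
        intro i
        have h3 : (1 : ℝ) ≤ m i := by exact_mod_cast hm1 i
        have h4 := hlen i
        nlinarith only [h4, hHc, h3, hw1]
      have hxy : ∀ i, x i ≤ y i := fun i => by have := hlenw i; linarith only [hw2, this]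
      by_cases hall : ∀ j, m j = 1
      · refine hcell w x y hw1 hlenw ?_ κ b ?_ hb
        · intro j hj
          have hj0 : 0 < (j : ℕ) := by omega
          have := (h1 j hj0).2
          rw [hall j, Nat.cast_one, mul_one] at this
          linarith only [hw2, this]
        · refine hκ.trans ?_
          rw [Finset.prod_congr rfl fun j _ => hall j, Finset.prod_const_one]
      · push Not at hall
        obtain ⟨j, hj⟩ := hall
        have hj0 : 0 < (j : ℕ) := by
          rcases Nat.eq_zero_or_pos (j : ℕ) with h | h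
          · exact absurd (h0 j h).1 hj
          · exact h
        have hj2 : 2 ≤ m j := by have := hm1 j; omega
        obtain ⟨hmj, hlj⟩ := h1 j hj0
        obtain ⟨q, hq⟩ : ∃ q : ℕ, m j = q + 1 := ⟨m j - 1, by omega⟩
        have hq1 : 1 ≤ q := by omega
        have hq1' : (1 : ℝ) ≤ q := by exact_mod_cast hq1
        have hlj' : 3 * w * (q + 1) ≤ y j - x j + 1 := by
          rw [hq] at hlj; push_cast at hlj; exact hlj
        set x0 : ℝ := y j - 3 * w * q with hx0
        have hx0w : x j + 3 * w - 1 ≤ x0 := by rw [hx0]; nlinarith only [hlj']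
        have hx1y : x0 + 1 ≤ y j := by rw [hx0]; nlinarith only [hq1', hw2]
        -- products
        set P : ℕ := ∏ i ∈ Finset.univ.erase j, m i with hP
        have hprod : ∏ i, m i = (q + 1) * P := by
          rw [← Finset.mul_prod_erase Finset.univ m (Finset.mem_univ j), hq]
        have hpr : ∀ c : ℕ, ∏ i, Function.update m j c i = c * P := by
          intro c
          rw [← Finset.mul_prod_erase Finset.univ _ (Finset.mem_univ j), Function.update_self]
          congr 1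
          refine Finset.prod_congr rfl fun i hi => ?_
          rw [Function.update_of_ne (Finset.ne_of_mem_erase hi)]
        have hsm : ∀ c : ℕ, ∑ i, Function.update m j c i = c + ∑ i ∈ Finset.univ.erase j, m i := by
          intro c
          rw [← Finset.add_sum_erase Finset.univ _ (Finset.mem_univ j), Function.update_self]
          congr 1
          refine Finset.sum_congr rfl fun i hi => ?_
          rw [Function.update_of_ne (Finset.ne_of_mem_erase hi)]
        have hs' : s = (q + 1) + ∑ i ∈ Finset.univ.erase j, m i := by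
          rw [← hs, ← Finset.add_sum_erase Finset.univ m (Finset.mem_univ j), hq]
        -- the choice of K
        obtain ⟨K, hK1, hK2⟩ : ∃ K : Finset κ, K.card ≤ P ∧ Kᶜ.card ≤ q * P := by
          rcases le_or_gt (Fintype.card κ) (q * P) with h | h
          · exact ⟨∅, by simp, by rw [Finset.compl_empty, Finset.card_univ]; exact h⟩
          · obtain ⟨T, hT1, hT2⟩ := Finset.exists_subset_card_eq
              (s := (Finset.univ : Finset κ)) (n := q * P) (by rw [Finset.card_univ]; exact h.le)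
            refine ⟨Tᶜ, ?_, by rw [compl_compl, hT2]⟩
            rw [Finset.card_compl, hT2]
            rw [hprod] at hκ
            have : (q + 1) * P = q * P + P := by ring
            omega
        have hleft : ∀ t, x0 ≤ t → t ≤ x0 + 1 → ∀ i,
            w * (Function.update m j 1 i : ℕ) ≤ Function.update y j t i - x i := by
          intro t ht1 ht2 i
          by_cases hi : i = j
          · subst hi
            rw [Function.update_self, Function.update_self, Nat.cast_one, mul_one]; linarith only [hw2, hlj', ht1]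
          · rw [Function.update_of_ne hi, Function.update_of_ne hi]; exact hlen i
        have hright : ∀ t, x0 ≤ t → t ≤ x0 + 1 → ∀ i,
            w * (Function.update m j q i : ℕ) ≤ y i - Function.update x j t i := by
          intro t ht1 ht2 i
          by_cases hi : i = j
          · subst hi
            rw [Function.update_self, Function.update_self]; nlinarith only [hq1', ht2, hw2]
          · rw [Function.update_of_ne hi, Function.update_of_ne hi]; exact hlen i
        have hmu : ∀ c : ℕ, 1 ≤ c → ∀ i, 1 ≤ Function.update m j c i := by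
          intro c hc i
          by_cases hi : i = j
          · subst hi; rw [Function.update_self]; exact hc
          · rw [Function.update_of_ne hi]; exact hm1 i
        have hnn : ∀ (c : ℕ) (i : Fin n), (0 : ℝ) ≤ w * (c : ℝ) := fun c i =>
          mul_nonneg (by linarith only [hw2]) (Nat.cast_nonneg _)
        refine FB.cut (by omega) hδ1 b K (bx_volume x y hxy).2 (bx_isOpen x y).measurableSet j
          (x0 := x0) (x1 := x0 + 1) (by linarith only []) ?_ ?_ ?_ ?_ ?_
        · -- the middle part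
          have e1 : bx x y ∩ {a | x0 < a j ∧ a j < x0 + 1} =
              bx (Function.update x j x0) (Function.update y j (x0 + 1)) := by
            rw [show ({a : Fin n → ℝ | x0 < a j ∧ a j < x0 + 1}) =
              {a | x0 < a j} ∩ {a | a j < x0 + 1} from rfl, ← Set.inter_assoc,
              v3_right x y j (by linarith only [hw2, hlj']), v3_left _ _ j hx1y]
          have h2 : ∀ i, (1 : ℝ) ≤ Function.update y j (x0 + 1) i - Function.update x j x0 i := by
            intro i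
            by_cases hi : i = j
            · subst hi; rw [Function.update_self, Function.update_self]; linarith only []
            · rw [Function.update_of_ne hi, Function.update_of_ne hi]
              have := hlenw i; linarith only [hw2, this]
          rw [e1, (bx_volume _ _ fun i => by have := h2 i; linarith only [this]).1]
          have h3 : (1 : ℝ) ≤ ∏ i, (Function.update y j (x0 + 1) i - Function.update x j x0 i) := by
            have h := Finset.prod_le_prod (s := Finset.univ) (f := fun _ : Fin n => (1 : ℝ))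
              (g := fun i => Function.update y j (x0 + 1) i - Function.update x j x0 i)
              (fun i _ => zero_le_one) (fun i _ => h2 i)
            rwa [Finset.prod_const_one] at h
          have h4 : (2 : ℝ) ≤ n.factorial := by
            have h : Nat.factorial 2 ≤ n.factorial := Nat.factorial_le hn
            have h' : (2 : ℕ) ≤ n.factorial := by simpa using h
            exact_mod_cast h'
          have h5 : 1 / (n.factorial : ℝ) ≤ 1 / 2 := one_div_le_one_div_of_le two_pos h4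
          linarith only [h3, h5]
        · rw [v3_left x y j hx1y, (bx_volume _ _ fun i => by
            have := hleft (x0 + 1) (by linarith only []) le_rfl i
            have := hnn (Function.update m j 1 i) i
            linarith).1]
          exact v3_sum_lt hn K b (by linarith only [hw2]) (Function.update m j 1) (hmu 1 le_rfl) _
            (hleft (x0 + 1) (by linarith only []) le_rfl) (by rw [hpr, one_mul]; exact hK1) hb
        · rw [v3_right x y j (by linarith only [hw2, hlj']), (bx_volume _ _ fun i => by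
            have := hright (x0 + 1) (by linarith only []) le_rfl i
            have := hnn (Function.update m j q i) i
            (clear hn δ N hδ hδ1 hN hHc hcell hw1 ih b hκ hb hlenw hxy hmu; linarith)).1]
          exact v3_sum_lt hn Kᶜ b (by linarith only [hw2]) (Function.update m j q) (hmu q hq1) _
            (hright (x0 + 1) (by linarith only []) le_rfl) (by rw [hpr]; exact hK2) hb
        · intro t ht1 ht2
          rw [v3_left x y j (by linarith only [hx1y, ht2])]
          refine ih (1 + ∑ i ∈ Finset.univ.erase j, m i) (by omega) x (Function.update y j t)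
            (Function.update m j 1) (hsm 1) ?_ ?_ _ _ ?_ (fun p => hb p)
          · intro i hi
            have hij : i ≠ j := by rintro rfl; omega
            rw [Function.update_of_ne hij, Function.update_of_ne hij]; exact h0 i hi
          · intro i hi
            by_cases hij : i = j
            · subst hij
              rw [Function.update_self, Function.update_self, Nat.cast_one, mul_one]
              exact ⟨le_rfl, by linarith only [hlj', ht1]⟩
            · rw [Function.update_of_ne hij, Function.update_of_ne hij]; exact h1 i hi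
          · rw [hpr, one_mul, Fintype.card_of_subtype K (fun p => Iff.rfl)]; exact hK1
        · intro t ht1 ht2
          rw [v3_right x y j (by linarith only [hw2, hlj', ht1])]
          refine ih (q + ∑ i ∈ Finset.univ.erase j, m i) (by omega) (Function.update x j t) y
            (Function.update m j q) (hsm q) ?_ ?_ _ _ ?_ (fun p => hb p)
          · intro i hi
            have hij : i ≠ j := by rintro rfl; omega
            rw [Function.update_of_ne hij, Function.update_of_ne hij]; exact h0 i hi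
          · intro i hi
            by_cases hij : i = j
            · subst hij
              rw [Function.update_self, Function.update_self]
              exact ⟨hq1, by linarith only [ht2]⟩
            · rw [Function.update_of_ne hij, Function.update_of_ne hij]; exact h1 i hi
          · rw [hpr, Fintype.card_of_subtype Kᶜ (fun p => Finset.mem_compl)]; exact hK2
  intro h0 h1 κ _ b hκ hb
  exact key _ x y m rfl h0 h1 κ b hκ hb

end Vale.Agent.P209.Strong
end
end

section

section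
namespace Vale.Agent.P209.Strong

open MeasureTheory

/-! V4. All simplex blocks are filled. -/

theorem PS_all (n : ℕ) (hn : 2 ≤ n) (k : ℕ) (hk : k < n) : PS n k := by
  intro c L δ N hc hL hδ hδ1 hN
  have hc' : 0 < min c 1 := lt_min hc one_pos
  obtain ⟨R0, hR0, h⟩ := TS_all n hn k hk (min c 1) L δ N hc' hL hδ hδ1 hN
  refine ⟨R0, hR0, fun Rv Rb hRv hRb l u σ hS => ?_⟩
  have hRb0 : 0 < Rb := hR0.trans_le hRb
  have hc1 : min c 1 ≤ 1 := min_le_right _ _
  have hcR : min c 1 * Rb ≤ Rb := by nlinarith only [hR0, hc1, hRb]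
  have hsz : ∀ a, Pre l u k a → σ a ≤ Rb := fun a ha => (hS.size a ha).2
  have hbs : Rb ≤ bsum k n (fun _ => Rb) :=
    g1a_le_bsum (k := k) (a := fun _ : Fin n => Rb) (fun _ _ => hRb0) ⟨k, hk⟩ le_rfl
  have hTD : TD (min c 1) L Rv Rb k l u σ (fun _ => Rb) Rb (min c 1 * Rb) :=
    { sd := hS.mono (min_le_left _ _) le_rfl hRb0.le
        (fun j hj => (hR0.trans_le (hRv j hj)).le)
      cap := fun _ _ => hcR
      caps := hcR
      pair := fun a ha i j _ _ _ => by
        have := hsz a ha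
        show σ a + min c 1 * Rb ≤ Rb + Rb
        linarith only [hcR, this]
      pairs := fun a ha j _ => by
        have := hsz a ha
        show σ a + min c 1 * Rb ≤ Rb + Rb
        linarith only [hcR, this]
      tot := fun a ha => by
        have := hsz a ha
        linarith only [hcR, hbs, this] }
  have h1 := h Rv Rb hRv hRb l u σ (fun _ => Rb) Rb hTD
  rwa [TR_eq_SR hk (fun a ha _ _ => hsz a ha) hsz] at h1

end Vale.Agent.P209.Strong
end
end

section

section
namespace Vale.Agent.P209.Strong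

open MeasureTheory

/-! V5a. The outer parts of the slab. -/

/-- lower walls of the partially truncated slab -/
noncomputable def v5l {d : ℕ} (s0 : ℝ) : Fin (d + 1) → (Fin (d + 1) → ℝ) → ℝ :=
  fun j _ => if (j : ℕ) = 0 then s0 else 0

/-- upper walls of the partially truncated slab -/
noncomputable def v5u {d : ℕ} (R : ℝ) (t : Fin (d + 1) → ℝ) :
    Fin (d + 1) → (Fin (d + 1) → ℝ) → ℝ :=
  fun j _ => if (j : ℕ) = 0 then R else t j

/-- size of the block of the partially truncated slab -/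
noncomputable def v5s {d : ℕ} (k : ℕ) : (Fin (d + 1) → ℝ) → ℝ := fun y => y 0 - bsum 1 k y

/-- translation of a block coordinate of an uncapped simplex block -/
theorem v5a_fill_gt {n k : ℕ} {c L Rb δ N : ℝ} {Rv : Fin n → ℝ} {l u : Fin n → (Fin n → ℝ) → ℝ}
    {σ : (Fin n → ℝ) → ℝ} (hsd : SD c L Rv Rb k l u (fun a => σ a - 0)) {p : Fin n}
    (hp : k ≤ (p : ℕ)) {x : ℝ} (hx : 0 ≤ x)
    (h : Fill δ N (SR k l u (fun a => σ a - x))) :
    Fill δ N (SR k l u σ ∩ {a | x < a p}) := by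
  have hdep : ∀ y y' : Fin n → ℝ, (∀ i : Fin n, (i : ℕ) < k → y i = y' i) → σ y = σ y' := by
    intro y y' hy
    have h0 : (fun a => σ a - 0) y = (fun a => σ a - 0) y' := hsd.dep hy
    simpa using h0
  refine Fill.image (LinearEquiv.refl ℝ (Fin n → ℝ)) (fun i j => g1d_single_int i j)
    (fun i j => g1d_single_int i j) (Pi.single p (-x)) ?_
  have hT : ∀ a : Fin n → ℝ, (LinearEquiv.refl ℝ (Fin n → ℝ)) a + (Pi.single p (-x) : Fin n → ℝ) =
      Function.update a p (a p - x) := by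
    intro a
    funext j
    rw [Pi.add_apply, LinearEquiv.refl_apply]
    by_cases hj : j = p
    · subst hj
      rw [Function.update_self, Pi.single_eq_same]
      ring
    · rw [Function.update_of_ne hj, Pi.single_eq_of_ne hj, add_zero]
  have hlow : ∀ (a : Fin n → ℝ) (t : ℝ) (i : Fin n), (i : ℕ) < k →
      Function.update a p t i = a i := by
    intro a t i hi
    have : i ≠ p := by
      rintro rfl
      omega
    rw [Function.update_of_ne this]
  have e : (fun a => (LinearEquiv.refl ℝ (Fin n → ℝ)) a + (Pi.single p (-x) : Fin n → ℝ)) ''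
      (SR k l u σ ∩ {a | x < a p}) =
      SR k l u (fun a => σ a - x) := by
    ext y
    constructor
    · rintro ⟨a, ⟨⟨h1, h2, h3⟩, h5⟩, rfl⟩
      have h5' : x < a p := h5
      simp only [hT]
      refine ⟨fun j hj => ?_, fun j hj => ?_, ?_⟩
      · rw [g1d_wall hsd.wl (hlow a _) j hj, g1d_wall hsd.wu (hlow a _) j hj, hlow a _ j hj]
        exact h1 j hj
      · by_cases hjp : j = p
        · subst hjp
          rw [Function.update_self]
          linarith only [h5']
        · rw [Function.update_of_ne hjp]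
          exact h2 j hj
      · show bsum k n _ < σ _ - x
        rw [hdep _ _ (hlow a _), HM.bsum_update _ _ ⟨hp, p.2⟩]
        linarith
    · rintro ⟨h1, h2, h3⟩
      have h3' : bsum k n y < σ y - x := h3
      have h6 := h2 p hp
      refine ⟨Function.update y p (y p + x), ⟨⟨fun j hj => ?_, fun j hj => ?_, ?_⟩, ?_⟩, ?_⟩
      · rw [g1d_wall hsd.wl (hlow y _) j hj, g1d_wall hsd.wu (hlow y _) j hj, hlow y _ j hj]
        exact h1 j hj
      · by_cases hjp : j = p
        · subst hjp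
          rw [Function.update_self]
          linarith only [hx, h6]
        · rw [Function.update_of_ne hjp]
          exact h2 j hj
      · rw [hdep _ _ (hlow y _), HM.bsum_update _ _ ⟨hp, p.2⟩]
        linarith
      · show x < Function.update y p (y p + x) p
        rw [Function.update_self]
        linarith
      · simp only [hT]
        rw [Function.update_idem, Function.update_self]
        have : y p + x - x = y p := by ring
        rw [this, Function.update_eq_self]
  rw [e]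
  exact h

theorem v5a_wall {n : ℕ} (L : ℝ) (hL : 0 ≤ L) (f : Fin n → ℝ) :
    Walls (n := n) L (fun j _ => f j) := by
  constructor
  · intro j y y' _
    rfl
  · intro j y y'
    simp only [sub_self, abs_zero]
    positivity

theorem v5a_int {d : ℕ} {k : ℕ} (h1k : 1 ≤ k) (x : ℝ) :
    IntAff k (fun y : Fin (d + 1) → ℝ => v5s k y - x) := by
  refine ⟨-x, fun j => (if j = 0 then 1 else 0) - (if 1 ≤ (j : ℕ) ∧ (j : ℕ) < k then 1 else 0),
    fun j hj => ?_, fun a => ?_⟩
  · have h1 : j ≠ 0 := by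
      rintro rfl
      simp at hj
      omega
    have h2 : ¬ (1 ≤ (j : ℕ) ∧ (j : ℕ) < k) := by omega
    show ((if j = 0 then 1 else 0) - (if 1 ≤ (j : ℕ) ∧ (j : ℕ) < k then 1 else 0) : ℤ) = 0
    rw [if_neg h1, if_neg h2]
    rfl
  · have h2 : ∀ j : Fin (d + 1), (((if j = 0 then (1 : ℤ) else 0) -
        (if 1 ≤ (j : ℕ) ∧ (j : ℕ) < k then 1 else 0) : ℤ) : ℝ) * a j =
        (if j = 0 then a j else 0) - (if 1 ≤ (j : ℕ) ∧ (j : ℕ) < k then a j else 0) := by
      intro j
      by_cases h3 : j = 0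
      · subst h3
        simp only [↓reduceIte, Fin.coe_ofNat_eq_mod, Nat.zero_mod, nonpos_iff_eq_zero, one_ne_zero, false_and, sub_zero, Int.cast_one, one_mul]
      · by_cases h4 : 1 ≤ (j : ℕ) ∧ (j : ℕ) < k
        · rw [if_neg h3, if_pos h4, if_neg h3, if_pos h4]
          push_cast
          ring
        · rw [if_neg h3, if_neg h4, if_neg h3, if_neg h4]
          push_cast
          ring
    rw [Finset.sum_congr rfl fun j _ => h2 j, Finset.sum_sub_distrib]
    rw [Finset.sum_ite_eq' Finset.univ (0 : Fin (d + 1)) a, if_pos (Finset.mem_univ _)]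
    show a 0 - bsum 1 k a - x = _
    unfold bsum
    ring

theorem v5a_lip {d : ℕ} (k : ℕ) (x : ℝ) (y y' : Fin (d + 1) → ℝ) :
    |(v5s k y - x) - (v5s k y' - x)| ≤ ((d : ℝ) + 2) * dist y y' := by
  have h1 := HM.bsum_lip (k := 1) (j := k) y y'
  have h2 : |y 0 - y' 0| ≤ dist y y' := by
    rw [← Real.dist_eq]
    exact dist_le_pi_dist y y' 0
  have h3 : (v5s k y - x) - (v5s k y' - x) = (y 0 - y' 0) - (bsum 1 k y - bsum 1 k y') := by
    unfold v5s
    ring
  rw [h3]
  have h4 := abs_sub (y 0 - y' 0) (bsum 1 k y - bsum 1 k y')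
  push_cast at h1
  linarith

theorem v5a_bsum_le {d : ℕ} {k : ℕ} (h1k : 1 ≤ k) (hk : k < d + 1) {B : ℝ} (hB : 0 ≤ B)
    (a : Fin (d + 1) → ℝ) (h : ∀ i : Fin (d + 1), 1 ≤ (i : ℕ) → (i : ℕ) < k → a i ≤ B) :
    bsum 1 k a ≤ ((k : ℝ) - 1) * B := by
  have key : ∀ m : ℕ, 1 ≤ m → m ≤ k → bsum 1 m a ≤ ((m : ℝ) - 1) * B := by
    intro m hm
    induction m, hm using Nat.le_induction with
    | base =>
      intro _
      rw [HM.bsum_self]
      simp
    | succ m hm ih =>
      intro hmk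
      have h1 := ih (by omega)
      have h2 := HM.bsum_succ (k := 1) (⟨m, by omega⟩ : Fin (d + 1)) hm a
      simp only at h2
      rw [h2]
      have h3 := h ⟨m, by omega⟩ hm (by simp only; omega)
      push_cast
      linarith only [h1, h3]
  exact key k h1k le_rfl

theorem v5a_sd {d : ℕ} {R s0 ℓ x : ℝ} {k : ℕ} (hk : k < d + 1) (t : Fin (d + 1) → ℝ)
    (h1k : 1 ≤ k) (hRs : 0 ≤ R - s0) (hℓ : 1 ≤ ℓ) (hR4 : R - s0 ≤ R / 4)
    (hR : 4 * ((d : ℝ) + 1) * ℓ = R) (ht : ∀ j, ℓ ≤ t j ∧ t j ≤ ℓ + 1) (hx0 : 0 ≤ x)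
    (hx1 : x ≤ ℓ + 1) :
    SD (1 / 4) ((d : ℝ) + 2) (fun j : Fin (d + 1) => if (j : ℕ) = 0 then R - s0 else ℓ + 1) R k
      (v5l s0) (v5u R t) (fun a => v5s k a - x) where
  wl := v5a_wall _ (by positivity) (fun j : Fin (d + 1) => if (j : ℕ) = 0 then s0 else 0)
  wu := v5a_wall _ (by positivity) (fun j : Fin (d + 1) => if (j : ℕ) = 0 then R else t j)
  int := v5a_int h1k x
  lip := v5a_lip k x
  fat := fun j a hj _ => by
    unfold v5l v5u
    by_cases h0 : (j : ℕ) = 0
    · simp only [if_pos h0]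
      constructor <;> linarith only [hRs]
    · simp only [if_neg h0]
      have := ht j
      constructor <;> linarith only [hℓ, this]
  size := fun a ha => by
    have h0 := ha 0 (by simp; omega)
    unfold v5l v5u at h0
    simp only [Fin.val_zero, if_true] at h0
    have hj : ∀ i : Fin (d + 1), 1 ≤ (i : ℕ) → (i : ℕ) < k → 0 < a i ∧ a i ≤ ℓ + 1 := by
      intro i hi1 hik
      have h1 := ha i hik
      unfold v5l v5u at h1
      have h2 : ¬ (i : ℕ) = 0 := by omega
      simp only [if_neg h2] at h1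
      exact ⟨h1.1, h1.2.le.trans (ht i).2⟩
    have h2 := v5a_bsum_le h1k hk (B := ℓ + 1) (by linarith only [hℓ]) a fun i h3 h4 => (hj i h3 h4).2
    have h3 : 0 ≤ bsum 1 k a := HM.bsum_nonneg fun i h3 h4 => (hj i h3 h4).1
    have hkd : (k : ℝ) ≤ d := by
      have : k ≤ d := by omega
      exact_mod_cast this
    have hd0 : (0 : ℝ) ≤ d := by (clear * -; positivity)
    have h4 : ((k : ℝ) - 1) * (ℓ + 1) ≤ ((d : ℝ) - 1) * (ℓ + 1) :=
      mul_le_mul_of_nonneg_right (by linarith only [hkd]) (by linarith only [hℓ])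
    have h5 : (d : ℝ) + 1 ≤ ((d : ℝ) + 1) * ℓ := by nlinarith only [hℓ]
    show 1 / 4 * R ≤ a 0 - bsum 1 k a - x ∧ a 0 - bsum 1 k a - x ≤ R
    constructor
    · linarith
    · linarith only [hx0, h0, h3]

/-- The part `x < a k` of the slab truncated by `a j < t j`, `1 ≤ j < k`, is filled. -/
theorem slab_outer (d : ℕ) (hd : 1 ≤ d) (δ N : ℝ) (hδ : 0 < δ) (hδ1 : δ ≤ 1) (hN : 0 ≤ N) :
    ∃ H0 : ℝ, 0 < H0 ∧ ∀ (R s0 ℓ x : ℝ) (k : ℕ) (hk : k < d + 1) (t : Fin (d + 1) → ℝ),
      1 ≤ k → H0 ≤ R - s0 → H0 ≤ ℓ → R - s0 ≤ R / 4 → 4 * ((d : ℝ) + 1) * ℓ = R →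
      (∀ j, ℓ ≤ t j ∧ t j ≤ ℓ + 1) → ℓ ≤ x → x ≤ ℓ + 1 →
      Fill δ N (SR k (v5l s0) (v5u R t) (v5s k) ∩ {a | x < a ⟨k, hk⟩}) := by
  have hall : ∀ q : Fin (d + 1), ∃ R0 : ℝ, 0 < R0 ∧
      ∀ (Rv : Fin (d + 1) → ℝ) (Rb : ℝ), (∀ j : Fin (d + 1), (j : ℕ) < (q : ℕ) → R0 ≤ Rv j) →
      R0 ≤ Rb →
      ∀ (l u : Fin (d + 1) → (Fin (d + 1) → ℝ) → ℝ) (σ : (Fin (d + 1) → ℝ) → ℝ),
        SD (1 / 4) ((d : ℝ) + 2) Rv Rb q l u σ → Fill δ N (SR q l u σ) := fun q =>
    PS_all (d + 1) (by omega) q q.2 (1 / 4) ((d : ℝ) + 2) δ N (by norm_num) (by positivity)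
      hδ hδ1 hN
  choose R0 hR0 H using hall
  have hsum : ∀ q, R0 q ≤ ∑ q, R0 q := fun q =>
    Finset.single_le_sum (fun i _ => (hR0 i).le) (Finset.mem_univ q)
  have hsum0 : 0 ≤ ∑ q, R0 q := Finset.sum_nonneg fun i _ => (hR0 i).le
  refine ⟨1 + ∑ q, R0 q, by linarith only [hsum0], fun R s0 ℓ x k hk t h1k hRs hℓ hR4 hR ht hx0 hx1 => ?_⟩
  have hs := hsum ⟨k, hk⟩
  have hd0 : (0 : ℝ) ≤ d := by positivity
  have hℓ1 : 1 ≤ ℓ := by linarith only [hsum0, hℓ]
  have hRℓ : ℓ ≤ R := by nlinarith only [hsum0, hR, hℓ]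
  refine v5a_fill_gt (c := 1 / 4) (L := (d : ℝ) + 2) (Rb := R)
    (Rv := fun j : Fin (d + 1) => if (j : ℕ) = 0 then R - s0 else ℓ + 1)
    (v5a_sd (x := 0) hk t h1k (by linarith only [hsum0, hRs]) hℓ1 hR4 hR ht le_rfl (by linarith only [hsum0, hℓ]))
    (p := ⟨k, hk⟩) le_rfl (by linarith only [hsum0, hℓ, hx0] : (0 : ℝ) ≤ x) ?_
  refine H ⟨k, hk⟩ _ R (fun j hj => ?_) (by linarith only [hsum0, hRs, hR4, hs]) _ _ _
    (v5a_sd (x := x) hk t h1k (by linarith only [hsum0, hRs]) hℓ1 hR4 hR ht (by linarith only [hsum0, hℓ, hx0]) hx1)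
  show R0 ⟨k, hk⟩ ≤ if (j : ℕ) = 0 then R - s0 else ℓ + 1
  split_ifs
  · linarith only [hRs, hs]
  · linarith only [hℓ, hs]

end Vale.Agent.P209.Strong
end
end

section

section
namespace Vale.Agent.P209.Strong

open MeasureTheory

/-! V5. A thin slab with many big balls. -/

theorem v5_bsum {n : ℕ} (k : ℕ) (hk : 1 ≤ k) (hkn : k ≤ n) (a : Fin n → ℝ) :
    bsum 1 k a + bsum k n a = bsum 1 n a := by
  simp only [bsum]
  rw [← Finset.sum_add_distrib]
  refine Finset.sum_congr rfl fun i _ => ?_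
  have hi := i.2
  by_cases h1 : 1 ≤ (i : ℕ)
  · by_cases h2 : (i : ℕ) < k
    · rw [if_pos ⟨h1, h2⟩, if_neg (by omega), if_pos ⟨h1, hi⟩, add_zero]
    · rw [if_neg (by omega), if_pos (by omega), if_pos ⟨h1, hi⟩, zero_add]
  · rw [if_neg (by omega), if_neg (by omega), if_neg (by omega), add_zero]

theorem v5_mem {d : ℕ} (k : ℕ) (hk : 1 ≤ k) (hkn : k ≤ d + 1) (R s0 : ℝ) (t a : Fin (d + 1) → ℝ) :
    a ∈ SR k (v5l s0) (v5u R t) (v5s k) ↔ (s0 < a 0 ∧ a 0 < R) ∧
      (∀ j : Fin (d + 1), 1 ≤ (j : ℕ) → 0 < a j) ∧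
      (∀ j : Fin (d + 1), 1 ≤ (j : ℕ) → (j : ℕ) < k → a j < t j) ∧ bsum 1 (d + 1) a < a 0 := by
  have hb := v5_bsum k hk hkn a
  constructor
  · rintro ⟨h1, h2, h3⟩
    refine ⟨?_, ?_, ?_, ?_⟩
    · have h := h1 0 (show (0 : ℕ) < k by omega)
      simpa [v5l, v5u] using h
    · intro j hj
      by_cases hjk : (j : ℕ) < k
      · have h := (h1 j hjk).1
        simp only [v5l] at h
        rwa [if_neg (by omega)] at h
      · exact h2 j (by omega)
    · intro j hj hjk
      have h := (h1 j hjk).2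
      simp only [v5u] at h
      rwa [if_neg (by omega)] at h
    · simp only [v5s] at h3
      linarith only [hb, h3]
  · rintro ⟨h0, h1, h2, h3⟩
    refine ⟨?_, ?_, ?_⟩
    · intro j hj
      by_cases hj0 : (j : ℕ) = 0
      · have : j = 0 := Fin.ext hj0
        subst this
        simpa [v5l, v5u] using h0
      · simp only [v5l, v5u]
        rw [if_neg hj0, if_neg hj0]
        exact ⟨h1 j (by omega), h2 j (by omega) hj⟩
    · intro j hj
      exact h1 j (by omega)
    · simp only [v5s]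
      linarith only [hb, h3]

theorem v5_open {d : ℕ} (k : ℕ) (hk : 1 ≤ k) (hkn : k ≤ d + 1) (R s0 : ℝ) (t : Fin (d + 1) → ℝ) :
    IsOpen (SR k (v5l s0) (v5u R t) (v5s k)) := by
  have e : SR k (v5l s0) (v5u R t) (v5s k) =
      (({a : Fin (d + 1) → ℝ | s0 < a 0} ∩ {a | a 0 < R}) ∩
      ((⋂ j : Fin (d + 1), {a | 1 ≤ (j : ℕ) → 0 < a j}) ∩
      ((⋂ j : Fin (d + 1), {a | 1 ≤ (j : ℕ) → (j : ℕ) < k → a j < t j}) ∩
        {a | bsum 1 (d + 1) a < a 0}))) := by
    ext a
    rw [v5_mem k hk hkn]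
    simp only [Set.mem_inter_iff, Set.mem_iInter, Set.mem_setOf_eq]
  rw [e]
  refine IsOpen.inter (IsOpen.inter (isOpen_lt continuous_const (continuous_apply 0))
    (isOpen_lt (continuous_apply 0) continuous_const)) (IsOpen.inter ?_ (IsOpen.inter ?_
    (isOpen_lt (D3d_bsum_cont _ _) (continuous_apply 0))))
  · refine isOpen_iInter_of_finite fun j => ?_
    by_cases hj : 1 ≤ (j : ℕ)
    · simpa only [hj, forall_const] using isOpen_lt continuous_const (continuous_apply j)
    · simp only [hj, IsEmpty.forall_iff, Set.ofPred_true, isOpen_univ]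
  · refine isOpen_iInter_of_finite fun j => ?_
    by_cases hj : 1 ≤ (j : ℕ)
    · by_cases hj2 : (j : ℕ) < k
      · simpa only [hj, hj2, forall_const] using isOpen_lt (continuous_apply j) continuous_const
      · simp only [hj2, IsEmpty.forall_iff, implies_true, Set.ofPred_true, isOpen_univ]
    · simp only [hj, IsEmpty.forall_iff, Set.ofPred_true, isOpen_univ]

theorem v5_le_bsum {d : ℕ} (a : Fin (d + 1) → ℝ) (h : ∀ j : Fin (d + 1), 1 ≤ (j : ℕ) → 0 < a j)
    (j : Fin (d + 1)) (hj : 1 ≤ (j : ℕ)) : a j ≤ bsum 1 (d + 1) a := by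
  simp only [bsum]
  have h1 : (fun i : Fin (d + 1) => if 1 ≤ (i : ℕ) ∧ (i : ℕ) < d + 1 then a i else 0) j = a j := by
    simp only
    rw [if_pos ⟨hj, j.2⟩]
  rw [← h1]
  refine Finset.single_le_sum (f := fun i : Fin (d + 1) => if 1 ≤ (i : ℕ) ∧ (i : ℕ) < d + 1 then a i else 0)
    (fun i _ => ?_) (Finset.mem_univ j)
  split_ifs with hi
  · exact (h i hi.1).le
  · exact le_rfl

theorem v5_fin {d : ℕ} (k : ℕ) (hk : 1 ≤ k) (hkn : k ≤ d + 1) (R s0 : ℝ) (hR : 0 ≤ R) (hs : 0 ≤ s0)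
    (t : Fin (d + 1) → ℝ) : volume (SR k (v5l s0) (v5u R t) (v5s k)) ≠ ⊤ := by
  suffices hsub : SR k (v5l s0) (v5u R t) (v5s k) ⊆
      bx (fun _ : Fin (d + 1) => (0 : ℝ)) (fun _ => R) by
    exact ((measure_mono hsub).trans_lt (lt_top_iff_ne_top.2 (bx_volume _ _ fun _ => hR).2)).ne
  intro a ha
  obtain ⟨h0, h1, h2, h3⟩ := (v5_mem k hk hkn R s0 t a).1 ha
  intro j
  by_cases hj : (j : ℕ) = 0
  · have : j = 0 := Fin.ext hj
    subst this
    exact ⟨by linarith only [hs, h0], h0.2⟩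
  · have h4 := v5_le_bsum a h1 j (by omega)
    exact ⟨h1 j (by omega), by linarith only [h0, h3, h4]⟩

/-- sum of the coordinates below a bound -/
theorem v5_bsum_le {d : ℕ} (a c : Fin (d + 1) → ℝ) (h : ∀ j : Fin (d + 1), 1 ≤ (j : ℕ) → a j ≤ c j) :
    bsum 1 (d + 1) a ≤ ∑ i : Fin d, c i.succ := by
  have : bsum 1 (d + 1) a = ∑ i : Fin d, a i.succ := by
    simp only [bsum]
    rw [Fin.sum_univ_succ]
    simp only [Fin.coe_ofNat_eq_mod, Nat.zero_mod, nonpos_iff_eq_zero, one_ne_zero, lt_add_iff_pos_left, Order.lt_add_one_iff, zero_le, and_true, ↓reduceIte, Fin.val_succ, le_add_iff_nonneg_left, Order.add_one_le_iff, Fin.is_lt, and_self, zero_add]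
  rw [this]
  exact Finset.sum_le_sum fun i _ => h _ (by simp)

/-- the box contained in the block -/
theorem v5_box {d : ℕ} (k : ℕ) (hk : 1 ≤ k) (hkn : k < d + 1) (R s0 ℓ p q : ℝ)
    (t : Fin (d + 1) → ℝ) (ht : ∀ j, ℓ ≤ t j) (hp : 0 ≤ p) (hpq : p ≤ q) (hq : q ≤ 2 * ℓ) (hℓ : 0 ≤ ℓ)
    (hs : ((d : ℝ) + 1) * ℓ ≤ s0) (hsR : s0 ≤ R) (B : Set (Fin (d + 1) → ℝ))
    (hB : ∀ a : Fin (d + 1) → ℝ, p < a ⟨k, hkn⟩ → a ⟨k, hkn⟩ < q → a ∈ B) :
    (R - s0) * (∏ i : Fin d, if ((i : ℕ) + 1 = k) then q - p else ℓ) ≤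
      (volume (SR k (v5l s0) (v5u R t) (v5s k) ∩ B)).toReal := by
  set x : Fin (d + 1) → ℝ := fun j => if (j : ℕ) = 0 then s0 else if (j : ℕ) = k then p else 0 with hx
  set y : Fin (d + 1) → ℝ := fun j => if (j : ℕ) = 0 then R else if (j : ℕ) = k then q else ℓ with hy
  have hxy : ∀ j, x j ≤ y j := by
    intro j
    simp only [hx, hy]
    split_ifs
    · exact hsR
    · exact hpq
    · exact hℓ
  have hv := (bx_volume x y hxy).1
  have hprod : ∏ j, (y j - x j) = (R - s0) * (∏ i : Fin d, if ((i : ℕ) + 1 = k) then q - p else ℓ) := by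
    rw [Fin.prod_univ_succ]
    congr 1
    refine Finset.prod_congr rfl fun i _ => ?_
    have h0 : ¬ ((i : ℕ) + 1 = 0) := by omega
    simp only [hx, hy, Fin.val_succ]
    rw [if_neg h0, if_neg h0]
    by_cases hc : (i : ℕ) + 1 = k
    · rw [if_pos hc, if_pos hc, if_pos hc]
    · rw [if_neg hc, if_neg hc, if_neg hc]
      ring
  rw [← hprod, ← hv]
  refine ENNReal.toReal_mono ?_ (measure_mono ?_)
  · exact ((measure_mono Set.inter_subset_left).trans_lt (lt_top_iff_ne_top.2
      (v5_fin k hk hkn.le R s0 (by nlinarith only [hp, hpq, hq, hs, hsR]) (by nlinarith only [hp, hpq, hq, hs]) t))).ne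
  · intro a ha
    have hk0 : k ≠ 0 := by omega
    have hak : p < a ⟨k, hkn⟩ ∧ a ⟨k, hkn⟩ < q := by
      have h := ha ⟨k, hkn⟩
      simp only [hx, hy, if_true] at h
      rwa [if_neg hk0, if_neg hk0] at h
    have ha0 : s0 < a 0 ∧ a 0 < R := by
      have h := ha 0
      simpa [hx, hy] using h
    refine ⟨?_, hB a hak.1 hak.2⟩
    rw [v5_mem k hk hkn.le]
    have hj : ∀ j : Fin (d + 1), 1 ≤ (j : ℕ) → (j : ℕ) ≠ k → 0 < a j ∧ a j < ℓ := by
      intro j hj1 hj2
      have h := ha j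
      simp only [hx, hy] at h
      rwa [if_neg (by omega), if_neg hj2, if_neg (by omega), if_neg hj2] at h
    refine ⟨ha0, ?_, ?_, ?_⟩
    · intro j hj1
      by_cases hj2 : (j : ℕ) = k
      · have : j = ⟨k, hkn⟩ := Fin.ext hj2
        rw [this]
        linarith only [hp, hak]
      · exact (hj j hj1 hj2).1
    · intro j hj1 hj2
      exact (hj j hj1 (by omega)).2.trans_le (ht j)
    · have h1 := v5_bsum_le a (fun j : Fin (d + 1) => ℓ + if (j : ℕ) = k then ℓ else 0) (by
        intro j hj1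
        by_cases hj2 : (j : ℕ) = k
        · have : j = ⟨k, hkn⟩ := Fin.ext hj2
          rw [if_pos hj2, this]
          linarith only [hq, hak]
        · rw [if_neg hj2]
          linarith only [(hj j hj1 hj2).2])
      have h2 : ∑ i : Fin d, (ℓ + if ((i.succ : Fin (d + 1)) : ℕ) = k then ℓ else 0) = ((d : ℝ) + 1) * ℓ := by
        rw [Finset.sum_add_distrib]
        simp only [Finset.sum_const, Finset.card_univ, Fintype.card_fin, nsmul_eq_mul]
        have h3 : ∑ i : Fin d, (if ((i.succ : Fin (d + 1)) : ℕ) = k then ℓ else 0) = ℓ := by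
          rw [Finset.sum_eq_single (⟨k - 1, by omega⟩ : Fin d)]
          · rw [if_pos (by simp only [Fin.succ_mk]; omega)]
          · intro b _ hb
            rw [if_neg]
            intro hb2
            apply hb
            apply Fin.ext
            simp at hb2 ⊢
            omega
          · intro h
            exact absurd (Finset.mem_univ _) h
        rw [h3]
        ring
      rw [h2] at h1
      linarith only [hs, ha0, h1]

theorem v5_one_le_prod {ι : Type} [Fintype ι] (f : ι → ℝ) (h : ∀ i, 1 ≤ f i) : 1 ≤ ∏ i, f i := by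
  have := Finset.prod_le_prod (s := Finset.univ) (f := fun _ : ι => (1 : ℝ)) (g := f)
    (fun _ _ => zero_le_one) (fun i _ => h i)
  simpa only [ge_iff_le, Finset.prod_const_one] using this

theorem slab_FB (d : ℕ) (hd : 1 ≤ d) (δ N : ℝ) (hδ : 0 < δ) (hδ1 : δ ≤ 1) (hN : 0 ≤ N) :
    ∃ H0 : ℝ, 0 < H0 ∧ ∀ (R s0 : ℝ) (M : ℕ), H0 ≤ R - s0 → 1 ≤ M →
      12 * ((d : ℝ) + 1) * (R - s0) * M ≤ R →
      ∀ (κ : Type) [Fintype κ] (b : κ → ℝ), Fintype.card κ ≤ M ^ d →
        (∀ p, 0 < b p ∧ b p < R - s0) →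
        FB δ N (SR (n := d + 1) 1 (fun _ _ => s0) (fun _ _ => R) (fun y => y 0)) b := by
  classical
  obtain ⟨H1, hH1, hrows⟩ := rows_FB (d + 1) (by omega) δ N hδ hδ1 hN
  obtain ⟨H2, hH2, houter⟩ := slab_outer d hd δ N hδ hδ1 hN
  refine ⟨max (max H1 H2) 2, by positivity, ?_⟩
  intro R s0 M hw hM hRM κ _ b hcard hb
  have hw1 : H1 ≤ R - s0 := ((le_max_left _ _).trans (le_max_left _ _)).trans hw
  have hw2 : H2 ≤ R - s0 := ((le_max_right _ _).trans (le_max_left _ _)).trans hw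
  have hw3 : 2 ≤ R - s0 := (le_max_right _ _).trans hw
  set w := R - s0 with hwdef
  have hM1 : (1 : ℝ) ≤ M := by exact_mod_cast hM
  have hd1 : (1 : ℝ) ≤ d := by exact_mod_cast hd
  have hd0 : (0 : ℝ) < (d : ℝ) + 1 := by linarith only []
  obtain ⟨ℓ, hℓ⟩ : ∃ ℓ : ℝ, 4 * ((d : ℝ) + 1) * ℓ = R := ⟨R / (4 * ((d : ℝ) + 1)), by (clear * - hd; field_simp)⟩
  have hℓM : 3 * w * M ≤ ℓ := by
    have h1 : 4 * ((d : ℝ) + 1) * (3 * w * M) ≤ 4 * ((d : ℝ) + 1) * ℓ := by
      rw [hℓ]
      calc 4 * ((d : ℝ) + 1) * (3 * w * M) = 12 * ((d : ℝ) + 1) * w * M := by ring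
        _ ≤ R := hRM
    exact le_of_mul_le_mul_left h1 (by positivity)
  have hwM : w ≤ w * M := by nlinarith only [hH1, hM1, hw1]
  have hℓw : 3 * w ≤ ℓ := by nlinarith only [hℓM, hwM]
  have hℓ1 : 6 ≤ ℓ := by linarith only [hw3, hℓM, hwM]
  have hR8 : 8 * ℓ ≤ R := by
    rw [← hℓ]
    nlinarith only [hH1, hd1, hw1, hℓM, hwM]
  have hdl : ((d : ℝ) + 1) * ℓ = R / 4 := by linarith only [hℓ]
  have hs0 : 3 * R / 4 ≤ s0 := by
    have : R - s0 = w := hwdef.symm
    linarith only [hw3, hℓM, hwM, hR8]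
  have hdd : (d : ℝ) * (ℓ + 1) ≤ s0 := by
    have h1 : (d : ℝ) ≤ ((d : ℝ) + 1) * ℓ / 6 := by nlinarith only [hRM, hw3, hℓ, hwM]
    have h2 : (d : ℝ) * ℓ ≤ R / 4 := by nlinarith only [hw3, hℓ, hℓM]
    linarith
  have hRpos : 0 < R := by linarith only [hw3, hℓM, hwM, hR8]
  have hsR : s0 ≤ R := by linarith only [hw3]
  have key : ∀ e k : ℕ, k + e = d + 1 → 1 ≤ k → ∀ t : Fin (d + 1) → ℝ,
      (∀ j, ℓ ≤ t j ∧ t j ≤ ℓ + 1) → FB δ N (SR k (v5l s0) (v5u R t) (v5s k)) b := by
    intro e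
    induction e with
    | zero =>
      intro k hk hk1 t ht
      have hk2 : k = d + 1 := by omega
      subst hk2
      have hset : SR (d + 1) (v5l s0) (v5u R t) (v5s (d + 1)) =
          bx (fun j : Fin (d + 1) => if (j : ℕ) = 0 then s0 else 0)
            (fun j => if (j : ℕ) = 0 then R else t j) := by
        ext a
        rw [v5_mem (d + 1) hk1 le_rfl]
        constructor
        · rintro ⟨h0, h1, h2, -⟩ j
          by_cases hj : (j : ℕ) = 0
          · have : j = 0 := Fin.ext hj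
            subst this
            simpa using h0
          · simp only
            rw [if_neg hj, if_neg hj]
            exact ⟨h1 j (by omega), h2 j (by omega) j.2⟩
        · intro ha
          have h0 : s0 < a 0 ∧ a 0 < R := by simpa using ha 0
          have h1 : ∀ j : Fin (d + 1), 1 ≤ (j : ℕ) → 0 < a j ∧ a j < t j := by
            intro j hj
            have h := ha j
            simp only at h
            rwa [if_neg (by omega), if_neg (by omega)] at h
          refine ⟨h0, fun j hj => (h1 j hj).1, fun j hj _ => (h1 j hj).2, ?_⟩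
          have h2 := v5_bsum_le a (fun _ => ℓ + 1) fun j hj => ((h1 j hj).2.le.trans (ht j).2)
          simp only [Finset.sum_const, Finset.card_univ, Fintype.card_fin, nsmul_eq_mul] at h2
          linarith only [hdd, h0, h2]
      rw [hset]
      refine hrows w _ _ (fun j => if (j : ℕ) = 0 then 1 else M) hw1 ?_ ?_ κ b ?_ hb
      · intro j hj
        simp only [hj, if_true]
        exact ⟨trivial, by linarith only []⟩
      · intro j hj
        have hj0 : (j : ℕ) ≠ 0 := by omega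
        simp only [hj0, if_false]
        exact ⟨hM, by linarith only [hℓM, (ht j).1]⟩
      · refine hcard.trans (le_of_eq ?_)
        rw [Fin.prod_univ_succ]
        simp only [Fin.coe_ofNat_eq_mod, Nat.zero_mod, ↓reduceIte, Fin.val_succ, Nat.add_eq_zero_iff, one_ne_zero, and_false, Finset.prod_const, Finset.card_univ, Fintype.card_fin, one_mul]
    | succ e ih =>
      intro k hk hk1 t ht
      have hkn : k < d + 1 := by omega
      have hbox := fun (p q : ℝ) (hp : 0 ≤ p) (hpq : p ≤ q) (hq : q ≤ 2 * ℓ) =>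
        v5_box k hk1 hkn R s0 ℓ p q t (fun j => (ht j).1) hp hpq hq (by linarith only [hw3, hℓM, hwM])
          (by linarith only [hw3, hℓ, hℓM, hwM, hR8]) hsR
      have hfact : (1 : ℝ) ≤ ((d + 1).factorial : ℝ) := by
        exact_mod_cast Nat.one_le_iff_ne_zero.2 (Nat.factorial_ne_zero _)
      refine FB.cut (by omega) hδ1 b Finset.univ
        (v5_fin k hk1 hkn.le R s0 hRpos.le (by linarith only [hw3, hℓM, hwM, hR8]) t)
        (v5_open k hk1 hkn.le R s0 t).measurableSet ⟨k, hkn⟩ (x0 := ℓ) (x1 := ℓ + 1) (by linarith only [])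
        ?_ ?_ ?_ ?_ ?_
      · have h1 := hbox ℓ (ℓ + 1) (by linarith only [hw3, hℓM, hwM]) (by linarith only []) (by linarith only [hw3, hℓM, hwM])
          {a | ℓ < a ⟨k, hkn⟩ ∧ a ⟨k, hkn⟩ < ℓ + 1} (fun a h h' => ⟨h, h'⟩)
        have h2 : 1 ≤ ∏ i : Fin d, (if ((i : ℕ) + 1 = k) then ℓ + 1 - ℓ else ℓ) := by
          refine v5_one_le_prod _ fun i => ?_
          split_ifs
          · linarith only []
          · linarith only [hw3, hℓM, hwM]
        have h3 : 1 / (((d + 1).factorial : ℕ) : ℝ) ≤ 1 := by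
          rw [div_le_one (by linarith only [hfact])]
          exact hfact
        nlinarith only [hw3, h1, h3, h2, hw1]
      · have h1 := hbox 0 ℓ le_rfl (by linarith only [hw3, hℓM, hwM]) (by linarith only [hw3, hℓM, hwM])
          {a | a ⟨k, hkn⟩ < ℓ + 1} (fun a _ h' => by simp only [Set.mem_setOf_eq]; linarith only [h'])
        have h2 : (∏ i : Fin d, (if ((i : ℕ) + 1 = k) then ℓ - 0 else ℓ)) = ℓ ^ d := by
          simp only [sub_zero, ite_self, Finset.prod_const, Finset.card_univ, Fintype.card_fin]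
        rw [h2] at h1
        refine lt_of_lt_of_le ?_ h1
        have h3 : ∑ p : κ, b p ^ (d + 1) / (((d + 1).factorial : ℕ) : ℝ) ≤
            ∑ p : κ, w ^ (d + 1) := by
          refine Finset.sum_le_sum fun p _ => ?_
          rw [div_le_iff₀ (by linarith only [hfact])]
          have h4 : b p ^ (d + 1) ≤ w ^ (d + 1) := pow_le_pow_left₀ (hb p).1.le (hb p).2.le _
          have h5 : 0 ≤ w ^ (d + 1) := by (clear * - hw3; positivity)
          nlinarith only [h4, hfact, h5]
        refine lt_of_le_of_lt h3 ?_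
        rw [Finset.sum_const, Finset.card_univ, nsmul_eq_mul]
        have h4 : ((Fintype.card κ : ℕ) : ℝ) ≤ (M : ℝ) ^ d := by exact_mod_cast hcard
        have h5 : 0 ≤ w ^ (d + 1) := by (clear * - hw3; positivity)
        have h6 : (M : ℝ) ^ d * w ^ (d + 1) = w * (w * M) ^ d := by
          rw [mul_pow, pow_succ]
          ring
        have h7 : (w * M) ^ d < ℓ ^ d := by
          refine pow_lt_pow_left₀ ?_ (by (clear * - hw3 hM; positivity)) (by (clear * - hd hk; omega))
          nlinarith only [hw3, hℓM, hwM]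
        calc (Fintype.card κ : ℝ) * w ^ (d + 1) ≤ (M : ℝ) ^ d * w ^ (d + 1) :=
              mul_le_mul_of_nonneg_right h4 h5
          _ = w * (w * M) ^ d := h6
          _ < w * ℓ ^ d := by
              apply mul_lt_mul_of_pos_left h7
              linarith only [hw3]
      · have h1 := hbox (ℓ + 1) (2 * ℓ) (by linarith only [hw3, hℓM, hwM]) (by linarith only [hw3, hℓM, hwM]) le_rfl
          {a | ℓ + 1 < a ⟨k, hkn⟩} (fun a h _ => h)
        rw [Finset.compl_univ, Finset.sum_empty]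
        refine lt_of_lt_of_le ?_ h1
        refine mul_pos (by linarith only [hw3]) (Finset.prod_pos fun i _ => ?_)
        split_ifs
        · linarith only [hw3, hℓM, hwM]
        · linarith only [hw3, hℓM, hwM]
      · intro x hx0 hx1
        have hset : SR k (v5l s0) (v5u R t) (v5s k) ∩ {a | a ⟨k, hkn⟩ < x} =
            SR (k + 1) (v5l s0) (v5u R (Function.update t ⟨k, hkn⟩ x)) (v5s (k + 1)) := by
          ext a
          rw [Set.mem_inter_iff, v5_mem k hk1 hkn.le, v5_mem (k + 1) (by omega) (by omega),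
            Set.mem_setOf_eq]
          constructor
          · rintro ⟨⟨h0, h1, h2, h3⟩, h4⟩
            refine ⟨h0, h1, ?_, h3⟩
            intro j hj hj2
            by_cases hjk : j = ⟨k, hkn⟩
            · rw [hjk, Function.update_self]
              exact h4
            · rw [Function.update_of_ne hjk]
              refine h2 j hj ?_
              have : (j : ℕ) ≠ k := fun h => hjk (Fin.ext h)
              omega
          · rintro ⟨h0, h1, h2, h3⟩
            refine ⟨⟨h0, h1, ?_, h3⟩, ?_⟩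
            · intro j hj hj2
              have h := h2 j hj (by omega)
              have hjk : j ≠ ⟨k, hkn⟩ := by
                intro h
                rw [h] at hj2
                simp at hj2
              rwa [Function.update_of_ne hjk] at h
            · have h := h2 ⟨k, hkn⟩ hk1 (by simp)
              rwa [Function.update_self] at h
        rw [hset]
        have hih := ih (k + 1) (by omega) (by omega) (Function.update t ⟨k, hkn⟩ x) (by
          intro j
          by_cases hjk : j = ⟨k, hkn⟩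
          · rw [hjk, Function.update_self]
            exact ⟨hx0, hx1⟩
          · rw [Function.update_of_ne hjk]
            exact ht j)
        exact FB.congr (Equiv.subtypeUnivEquiv (p := fun p => p ∈ (Finset.univ : Finset κ))
          (fun p => Finset.mem_univ p)).symm hih
      · intro x hx0 hx1
        haveI : IsEmpty {p : κ // p ∉ (Finset.univ : Finset κ)} :=
          ⟨fun p => p.2 (Finset.mem_univ _)⟩
        refine FB.of_Fill ?_ _
        exact houter R s0 ℓ x k hkn t hk1 hw2 (by linarith only [hw2, hw3, hℓM, hwM]) (by linarith only [hw3, hℓM, hwM, hR8]) hℓ ht hx0 hx1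
  have h1 := key d 1 (by omega) le_rfl (fun _ => ℓ) (fun _ => ⟨le_rfl, by linarith only []⟩)
  have hset : SR (n := d + 1) 1 (v5l s0) (v5u R fun _ => ℓ) (v5s 1) =
      SR (n := d + 1) 1 (fun _ _ => s0) (fun _ _ => R) (fun y => y 0) := by
    ext a
    have hb1 : bsum 1 1 a = 0 := by
      simp only [bsum]
      refine Finset.sum_eq_zero fun i _ => ?_
      rw [if_neg (by omega)]
    have hw : ∀ j : Fin (d + 1), (j : ℕ) < 1 → v5l s0 j a = s0 ∧ v5u R (fun _ => ℓ) j a = R := by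
      intro j hj
      have hj0 : (j : ℕ) = 0 := by omega
      simp [v5l, v5u, hj0]
    constructor
    · rintro ⟨h1, h2, h3⟩
      refine ⟨fun j hj => ?_, h2, ?_⟩
      · have h := h1 j hj
        rwa [(hw j hj).1, (hw j hj).2] at h
      · simp only [v5s, hb1, sub_zero] at h3
        exact h3
    · rintro ⟨h1, h2, h3⟩
      refine ⟨fun j hj => ?_, h2, ?_⟩
      · rw [(hw j hj).1, (hw j hj).2]
        exact h1 j hj
      · simp only [v5s, hb1, sub_zero]
        exact h3
  rw [← hset]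
  exact h1

end Vale.Agent.P209.Strong
end
end

section

section
namespace Vale.Agent.P209.Strong

open MeasureTheory

/-! V6. One very large ball, few medium balls, and many small balls. -/

/-- The slab, in the coordinates of the large corner. -/
theorem v6_slab {m : ℕ} (R s0 : ℝ) :
    (fun a => h1b_G m a + 0) '' CR (m + 1) R (fun _ => 0) s0 =
      SR 1 (fun _ _ => s0) (fun _ _ => R) (fun y => y 0) := by
  rw [h1b_image]
  ext y
  constructor
  · rintro ⟨h1, h2, h3, h4⟩
    exact ⟨h1, fun j hj => (h2 j hj).1, by linarith⟩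
  · rintro ⟨h1, h2, h3⟩
    have hy0 : y 0 < R := (h1 0 (by simp)).2
    have hpos : ∀ i ∈ (Finset.univ : Finset (Fin m)), 0 ≤ y i.succ := fun i _ =>
      (h2 i.succ (by simp only [Fin.val_succ, le_add_iff_nonneg_left, zero_le])).le
    have hb : bsum 1 (m + 1) y = ∑ j : Fin m, y j.succ := h1b_bsum m y
    have hbn : 0 ≤ bsum 1 (m + 1) y := by
      rw [hb]
      exact Finset.sum_nonneg hpos
    have h3' : bsum 1 (m + 1) y < y 0 := h3
    refine ⟨h1, fun j hj => ⟨h2 j hj, ?_⟩, ?_, ?_⟩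
    · obtain ⟨i, rfl⟩ : ∃ i : Fin m, j = i.succ :=
        ⟨j.pred (by intro h; rw [h] at hj; simp at hj), by simp⟩
      have h5 : y i.succ ≤ ∑ j : Fin m, y j.succ :=
        Finset.single_le_sum hpos (Finset.mem_univ i)
      show y i.succ < R - 0
      linarith only [h3, hy0, hb, h5]
    · show 0 < y 0 - bsum 1 (m + 1) y
      linarith
    · show y 0 - bsum 1 (m + 1) y < R - 0
      linarith

/-- The balls of the slab, in the simplex minus the large corner. -/
theorem v6_CR {m : ℕ} {δ N R s0 : ℝ} {κ : Type} [Fintype κ] {b : κ → ℝ} (hR : 0 < R)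
    (hs0 : 0 ≤ s0) (hsR : s0 ≤ R)
    (h : FB δ N (SR (n := m + 1) 1 (fun _ _ => s0) (fun _ _ => R) (fun y => y 0)) b)
    (ι : Type) [Fintype ι] (r : ι → ℝ) (J : Finset ι) (h1 : ∀ i, 0 < r i ∧ r i ≤ 1)
    (h2 : ∀ i, i ∉ J → δ ≤ r i) (h3 : ∑ i ∈ J, r i ≤ N)
    (h4 : s0 ^ (m + 1) + ∑ p, b p ^ (m + 1) + ∑ i, r i ^ (m + 1) < R ^ (m + 1)) :
    TPk (CR (m + 1) R (fun _ => 0) s0) (Sum.elim b r) := by
  have hv := CR_volume (m + 1) (by omega) R (fun _ => 0) s0 (fun _ => le_rfl) hs0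
    (fun _ => hR.le) hsR hR
  have hz : ∑ _j : Fin (m + 1), (0 : ℝ) ^ (m + 1) = 0 := by
    apply Finset.sum_eq_zero
    intro j _
    exact zero_pow (Nat.succ_ne_zero m)
  rw [hz, zero_add] at hv
  rw [← v6_slab] at h
  have hfac : (0 : ℝ) < ((m + 1).factorial : ℝ) := by exact_mod_cast Nat.factorial_pos _
  have h5 := h ι r J h1 h2 h3 (by
    rw [volume_image_of_integral _ (h1b_G m) (h1b_int m) (h1b_int' m) 0]
    refine lt_of_lt_of_le ?_ hv
    rw [← Finset.sum_div, ← Finset.sum_div, ← add_div]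
    rw [div_lt_div_iff_of_pos_right hfac]
    linarith only [h4])
  have h6 := h5.image (h1b_G m).symm (h1b_int' m) (by simpa only [LinearEquiv.symm_symm] using h1b_int m)
    (-((h1b_G m).symm 0))
  have e : (fun a => (h1b_G m).symm a + -((h1b_G m).symm 0)) ''
      ((fun a => h1b_G m a + 0) '' CR (m + 1) R (fun _ => 0) s0) =
      CR (m + 1) R (fun _ => 0) s0 := by
    rw [Set.image_image]
    have : (fun a => (h1b_G m).symm (h1b_G m a + 0) + -((h1b_G m).symm 0)) = id := by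
      funext a
      simp
    rw [this, Set.image_id]
  rwa [e] at h6

/-- Room between the large ball and its corner. -/
theorem v6_tau {n : ℕ} {κ : Type} [Fintype κ] (b : κ → ℝ) {R b0 H S : ℝ} (hH : 0 < H)
    (hb : ∀ p, b p + b0 < R) (hv : b0 ^ n + S < R ^ n) :
    ∃ τ : ℝ, 0 < τ ∧ τ ≤ H ∧ (∀ p, b p < R - (b0 + τ)) ∧ (b0 + τ) ^ n + S < R ^ n := by
  have hc : Filter.Tendsto (fun τ : ℝ => (b0 + τ) ^ n + S) (nhds 0) (nhds (b0 ^ n + S)) := by
    have : Continuous fun τ : ℝ => (b0 + τ) ^ n + S := by fun_prop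
    have h := this.tendsto 0
    simpa using h
  have h1 : ∀ᶠ τ in nhds (0 : ℝ), (b0 + τ) ^ n + S < R ^ n :=
    hc.eventually (gt_mem_nhds hv)
  have h2 : ∀ᶠ τ in nhds (0 : ℝ), ∀ p, b p < R - (b0 + τ) := by
    rw [Filter.eventually_all]
    intro p
    have : Continuous fun τ : ℝ => R - (b0 + τ) := by fun_prop
    have h := this.tendsto 0
    refine h.eventually (lt_mem_nhds ?_)
    have := hb p
    linarith
  have h3 : ∀ᶠ τ in nhds (0 : ℝ), τ < H := gt_mem_nhds hH
  have h4 := ((h1.and (h2.and h3)).filter_mono (nhdsWithin_le_nhds (s := Set.Ioi (0 : ℝ)))).and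
    self_mem_nhdsWithin
  obtain ⟨τ, ⟨h5, h6, h7⟩, h8⟩ := h4.exists
  exact ⟨τ, h8, h7.le, h6, h5⟩

theorem thin_packs (d : ℕ) (hd : 1 ≤ d) (δ N : ℝ) (hδ : 0 < δ) (hδ1 : δ ≤ 1) (hN : 0 ≤ N) :
    ∃ H0 : ℝ, 0 < H0 ∧ ∀ (R b0 : ℝ) (M : ℕ) (κ : Type) [Fintype κ] (b : κ → ℝ), 0 < b0 →
      (∀ p, 0 < b p) → (∀ p, b p + b0 < R) → H0 ≤ R - b0 → 1 ≤ M →
      12 * ((d : ℝ) + 1) * (R - b0) * M ≤ R → Fintype.card κ ≤ M ^ d →
      ∀ (ι : Type) [Fintype ι] (r : ι → ℝ) (J : Finset ι), (∀ i, 0 < r i ∧ r i ≤ 1) →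
        (∀ i, i ∉ J → δ ≤ r i) → ∑ i ∈ J, r i ≤ N →
        b0 ^ (d + 1) + ∑ p, b p ^ (d + 1) + ∑ i, r i ^ (d + 1) < R ^ (d + 1) →
        TPk (simplex (d + 1) R) (Sum.elim (fun o : Option κ => o.elim b0 b) r) := by
  obtain ⟨H, hH, hslab⟩ := slab_FB d hd δ N hδ hδ1 hN
  refine ⟨2 * H, by positivity, ?_⟩
  intro R b0 M κ _ b hb0 hb hbR hH0 hM hMR hcard ι _ r J h1 h2 h3 h4
  obtain ⟨τ, hτ, hτH, hτb, hτv⟩ := v6_tau (n := d + 1) b (S := ∑ p, b p ^ (d + 1) +
    ∑ i, r i ^ (d + 1)) hH hbR (by linarith only [h4])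
  have hR : 0 < R := by linarith only [hH, hb0, hH0]
  have hs : H ≤ R - (b0 + τ) := by linarith only [hH0, hτH]
  have hMR' : 12 * ((d : ℝ) + 1) * (R - (b0 + τ)) * M ≤ R := by
    refine le_trans ?_ hMR
    have hM0 : (0 : ℝ) ≤ M := Nat.cast_nonneg M
    have hd0 : (0 : ℝ) ≤ 12 * ((d : ℝ) + 1) := by positivity
    exact mul_le_mul_of_nonneg_right (mul_le_mul_of_nonneg_left (by linarith only [hτ]) hd0) hM0
  have hFB := hslab R (b0 + τ) M hs hM hMR' κ b hcard fun p => ⟨hb p, hτb p⟩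
  have hCR := v6_CR hR (by linarith only [hb0, hτ]) (by linarith only [hH, hH0, hτH]) hFB ι r J h1 h2 h3 (by linarith only [hτv])
  have hglue := TPk.glue (simplex (d + 1) R) (CR (d + 1) R (fun _ => 0) (b0 + τ))
    (fun _ : Unit => simplex (d + 1) (b0 + τ)) (fun _ => b0) (Sum.elim b r)
    (fun _ => corner_emb_zero hb0.le (by linarith only [hτ])) hCR
    (fun _ a ha => ⟨ha.1, ha.2.trans (by linarith only [hH, hH0, hτH])⟩)
    (fun a ha => ⟨fun j => (ha.1 j).1, ha.2.2⟩)
    (fun p q hpq => absurd (Subsingleton.elim p q) hpq)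
    (fun _ => Set.disjoint_left.mpr fun a ha ha' => by
      have e1 := ha.2
      have e2 := ha'.2.1
      linarith only [e1, e2])
  let e : Option κ ⊕ ι → Unit ⊕ (κ ⊕ ι) := Sum.elim
    (fun o : Option κ => o.elim (Sum.inl ()) (fun p => Sum.inr (Sum.inl p)))
    (fun i => Sum.inr (Sum.inr i))
  have he : Function.Injective e := by
    rintro ((_ | p) | i) ((_ | q) | j) h
    all_goals simp [e] at h
    all_goals first | rfl | (subst h; rfl)
  have h9 := hglue.comp_inj e he
  have e9 : (fun k => (Sum.elim (fun _ : Unit => b0) (Sum.elim b r)) (e k)) =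
      Sum.elim (fun o : Option κ => o.elim b0 b) r := by
    funext k
    rcases k with ((_ | p) | i) <;> rfl
  rwa [e9] at h9

end Vale.Agent.P209.Strong
end
end

section

section
namespace Vale.Agent.P209.Strong

open Vale.Agent.P209

/-! V7. One very large ball, few medium balls, and arbitrarily many small balls. -/

theorem thin_stability (d : ℕ) (hd : 1 ≤ d) : ∃ ε : ℝ, 0 < ε ∧
    ∀ (ι : Type) [Fintype ι] (R : ℝ) (r : ι → ℝ) (B : Finset ι) (i0 : ι) (M : ℕ),
      (∀ i, 0 < r i) → i0 ∉ B → r i0 < R → (∀ i ∈ B, r i + r i0 < R) → 1 ≤ M →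
      B.card ≤ M ^ d → 12 * ((d : ℝ) + 1) * (R - r i0) * M ≤ R →
      (∀ i, i ≠ i0 → i ∉ B → r i ≤ ε * (R - r i0)) →
      ∑ i, r i ^ (d + 1) < R ^ (d + 1) → Packs (openBall (d + 1) R) r := by
  classical
  obtain ⟨Nr, δ1, hδ1, hδ1', hM⟩ := merging (d + 1) (by omega)
  obtain ⟨H0, hH0, hC⟩ := thin_packs d hd δ1 (2 * Nr) hδ1 hδ1' (by positivity)
  refine ⟨1 / H0, by positivity, ?_⟩
  intro ι _ R r B i0 M hr hi0 hlt hpair hM1 hB hR12 hsmall hsum
  set s : ℝ := 1 / H0 * (R - r i0) with hs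
  have hgap : 0 < R - r i0 := by linarith only [hlt]
  have hs0 : 0 < s := by positivity
  have hR : 0 < R := lt_trans (hr i0) hlt
  have hHs : H0 * s = R - r i0 := by
    rw [hs]
    (clear * - hH0 hgap; field_simp)
  let κ : Type := Option {i // i ∈ B}
  let b : κ → ℝ := fun o => o.elim (r i0) (fun p => r p.1)
  have hb : ∀ p, 0 < b p := by
    rintro (_ | p)
    · exact hr i0
    · exact hr _
  have hbase : ∀ (ι : Type) [Fintype ι] (r : ι → ℝ) (J : Finset ι), (∀ i, 0 < r i ∧ r i ≤ s) →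
      (∀ i, i ∉ J → δ1 * s ≤ r i) → ∑ i ∈ J, r i ≤ 2 * Nr * s →
      ∑ p, b p ^ (d + 1) + ∑ i, r i ^ (d + 1) < R ^ (d + 1) →
      Packs (openBall (d + 1) R) (Sum.elim b r) := by
    intro ι' _ r' J h1 h2 h3 h4
    have hsn : 0 < s ^ (d + 1) := pow_pos hs0 _
    have hT := hC (R / s) (r i0 / s) M {i // i ∈ B} (fun p => r p.1 / s)
      (div_pos (hr _) hs0) (fun p => div_pos (hr _) hs0)
      (fun p => by
        rw [← add_div]
        exact div_lt_div_of_pos_right (hpair _ p.2) hs0)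
      (by
        rw [← sub_div, le_div_iff₀ hs0]
        exact hHs.le)
      hM1
      (by
        rw [← sub_div, le_div_iff₀ hs0]
        have e1 : 12 * ((d : ℝ) + 1) * ((R - r i0) / s) * M * s =
            12 * ((d : ℝ) + 1) * (R - r i0) * M := by
          (clear * - hs0 hM1 hgap hd; field_simp)
        rw [e1]
        exact hR12)
      (by
        rw [Fintype.card_coe]
        exact hB)
      ι' (fun i => r' i / s) J
      (fun i => ⟨div_pos (h1 i).1 hs0, (div_le_one hs0).2 (h1 i).2⟩)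
      (fun i hi => by
        rw [le_div_iff₀ hs0]
        exact h2 i hi)
      (by
        rw [← Finset.sum_div, div_le_iff₀ hs0]
        exact h3)
      (by
        rw [Fintype.sum_option] at h4
        have e1 : ∑ p : {i // i ∈ B}, (r p.1 / s) ^ (d + 1) =
            (∑ p : {i // i ∈ B}, r p.1 ^ (d + 1)) / s ^ (d + 1) := by
          rw [Finset.sum_div]
          exact Finset.sum_congr rfl fun q _ => by rw [div_pow]
        have e2 : ∑ i, (r' i / s) ^ (d + 1) = (∑ i, r' i ^ (d + 1)) / s ^ (d + 1) := by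
          rw [Finset.sum_div]
          exact Finset.sum_congr rfl fun q _ => by rw [div_pow]
        rw [e1, e2, div_pow, div_pow, ← add_div, ← add_div]
        exact div_lt_div_of_pos_right h4 hsn)
    have hK := Packs.scale hs0 (packs_of_TPk hT)
    have hRs : s * (R / s) = R := by (clear * - hs0 hR; field_simp)
    rw [hRs] at hK
    have e3 : (fun k => s * Sum.elim (fun o : Option {i // i ∈ B} =>
        o.elim (r i0 / s) (fun p => r p.1 / s)) (fun i => r' i / s) k) =
        Sum.elim b r' := by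
      funext k
      rcases k with (_ | q) | i
      · simp only [Sum.elim_inl, b, Option.elim_none]
        (clear * - hs0; field_simp)
      · simp only [Sum.elim_inl, b, Option.elim_some]
        (clear * - hs0; field_simp)
      · simp only [Sum.elim_inr]
        (clear * - hs0; field_simp)
    rw [e3] at hK
    exact hK
  have hfin := hM R s κ b hR hs0 hb hbase {i // i ≠ i0 ∧ i ∉ B} (fun i => r i.1)
    (fun i => ⟨hr _, hsmall _ i.2.1 i.2.2⟩)
    (by
      have e0 : ∑ p : κ, b p ^ (d + 1) = r i0 ^ (d + 1) + ∑ i ∈ B, r i ^ (d + 1) := by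
        rw [Fintype.sum_option]
        congr 1
        exact Finset.sum_coe_sort B (fun i => r i ^ (d + 1))
      have e2 : r i0 ^ (d + 1) + ∑ i ∈ B, r i ^ (d + 1) = ∑ i ∈ insert i0 B, r i ^ (d + 1) := by
        rw [Finset.sum_insert hi0]
      have e3 : ∑ i : {i // i ≠ i0 ∧ i ∉ B}, r i.1 ^ (d + 1) =
          ∑ i ∈ (insert i0 B)ᶜ, r i ^ (d + 1) :=
        (Finset.sum_subtype (insert i0 B)ᶜ (fun i => by
          simp only [Finset.mem_compl, Finset.mem_insert, not_or, ne_eq])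
          (fun i => r i ^ (d + 1))).symm
      rw [e0, e2, e3, Finset.sum_add_sum_compl]
      exact hsum)
  let g : ι → κ ⊕ {i // i ≠ i0 ∧ i ∉ B} := fun i =>
    if h0 : i = i0 then Sum.inl none
    else if h : i ∈ B then Sum.inl (some ⟨i, h⟩) else Sum.inr ⟨i, h0, h⟩
  have hgc : ∀ i, (i = i0 ∧ g i = Sum.inl none) ∨
      (∃ h : i ∈ B, g i = Sum.inl (some ⟨i, h⟩)) ∨
      (∃ h : i ≠ i0 ∧ i ∉ B, g i = Sum.inr ⟨i, h⟩) := by
    intro i
    by_cases h0 : i = i0
    · exact Or.inl ⟨h0, by simp only [g, h0, dif_pos]⟩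
    · by_cases h : i ∈ B
      · exact Or.inr (Or.inl ⟨h, by simp only [g, h0, h, dif_pos, dif_neg, not_false_eq_true]⟩)
      · exact Or.inr (Or.inr ⟨⟨h0, h⟩, by
          simp only [g, h0, h, dif_neg, not_false_eq_true]⟩)
  have hg : Function.Injective g := by
    intro i j hij
    rcases hgc i with ⟨h1, h2⟩ | ⟨h1, h2⟩ | ⟨h1, h2⟩ <;>
    rcases hgc j with ⟨h3, h4⟩ | ⟨h3, h4⟩ | ⟨h3, h4⟩ <;> rw [h2, h4] at hij
    · rw [h1, h3]
    · simp at hij
    · simp at hij
    · simp at hij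
    · exact congrArg Subtype.val (Option.some_injective _ (Sum.inl_injective hij))
    · simp at hij
    · simp at hij
    · simp at hij
    · exact congrArg Subtype.val (Sum.inr_injective hij)
  have hfin2 := Packs.comp_inj hfin g hg
  have e4 : (fun k => Sum.elim b (fun i : {i // i ≠ i0 ∧ i ∉ B} => r i.1) (g k)) = r := by
    funext i
    rcases hgc i with ⟨h1, h2⟩ | ⟨h1, h2⟩ | ⟨h1, h2⟩
    · rw [h2, h1]; rfl
    · rw [h2]; rfl
    · rw [h2]; rfl
  rw [e4] at hfin2
  exact hfin2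

end Vale.Agent.P209.Strong
end
end

section

section
namespace Vale.Agent.P209.Strong

open Vale.Agent.P209

/-! V10. Any `n + 1` balls, few medium balls, and arbitrarily many small balls. -/

theorem v10_pow_sub (d : ℕ) (R a : ℝ) (ha : 0 ≤ a) (haR : a ≤ R) :
    R ^ (d + 1) - a ^ (d + 1) ≤ ((d : ℝ) + 1) * (R - a) * R ^ d := by
  have hR : 0 ≤ R := ha.trans haR
  induction d with
  | zero => simp
  | succ d ih =>
    have h1 : R ^ (d + 1 + 1) - a ^ (d + 1 + 1) =
        R * (R ^ (d + 1) - a ^ (d + 1)) + (R - a) * a ^ (d + 1) := by ring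
    have h2 : a ^ (d + 1) ≤ R ^ (d + 1) := pow_le_pow_left₀ ha haR _
    have h3 : R * (R ^ (d + 1) - a ^ (d + 1)) ≤ R * (((d : ℝ) + 1) * (R - a) * R ^ d) :=
      mul_le_mul_of_nonneg_left ih hR
    have h4 : (R - a) * a ^ (d + 1) ≤ (R - a) * R ^ (d + 1) :=
      mul_le_mul_of_nonneg_left h2 (by linarith)
    rw [h1]
    push_cast
    calc R * (R ^ (d + 1) - a ^ (d + 1)) + (R - a) * a ^ (d + 1)
        ≤ R * (((d : ℝ) + 1) * (R - a) * R ^ d) + (R - a) * R ^ (d + 1) := add_le_add h3 h4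
      _ = ((d : ℝ) + 1 + 1) * (R - a) * R ^ (d + 1) := by ring

end Vale.Agent.P209.Strong
end
end

section

section
namespace Vale.Agent.P209.Strong

open Vale.Agent.P209

/-! V10b. As V10, with a larger exceptional set of balls. -/

theorem mid_stability_many (n : ℕ) (hn : 2 ≤ n) : ∃ ε : ℝ, 0 < ε ∧
    ∀ (k : ℕ) (R : ℝ) (r : Fin k → ℝ) (i0 : Fin k) (B : Finset (Fin k)), 0 < R →
      (∀ i, 0 < r i) → ∑ i, r i ^ n < R ^ n → (∀ i j, i < j → r i + r j < R) →
      (∀ i, r i ≤ r i0) → (B.card : ℝ) ≤ n + (ε * R / (R - r i0)) ^ (n - 1) →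
      ∑ i with i ≠ i0 ∧ i ∉ B ∧ ε * (R - r i0) < r i, r i ^ n ≤ ε * (R ^ n - r i0 ^ n) →
      Packs (openBall n R) r := by
  classical
  obtain ⟨d, rfl⟩ : ∃ d, n = d + 1 := ⟨n - 1, by omega⟩
  obtain ⟨eT, heT, hT⟩ := thin_stability d (by omega)
  obtain ⟨eC, heC, hC⟩ := corner_stability (d + 1) hn
  set N : ℝ := (d : ℝ) + 1 with hN
  have hN1 : (1 : ℝ) ≤ N := by
    rw [hN]
    have : (0 : ℝ) ≤ (d : ℝ) := Nat.cast_nonneg d
    linarith only []
  have hN0 : 0 < N := by linarith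
  set η : ℝ := 1 / (24 * N ^ 2) with hη
  have hη0 : 0 < η := by positivity
  set c : ℝ := eT ^ (d + 1) / (4 * N * (24 * N) ^ d) with hc
  have hc0 : 0 < c := by positivity
  set e1 : ℝ := 1 / (96 * N ^ 2) with he1
  have he10 : 0 < e1 := by positivity
  refine ⟨min (min (min eT eC) (min ((eC * η) ^ (d + 1)) c)) e1,
    lt_min (lt_min (lt_min heT heC) (lt_min (by positivity) hc0)) he10, ?_⟩
  intro k R r i0 B hR hr hsum hpair hmax hB hmed
  set ε : ℝ := min (min (min eT eC) (min ((eC * η) ^ (d + 1)) c)) e1 with hε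
  have hε0 : 0 < ε := lt_min (lt_min (lt_min heT heC) (lt_min (by positivity) hc0)) he10
  have hεT : ε ≤ eT := ((min_le_left _ _).trans (min_le_left _ _)).trans (min_le_left _ _)
  have hεC : ε ≤ eC := ((min_le_left _ _).trans (min_le_left _ _)).trans (min_le_right _ _)
  have hεη : ε ≤ (eC * η) ^ (d + 1) := ((min_le_left _ _).trans (min_le_right _ _)).trans (min_le_left _ _)
  have hεc : ε ≤ c := ((min_le_left _ _).trans (min_le_right _ _)).trans (min_le_right _ _)
  have hε1 : ε ≤ e1 := min_le_right _ _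
  have hnn : ∀ i, 0 ≤ r i ^ (d + 1) := fun i => pow_nonneg (hr i).le _
  have hlt : r i0 < R := by
    have h1 : r i0 ^ (d + 1) ≤ ∑ i, r i ^ (d + 1) :=
      Finset.single_le_sum (f := fun i => r i ^ (d + 1)) (fun i _ => hnn i) (Finset.mem_univ i0)
    exact lt_of_pow_lt_pow_left₀ (d + 1) hR.le (lt_of_le_of_lt h1 hsum)
  have hpair' : ∀ i j, i ≠ j → r i + r j < R := by
    intro i j hij
    rcases lt_or_gt_of_ne hij with h | h
    · exact hpair i j h
    · have := hpair j i h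
      linarith only [this]
  set w : ℝ := R - r i0 with hw
  have hw0 : 0 < w := by
    rw [hw]
    linarith only [hlt]
  have hmem : ∀ i, i ≠ i0 → i ∉ B → ε * w < r i → r i ^ (d + 1) ≤ ε * (R ^ (d + 1) - r i0 ^ (d + 1)) := by
    intro i h1 h2 h3
    refine le_trans ?_ hmed
    exact Finset.single_le_sum (f := fun i => r i ^ (d + 1)) (fun i _ => hnn i)
      (Finset.mem_filter.2 ⟨Finset.mem_univ i, h1, h2, h3⟩)
  rcases le_or_gt (η * R) w with hthick | hthin
  · -- thick
    refine hC (Fin k) R r (insert i0 B) i0 hr ?_ (Finset.mem_insert_self _ _)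
      (fun i _ => hmax i) hlt (fun i _ j _ hij => hpair' i j hij) ?_ hsum
    · have h1 := Finset.card_insert_le i0 B
      have h2 : (ε * R / w) ^ d < 1 := by
        apply pow_lt_one₀ (by (clear * - heT heC hR hlt; positivity)) _ (by omega)
        rw [div_lt_one hw0]
        have h3 : e1 < η := by
          rw [he1, hη]
          apply one_div_lt_one_div_of_lt (by (clear * -; positivity))
          have : 0 < N ^ 2 := by (clear * -; positivity)
          linarith only [this]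
        calc ε * R ≤ e1 * R := mul_le_mul_of_nonneg_right hε1 hR.le
          _ < η * R := mul_lt_mul_of_pos_right h3 hR
          _ ≤ w := hthick
      have h3 : (B.card : ℝ) < (d : ℝ) + 1 + 1 := by
        have h4 : (B.card : ℝ) ≤ ((d + 1 : ℕ) : ℝ) + (ε * R / w) ^ d := hB
        push_cast at h4
        linarith only [h2, h4]
      have h5 : B.card < d + 1 + 1 := by exact_mod_cast h3
      omega
    · intro i hi
      simp only [Finset.mem_insert, not_or] at hi
      rcases le_or_gt (r i) (ε * w) with h | h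
      · exact h.trans (mul_le_mul_of_nonneg_right hεC hw0.le)
      · have h1 := hmem i hi.1 hi.2 h
        have h2 : ε * (R ^ (d + 1) - r i0 ^ (d + 1)) ≤ (eC * η) ^ (d + 1) * R ^ (d + 1) := by
          have h3 : R ^ (d + 1) - r i0 ^ (d + 1) ≤ R ^ (d + 1) := by linarith only [hnn i0]
          have h4 : 0 < R ^ (d + 1) := by positivity
          calc ε * (R ^ (d + 1) - r i0 ^ (d + 1)) ≤ ε * R ^ (d + 1) :=
                mul_le_mul_of_nonneg_left h3 hε0.le
            _ ≤ (eC * η) ^ (d + 1) * R ^ (d + 1) := mul_le_mul_of_nonneg_right hεη h4.le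
        rw [← mul_pow] at h2
        have h5 : r i ≤ eC * η * R :=
          le_of_pow_le_pow_left₀ (Nat.succ_ne_zero d) (by (clear * - heC hR; positivity)) (h1.trans h2)
        calc r i ≤ eC * η * R := h5
          _ = eC * (η * R) := by ring
          _ ≤ eC * w := mul_le_mul_of_nonneg_left hthick heC.le
  · -- thin
    set x : ℝ := R / (12 * N * w) with hx
    have hx2 : 2 * N ≤ x := by
      rw [hx, le_div_iff₀ (by (clear * - hlt; positivity))]
      have h1 : w * (24 * N ^ 2) < R := by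
        have h2 : η * R * (24 * N ^ 2) = R := by
          rw [hη]
          (clear * - hN1 hR; field_simp)
        calc w * (24 * N ^ 2) < η * R * (24 * N ^ 2) := by
              apply mul_lt_mul_of_pos_right hthin
              (clear * -; positivity)
          _ = R := h2
      nlinarith only [h1]
    have hx0 : 0 ≤ x := by (clear * - hR hlt; positivity)
    set M : ℕ := ⌊x⌋₊ with hM
    have hMx : (M : ℝ) ≤ x := Nat.floor_le hx0
    have hMx' : x < (M : ℝ) + 1 := Nat.lt_floor_add_one x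
    have hM2n : 2 * (d + 1) ≤ M := by
      apply Nat.le_floor
      push_cast
      rw [← hN]
      exact hx2
    have hMhalf : x / 2 ≤ (M : ℝ) := by
      have : 2 ≤ x := by linarith
      linarith
    have hM1 : 1 ≤ M := by omega
    set D : Finset (Fin k) := Finset.univ.filter fun i => i ≠ i0 ∧ i ∉ B ∧ eT * w < r i with hD
    have hcardD : (D.card : ℝ) ≤ (M : ℝ) ^ d / 4 := by
      have h1 : (D.card : ℝ) * (eT * w) ^ (d + 1) ≤ ∑ i ∈ D, r i ^ (d + 1) := by
        rw [← nsmul_eq_mul]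
        apply Finset.card_nsmul_le_sum
        intro i hi
        rw [hD, Finset.mem_filter] at hi
        exact pow_le_pow_left₀ (by (clear * - heT hlt; positivity)) hi.2.2.2.le _
      have h2 : ∑ i ∈ D, r i ^ (d + 1) ≤ ε * (R ^ (d + 1) - r i0 ^ (d + 1)) := by
        refine le_trans ?_ hmed
        apply Finset.sum_le_sum_of_subset_of_nonneg
        · intro i hi
          rw [hD, Finset.mem_filter] at hi
          rw [Finset.mem_filter]
          refine ⟨hi.1, hi.2.1, hi.2.2.1, lt_of_le_of_lt ?_ hi.2.2.2⟩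
          exact mul_le_mul_of_nonneg_right hεT hw0.le
        · intro i _ _
          exact hnn i
      have h3 : R ^ (d + 1) - r i0 ^ (d + 1) ≤ N * w * R ^ d :=
        v10_pow_sub d R (r i0) (hr i0).le hlt.le
      have h4 : ε * (R ^ (d + 1) - r i0 ^ (d + 1)) ≤ c * (N * w * R ^ d) := by
        calc ε * (R ^ (d + 1) - r i0 ^ (d + 1)) ≤ ε * (N * w * R ^ d) :=
              mul_le_mul_of_nonneg_left h3 hε0.le
          _ ≤ c * (N * w * R ^ d) := mul_le_mul_of_nonneg_right hεc (by (clear * - hlt hR; positivity))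
      have h5 : (D.card : ℝ) * (eT * w) ^ (d + 1) ≤ c * (N * w * R ^ d) :=
        h1.trans (h2.trans h4)
      -- divide
      have h6 : (D.card : ℝ) ≤ (R / (24 * N * w)) ^ d / 4 := by
        have h7 : c * (N * w * R ^ d) = ((R / (24 * N * w)) ^ d / 4) * (eT * w) ^ (d + 1) := by
          have e1 : (24 * N * w) ^ d = (24 * N) ^ d * w ^ d := mul_pow _ _ _
          have e2 : (eT * w) ^ (d + 1) = eT ^ (d + 1) * (w ^ d * w) := by
            rw [mul_pow, pow_succ w d]
          rw [hc, div_pow, e1, e2]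
          have hP : ((24 * N) ^ d : ℝ) ≠ 0 := by (clear * -; positivity)
          have hW : (w ^ d : ℝ) ≠ 0 := by positivity
          generalize ((24 * N) ^ d : ℝ) = P at hP ⊢
          generalize (w ^ d : ℝ) = W at hW ⊢
          generalize (R ^ d : ℝ) = Q
          generalize (eT ^ (d + 1) : ℝ) = T
          (clear * - hN1 hW hw0 hP; field_simp)
        rw [h7] at h5
        exact le_of_mul_le_mul_right h5 (by (clear * - heT hlt; positivity))
      refine h6.trans ?_
      have h8 : R / (24 * N * w) ≤ (M : ℝ) := by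
        have : R / (24 * N * w) = x / 2 := by
          rw [hx]
          field_simp
          norm_num
        rw [this]
        exact hMhalf
      have h9 : (R / (24 * N * w)) ^ d ≤ (M : ℝ) ^ d := pow_le_pow_left₀ (by (clear * - hR hlt; positivity)) h8 _
      linarith only [h9]
    have hcardB : ((B.erase i0).card : ℝ) ≤ 3 * (M : ℝ) ^ d / 4 := by
      have h0 : (((B.erase i0).card : ℕ) : ℝ) ≤ (B.card : ℝ) := by
        exact_mod_cast (Finset.card_erase_le (s := B) (a := i0))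
      have h1 : (B.card : ℝ) ≤ ((d + 1 : ℕ) : ℝ) + (ε * R / w) ^ d := hB
      have h2 : M ≤ M ^ d := Nat.le_self_pow (by omega) M
      have h3 : 2 * (d + 1) ≤ M ^ d := by omega
      have h4 : (2 : ℝ) * ((d + 1 : ℕ) : ℝ) ≤ (M : ℝ) ^ d := by exact_mod_cast h3
      have h8 : R / (24 * N * w) ≤ (M : ℝ) := by
        have : R / (24 * N * w) = x / 2 := by
          rw [hx]
          field_simp
          norm_num
        rw [this]
        exact hMhalf
      have h9 : (R / (24 * N * w)) ^ d ≤ (M : ℝ) ^ d := pow_le_pow_left₀ (by (clear * - hR hlt; positivity)) h8 _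
      have h10 : (ε * R / w) ^ d ≤ (M : ℝ) ^ d / 4 := by
        have h11 : ε * R / w ≤ (1 / 4) * (R / (24 * N * w)) := by
          have h12 : e1 ≤ 1 / (96 * N) := by
            rw [he1]
            apply one_div_le_one_div_of_le (by (clear * -; positivity))
            have : N ≤ N ^ 2 := by nlinarith
            linarith only [this]
          calc ε * R / w = ε * (R / w) := by ring
            _ ≤ 1 / (96 * N) * (R / w) := mul_le_mul_of_nonneg_right (hε1.trans h12) (by (clear * - hR hlt; positivity))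
            _ = (1 / 4) * (R / (24 * N * w)) := by
              field_simp
              norm_num
        calc (ε * R / w) ^ d ≤ ((1 / 4) * (R / (24 * N * w))) ^ d := pow_le_pow_left₀ (by (clear * - heT heC hR hlt; positivity)) h11 _
          _ = (1 / 4 : ℝ) ^ d * (R / (24 * N * w)) ^ d := mul_pow _ _ _
          _ ≤ (1 / 4 : ℝ) * (M : ℝ) ^ d := by
            apply mul_le_mul _ h9 (by (clear * - hR hlt; positivity)) (by norm_num)
            exact pow_le_of_le_one (by norm_num) (by norm_num) (by omega)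
          _ = (M : ℝ) ^ d / 4 := by ring
      linarith only [h0, h1, h4, h10]
    have hcard : (B.erase i0 ∪ D).card ≤ M ^ d := by
      have h1 : (B.erase i0 ∪ D).card ≤ (B.erase i0).card + D.card := Finset.card_union_le _ _
      have h2 : (((B.erase i0 ∪ D).card : ℕ) : ℝ) ≤ ((M ^ d : ℕ) : ℝ) := by
        push_cast
        calc (((B.erase i0 ∪ D).card : ℕ) : ℝ) ≤ ((B.erase i0).card : ℝ) + (D.card : ℝ) := by
              exact_mod_cast h1
          _ ≤ 3 * (M : ℝ) ^ d / 4 + (M : ℝ) ^ d / 4 := add_le_add hcardB hcardD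
          _ = (M : ℝ) ^ d := by ring
      exact_mod_cast h2
    refine hT (Fin k) R r (B.erase i0 ∪ D) i0 M hr ?_ hlt ?_ hM1 hcard ?_ ?_ hsum
    · simp only [hD, ne_eq, Finset.mem_union, Finset.mem_erase, not_true_eq_false, false_and, Finset.mem_filter, Finset.mem_univ, and_false, or_self, not_false_eq_true]
    · intro i hi
      apply hpair'
      rintro rfl
      simp only [hD, ne_eq, Finset.mem_union, Finset.mem_erase, not_true_eq_false, false_and, Finset.mem_filter, Finset.mem_univ, and_false, or_self] at hi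
    · have h1 : 12 * ((d : ℝ) + 1) * (R - r i0) * (M : ℝ) ≤ 12 * ((d : ℝ) + 1) * (R - r i0) * x :=
        mul_le_mul_of_nonneg_left hMx (by (clear * - hlt; positivity))
      refine h1.trans (le_of_eq ?_)
      rw [hx, ← hN, ← hw]
      (clear * - hN1 hw0 hR; field_simp)
    · intro i h1 h2
      by_contra h3
      rw [not_le] at h3
      apply h2
      rw [Finset.mem_union]
      by_cases h4 : i ∈ B
      · left
        exact Finset.mem_erase.2 ⟨h1, h4⟩
      · right
        rw [hD, Finset.mem_filter]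
        exact ⟨Finset.mem_univ i, h1, h4, h3⟩

end Vale.Agent.P209.Strong
end
end

section

section
namespace Vale.Agent.P209.MM

/-! W1. Grouping, and a numerical inequality. -/

theorem w1_tr {ι κ : Type} [Fintype ι] [DecidableEq ι] [Fintype κ] [DecidableEq κ] (f : ι → ℝ)
    (c : ℝ) (g : ι → κ)
    (h : ∀ q, (Finset.univ.filter fun i => g i = q).card = 1 ∨ ∑ i with g i = q, f i < c)
    {N : ℕ} (hN : Fintype.card κ = N) :
    ∃ g' : ι → Fin N, ∀ q, (Finset.univ.filter fun i => g' i = q).card = 1 ∨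
      ∑ i with g' i = q, f i < c := by
  let e := Fintype.equivFinOfCardEq hN
  refine ⟨fun i => e (g i), fun q => ?_⟩
  have h1 : (Finset.univ.filter fun i => e (g i) = q) =
      Finset.univ.filter fun i => g i = e.symm q := by
    ext i
    simp only [Finset.mem_filter, Finset.mem_univ, true_and, Equiv.eq_symm_apply]
  rw [h1]
  exact h _

/-- Items of sizes `f i` in groups, such that every group is a single item or has total size less
than `c`; the number of groups is at most `2 * (∑ f) / c + 1`. -/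
theorem group_fit {ι : Type} [Fintype ι] [DecidableEq ι] (f : ι → ℝ) (hf : ∀ i, 0 < f i) (c : ℝ)
    (hc : 0 < c) : ∃ (N : ℕ) (g : ι → Fin N),
      (∀ q : Fin N, ((Finset.univ.filter fun i => g i = q).card = 1 ∨
        ∑ i with g i = q, f i < c)) ∧ N * c ≤ 2 * ∑ i, f i + c := by
  classical
  have hex : ∃ N : ℕ, ∃ g : ι → Fin N, ∀ q, (Finset.univ.filter fun i => g i = q).card = 1 ∨
      ∑ i with g i = q, f i < c := by
    refine ⟨Fintype.card ι, w1_tr f c id (fun q => Or.inl ?_) rfl⟩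
    rw [Finset.card_eq_one]
    refine ⟨q, ?_⟩
    ext i
    simp only [id_eq, Finset.mem_filter, Finset.mem_univ, true_and, Finset.mem_singleton]
  obtain ⟨N, ⟨g, hg⟩, hmin⟩ : ∃ N : ℕ, (∃ g : ι → Fin N, ∀ q,
      (Finset.univ.filter fun i => g i = q).card = 1 ∨ ∑ i with g i = q, f i < c) ∧
      ∀ m, m < N → ¬ ∃ g : ι → Fin m, ∀ q,
      (Finset.univ.filter fun i => g i = q).card = 1 ∨ ∑ i with g i = q, f i < c :=
    ⟨Nat.find hex, Nat.find_spec hex, fun m => Nat.find_min hex⟩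
  refine ⟨N, g, hg, ?_⟩
  set T : Fin N → ℝ := fun q => ∑ i with g i = q, f i with hT
  have hT0 : ∀ q, 0 ≤ T q := fun q => Finset.sum_nonneg fun i _ => (hf i).le
  have hsum : ∑ q, T q = ∑ i, f i := Finset.sum_fiberwise _ _ _
  have hpair : ∀ q q', q ≠ q' → c ≤ T q + T q' := by
    intro q q' hne
    by_contra hlt
    push Not at hlt
    have hcard : Fintype.card {x : Fin N // x ≠ q'} = N - 1 := by
      rw [Fintype.card_subtype_compl, Fintype.card_fin, Fintype.card_subtype_eq]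
    have hNpos : 0 < N := Fin.pos q
    refine hmin (N - 1) (by omega) ?_
    refine w1_tr f c (κ := {x : Fin N // x ≠ q'})
      (fun i => if h : g i = q' then ⟨q, hne⟩ else ⟨g i, h⟩) (fun p => ?_) hcard
    by_cases hp : (p : Fin N) = q
    · right
      have h1 : (Finset.univ.filter fun i =>
          (if h : g i = q' then (⟨q, hne⟩ : {x : Fin N // x ≠ q'}) else ⟨g i, h⟩) = p) =
          (Finset.univ.filter fun i => g i = q) ∪ Finset.univ.filter fun i => g i = q' := by
        ext i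
        simp only [Finset.mem_filter, Finset.mem_univ, true_and, Finset.mem_union]
        by_cases h : g i = q'
        · simp only [h, dite_true, or_true, iff_true]
          exact Subtype.ext hp.symm
        · simp only [h, dite_false, or_false]
          rw [Subtype.ext_iff, hp]
      rw [h1, Finset.sum_union]
      · exact hlt
      · rw [Finset.disjoint_filter]
        intro i _ h2 h3
        exact hne (h2.symm.trans h3)
    · have h1 : (Finset.univ.filter fun i =>
          (if h : g i = q' then (⟨q, hne⟩ : {x : Fin N // x ≠ q'}) else ⟨g i, h⟩) = p) =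
          Finset.univ.filter fun i => g i = (p : Fin N) := by
        ext i
        simp only [Finset.mem_filter, Finset.mem_univ, true_and]
        by_cases h : g i = q'
        · simp only [h, dite_true]
          constructor
          · intro h2
            exact absurd (congrArg Subtype.val h2).symm hp
          · intro h2
            exact absurd h2.symm p.2
        · simp only [h, dite_false]
          rw [Subtype.ext_iff]
      rw [h1]
      exact hg _
  rw [← hsum]
  rcases Nat.eq_zero_or_pos N with h0 | hpos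
  · have h1 : (N : ℝ) = 0 := by rw [h0]; norm_num
    rw [h1, zero_mul]
    have h2 : 0 ≤ ∑ q, T q := Finset.sum_nonneg fun q _ => hT0 q
    linarith only [hc, h2]
  · haveI : Nonempty (Fin N) := ⟨⟨0, hpos⟩⟩
    obtain ⟨q0, hq0⟩ := Finite.exists_min T
    have h1 : ∀ q ∈ Finset.univ.erase q0, c / 2 ≤ T q := by
      intro q hq
      have h2 := hpair q q0 (Finset.ne_of_mem_erase hq)
      have h3 := hq0 q
      linarith only [h2, h3]
    have h2 : ∑ q ∈ Finset.univ.erase q0, T q ≥ ((N : ℝ) - 1) * (c / 2) := by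
      have h3 := Finset.card_nsmul_le_sum _ _ _ h1
      rw [Finset.card_erase_of_mem (Finset.mem_univ _), Finset.card_univ, Fintype.card_fin,
        nsmul_eq_mul, Nat.cast_sub hpos, Nat.cast_one] at h3
      exact h3
    have h3 := Finset.add_sum_erase Finset.univ T (Finset.mem_univ q0)
    have h4 := hT0 q0
    rw [← h3]
    linarith

theorem w1_mono (n : ℕ) {s t h : ℝ} (hs : 0 ≤ s) (hst : s ≤ t) (hh : 0 ≤ h) :
    0 ≤ (s + h) ^ n - s ^ n ∧ (s + h) ^ n - s ^ n ≤ (t + h) ^ n - t ^ n := by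
  induction n with
  | zero => simp
  | succ n ih =>
    obtain ⟨h1, h2⟩ := ih
    have e : ∀ u : ℝ, (u + h) ^ (n + 1) - u ^ (n + 1) =
        (u + h) * ((u + h) ^ n - u ^ n) + h * u ^ n := fun u => by ring
    rw [e, e]
    have h3 : 0 ≤ s ^ n := pow_nonneg hs n
    have h4 : s ^ n ≤ t ^ n := pow_le_pow_left₀ hs hst n
    constructor
    · (clear * - hs hh h1; positivity)
    · refine add_le_add ?_ (mul_le_mul_of_nonneg_left h4 hh)
      exact mul_le_mul (by linarith) h2 h1 (by linarith)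

theorem around_ineq (n j : ℕ) (hn : 3 ≤ n) (hj : 1 ≤ j) (x : ℝ) (hx0 : 0 ≤ x)
    (hx : x ≤ (j : ℝ) + 1) :
    (2 / 3 : ℝ) ^ n * ((x + 1) ^ n - x ^ n) + 37 / 27 ≤ ((j : ℝ) + 1) ^ n - (j : ℝ) ^ n := by
  have hj' : (1 : ℝ) ≤ j := by exact_mod_cast hj
  have h1 := (w1_mono n hx0 hx (zero_le_one)).2
  have h2 : (2 / 3 : ℝ) ^ n * ((x + 1) ^ n - x ^ n) ≤
      (2 / 3 : ℝ) ^ n * (((j : ℝ) + 1 + 1) ^ n - ((j : ℝ) + 1) ^ n) :=
    mul_le_mul_of_nonneg_left h1 (by positivity)
  have h3 : (2 / 3 : ℝ) ^ n * (((j : ℝ) + 1 + 1) ^ n - ((j : ℝ) + 1) ^ n) =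
      (2 / 3 * ((j : ℝ) + 1) + 2 / 3) ^ n - (2 / 3 * ((j : ℝ) + 1)) ^ n := by
    rw [mul_sub, ← mul_pow, ← mul_pow]
    congr 2
    ring
  have h4 := (w1_mono n (s := 2 / 3 * ((j : ℝ) + 1)) (t := (j : ℝ) + 1 / 3) (h := 2 / 3)
    (by positivity) (by linarith only [hj']) (by norm_num)).2
  have h5 : (j : ℝ) + 1 / 3 + 2 / 3 = j + 1 := by ring
  rw [h5] at h4
  have h6 := (w1_mono n (s := 1) (t := (j : ℝ)) (h := 1 / 3) (by norm_num) hj' (by norm_num)).2
  have h7 : (1 + 1 / 3 : ℝ) ^ 3 ≤ (1 + 1 / 3 : ℝ) ^ n := pow_le_pow_right₀ (by norm_num) hn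
  rw [one_pow] at h6
  norm_num at h7
  norm_num at h6
  norm_num at h4 ⊢
  rw [h3] at h2
  norm_num at h2
  linarith only [h7, h6, h4, h2]

end Vale.Agent.P209.MM
end
end

section

section
namespace Vale.Agent.P209.MM

open Vale.Agent.P209 Vale.Agent.P209.Strong

/-! W2. One arbitrary ball, and balls which fill less than `3 ^ (-n)` of the complement. -/

theorem w2_volume {κ : Type} [Fintype κ] (n : ℕ) (hn : 1 ≤ n) (R : ℝ) (r : κ → ℝ) (hR : 0 < R)
    (hr : ∀ i, 0 < r i) (hvol : 2 ^ (n - 1) * ∑ i, r i ^ n < R ^ n) :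
    Packs (openBall n R) r := by
  have h1 := packs_volume n (Fintype.card κ) hn R (fun i => r ((Fintype.equivFin κ).symm i)) hR
    (fun i => hr _) (by
      rw [Equiv.sum_comp (Fintype.equivFin κ).symm (fun i => r i ^ n)]
      exact hvol)
  have h2 := Packs.comp_inj h1 (Fintype.equivFin κ) (Fintype.equivFin κ).injective
  simpa using h2

theorem w2_single {κ : Type} [Fintype κ] (hκ : Fintype.card κ ≤ 1) (n : ℕ) (hn : 1 ≤ n) (R : ℝ)
    (r : κ → ℝ) (hR : 0 < R) (hr : ∀ i, 0 < r i) (hlt : ∀ i, r i < R) :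
    Packs (openBall n R) r := by
  have h1 := packs_small n (Fintype.card κ) hn (hκ.trans Nat.one_le_two_pow) R
    (fun i => r ((Fintype.equivFin κ).symm i)) hR
    (fun i => hr _) (by
      rw [Equiv.sum_comp (Fintype.equivFin κ).symm (fun i => r i ^ n)]
      rcases Nat.le_one_iff_eq_zero_or_eq_one.1 hκ with h0 | h0
      · rw [Fintype.card_eq_zero_iff] at h0
        simp only [Finset.univ_eq_empty, Finset.sum_empty]
        positivity
      · rw [Fintype.card_eq_one_iff] at h0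
        obtain ⟨a, ha⟩ := h0
        have h2 : (Finset.univ : Finset κ) = {a} := by
          ext b
          simp only [ha b, Finset.mem_univ, Finset.mem_singleton]
        rw [h2, Finset.sum_singleton]
        exact pow_lt_pow_left₀ (hlt a) (hr a).le (by omega))
    (by
      intro i j hij
      exfalso
      have h3 : (i : ℕ) < j := hij
      have := j.2
      omega)
  have h2 := Packs.comp_inj h1 (Fintype.equivFin κ) (Fintype.equivFin κ).injective
  simpa using h2

/-- the ball of radius `r i0` at index `0`, then `N` balls of radius `w`. -/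
noncomputable def w2_s (a w : ℝ) (N : ℕ) (i : ℕ) : ℝ := if i = 0 then a else if i ≤ N then w else 0

theorem packs_around_volume (n k : ℕ) (hn : 3 ≤ n) (R : ℝ) (r : Fin k → ℝ) (i0 : Fin k)
    (hR : 0 < R) (hr : ∀ i, 0 < r i) (hmax : ∀ i, r i ≤ r i0) (hlt : r i0 < R)
    (hpair : ∀ i, i ≠ i0 → r i + r i0 < R)
    (hvol : r i0 ^ n + 3 ^ n * ∑ i with i ≠ i0, r i ^ n ≤ R ^ n) :
    Packs (openBall n R) r := by
  classical
  have hn1 : 1 ≤ n := by omega
  have hr0 : 0 < r i0 := hr i0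
  have hV0 : 0 ≤ ∑ i with i ≠ i0, r i ^ n := Finset.sum_nonneg fun i _ => (pow_pos (hr i) n).le
  have hsum : ∑ i, r i ^ n = r i0 ^ n + ∑ i with i ≠ i0, r i ^ n := by
    rw [← Finset.add_sum_erase Finset.univ (fun i => r i ^ n) (Finset.mem_univ i0)]
    congr 1
    refine Finset.sum_congr ?_ fun _ _ => rfl
    ext i
    simp only [Finset.mem_erase, ne_eq, Finset.mem_univ, and_true, Finset.mem_filter, true_and]
  rcases lt_or_ge (2 * r i0) R with hc | hc
  · -- the volume criterion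
    refine packs_volume n k hn1 R r hR hr ?_
    rw [hsum]
    set V := ∑ i with i ≠ i0, r i ^ n with hV
    have h1 : (2 * r i0) ^ n < R ^ n := pow_lt_pow_left₀ hc (by positivity) (by omega)
    rw [mul_pow] at h1
    have h2 : (2 : ℝ) ^ n = 2 * 2 ^ (n - 1) := by
      rw [← pow_succ']
      congr 1
      omega
    rw [h2] at h1
    have h3 : (2 : ℝ) * 2 ^ (n - 1) ≤ 3 ^ n := by
      rw [← h2]
      exact pow_le_pow_left₀ (by norm_num) (by norm_num) n
    have hT : (1 : ℝ) ≤ 2 ^ (n - 1) := one_le_pow₀ (by norm_num)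
    set T : ℝ := 2 ^ (n - 1) with hTdef
    set S : ℝ := 3 ^ n with hSdef
    have hA : 0 < r i0 ^ n := by positivity
    set A := r i0 ^ n with hAdef
    have hB : 0 < R ^ n := by positivity
    set B := R ^ n with hBdef
    have h4 : S * (T * (A + V)) < S * B := by
      have h5 : S * (T * (A + V)) = T * (S * A) + T * (S * V) := by ring
      have h6 : T * (S * V) ≤ T * (B - A) := mul_le_mul_of_nonneg_left (by linarith only [hvol]) (by linarith only [hT])
      have h7 : T * A * (S - 1) ≤ B / 2 * (S - 1) :=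
        mul_le_mul_of_nonneg_right (by linarith only [h1]) (by linarith only [hT, h3])
      have h8 : T * B ≤ S / 2 * B := mul_le_mul_of_nonneg_right (by linarith only [h3]) hB.le
      linarith
    exact lt_of_mul_lt_mul_left h4 (by linarith only [hT, h3])
  · -- `R ≤ 2 r i0`
    set w := R - r i0 with hw
    have hw0 : 0 < w := by rw [hw]; linarith only [hlt]
    have hwr : w ≤ r i0 := by rw [hw]; linarith only [hc]
    set x := r i0 / w with hx
    have hxw : x * w = r i0 := by rw [hx]; (clear * - hw0 hr0; field_simp)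
    have hx1 : 1 ≤ x := by rw [hx, le_div_iff₀ hw0]; linarith only [hc]
    have hx0 : 0 ≤ x := by linarith only [hx1]
    set j := Nat.floor x with hj
    have hj1 : 1 ≤ j := by
      rw [hj]
      exact (Nat.one_le_floor_iff x).2 hx1
    have hjx : (j : ℝ) ≤ x := Nat.floor_le hx0
    have hxj : x ≤ (j : ℝ) + 1 := (Nat.lt_floor_add_one x).le
    have hineq := around_ineq n j hn hj1 x hx0 hxj
    set G : ℝ := ((j : ℝ) + 1) ^ n - (j : ℝ) ^ n with hG
    -- the choice of `w'`
    have e1 : ∀ᶠ y in nhdsWithin w (Set.Iio w), (G - 37 / 27) * (w / y) ^ n + 1 < G := by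
      have hcont : ContinuousAt (fun y : ℝ => (G - 37 / 27) * (w / y) ^ n + 1) w := by
        refine ContinuousAt.add (ContinuousAt.mul continuousAt_const
          (ContinuousAt.pow (ContinuousAt.div continuousAt_const continuousAt_id hw0.ne') n))
          continuousAt_const
      have h1 : (G - 37 / 27) * (w / w) ^ n + 1 < G := by
        rw [div_self hw0.ne', one_pow]
        linarith only []
      exact (hcont.eventually (eventually_lt_nhds h1)).filter_mono nhdsWithin_le_nhds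
    have e2 : ∀ᶠ y in nhdsWithin w (Set.Iio w), ∀ i : {i // i ≠ i0}, r i < y := by
      rw [Filter.eventually_all]
      intro i
      have h1 : r i < w := by rw [hw]; linarith only [hpair i i.2]
      exact (eventually_gt_nhds h1).filter_mono nhdsWithin_le_nhds
    have e3 : ∀ᶠ y in nhdsWithin w (Set.Iio w), y < w := self_mem_nhdsWithin
    have e4 : ∀ᶠ y in nhdsWithin w (Set.Iio w), 0 < y :=
      (eventually_gt_nhds hw0).filter_mono nhdsWithin_le_nhds
    obtain ⟨w', h1, h2, h3, h4⟩ := (e1.and (e2.and (e3.and e4))).exists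
    have hw'n : 0 < w' ^ n := by positivity
    set c : ℝ := w' ^ n / 2 ^ (n - 1) with hc'
    have hc0 : 0 < c := by positivity
    obtain ⟨N, g, hg, hN⟩ := group_fit (ι := {i // i ≠ i0}) (fun i => r i ^ n)
      (fun i => pow_pos (hr i) n) c hc0
    have hVs : ∑ i : {i // i ≠ i0}, r i ^ n = ∑ i with i ≠ i0, r i ^ n := by
      rw [← Finset.sum_subtype_eq_sum_filter]
      refine Finset.sum_congr ?_ fun _ _ => rfl
      ext i
      simp only [ne_eq, Finset.mem_univ, Finset.subtype_univ]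
    rw [hVs] at hN
    set V := ∑ i with i ≠ i0, r i ^ n with hV
    -- the number of groups
    have hNG : (N : ℝ) < G := by
      have k1 : R = w * (x + 1) := by
        have : w * (x + 1) = x * w + w := by ring
        rw [this, hxw, hw]
        ring
      have k2 : R ^ n - r i0 ^ n = w ^ n * ((x + 1) ^ n - x ^ n) := by
        rw [k1, ← hxw, mul_pow, mul_pow]
        ring
      have k3 : 3 ^ n * V ≤ w ^ n * ((x + 1) ^ n - x ^ n) := by
        rw [← k2]
        linarith only [hvol]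
      have k4 : (2 : ℝ) ^ n * V ≤ w ^ n * (G - 37 / 27) := by
        have hw1 : 0 < w ^ n := by positivity
        have k5 : (2 : ℝ) ^ n * V = (2 / 3 : ℝ) ^ n * (3 ^ n * V) := by
          rw [← mul_assoc, ← mul_pow]
          norm_num
        rw [k5]
        have k6 : (2 / 3 : ℝ) ^ n * (3 ^ n * V) ≤
            (2 / 3 : ℝ) ^ n * (w ^ n * ((x + 1) ^ n - x ^ n)) :=
          mul_le_mul_of_nonneg_left k3 (by positivity)
        have k7 : (2 / 3 : ℝ) ^ n * (w ^ n * ((x + 1) ^ n - x ^ n)) =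
            w ^ n * ((2 / 3 : ℝ) ^ n * ((x + 1) ^ n - x ^ n)) := by ring
        rw [k7] at k6
        refine k6.trans (mul_le_mul_of_nonneg_left (by linarith only [hineq]) hw1.le)
      have k8 : (N : ℝ) ≤ 2 ^ n * V / w' ^ n + 1 := by
        have k9 : (N : ℝ) ≤ (2 * V + c) / c := by
          rw [le_div_iff₀ hc0]
          exact hN
        have k10 : (2 * V + c) / c = 2 ^ n * V / w' ^ n + 1 := by
          have h2 : (2 : ℝ) ^ n = 2 * 2 ^ (n - 1) := by
            rw [← pow_succ']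
            congr 1
            omega
          rw [hc', h2]
          (clear * - h4 hV0; field_simp)
        rwa [k10] at k9
      have k11 : 2 ^ n * V / w' ^ n ≤ (G - 37 / 27) * (w / w') ^ n := by
        rw [div_pow, ← mul_div_assoc]
        refine div_le_div_of_nonneg_right ?_ hw'n.le
        rw [mul_comm (G - 37 / 27)]
        exact k4
      linarith only [h1, k8, k11]
    have hNG' : N < (j + 1) ^ n - j ^ n := by
      have k1 : j ^ n ≤ (j + 1) ^ n := Nat.pow_le_pow_left (by omega) n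
      have k2 : (N : ℝ) < (((j + 1) ^ n - j ^ n : ℕ) : ℝ) := by
        rw [Nat.cast_sub k1]
        push_cast
        exact hNG
      exact_mod_cast k2
    -- the virtual family
    set s : ℕ → ℝ := w2_s (r i0) w' N with hs
    have hs0 : s 0 = r i0 := by simp [hs, w2_s]
    have hsi : ∀ i, 1 ≤ i → i ≤ N → s i = w' := by
      intro i hi hiN
      have : i ≠ 0 := by omega
      simp [hs, w2_s, this, hiN]
    have hsN : ∀ i, 1 ≤ i → ¬ i ≤ N → s i = 0 := by
      intro i hi hiN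
      have : i ≠ 0 := by omega
      simp [hs, w2_s, this, hiN]
    have hsnn : ∀ i, 0 ≤ s i := by
      intro i
      rcases Nat.eq_zero_or_pos i with rfl | hi
      · rw [hs0]; exact hr0.le
      · by_cases hiN : i ≤ N
        · rw [hsi i hi hiN]; exact h4.le
        · rw [hsN i hi hiN]
    have hanti : Antitone s := by
      intro a b hab
      rcases Nat.eq_zero_or_pos a with rfl | ha
      · rw [hs0]
        rcases Nat.eq_zero_or_pos b with rfl | hb
        · rw [hs0]
        · by_cases hbN : b ≤ N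
          · rw [hsi b hb hbN]; linarith only [hc, h3]
          · rw [hsN b hb hbN]; exact hr0.le
      · have hb : 1 ≤ b := le_trans ha hab
        by_cases hbN : b ≤ N
        · rw [hsi b hb hbN, hsi a ha (hab.trans hbN)]
        · rw [hsN b hb hbN]; exact hsnn a
    have hs1 : s 1 ≤ w' := by
      by_cases hN1 : 1 ≤ N
      · rw [hsi 1 le_rfl hN1]
      · rw [hsN 1 le_rfl hN1]; exact h4.le
    have hLL : LL n (j + 1) j s < R := by
      unfold LL
      have k1 : Finset.Ico j (j + 1) = {j} := by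
        ext a
        rw [Finset.mem_Ico, Finset.mem_singleton]
        omega
      rw [k1, Finset.sum_singleton, Nat.sub_self, zero_add, hs0]
      have k2 : (j : ℝ) * s 1 ≤ r i0 := by
        have k3 : (j : ℝ) * s 1 ≤ x * w := mul_le_mul hjx (by linarith only [h3, hs1]) (hsnn 1) hx0
        rwa [hxw] at k3
      rw [max_eq_left k2]
      have : R = r i0 + w := by rw [hw]; ring
      linarith only [h3, hs1]
    have hmm : Packs (openBall n R) (fun i : Fin (N + 1) => s i) := by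
      refine packs_mm n (j + 1) j (N + 1) hn1 (by omega) R s hanti hsnn ?_ hLL ?_
      · intro i hi
        rcases Nat.eq_zero_or_pos i with rfl | hi0
        · rw [hs0]; exact hr0
        · rw [hsi i hi0 (by omega)]; exact h4
      · intro h
        exfalso
        omega
    -- the groups
    set g' : {i // i ≠ i0} → Option (Fin N) := fun i => some (g i) with hg'
    have hun : Packs (openBall n R)
        (Sum.elim (fun _ : Unit => r i0) (fun i : {i // i ≠ i0} => r i)) := by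
      refine packs_unmerge (N := N) (fun _ : Unit => r i0) (fun i : {i // i ≠ i0} => r i) g'
        (fun _ => w') ?_ ?_
      · let e : (Unit ⊕ Fin N) ⊕ {i // g' i = none} → Fin (N + 1) :=
          Sum.elim (Sum.elim (fun _ => 0) Fin.succ) (fun i => absurd i.2 (by simp [hg']))
        have he : Function.Injective e := by
          rintro ((a | a) | a) ((b | b) | b) hab
          · rfl
          · exact absurd hab (Fin.succ_ne_zero b).symm
          · exact absurd b.2 (by simp [hg'])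
          · exact absurd hab (Fin.succ_ne_zero a)
          · rw [Fin.succ_injective _ hab]
          · exact absurd b.2 (by simp [hg'])
          · exact absurd a.2 (by simp [hg'])
          · exact absurd a.2 (by simp [hg'])
          · exact absurd a.2 (by simp [hg'])
        have h5 := Packs.comp_inj hmm e he
        have h6 : (fun k => s (e k)) = Sum.elim (Sum.elim (fun _ : Unit => r i0)
            (fun _ : Fin N => w')) (fun i : {i // g' i = none} => r i) := by
          funext z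
          rcases z with (a | a) | a
          · exact hs0
          · exact hsi _ (by simp only [ne_eq, reduceCtorEq, Sum.elim_inl, Sum.elim_inr, Fin.val_succ, le_add_iff_nonneg_left, zero_le, e]) (by
              have := a.2
              simp [e]
              )
          · exact absurd a.2 (by simp [hg'])
        rw [h6] at h5
        exact h5
      · intro q
        have hmem : ∀ i : {i // g' i = some q}, g i.1 = q := fun i => by
          have := i.2
          simpa [hg'] using this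
        rcases hg q with hq | hq
        · refine w2_single ?_ n hn1 w' _ h4 (fun i => hr _) (fun i => h2 _)
          rw [Fintype.card_subtype]
          have : (Finset.univ.filter fun i => g' i = some q) =
              Finset.univ.filter fun i => g i = q := by
            ext i
            simp only [ne_eq, hg', Option.some.injEq, Finset.mem_filter, Finset.mem_univ, true_and]
          rw [this, hq]
        · refine w2_volume n hn1 w' _ h4 (fun i => hr _) ?_
          have k1 : ∑ i : {i // g' i = some q}, r i ^ n = ∑ i with g i = q, r i ^ n := by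
            have k2 : (Finset.univ.filter fun i => g i = q) =
                Finset.univ.filter fun i => g' i = some q := by
              ext i
              simp only [ne_eq, Finset.mem_filter, Finset.mem_univ, true_and, hg', Option.some.injEq]
            rw [k2, ← Finset.sum_subtype_eq_sum_filter]
            refine Finset.sum_congr ?_ fun _ _ => rfl
            ext i
            simp only [ne_eq, Finset.mem_univ, Finset.subtype_univ]
          rw [k1]
          have hT : (0 : ℝ) < 2 ^ (n - 1) := by positivity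
          have k3 := mul_lt_mul_of_pos_left hq hT
          rw [hc'] at k3
          have k4 : (2 : ℝ) ^ (n - 1) * (w' ^ n / 2 ^ (n - 1)) = w' ^ n := by (clear * - h4; field_simp)
          rw [k4] at k3
          exact k3
    let e : Fin k → Unit ⊕ {i // i ≠ i0} := fun i =>
      if h : i = i0 then Sum.inl () else Sum.inr ⟨i, h⟩
    have he : Function.Injective e := by
      intro a b hab
      by_cases ha : a = i0
      · by_cases hb : b = i0
        · rw [ha, hb]
        · simp [e, ha, hb] at hab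
      · by_cases hb : b = i0
        · simp [e, ha, hb] at hab
        · simpa [e, ha, hb] using hab
    have h5 := Packs.comp_inj hun e he
    have h6 : (fun k => Sum.elim (fun _ : Unit => r i0) (fun i : {i // i ≠ i0} => r i) (e k)) = r := by
      funext i
      by_cases hi : i = i0
      · simp [e, hi]
      · simp [e, hi]
    rw [h6] at h5
    exact h5

end Vale.Agent.P209.MM
end
end

section

section
namespace Vale.Agent.P209.V

open Vale.Agent.P209

/-! N1. The volume condition is necessary. -/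

/-- the symplectic form as a bilinear form -/
noncomputable def n1_B (n : ℕ) : LinearMap.BilinForm ℝ (Fin n → ℂ) :=
  LinearMap.mk₂ ℝ (fun v w : Fin n → ℂ => omega v w)
    (by
      intro v v' w
      simp only [omega, Pi.add_apply, Complex.add_re, Complex.add_im, ← Finset.sum_add_distrib]
      exact Finset.sum_congr rfl fun j _ => by ring)
    (by
      intro c v w
      simp only [omega, Pi.smul_apply, Complex.smul_re, Complex.smul_im, smul_eq_mul,
        Finset.mul_sum]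
      exact Finset.sum_congr rfl fun j _ => by ring)
    (by
      intro v w w'
      simp only [omega, Pi.add_apply, Complex.add_re, Complex.add_im, ← Finset.sum_add_distrib]
      exact Finset.sum_congr rfl fun j _ => by ring)
    (by
      intro c v w
      simp only [omega, Pi.smul_apply, Complex.smul_re, Complex.smul_im, smul_eq_mul,
        Finset.mul_sum]
      exact Finset.sum_congr rfl fun j _ => by ring)

theorem n1_B_apply {n : ℕ} (v w : Fin n → ℂ) : n1_B n v w = omega v w := rfl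

theorem n1_zero {n : ℕ} (v : Fin n → ℂ) (h : omega v (fun j => Complex.I * v j) = 0) : v = 0 := by
  have h1 : ∑ j, ((v j).re * (v j).re + (v j).im * (v j).im) = 0 := by
    rw [← h]
    refine Finset.sum_congr rfl fun j _ => ?_
    simp only [Complex.mul_re, Complex.mul_im, Complex.I_re, Complex.I_im]
    ring
  have h2 := (Finset.sum_eq_zero_iff_of_nonneg (fun j _ =>
    add_nonneg (mul_self_nonneg (v j).re) (mul_self_nonneg (v j).im))).1 h1
  funext j
  have h3 := h2 j (Finset.mem_univ j)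
  have h4 : (v j).re = 0 := by nlinarith only [h3]
  have h5 : (v j).im = 0 := by nlinarith only [h3]
  exact Complex.ext h4 h5

theorem n1_anti {n : ℕ} (v w : Fin n → ℂ) : omega v w = - omega w v := by
  simp only [omega, ← Finset.sum_neg_distrib]
  exact Finset.sum_congr rfl fun j _ => by ring

theorem n1_nondeg (n : ℕ) : (n1_B n).Nondegenerate := by
  constructor
  · intro v hv
    exact n1_zero v (hv _)
  · intro v hv
    refine n1_zero v ?_
    rw [n1_anti]
    have := hv (fun j => Complex.I * v j)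
    rw [n1_B_apply] at this
    rw [this, neg_zero]

/-- A real linear map preserving the symplectic form has determinant `±1`. -/
theorem abs_det_of_omega {n : ℕ} (A : (Fin n → ℂ) →L[ℝ] (Fin n → ℂ))
    (h : ∀ v w : Fin n → ℂ, omega (A v) (A w) = omega v w) : |A.det| = 1 := by
  classical
  let b := Module.finBasis ℝ (Fin n → ℂ)
  have h1 : (n1_B n).comp (A : (Fin n → ℂ) →ₗ[ℝ] (Fin n → ℂ)) (A : (Fin n → ℂ) →ₗ[ℝ] (Fin n → ℂ))
      = n1_B n := by
    refine LinearMap.ext fun v => LinearMap.ext fun w => ?_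
    exact h v w
  have h2 := LinearMap.BilinForm.toMatrix_comp b b (n1_B n)
    (A : (Fin n → ℂ) →ₗ[ℝ] (Fin n → ℂ)) (A : (Fin n → ℂ) →ₗ[ℝ] (Fin n → ℂ))
  rw [h1] at h2
  have h3 := congrArg Matrix.det h2
  rw [Matrix.det_mul, Matrix.det_mul, Matrix.det_transpose, LinearMap.det_toMatrix] at h3
  have h4 : (LinearMap.BilinForm.toMatrix b (n1_B n)).det ≠ 0 :=
    (LinearMap.BilinForm.nondegenerate_iff_det_ne_zero b).1 (n1_nondeg n)
  have h5 : A.det = LinearMap.det (A : (Fin n → ℂ) →ₗ[ℝ] (Fin n → ℂ)) := rfl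
  rw [← h5] at h3
  have h6 : A.det * A.det = 1 := by
    have h7 : (A.det * A.det - 1) * (LinearMap.BilinForm.toMatrix b (n1_B n)).det = 0 := by
      linear_combination -h3
    rcases mul_eq_zero.1 h7 with h8 | h8
    · linarith only [h8]
    · exact absurd h8 h4
  have h7 : |A.det| * |A.det| = 1 := by rw [← abs_mul, h6, abs_one]
  nlinarith only [h7, abs_nonneg A.det]

theorem n1_continuous (n : ℕ) : Continuous fun z : Fin n → ℂ => Real.pi * ∑ j, ‖z j‖ ^ 2 := by
  fun_prop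

theorem n1_isCompact (n : ℕ) (r : ℝ) : IsCompact (closedBall n r) := by
  refine Metric.isCompact_of_isClosed_isBounded ?_ ?_
  · exact isClosed_le (n1_continuous n) continuous_const
  · refine (Metric.isBounded_closedBall (x := (0 : Fin n → ℂ))
      (r := Real.sqrt (r / Real.pi))).subset ?_
    intro z hz
    rw [mem_closedBall_zero_iff, pi_norm_le_iff_of_nonneg (Real.sqrt_nonneg _)]
    intro j
    have h1 : Real.pi * ∑ j, ‖z j‖ ^ 2 ≤ r := hz
    have h2 : ‖z j‖ ^ 2 ≤ ∑ j, ‖z j‖ ^ 2 :=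
      Finset.single_le_sum (fun i _ => sq_nonneg ‖z i‖) (Finset.mem_univ j)
    apply Real.le_sqrt_of_sq_le
    rw [le_div_iff₀ Real.pi_pos]
    nlinarith only [h1, h2, Real.pi_pos]

open scoped Pointwise in
theorem n1_smul (n : ℕ) (r : ℝ) (hr : 0 < r) :
    closedBall n r = Real.sqrt r • closedBall n 1 := by
  have hs : 0 < Real.sqrt r := Real.sqrt_pos.2 hr
  ext z
  rw [Set.mem_smul_set_iff_inv_smul_mem₀ hs.ne']
  simp only [closedBall, Set.mem_setOf_eq, Pi.smul_apply, norm_smul, mul_pow, ← Finset.mul_sum]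
  have h1 : ‖(Real.sqrt r)⁻¹‖ ^ 2 = r⁻¹ := by
    rw [Real.norm_eq_abs, sq_abs, inv_pow, Real.sq_sqrt hr.le]
  rw [h1]
  have h2 : Real.pi * (r⁻¹ * ∑ j, ‖z j‖ ^ 2) = (Real.pi * ∑ j, ‖z j‖ ^ 2) / r := by
    field_simp
  rw [h2, div_le_one hr]

theorem volume_closedBall (n : ℕ) : ∃ C : ENNReal, C ≠ 0 ∧ C ≠ ⊤ ∧
    ∀ r : ℝ, 0 < r → MeasureTheory.volume (closedBall n r) = ENNReal.ofReal (r ^ n) * C := by
  refine ⟨MeasureTheory.volume (closedBall n 1), ?_, (n1_isCompact n 1).measure_ne_top, ?_⟩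
  · have ho : IsOpen {z : Fin n → ℂ | Real.pi * ∑ j, ‖z j‖ ^ 2 < 1} :=
      isOpen_lt (n1_continuous n) continuous_const
    have hne : {z : Fin n → ℂ | Real.pi * ∑ j, ‖z j‖ ^ 2 < 1}.Nonempty :=
      ⟨0, by simp only [Set.mem_ofPred_eq, Pi.zero_apply, norm_zero, ne_eq, OfNat.ofNat_ne_zero, not_false_eq_true, zero_pow, Finset.sum_const_zero, mul_zero, zero_lt_one]⟩
    have h1 := ho.measure_pos MeasureTheory.volume hne
    refine (h1.trans_le (MeasureTheory.measure_mono ?_)).ne'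
    intro z hz
    have h2 : Real.pi * ∑ j, ‖z j‖ ^ 2 < 1 := hz
    exact h2.le
  · intro r hr
    rw [n1_smul n r hr, MeasureTheory.Measure.addHaar_smul]
    congr 2
    have h1 : Module.finrank ℝ (Fin n → ℂ) = 2 * n := by
      rw [Module.finrank_pi_fintype]
      simp only [Complex.finrank_real_complex, Finset.sum_const, Finset.card_univ, Fintype.card_fin, smul_eq_mul, mul_comm]
    rw [h1, pow_mul, Real.sq_sqrt hr.le, abs_of_nonneg (by positivity)]

theorem n1_image {n : ℕ} {r : ℝ} {f : (Fin n → ℂ) → (Fin n → ℂ)}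
    (h : IsSymplecticEmbedding r f) :
    MeasureTheory.volume (f '' closedBall n r) = MeasureTheory.volume (closedBall n r) := by
  obtain ⟨U, hU, hsub, hsm, hemb, hom⟩ := h
  have hinj : Set.InjOn f (closedBall n r) := by
    intro z hz w hw hzw
    have h1 : (⟨z, hsub hz⟩ : U) = ⟨w, hsub hw⟩ := hemb.injective hzw
    exact congrArg Subtype.val h1
  have hd : ∀ z ∈ closedBall n r, HasFDerivWithinAt f (fderiv ℝ f z) (closedBall n r) z := by
    intro z hz
    have h1 : DifferentiableAt ℝ f z :=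
      (hsm.contDiffAt (hU.mem_nhds (hsub hz))).differentiableAt (by simp)
    exact h1.hasFDerivAt.hasFDerivWithinAt
  have hm : MeasurableSet (closedBall n r) := (n1_isCompact n r).isClosed.measurableSet
  rw [← MeasureTheory.lintegral_abs_det_fderiv_eq_addHaar_image MeasureTheory.volume hm hd hinj]
  have h2 : ∫⁻ z in closedBall n r, ENNReal.ofReal |(fderiv ℝ f z).det| =
      ∫⁻ z in closedBall n r, 1 := by
    refine MeasureTheory.setLIntegral_congr_fun hm ?_
    intro z hz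
    show ENNReal.ofReal |(fderiv ℝ f z).det| = 1
    rw [abs_det_of_omega _ (hom z (hsub hz)), ENNReal.ofReal_one]
  rw [h2, MeasureTheory.setLIntegral_one]

theorem volume_necessary (n k : ℕ) (hn : 1 ≤ n) (R : ℝ) (r : Fin k → ℝ) (hR : 0 < R)
    (hr : ∀ i, 0 < r i) (h : Packs (openBall n R) r) : ∑ i, r i ^ n < R ^ n := by
  obtain ⟨C, hC0, hCt, hC⟩ := volume_closedBall n
  obtain ⟨f, hf, hsub, hdis⟩ := h
  have hcomp : ∀ i, IsCompact (f i '' closedBall n (r i)) := by
    intro i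
    obtain ⟨U, hU, hs, hsm, -⟩ := hf i
    exact (n1_isCompact n (r i)).image_of_continuousOn (hsm.continuousOn.mono hs)
  have hK : IsCompact (⋃ i, f i '' closedBall n (r i)) := isCompact_iUnion hcomp
  have hKs : (⋃ i, f i '' closedBall n (r i)) ⊆ openBall n R := Set.iUnion_subset hsub
  obtain ⟨R', hR'0, hR', hKR⟩ : ∃ R' : ℝ, 0 < R' ∧ R' < R ∧
      (⋃ i, f i '' closedBall n (r i)) ⊆ closedBall n R' := by
    rcases Set.eq_empty_or_nonempty (⋃ i, f i '' closedBall n (r i)) with he | hne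
    · exact ⟨R / 2, by linarith only [hR], by linarith only [hR], by rw [he]; exact Set.empty_subset _⟩
    · obtain ⟨z, hz, hmax⟩ := hK.exists_isMaxOn hne (n1_continuous n).continuousOn
      have h1 : Real.pi * ∑ j, ‖z j‖ ^ 2 < R := hKs hz
      refine ⟨max (Real.pi * ∑ j, ‖z j‖ ^ 2) (R / 2), ?_, ?_, ?_⟩
      · exact lt_of_lt_of_le (by linarith only [hR]) (le_max_right _ _)
      · exact max_lt h1 (by linarith only [hR])
      · intro w hw
        have h2 : Real.pi * ∑ j, ‖w j‖ ^ 2 ≤ Real.pi * ∑ j, ‖z j‖ ^ 2 := hmax hw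
        exact h2.trans (le_max_left _ _)
  have h1 : MeasureTheory.volume (⋃ i, f i '' closedBall n (r i)) =
      ∑ i, MeasureTheory.volume (f i '' closedBall n (r i)) := by
    rw [MeasureTheory.measure_iUnion hdis (fun i => (hcomp i).isClosed.measurableSet),
      tsum_fintype]
  have h2 : ∑ i, ENNReal.ofReal (r i ^ n) * C ≤ ENNReal.ofReal (R' ^ n) * C := by
    calc ∑ i, ENNReal.ofReal (r i ^ n) * C
        = MeasureTheory.volume (⋃ i, f i '' closedBall n (r i)) := by
          rw [h1]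
          exact Finset.sum_congr rfl fun i _ => by rw [n1_image (hf i), hC _ (hr i)]
      _ ≤ MeasureTheory.volume (closedBall n R') := MeasureTheory.measure_mono hKR
      _ = _ := hC R' hR'0
  rw [← Finset.sum_mul, ENNReal.mul_le_mul_iff_left hC0 hCt,
    ← ENNReal.ofReal_sum_of_nonneg (fun i _ => by have := hr i; positivity),
    ENNReal.ofReal_le_ofReal_iff (by positivity)] at h2
  exact h2.trans_lt (pow_lt_pow_left₀ hR' hR'0.le (by omega))

end Vale.Agent.P209.V
end
end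

section

section
namespace Vale.Agent.P209.V

open Vale.Agent.P209

theorem main :
    (∀ n : ℕ, 2 ≤ n → ∃ ε : ℝ, 0 < ε ∧ ∀ (k : ℕ) (R : ℝ) (r : Fin k → ℝ), 0 < R →
      (∀ i, 0 < r i ∧ r i ≤ ε * R) → (Packs (openBall n R) r ↔ ∑ i, r i ^ n < R ^ n)) ∧
    (∀ (n k : ℕ), 1 ≤ n → 1 ≤ k → k ≤ 2 ^ n → ∀ (R : ℝ) (r : Fin k → ℝ), 0 < R →
      (∀ i, 0 < r i) → ∑ i, r i ^ n < R ^ n → (∀ i j, i < j → r i + r j < R) →
      Packs (openBall n R) r) ∧
    (∀ n : ℕ, 2 ≤ n → ∃ ε : ℝ, 0 < ε ∧ ∀ (k : ℕ) (R : ℝ) (r : Fin k → ℝ), 0 < R →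
      (∀ i, 0 < r i) → ∑ i, r i ^ n < R ^ n → (∀ i j, i < j → r i + r j < R) →
      ∀ (i0 : Fin k) (B : Finset (Fin k)), (∀ i, r i ≤ r i0) →
      (B.card : ℝ) ≤ n + (ε * R / (R - r i0)) ^ (n - 1) →
      ∑ i with i ≠ i0 ∧ i ∉ B ∧ ε * (R - r i0) < r i, r i ^ n ≤ ε * (R ^ n - r i0 ^ n) →
      Packs (openBall n R) r) ∧
    (∀ (n k : ℕ), 1 ≤ n → ∀ (R : ℝ) (r : Fin k → ℝ), 0 < R → (∀ i, 0 < r i) →
      2 ^ (n - 1) * ∑ i, r i ^ n < R ^ n → Packs (openBall n R) r) ∧
    (∀ n : ℕ, 2 ≤ n → ∀ γ : ℝ, 0 < γ → ∃ ε : ℝ, 0 < ε ∧ ∀ (k : ℕ) (R : ℝ) (r : Fin k → ℝ),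
      0 < R → (∀ i, 0 < r i) → 2 ^ (n - 1) * ∑ i with ε * R < r i, r i ^ n ≤ (1 - γ) * R ^ n →
      ∑ i, r i ^ n < R ^ n → Packs (openBall n R) r) ∧
    (∀ (n m j k K : ℕ) (R L : ℝ) (r : ℕ → ℝ), 1 ≤ n → j ≤ m → Antitone r → (∀ i, 0 ≤ r i) →
      (∀ i, i < k → 0 < r i) → K = m ^ n - j ^ n + 1 →
      L = max (r 0) (j * r 1) + ∑ q ∈ Finset.Ico j m, r (q ^ n - j ^ n + 1) → L < R →
      (K < k → L ^ n + ∑ i ∈ Finset.Ico (K + 1) k, r i ^ n < (R - r K) ^ n) →
      Packs (openBall n R) (fun i : Fin k => r i)) ∧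
    (∀ n : ℕ, 2 ≤ n → ∀ γ : ℝ, 0 < γ → ∃ ε : ℝ, 0 < ε ∧
      ∀ (m j M k K : ℕ) (R L : ℝ) (r : ℕ → ℝ), 0 < R → j ≤ m → Antitone r → (∀ i, 0 ≤ r i) →
      (∀ i, i < k → 0 < r i) → K = m ^ n - j ^ n + 1 →
      L = max (r 0) (j * r 1) + ∑ q ∈ Finset.Ico j m, r (q ^ n - j ^ n + 1) →
      L ≤ (1 - γ) * R →
      (K < M → L ^ n + ∑ i ∈ Finset.Ico (K + 1) M, r i ^ n ≤ ((1 - γ) * R - r K) ^ n) →
      r M ≤ ε * R → ∑ i ∈ Finset.range k, r i ^ n < R ^ n →
      Packs (openBall n R) (fun i : Fin k => r i)) ∧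
    (∀ (n k : ℕ), 3 ≤ n → ∀ (R : ℝ) (r : Fin k → ℝ), 0 < R → (∀ i, 0 < r i) →
      ∑ i, r i ^ n < R ^ n → (∀ i j, i < j → r i + r j < R) → ∀ i0 : Fin k, (∀ i, r i ≤ r i0) →
      3 ^ n * ∑ i with i ≠ i0, r i ^ n ≤ R ^ n - r i0 ^ n → Packs (openBall n R) r) ∧
    (∀ n : ℕ, 2 ≤ n → ∃ C q : ℝ, 0 < C ∧ 0 < q ∧ q < 1 ∧ ∀ k : ℕ,
      MeasureTheory.volume {r : Fin k → ℝ | ((∀ i, 0 < r i) ∧ ∑ i, r i ^ n < 1 ∧
        ∀ i j, i < j → r i + r j < 1) ∧ ¬ Packs (openBall n 1) r} ≤
      ENNReal.ofReal (C * q ^ k) * MeasureTheory.volume {r : Fin k → ℝ | (∀ i, 0 < r i) ∧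
        ∑ i, r i ^ n < 1 ∧ ∀ i j, i < j → r i + r j < 1}) := by
  refine ⟨?_, ?_, ?_, ?_, ?_, ?_, ?_, ?_, ?_⟩
  · intro n hn
    obtain ⟨ε, hε, h⟩ := Vale.Agent.P209.Strong.strong_stability n hn
    exact ⟨ε, hε, fun k R r hR hr => ⟨fun hp => volume_necessary n k (by omega) R r hR
      (fun i => (hr i).1) hp, fun hvol => h (Fin k) R r hR hr hvol⟩⟩
  · intro n k hn hk hk2 R r hR hr hvol hpair
    exact packs_small n k hn hk2 R r hR hr hvol hpair
  · intro n hn
    obtain ⟨ε, hε, h⟩ := Vale.Agent.P209.Strong.mid_stability_many n hn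
    exact ⟨ε, hε, fun k R r hR hr hvol hpair i0 B hmax hB hmid =>
      h k R r i0 B hR hr hvol hpair hmax hB hmid⟩
  · intro n k hn R r hR hr hvol
    exact Vale.Agent.P209.MM.packs_volume n k hn R r hR hr hvol
  · intro n hn γ hγ
    exact Vale.Agent.P209.MM.relative_volume n hn γ hγ
  · intro n m j k K R L r hn hj hr hr0 hpos hK hL hLR hvol
    subst hK hL
    exact Vale.Agent.P209.MM.packs_mm n m j k hn hj R r hr hr0 hpos hLR hvol
  · intro n hn γ hγ
    obtain ⟨ε, hε, h⟩ := Vale.Agent.P209.MM.relative_mm_free n hn γ hγ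
    refine ⟨ε, hε, fun m j M k K R L r hR hj hr hr0 hpos hK hL hLR hvol hM hV => ?_⟩
    subst hK hL
    exact h m j M k R r hj hr hr0 hpos hR hLR hvol hM hV
  · intro n k hn R r hR hr hsum hpair i0 hmax hvol
    have hlt : r i0 < R := by
      have h1 : r i0 ^ n ≤ ∑ i, r i ^ n :=
        Finset.single_le_sum (f := fun i => r i ^ n) (fun i _ => pow_nonneg (hr i).le n)
          (Finset.mem_univ i0)
      exact lt_of_pow_lt_pow_left₀ n hR.le (h1.trans_lt hsum)
    refine Vale.Agent.P209.MM.packs_around_volume n k hn R r i0 hR hr hmax hlt ?_ (by linarith only [hvol])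
    intro i hi
    rcases lt_or_gt_of_ne hi with h1 | h1
    · exact hpair i i0 h1
    · have := hpair i0 i h1
      linarith only [this]
  · intro n hn
    obtain ⟨ε, hε, h⟩ := Vale.Agent.P209.Strong.strong_stability n hn
    obtain ⟨C, q, hC, hq0, hq1, hV⟩ := Vale.Agent.P209.Strong.PR_large n (by omega)
      (min ε (1 / 2)) (lt_min hε (by norm_num)) ((min_le_right _ _).trans_lt (by norm_num))
    refine ⟨C, q, hC, hq0, hq1, fun k => le_trans (MeasureTheory.measure_mono ?_) (hV k)⟩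
    rintro r ⟨hr, hnot⟩
    refine ⟨hr, ?_⟩
    by_contra hcon
    push Not at hcon
    refine hnot (h (Fin k) 1 r one_pos (fun i => ⟨hr.1 i, ?_⟩) ?_)
    · rw [mul_one]
      exact (hcon i).trans (min_le_left _ _)
    · rw [one_pow]
      exact hr.2.1

end Vale.Agent.P209.V
end
end
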