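import Vale.Agent.P209.Bdl.B1

set_option linter.all false

section


namespace Vale.Agent.P209.MM

open Vale.Agent.P209 Vale.Agent.P209.Strong

/-! X1. Ordered packings: substitution of a family in a cell with trivial permutation. -/

theorem x1_subst {n : ℕ} {α κ : Type} [Finite κ] {σ : α → Equiv.Perm (Fin (n + 1))}
    {b : α → Fin (n + 1) → ℝ} {key : α → ℕ} {a : α → ℝ} {Ω : Set (Fin (n + 1) → ℝ)}
    (h1 : ∀ i, cell (σ i) (b i) (a i) ⊆ Ω)
    (h2 : ∀ i j, i ≠ j → key i ≤ key j → ∀ y ∈ cell (σ i) (b i) (a i),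
      ∀ y' ∈ cell (σ j) (b j) (a j),
      (∀ k : Fin (n + 1), (k : ℕ) < n → y k = y' k) → y (Fin.last n) < y' (Fin.last n))
    (x0 : α) (hσ : σ x0 = 1) {c : κ → ℝ} (hc : OPackIn n c (tri (n + 1) (a x0))) :
    OPackIn n (Sum.elim c (fun x : {x : α // x ≠ x0} => a x)) Ω := by
  obtain ⟨τ, β, kc, p1, p2⟩ := hc
  obtain ⟨K, hK⟩ := (Set.finite_range kc).bddAbove
  have hK' : ∀ i, kc i ≤ K := fun i => hK ⟨i, rfl⟩
  have hmem : ∀ i (y : Fin (n + 1) → ℝ),
      y ∈ cell (τ i) (fun l => b x0 (τ i l) + β i l) (c i) →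
      (fun l => y l - b x0 l) ∈ cell (τ i) (β i) (c i) := by
    intro i y hy
    unfold cell at hy ⊢
    simp only [Set.mem_setOf_eq] at hy ⊢
    have e : (fun l => y (τ i l) - (b x0 (τ i l) + β i l)) =
        fun l => y (τ i l) - b x0 (τ i l) - β i l := by
      funext l; ring
    rw [e] at hy
    exact hy
  have hbig : ∀ i (y : Fin (n + 1) → ℝ),
      y ∈ cell (τ i) (fun l => b x0 (τ i l) + β i l) (c i) →
      y ∈ cell (σ x0) (b x0) (a x0) := by
    intro i y hy
    have h3 := p1 i (hmem i y hy)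
    rw [hσ]
    exact h3
  refine ⟨Sum.elim τ (fun x => σ x), Sum.elim (fun i l => b x0 (τ i l) + β i l) (fun x => b x),
    Sum.elim (fun i => key x0 * (K + 1) + kc i) (fun x => key x * (K + 1)), ?_, ?_⟩
  · rintro (i | x)
    · intro y hy
      exact h1 x0 (hbig i y hy)
    · exact h1 x
  · rintro (i | x) (j | x') hne hk y hy y' hy' hyy
    · have hne' : i ≠ j := fun h => hne (by rw [h])
      have hk' : kc i ≤ kc j := by
        simp only [Sum.elim_inl] at hk
        omega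
      have h3 := p2 i j hne' hk' _ (hmem i y hy) _ (hmem j y' hy') (fun l hl => by rw [hyy l hl])
      linarith
    · simp only [Sum.elim_inl, Sum.elim_inr] at hk
      have hk' : key x0 ≤ key x' := by
        have h4 : key x0 * (K + 1) ≤ key x' * (K + 1) := by omega
        exact Nat.le_of_mul_le_mul_right h4 (Nat.succ_pos K)
      exact h2 x0 x' (Ne.symm x'.2) hk' y (hbig i y hy) y' hy' hyy
    · simp only [Sum.elim_inl, Sum.elim_inr] at hk
      have hk' : key x ≤ key x0 := by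
        by_contra hcon
        push Not at hcon
        have h4 : (key x0 + 1) * (K + 1) ≤ key x * (K + 1) := Nat.mul_le_mul_right _ hcon
        have h5 := hK' j
        rw [Nat.add_mul, Nat.one_mul] at h4
        omega
      exact h2 x x0 x.2 hk' y hy y' (hbig j y' hy') hyy
    · have hne' : (x : α) ≠ x' := fun h => hne (by rw [Subtype.ext h])
      simp only [Sum.elim_inr] at hk
      have hk' : key x ≤ key x' := Nat.le_of_mul_le_mul_right hk (Nat.succ_pos K)
      exact h2 x x' hne' hk' y hy y' hy' hyy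

/-- `layers_opack` with its permutations. -/
theorem x1_layers (d m j : ℕ) (hj : j ≤ m) (T : ℝ) (S : ℕ → ℝ) (hT : 0 < T)
    (hS : ∀ q, j ≤ q → q < m → 0 < S q)
    (hanti : ∀ q q', j ≤ q → q ≤ q' → q' < m → S q' ≤ S q) (hjS : j < m → (j : ℝ) * S j ≤ T)
    {R : ℝ} (hsum : T + ∑ q ∈ Finset.Ico j m, S q ≤ R) :
    ∃ (b : Option {w : Fin (d + 1) → Fin m // ∃ i, j ≤ (w i : ℕ)} → Fin (d + 1) → ℝ)
      (key : Option {w : Fin (d + 1) → Fin m // ∃ i, j ≤ (w i : ℕ)} → ℕ),
      (∀ x, cell (x.elim 1 (fun w => rnk w.1)) (b x) (x.elim T (fun w => S (mx w.1))) ⊆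
        tri (d + 1) R) ∧
      ∀ x x', x ≠ x' → key x ≤ key x' →
        ∀ y ∈ cell (x.elim 1 (fun w => rnk w.1)) (b x) (x.elim T (fun w => S (mx w.1))),
        ∀ y' ∈ cell (x'.elim 1 (fun w => rnk w.1)) (b x') (x'.elim T (fun w => S (mx w.1))),
        (∀ k : Fin (d + 1), (k : ℕ) < d → y k = y' k) → y (Fin.last d) < y' (Fin.last d) := by
  obtain ⟨η, hη, hηT, hηS⟩ := q7_exists_eta m j T S hT hS
  have hSsum : 0 ≤ ∑ q ∈ Finset.Ico j m, S q := by
    refine Finset.sum_nonneg fun i hi => ?_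
    rw [Finset.mem_Ico] at hi
    exact (hS i hi.1 hi.2).le
  have hTR : T ≤ R := by linarith
  have hgap : ∀ q, j ≤ q → q < m → ∀ c c' : Fin m, c < c' →
      k10_off j T S q c + S q ≤ k10_off j T S q c' := by
    intro q h1 h2 c c' hcc
    exact k10_gap hη hηS hanti hjS h1 h2 (Fin.lt_def.1 hcc)
  have hmxj : ∀ w : {w : Fin (d + 1) → Fin m // ∃ i, j ≤ (w i : ℕ)}, j ≤ mx w.1 := by
    rintro ⟨w, i, hi⟩
    exact hi.trans (k10_le_mx w i)
  have hmxm : ∀ w : {w : Fin (d + 1) → Fin m // ∃ i, j ≤ (w i : ℕ)}, mx w.1 < m :=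
    fun w => k10_mx_lt w.1
  have hlo : ∀ (w : {w : Fin (d + 1) → Fin m // ∃ i, j ≤ (w i : ℕ)}) (y : Fin (d + 1) → ℝ),
      y ∈ wcell w.1 (fun c => k10_off j T S (mx w.1) c) (S (mx w.1)) →
        k10_off j T S (mx w.1) (mx w.1) < y (Fin.last d) ∧
          y (Fin.last d) < k10_off j T S (mx w.1) (mx w.1) + S (mx w.1) := by
    intro w y hy
    have h1 := wcell_mem' hy (Fin.last d)
    rw [← mx_eq] at h1
    exact h1
  refine ⟨fun x => x.elim 0 (fun w i => k10_off j T S (mx w.1) (w.1 i)),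
    fun x => x.elim 0 (fun w => 1 + (mx w.1) * (d + 2) + (Tuple.sort w.1 (Fin.last d) : ℕ)),
    ?_, ?_⟩
  · rintro (_ | w) y hy
    · exact tri_mono hTR ((k10_cell_one T y).1 hy)
    · have h1 : y ∈ wcell w.1 (fun c => k10_off j T S (mx w.1) c) (S (mx w.1)) := hy
      refine ⟨?_, wcell_strictMono (hgap _ (hmxj w) (hmxm w)) h1, ?_⟩
      · intro i
        have h2 := wcell_mem' h1 i
        exact lt_of_le_of_lt (k10_nonneg hη hηT hηS (hmxj w) (hmxm w)) h2.1
      · intro i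
        have h3 := (hlo w _ h1).2
        have h4 : y i ≤ y (Fin.last d) :=
          (wcell_strictMono (hgap _ (hmxj w) (hmxm w)) h1).monotone (Fin.le_last i)
        have h5 := k10_top (T := T) hη hηS (hmxj w) (hmxm w) le_rfl
        linarith
  · rintro (_ | w) (_ | w') hne hk y hy y' hy' hab
    · exact absurd rfl hne
    · have h0 : y' ∈ wcell w'.1 (fun c => k10_off j T S (mx w'.1) c) (S (mx w'.1)) := hy'
      have h1 := ((k10_cell_one T y).1 hy).2.2 (Fin.last d)
      have h2 := (hlo w' _ h0).1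
      have h3 := k10_ge (T := T) (c := mx w'.1) hη hηS (hmxj w') (hmxm w') (hmxj w')
      linarith
    · simp only [Option.elim_some, Option.elim_none] at hk
      omega
    · have h1 : y ∈ wcell w.1 (fun c => k10_off j T S (mx w.1) c) (S (mx w.1)) := hy
      have h2 : y' ∈ wcell w'.1 (fun c => k10_off j T S (mx w'.1) c) (S (mx w'.1)) := hy'
      simp only [Option.elim_some] at hk
      have hp : (Tuple.sort w.1 (Fin.last d) : ℕ) < d + 1 := Fin.is_lt _
      have hp' : (Tuple.sort w'.1 (Fin.last d) : ℕ) < d + 1 := Fin.is_lt _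
      have hle : mx w.1 ≤ mx w'.1 := by
        by_contra hcon
        have h1 : (mx w'.1 + 1) * (d + 2) ≤ mx w.1 * (d + 2) :=
          Nat.mul_le_mul_right _ (by omega)
        rw [Nat.add_mul, Nat.one_mul] at h1
        omega
      rcases hle.lt_or_eq with hlt | heq
      · have h3 := (hlo w _ h1).2
        have h4 := (hlo w' _ h2).1
        have h5 := k10_top (T := T) hη hηS (hmxj w) hlt (hmxm w').le
        rw [k10_off_eq T S (hmxj w') le_rfl] at h4
        linarith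
      · rw [← heq] at h2
        refine wcell_order (hgap _ (hmxj w) (hmxm w)) h1 h2 hab heq ?_ ?_
        · rw [Fin.le_def]
          rw [heq] at hk
          omega
        · intro hww
          exact hne (congrArg some (Subtype.ext hww))

/-- A family at the bottom and `2 ^ (d + 1) - 1` further balls. -/
theorem x1_bottom (d : ℕ) {κ : Type} [Finite κ] (c : κ → ℝ) {T S R : ℝ} (hS : 0 < S)
    (hST : S ≤ T) (hR : T + S ≤ R) (hc : OPackIn d c (tri (d + 1) T)) (x : ℕ → ℝ)
    (hx : ∀ i, x i ≤ S) :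
    OPackIn d (Sum.elim c (fun i : Fin (2 ^ (d + 1) - 1) => x i)) (tri (d + 1) R) := by
  obtain ⟨e, he, -⟩ := words_enum (d + 1) 2 1 (by norm_num)
  obtain ⟨b, key, h1, h2⟩ := x1_layers d 2 1 (by norm_num) T (fun _ => S) (by linarith)
    (fun _ _ _ => hS) (fun _ _ _ _ _ => le_rfl) (fun _ => by simpa using hST) (R := R)
    (by simpa using hR)
  have h3 := x1_subst h1 h2 none rfl (c := c) hc
  have hN : 2 ^ (d + 1) - 1 ≤ 2 ^ (d + 1) - 1 ^ (d + 1) := by rw [one_pow]
  have hf : Function.Injective (Sum.map id (fun i : Fin (2 ^ (d + 1) - 1) =>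
      (⟨some (e (Fin.castLE hN i)), by simp⟩ :
        {x : Option {w : Fin (d + 1) → Fin 2 // ∃ i, 1 ≤ (w i : ℕ)} // x ≠ none})) :
      κ ⊕ Fin (2 ^ (d + 1) - 1) → _) := by
    refine Sum.map_injective.2 ⟨Function.injective_id, ?_⟩
    intro i i' h
    have h4 := Option.some_injective _ (congrArg Subtype.val h)
    exact Fin.castLE_injective hN (he h4)
  refine (h3.comp hf).mono ?_ subset_rfl
  rintro (i | i)
  · exact le_rfl
  · exact hx _

/-- A family at the top and one ball at the bottom. -/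
theorem x1_top (d : ℕ) {κ : Type} [Finite κ] (c : κ → ℝ) {T S R : ℝ} (hS : 0 < S)
    (hST : S ≤ T) (hR : T + S ≤ R) (hc : OPackIn d c (tri (d + 1) S)) (x : ℕ → ℝ)
    (hx0 : x 0 ≤ T) (hx : ∀ i, 1 ≤ i → x i ≤ S) :
    OPackIn d (Sum.elim c (fun i : Fin (2 ^ (d + 1) - 1) => x i)) (tri (d + 1) R) := by
  classical
  obtain ⟨e, he, -⟩ := words_enum (d + 1) 2 1 (by norm_num)
  obtain ⟨b, key, h1, h2⟩ := x1_layers d 2 1 (by norm_num) T (fun _ => S) (by linarith)
    (fun _ _ _ => hS) (fun _ _ _ _ _ => le_rfl) (fun _ => by simpa using hST) (R := R)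
    (by simpa using hR)
  obtain ⟨w1, hw1⟩ : ∃ w1 : {w : Fin (d + 1) → Fin 2 // ∃ i, 1 ≤ (w i : ℕ)},
      w1 = ⟨fun _ => 1, ⟨0, le_rfl⟩⟩ := ⟨_, rfl⟩
  have hrnk : rnk w1.1 = 1 := by
    have h4 : Monotone w1.1 := by
      rw [hw1]
      exact monotone_const
    have h5 := Tuple.sort_eq_refl_iff_monotone.2 h4
    unfold rnk
    rw [h5]
    rfl
  have h3 := x1_subst h1 h2 (some w1) (by simpa using hrnk) (c := c) hc
  have hN : 2 ^ (d + 1) - 1 ≤ 2 ^ (d + 1) - 1 ^ (d + 1) := by rw [one_pow]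
  have hN0 : 0 < 2 ^ (d + 1) - 1 ^ (d + 1) := by
    rw [one_pow]
    have : 2 ^ 1 ≤ 2 ^ (d + 1) := Nat.pow_le_pow_right (by norm_num) (by omega)
    omega
  let g : Fin (2 ^ (d + 1) - 1) → Option {w : Fin (d + 1) → Fin 2 // ∃ i, 1 ≤ (w i : ℕ)} :=
    fun i => if (i : ℕ) = 0 then none else
      if e (Fin.castLE hN i) = w1 then some (e ⟨0, hN0⟩) else some (e (Fin.castLE hN i))
  have hne0 : ∀ i : Fin (2 ^ (d + 1) - 1), (i : ℕ) ≠ 0 →
      e (Fin.castLE hN i) ≠ e ⟨0, hN0⟩ := by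
    intro i hi h
    have h4 := congrArg Fin.val (he h)
    exact hi h4
  have hgw : ∀ i, g i ≠ some w1 := by
    intro i
    by_cases hi : (i : ℕ) = 0
    · simp [g, hi]
    · by_cases hi2 : e (Fin.castLE hN i) = w1
      · simp only [g, if_neg hi, if_pos hi2, ne_eq, Option.some.injEq]
        rw [← hi2]
        exact fun h => hne0 i hi h.symm
      · simp only [g, if_neg hi, if_neg hi2, ne_eq, Option.some.injEq]
        exact hi2
  have hginj : Function.Injective g := by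
    intro i i' h
    by_cases hi : (i : ℕ) = 0 <;> by_cases hi' : (i' : ℕ) = 0
    · exact Fin.ext (hi.trans hi'.symm)
    · exfalso
      simp only [g, if_pos hi, if_neg hi'] at h
      split_ifs at h
    · exfalso
      simp only [g, if_neg hi, if_pos hi'] at h
      split_ifs at h
    · simp only [g, if_neg hi, if_neg hi'] at h
      split_ifs at h with h4 h5 h5
      · exact Fin.castLE_injective hN (he (h4.trans h5.symm))
      · exact absurd (Option.some_injective _ h).symm (hne0 i' hi')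
      · exact absurd (Option.some_injective _ h) (hne0 i hi)
      · exact Fin.castLE_injective hN (he (Option.some_injective _ h))
  have hf : Function.Injective (Sum.map id (fun i : Fin (2 ^ (d + 1) - 1) =>
      (⟨g i, hgw i⟩ :
        {x : Option {w : Fin (d + 1) → Fin 2 // ∃ i, 1 ≤ (w i : ℕ)} // x ≠ some w1})) :
      κ ⊕ Fin (2 ^ (d + 1) - 1) → _) := by
    refine Sum.map_injective.2 ⟨Function.injective_id, ?_⟩
    intro i i' h
    exact hginj (congrArg Subtype.val h)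
  refine (h3.comp hf).mono ?_ subset_rfl
  rintro (i | i)
  · exact le_rfl
  · simp only [Sum.elim_inr, Sum.map_inr]
    by_cases hi : (i : ℕ) = 0
    · simp only [g, hi, if_true, Option.elim_none]
      exact hx0
    · have h4 : x i ≤ S := hx _ (by omega)
      simp only [g, if_neg hi]
      split_ifs
      · exact h4
      · exact h4

end Vale.Agent.P209.MM

end

section


namespace Vale.Agent.P209.MM

open Vale.Agent.P209 Vale.Agent.P209.Strong

/-! X2. The chain criterion. -/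

/-- One level of the chain. -/
theorem x2_step (d k : ℕ) (R : ℝ) (r : ℕ → ℝ) (hr : Antitone r) (hr0 : ∀ i, 0 ≤ r i)
    (h1 : 0 < r 1) (h01 : r 0 + r 1 ≤ R)
    (hc : OPackIn d (fun i : Fin (k - (2 ^ (d + 1) - 1)) => r (2 ^ (d + 1) - 1 + i))
      (tri (d + 1) (R - r 0))) :
    OPackIn d (fun i : Fin k => r i) (tri (d + 1) R) := by
  obtain ⟨N, hN⟩ : ∃ N, 2 ^ (d + 1) - 1 = N := ⟨_, rfl⟩
  have h00 : 0 < r 0 := lt_of_lt_of_le h1 (hr (by norm_num))
  have key : OPackIn d (Sum.elim (fun i : Fin (k - (2 ^ (d + 1) - 1)) => r (2 ^ (d + 1) - 1 + i))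
      (fun i : Fin (2 ^ (d + 1) - 1) => r i)) (tri (d + 1) R) := by
    rcases le_total (r 0) (R - r 0) with h | h
    · exact x1_bottom d _ h00 h (by linarith) hc r (fun i => hr (Nat.zero_le i))
    · exact x1_top d _ (S := R - r 0) (T := r 0) (by linarith) h (by linarith) hc r le_rfl
        (fun i hi => (hr hi).trans (by linarith))
  rw [hN] at key
  let f : Fin k → Fin (k - N) ⊕ Fin N := fun i =>
    if h : (i : ℕ) < N then Sum.inr ⟨i, h⟩ else Sum.inl ⟨i - N, by omega⟩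
  have hf : Function.Injective f := by
    intro a b hab
    by_cases ha : (a : ℕ) < N <;> by_cases hb : (b : ℕ) < N
    · simp only [f, ha, hb, dif_pos, Sum.inr.injEq, Fin.mk.injEq] at hab
      exact Fin.ext hab
    · simp [f, ha, hb] at hab
    · simp [f, ha, hb] at hab
    · simp only [f, ha, hb, dif_neg, not_false_eq_true, Sum.inl.injEq, Fin.mk.injEq] at hab
      exact Fin.ext (by omega)
  refine (key.comp hf).mono (fun i => ?_) subset_rfl
  by_cases hi : (i : ℕ) < N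
  · simp only [f, dif_pos hi, Sum.elim_inr]
    exact le_rfl
  · simp only [f, dif_neg hi, Sum.elim_inl]
    rw [Nat.add_sub_cancel' (not_lt.1 hi)]

/-- `p` levels of the chain, and a packing of the remaining balls. -/
theorem x2_chain (d : ℕ) : ∀ (p k : ℕ) (R : ℝ) (r : ℕ → ℝ), Antitone r → (∀ i, 0 ≤ r i) →
    (∀ i, i < k → 0 < r i) → (1 ≤ k → r 0 ≤ R) →
    (∀ q, q < p → q * (2 ^ (d + 1) - 1) + 1 < k →
      ∑ i ∈ Finset.range (q + 1), r (i * (2 ^ (d + 1) - 1)) +
        r (q * (2 ^ (d + 1) - 1) + 1) ≤ R) →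
    (p * (2 ^ (d + 1) - 1) < k →
      OPackIn d (fun i : Fin (k - p * (2 ^ (d + 1) - 1)) => r (p * (2 ^ (d + 1) - 1) + i))
        (tri (d + 1) (R - ∑ i ∈ Finset.range p, r (i * (2 ^ (d + 1) - 1))))) →
    OPackIn d (fun i : Fin k => r i) (tri (d + 1) R) := by
  intro p
  induction p with
  | zero =>
    intro k R r hr hr0 hpos h0 hq htail
    rcases Nat.eq_zero_or_pos k with rfl | hk
    · exact OPackIn.empty
    have h1 := htail (by simpa using hk)
    have hf : Function.Injective (fun i : Fin k =>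
        (⟨(i : ℕ), by simpa using i.2⟩ : Fin (k - 0 * (2 ^ (d + 1) - 1)))) := by
      intro a b hab
      exact Fin.ext (by simpa using hab)
    refine (h1.comp hf).mono (fun i => ?_) (tri_mono (by simp))
    simp
  | succ p ih =>
    intro k R r hr hr0 hpos h0 hq htail
    have h2N : 2 ^ 1 ≤ 2 ^ (d + 1) := Nat.pow_le_pow_right (by norm_num) (by omega)
    generalize hN : 2 ^ (d + 1) - 1 = N at *
    have hN1 : 1 ≤ N := by omega
    rcases Nat.lt_or_ge k 2 with hk | hk
    · rcases Nat.eq_zero_or_pos k with rfl | hk0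
      · exact OPackIn.empty
      · have hk1 : k = 1 := by omega
        subst hk1
        refine ⟨fun _ => 1, fun _ => 0, fun _ => 0, ?_, ?_⟩
        · intro i y hy
          have h3 : (i : ℕ) = 0 := by omega
          simp only [h3] at hy
          exact tri_mono (h0 le_rfl) ((k10_cell_one (r 0) y).1 hy)
        · intro i j hij
          exact absurd (Subsingleton.elim i j) hij
    · have h01 : r 0 + r 1 ≤ R := by
        have h3 := hq 0 (Nat.succ_pos p) (by omega)
        simpa using h3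
      have h1 : 0 < r 1 := hpos 1 (by omega)
      have key := ih (k - N) (R - r 0) (fun i => r (N + i))
        (fun a b hab => hr (Nat.add_le_add_left hab N)) (fun i => hr0 _)
        (fun i hi => hpos _ (by omega))
        (fun _ => by
          have h3 : r (N + 0) ≤ r 1 := hr (by omega)
          linarith)
        (by
          intro q hqp hqk
          have h3 := hq (q + 1) (by omega) (by
            rw [Nat.add_mul, Nat.one_mul]
            omega)
          rw [Finset.sum_range_succ'] at h3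
          have e1 : ∑ i ∈ Finset.range (q + 1), r (N + i * N) =
              ∑ i ∈ Finset.range (q + 1), r ((i + 1) * N) := by
            refine Finset.sum_congr rfl fun i _ => ?_
            congr 1
            ring
          have e2 : r (N + (q * N + 1)) = r ((q + 1) * N + 1) := by
            congr 1
            ring
          rw [e1, e2]
          simp only [Nat.zero_mul] at h3
          linarith)
        (by
          intro hpk
          have h3 := htail (by
            rw [Nat.add_mul, Nat.one_mul]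
            omega)
          have hf : Function.Injective (fun i : Fin (k - N - p * N) =>
              (⟨(i : ℕ), by
                have := i.2
                rw [Nat.add_mul, Nat.one_mul]
                omega⟩ : Fin (k - (p + 1) * N))) := by
            intro a b hab
            exact Fin.ext (by simpa using hab)
          refine (h3.comp hf).mono (fun i => ?_) (tri_mono ?_)
          · have e3 : N + (p * N + (i : ℕ)) = (p + 1) * N + i := by ring
            rw [e3]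
          · rw [Finset.sum_range_succ']
            have e1 : ∑ i ∈ Finset.range p, r (N + i * N) =
                ∑ i ∈ Finset.range p, r ((i + 1) * N) := by
              refine Finset.sum_congr rfl fun i _ => ?_
              congr 1
              ring
            rw [e1]
            simp only [Nat.zero_mul]
            linarith)
      subst hN
      exact x2_step d k R r hr hr0 h1 h01 key

/-- The chain criterion for all balls. -/
theorem x2_pure (d k : ℕ) (R : ℝ) (r : ℕ → ℝ) (hr : Antitone r) (hr0 : ∀ i, 0 ≤ r i)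
    (hpos : ∀ i, i < k → 0 < r i) (h0 : 1 ≤ k → r 0 ≤ R)
    (hq : ∀ q, q * (2 ^ (d + 1) - 1) + 1 < k →
      ∑ i ∈ Finset.range (q + 1), r (i * (2 ^ (d + 1) - 1)) +
        r (q * (2 ^ (d + 1) - 1) + 1) ≤ R) :
    OPackIn d (fun i : Fin k => r i) (tri (d + 1) R) := by
  refine x2_chain d k k R r hr hr0 hpos h0 (fun q _ h => hq q h) fun hk => ?_
  exfalso
  have h2N : 2 ^ 1 ≤ 2 ^ (d + 1) := Nat.pow_le_pow_right (by norm_num) (by omega)
  have h3 : k * 1 ≤ k * (2 ^ (d + 1) - 1) := Nat.mul_le_mul_left k (by omega)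
  omega

/-- The chain criterion for symplectic balls. -/
theorem packs_chain (n k : ℕ) (hn : 1 ≤ n) (R : ℝ) (r : ℕ → ℝ) (hr : Antitone r)
    (hr0 : ∀ i, 0 ≤ r i) (hpos : ∀ i, i < k → 0 < r i) (h0 : r 0 < R)
    (hq : ∀ q, q * (2 ^ n - 1) + 1 < k →
      ∑ i ∈ Finset.range (q + 1), r (i * (2 ^ n - 1)) + r (q * (2 ^ n - 1) + 1) < R) :
    Packs (openBall n R) (fun i : Fin k => r i) := by
  obtain ⟨d, rfl⟩ : ∃ d, n = d + 1 := ⟨n - 1, by omega⟩
  have h2N : 2 ^ 1 ≤ 2 ^ (d + 1) := Nat.pow_le_pow_right (by norm_num) (by omega)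
  have e1 : ∀ᶠ x in nhdsWithin R (Set.Iio R), r 0 < x :=
    (eventually_gt_nhds h0).filter_mono nhdsWithin_le_nhds
  have e2 : ∀ᶠ x in nhdsWithin R (Set.Iio R), ∀ q ∈ Finset.range k,
      q * (2 ^ (d + 1) - 1) + 1 < k →
      ∑ i ∈ Finset.range (q + 1), r (i * (2 ^ (d + 1) - 1)) +
        r (q * (2 ^ (d + 1) - 1) + 1) < x := by
    rw [Finset.eventually_all]
    intro q _
    by_cases hc : q * (2 ^ (d + 1) - 1) + 1 < k
    · exact ((eventually_gt_nhds (hq q hc)).filter_mono nhdsWithin_le_nhds).mono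
        fun x hx _ => hx
    · exact Filter.Eventually.of_forall fun x hx => absurd hx hc
  have e3 : ∀ᶠ x in nhdsWithin R (Set.Iio R), x < R := self_mem_nhdsWithin
  obtain ⟨R', h1, h2, h3⟩ := (e1.and (e2.and e3)).exists
  have hR' : 0 < R' := lt_of_le_of_lt (hr0 0) h1
  have hc1 : 1 < R / R' := by rw [one_lt_div hR']; exact h3
  have hc0 : 0 < R / R' := by linarith
  have hp := (x2_pure d k R' r hr hr0 hpos (fun _ => h1.le) (fun q hqk => by
    have h4 : q * 1 ≤ q * (2 ^ (d + 1) - 1) := Nat.mul_le_mul_left q (by omega)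
    exact (h2 q (Finset.mem_range.2 (by omega)) hqk).le)).scale hc0
  have hRR : R / R' * R' = R := by field_simp
  rw [hRR] at hp
  refine bridge (by omega) hp.toTPack (fun i => hpos i i.2) fun i => ?_
  have h4 := hpos i i.2
  nlinarith

end Vale.Agent.P209.MM

end

section


namespace Vale.Agent.P209.MM

open Vale.Agent.P209 Vale.Agent.P209.Strong

/-! X3. Relative packing stability with the chain criterion. -/

theorem relative_chain (n : ℕ) (hn : 2 ≤ n) (γ : ℝ) (hγ : 0 < γ) :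
    ∃ ε : ℝ, 0 < ε ∧ ∀ (p m j M k : ℕ) (R : ℝ) (r : ℕ → ℝ), j ≤ m → Antitone r →
      (∀ i, 0 ≤ r i) → (∀ i, i < k → 0 < r i) → 0 < R → r 0 ≤ (1 - γ) * R →
      (∀ q, q < p → q * (2 ^ n - 1) + 1 < M →
        ∑ i ∈ Finset.range (q + 1), r (i * (2 ^ n - 1)) + r (q * (2 ^ n - 1) + 1) ≤
          (1 - γ) * R) →
      (p * (2 ^ n - 1) < M →
        LL n m j (fun i => r (p * (2 ^ n - 1) + i)) ≤
          (1 - γ) * R - ∑ i ∈ Finset.range p, r (i * (2 ^ n - 1)) ∧
        (m ^ n - j ^ n + 1 < M - p * (2 ^ n - 1) →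
          LL n m j (fun i => r (p * (2 ^ n - 1) + i)) ^ n +
          ∑ i ∈ Finset.Ico (m ^ n - j ^ n + 2) (M - p * (2 ^ n - 1)),
            r (p * (2 ^ n - 1) + i) ^ n ≤
          ((1 - γ) * R - ∑ i ∈ Finset.range p, r (i * (2 ^ n - 1)) -
            r (p * (2 ^ n - 1) + (m ^ n - j ^ n + 1))) ^ n)) →
      r M ≤ ε * R → ∑ i ∈ Finset.range k, r i ^ n < R ^ n →
      Packs (openBall n R) (fun i : Fin k => r i) := by
  classical
  obtain ⟨d, rfl⟩ : ∃ d, n = d + 1 := ⟨n - 1, by omega⟩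
  rcases le_or_gt 1 γ with hγ1 | hγ1
  · refine ⟨1, one_pos, ?_⟩
    intro p m j M k R r hj hanti hr0 hrpos hR h0 _ _ _ _
    rcases Nat.eq_zero_or_pos k with rfl | hk
    · exact u8_empty _
    · exfalso
      have h2 := hrpos 0 hk
      have h3 : (1 - γ) * R ≤ 0 := mul_nonpos_of_nonpos_of_nonneg (by linarith) hR.le
      linarith
  obtain ⟨ε, hε, hrel⟩ := relative_free d (by omega) (γ / 2) (by linarith) (by linarith)
  refine ⟨ε, hε, ?_⟩
  intro p m j M k R r hj hanti hr0 hrpos hR h0 hchain htail hsmall hsum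
  have hγR : 0 < γ * R := mul_pos hγ hR
  have hop : OPackIn d (fun i : Fin (min M k) => r i) (tri (d + 1) ((1 - γ / 2) * R)) := by
    refine x2_chain d p (min M k) ((1 - γ / 2) * R) r hanti hr0 (fun i hi => hrpos i (by omega))
      (fun _ => by nlinarith) (fun q hq hqk => by
        have h3 := hchain q hq (by omega)
        nlinarith) ?_
    intro hpk
    obtain ⟨hL, hvol⟩ := htail (by omega)
    obtain ⟨P, hP⟩ : ∃ P, p * (2 ^ (d + 1) - 1) = P := ⟨_, rfl⟩
    rw [hP] at hpk hL hvol ⊢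
    obtain ⟨A, hA⟩ : ∃ A, ∑ i ∈ Finset.range p, r (i * (2 ^ (d + 1) - 1)) = A := ⟨_, rfl⟩
    rw [hA] at hL hvol ⊢
    obtain ⟨s, hs⟩ : ∃ s : ℕ → ℝ, s = fun i => r (P + i) := ⟨_, rfl⟩
    have hs0 : ∀ i, 0 ≤ s i := fun i => by rw [hs]; exact hr0 _
    have hsanti : Antitone s := by
      rw [hs]
      exact fun a b hab => hanti (Nat.add_le_add_left hab _)
    have hL : LL (d + 1) m j s ≤ (1 - γ) * R - A := by rw [hs]; exact hL
    have hvol : m ^ (d + 1) - j ^ (d + 1) + 1 < M - P → LL (d + 1) m j s ^ (d + 1) +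
        ∑ i ∈ Finset.Ico (m ^ (d + 1) - j ^ (d + 1) + 2) (M - P), s i ^ (d + 1) ≤
        ((1 - γ) * R - A - s (m ^ (d + 1) - j ^ (d + 1) + 1)) ^ (d + 1) := by
      rw [hs]; exact hvol
    rw [show (fun i : Fin (min M k - P) => r (P + (i : ℕ))) = fun i : Fin (min M k - P) => s i by
      rw [hs]]
    have h5 : s 0 ≤ LL (d + 1) m j s := u8_le_LL (d + 1) m j s hs0
    refine mm_opack d m j (min M k - P) hj _ s hsanti hs0 (by linarith) ?_
    intro hK
    have h6 := hvol (by omega)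
    have h7 : ∑ i ∈ Finset.Ico (m ^ (d + 1) - j ^ (d + 1) + 2) (min M k - P),
        s i ^ (d + 1) ≤
        ∑ i ∈ Finset.Ico (m ^ (d + 1) - j ^ (d + 1) + 2) (M - P), s i ^ (d + 1) := by
      refine Finset.sum_le_sum_of_subset_of_nonneg ?_ fun i _ _ => pow_nonneg (hs0 i) _
      exact Finset.Ico_subset_Ico_right (by omega)
    have h8 : s (m ^ (d + 1) - j ^ (d + 1) + 1) ≤ s 0 := hsanti (Nat.zero_le _)
    have h9 := pow_lt_pow_left₀ (a := (1 - γ) * R - A -
        s (m ^ (d + 1) - j ^ (d + 1) + 1)) (b := (1 - γ / 2) * R -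
        A - s (m ^ (d + 1) - j ^ (d + 1) + 1))
        (by linarith) (by linarith) (Nat.succ_ne_zero d)
    exact lt_of_le_of_lt ((add_le_add le_rfl h7).trans h6) h9
  let κ : Type := {i : Fin k // (i : ℕ) < M}
  let b : κ → ℝ := fun q => r (q.1 : ℕ)
  have hb0 : ∀ q, 0 < b q := fun q => hrpos _ q.1.2
  have hopb : OPackIn d b (tri (d + 1) ((1 - γ / 2) * R)) := by
    have hf : Function.Injective
        (fun q : κ => (⟨(q.1 : ℕ), lt_min q.2 q.1.2⟩ : Fin (min M k))) := by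
      intro q q' h
      exact Subtype.ext (Fin.ext (Fin.mk.inj_iff.1 h))
    exact hop.comp hf
  have hfin := hrel κ {i : Fin k // ¬ (i : ℕ) < M} b (fun i => r (i.1 : ℕ)) R hR hb0
    (fun i => ⟨hrpos _ i.1.2, (hanti (by have := i.2; omega)).trans hsmall⟩) hopb
    (by
      have e0 : ∑ i ∈ Finset.range k, r i ^ (d + 1) = ∑ i : Fin k, r (i : ℕ) ^ (d + 1) :=
        (Fin.sum_univ_eq_sum_range (fun i => r i ^ (d + 1)) k).symm
      have e1 : ∑ i : Fin k, r (i : ℕ) ^ (d + 1) = (∑ q : κ, b q ^ (d + 1)) +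
          ∑ i : {i : Fin k // ¬ (i : ℕ) < M}, r (i.1 : ℕ) ^ (d + 1) :=
        (Fintype.sum_subtype_add_sum_subtype (fun i : Fin k => (i : ℕ) < M)
          (fun i => r (i : ℕ) ^ (d + 1))).symm
      rw [← e1, ← e0]
      exact hsum)
  let g : Fin k → κ ⊕ {i : Fin k // ¬ (i : ℕ) < M} := fun i =>
    if h : (i : ℕ) < M then Sum.inl ⟨i, h⟩ else Sum.inr ⟨i, h⟩
  have hgl : ∀ (i : Fin k) (h : (i : ℕ) < M), g i = Sum.inl ⟨i, h⟩ := fun i h => dif_pos h
  have hgr : ∀ (i : Fin k) (h : ¬ (i : ℕ) < M), g i = Sum.inr ⟨i, h⟩ := fun i h => dif_neg h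
  have hg : Function.Injective g := by
    intro i i' h
    by_cases hi : (i : ℕ) < M <;> by_cases hi' : (i' : ℕ) < M
    · rw [hgl i hi, hgl i' hi'] at h
      exact Subtype.ext_iff.1 (Sum.inl_injective h)
    · rw [hgl i hi, hgr i' hi'] at h
      exact (Sum.inl_ne_inr h).elim
    · rw [hgr i hi, hgl i' hi'] at h
      exact (Sum.inr_ne_inl h).elim
    · rw [hgr i hi, hgr i' hi'] at h
      exact Subtype.ext_iff.1 (Sum.inr_injective h)
  have hfin2 := Packs.comp_inj hfin g hg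
  have e4 : (fun i : Fin k => Sum.elim b
      (fun i : {i : Fin k // ¬ (i : ℕ) < M} => r (i.1 : ℕ)) (g i)) =
      fun i : Fin k => r i := by
    funext i
    by_cases hi : (i : ℕ) < M
    · rw [hgl i hi]
      rfl
    · rw [hgr i hi]
      rfl
  rw [e4] at hfin2
  exact hfin2

end Vale.Agent.P209.MM

end

section

namespace Vale.Agent.P209.V

open Vale.Agent.P209

theorem main2 :
    (∀ n : ℕ, 2 ≤ n → ∃ ε : ℝ, 0 < ε ∧ ∀ (k : ℕ) (R : ℝ) (r : Fin k → ℝ), 0 < R →
      (∀ i, 0 < r i ∧ r i ≤ ε * R) → (Packs (openBall n R) r ↔ ∑ i, r i ^ n < R ^ n)) ∧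
    (∀ (n k : ℕ), 1 ≤ n → 1 ≤ k → k ≤ 2 ^ n → ∀ (R : ℝ) (r : Fin k → ℝ), 0 < R →
      (∀ i, 0 < r i) → ∑ i, r i ^ n < R ^ n → (∀ i j, i < j → r i + r j < R) →
      Packs (openBall n R) r) ∧
    (∀ n : ℕ, 2 ≤ n → ∃ ε : ℝ, 0 < ε ∧ ∀ (k : ℕ) (R : ℝ) (r : Fin k → ℝ), 0 < R →
      (∀ i, 0 < r i) → ∑ i, r i ^ n < R ^ n → (∀ i j, i < j → r i + r j < R) →
      ∀ (i0 : Fin k) (B : Finset (Fin k)), (∀ i, r i ≤ r i0) →
      (B.card : ℝ) ≤ n + (ε * R / (R - r i0)) ^ (n - 1) →
      ∑ i with i ≠ i0 ∧ i ∉ B ∧ ε * (R - r i0) < r i, r i ^ n ≤ ε * (R ^ n - r i0 ^ n) →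
      Packs (openBall n R) r) ∧
    (∀ (n k : ℕ), 1 ≤ n → ∀ (R : ℝ) (r : Fin k → ℝ), 0 < R → (∀ i, 0 < r i) →
      2 ^ (n - 1) * ∑ i, r i ^ n < R ^ n → Packs (openBall n R) r) ∧
    (∀ n : ℕ, 2 ≤ n → ∀ γ : ℝ, 0 < γ → ∃ ε : ℝ, 0 < ε ∧ ∀ (k : ℕ) (R : ℝ) (r : Fin k → ℝ),
      0 < R → (∀ i, 0 < r i) → 2 ^ (n - 1) * ∑ i with ε * R < r i, r i ^ n ≤ (1 - γ) * R ^ n →
      ∑ i, r i ^ n < R ^ n → Packs (openBall n R) r) ∧
    (∀ (n k N : ℕ) (R : ℝ) (r : ℕ → ℝ), 1 ≤ n → Antitone r → (∀ i, 0 ≤ r i) →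
      (∀ i, i < k → 0 < r i) → r 0 < R → N = 2 ^ n - 1 →
      (∀ q, q * N + 1 < k → ∑ i ∈ Finset.range (q + 1), r (i * N) + r (q * N + 1) < R) →
      Packs (openBall n R) (fun i : Fin k => r i)) ∧
    (∀ n : ℕ, 2 ≤ n → ∀ γ : ℝ, 0 < γ → ∃ ε : ℝ, 0 < ε ∧
      ∀ (p m j M k K N : ℕ) (R A L : ℝ) (r s : ℕ → ℝ), 0 < R → j ≤ m → Antitone r →
      (∀ i, 0 ≤ r i) → (∀ i, i < k → 0 < r i) → N = 2 ^ n - 1 → K = m ^ n - j ^ n + 1 →
      r 0 ≤ (1 - γ) * R →
      (∀ q, q < p → q * N + 1 < M →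
        ∑ i ∈ Finset.range (q + 1), r (i * N) + r (q * N + 1) ≤ (1 - γ) * R) →
      (∀ i, s i = r (p * N + i)) → A = (1 - γ) * R - ∑ i ∈ Finset.range p, r (i * N) →
      L = max (s 0) (j * s 1) + ∑ q ∈ Finset.Ico j m, s (q ^ n - j ^ n + 1) →
      (p * N < M → L ≤ A ∧ (K < M - p * N →
        L ^ n + ∑ i ∈ Finset.Ico (K + 1) (M - p * N), s i ^ n ≤ (A - s K) ^ n)) →
      r M ≤ ε * R → ∑ i ∈ Finset.range k, r i ^ n < R ^ n →
      Packs (openBall n R) (fun i : Fin k => r i)) ∧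
    (∀ (n k : ℕ), 3 ≤ n → ∀ (R : ℝ) (r : Fin k → ℝ), 0 < R → (∀ i, 0 < r i) →
      ∑ i, r i ^ n < R ^ n → (∀ i j, i < j → r i + r j < R) → ∀ i0 : Fin k, (∀ i, r i ≤ r i0) →
      3 ^ n * ∑ i with i ≠ i0, r i ^ n ≤ R ^ n - r i0 ^ n → Packs (openBall n R) r) ∧
    (∀ n : ℕ, 2 ≤ n → ∃ C q : ℝ, 0 < C ∧ 0 < q ∧ q < 1 ∧ ∀ k : ℕ,
      MeasureTheory.volume {r : Fin k → ℝ | ((∀ i, 0 < r i) ∧ ∑ i, r i ^ n < 1 ∧
        ∀ i j, i < j → r i + r j < 1) ∧ ¬ Packs (openBall n 1) r} ≤
      ENNReal.ofReal (C * q ^ k) * MeasureTheory.volume {r : Fin k → ℝ | (∀ i, 0 < r i) ∧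
        ∑ i, r i ^ n < 1 ∧ ∀ i j, i < j → r i + r j < 1}) := by
  obtain ⟨hA, hB, hC, hD, hE, -, -, hH, hI⟩ := main
  refine ⟨hA, hB, hC, hD, hE, ?_, ?_, hH, hI⟩
  · intro n k N R r hn hr hr0 hpos h0 hN hq
    subst hN
    exact Vale.Agent.P209.MM.packs_chain n k hn R r hr hr0 hpos h0 hq
  · intro n hn γ hγ
    obtain ⟨ε, hε, h⟩ := Vale.Agent.P209.MM.relative_chain n hn γ hγ
    refine ⟨ε, hε, ?_⟩
    intro p m j M k K N R A L r s hR hj hr hr0 hpos hN hK h0 hq hs hA2 hL htail hM hV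
    obtain rfl : s = fun i => r (p * N + i) := funext hs
    subst hN hK hA2 hL
    exact h p m j M k R r hj hr hr0 hpos hR h0 hq htail hM hV

end Vale.Agent.P209.V

end
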